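/- Packed by merge_tool.py (helper293): 5 modules of Claimed.Agent.R316 in one file, same declarations.
   Old modules, in this order: Core.Basic, Core.Geo, Core.Restr, CW.Basic, CW.HolSmooth -/
import Mathlib

/- ===== packed: Claimed.Agent.R316.Core.Basic ===== -/
section
/-!
# Row 316 (Yau uniformization, S0572): core framework

Conventions (binding for every file of `R316/`):

* Points of every manifold live in a finite dimensional real normed space `V` ("ambient carrier").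
  A manifold is a set `carrier : Set V`; global scalar objects are plain functions `V → ℝ`
  (time dependent ones `ℝ → V → ℝ`, TIME FIRST), with junk values off the carrier.
* The model space is `CE ι = EuclideanSpace ℂ ι` (`ι = Fin n` for `M`, `ι = Fin n ⊕ Fin n` for the
  cotangent bundle).
* A complex structure is the predicate `IsHol Φ U` "`Φ : U → carrier` is a holomorphic
  parametrisation".
* Hermitian forms are RAW families `HFam V ι` of matrices indexed by the parametrisation, in the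
  COLUMN CONVENTION of the paper: the quadratic value of the matrix `A` on the coordinate vector `v`
  is `vᴴ A v` (this is the convention of `Matrix.PosSemidef`).  So
  `levi f z j k = ∂²f/∂z̄_j∂z_k`, `tr_h A = tr (H⁻¹ A)`, the dual norm has matrix `(H⁻¹)ᵀ`,
  `Ric h = - levi (log det H)`, `Δ_h u = tr (H⁻¹ levi u)` (a quarter of Laplace-Beltrami of the
  Riemannian norm `|v|² = vᴴ H v`).
* classical index notation: `h_{k \bar j} = H j k`, `h^{p \bar q} = H⁻¹ p q`.
-/

set_option autoImplicit false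
open scoped ContDiff ComplexOrder

namespace Claimed.Agent.R316

/-- The model space `ℂ^ι`. -/
abbrev CE (ι : Type) [Fintype ι] := EuclideanSpace ℂ ι

section Wirtinger

variable {ι κ : Type} [Fintype ι] [DecidableEq ι] [Fintype κ]

/-- the `j`-th coordinate vector of `ℂ^ι`. -/
noncomputable def eb (j : ι) : CE ι := EuclideanSpace.single j (1 : ℂ)

/-- Wirtinger derivative `∂f/∂z_j`. -/
noncomputable def dz (j : ι) (f : CE ι → ℂ) (z : CE ι) : ℂ :=
  (1 / 2 : ℂ) * (fderiv ℝ f z (eb j) - Complex.I * fderiv ℝ f z (Complex.I • eb j))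

/-- Wirtinger derivative `∂f/∂z̄_j`. -/
noncomputable def dzb (j : ι) (f : CE ι → ℂ) (z : CE ι) : ℂ :=
  (1 / 2 : ℂ) * (fderiv ℝ f z (eb j) + Complex.I * fderiv ℝ f z (Complex.I • eb j))

/-- Levi matrix (complex Hessian) of a real function, column convention:
`levi f z j k = ∂²f/∂z̄_j∂z_k`. -/
noncomputable def levi (f : CE ι → ℝ) (z : CE ι) : Matrix ι ι ℂ :=
  fun j k => dzb j (fun w => dz k (fun y => (f y : ℂ)) w) z

/-- the `(1,0)`-gradient `(∂f/∂z_k)_k` of a real function (a cotangent column). -/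
noncomputable def grad10 (f : CE ι → ℝ) (z : CE ι) : ι → ℂ :=
  fun k => dz k (fun y => (f y : ℂ)) z

/-- quadratic value `vᴴ A v` (real part) of a matrix on a column. -/
noncomputable def qf (A : Matrix ι ι ℂ) (v : ι → ℂ) : ℝ :=
  (star v ⬝ᵥ (A.mulVec v)).re

/-- complex Jacobian matrix of a holomorphic map: `(jac τ z) j k = ∂τ_j/∂z_k`. -/
noncomputable def jac (τ : CE ι → CE κ) (z : CE ι) : Matrix κ ι ℂ :=
  fun j k => fderiv ℂ τ z (eb k) j

end Wirtinger

section Manifold

variable {V : Type} [NormedAddCommGroup V] [NormedSpace ℝ V]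
variable {ι : Type} [Fintype ι]

/-- `Φ : U → M` is a smooth embedded parametrisation of a relatively open piece of `M ⊆ V`
(the same clauses as `Claims.C0500.IsLocalParam`, with model `ℂ^ι`). -/
structure IsParam (M : Set V) (Φ : CE ι → V) (U : Set (CE ι)) : Prop where
  isOpen : IsOpen U
  smooth : ContDiffOn ℝ ∞ Φ U
  immersion : ∀ z ∈ U, Function.Injective (fderiv ℝ Φ z)
  injOn : Set.InjOn Φ U
  image : ∃ W : Set V, IsOpen W ∧ Φ '' U = M ∩ W
  cont_inv : ContinuousOn (Function.invFunOn Φ U) (Φ '' U)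

variable (V ι) in
/-- A complex manifold with ambient carrier. -/
structure CMfd where
  /-- the set of points -/
  carrier : Set V
  /-- the holomorphic parametrisations -/
  IsHol : (CE ι → V) → Set (CE ι) → Prop
  isParam : ∀ {Φ : CE ι → V} {U : Set (CE ι)}, IsHol Φ U → IsParam carrier Φ U
  cover : ∀ x ∈ carrier, ∃ (Φ : CE ι → V) (U : Set (CE ι)), IsHol Φ U ∧ x ∈ Φ '' U
  compat : ∀ {Φ Ψ : CE ι → V} {U W : Set (CE ι)}, IsHol Φ U → IsHol Ψ W →
    DifferentiableOn ℂ (Function.invFunOn Ψ W ∘ Φ) (U ∩ Φ ⁻¹' (Ψ '' W))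
  reparam : ∀ {Φ : CE ι → V} {U : Set (CE ι)}, IsHol Φ U →
    ∀ (τ : CE ι → CE ι) (U' : Set (CE ι)), IsOpen U' → DifferentiableOn ℂ τ U' →
      Set.InjOn τ U' → (∀ z ∈ U', Function.Injective (fderiv ℂ τ z)) → Set.MapsTo τ U' U →
      IsHol (Φ ∘ τ) U'
  congr : ∀ {Φ Ψ : CE ι → V} {U : Set (CE ι)}, IsHol Φ U → Set.EqOn Φ Ψ U → IsHol Ψ U

namespace CMfd

variable (𝓜 : CMfd V ι)

open Classical in
/-- a chosen holomorphic parametrisation around `x`. -/
noncomputable def pΦ (x : V) : CE ι → V :=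
  if h : x ∈ 𝓜.carrier then (𝓜.cover x h).choose else fun _ => x

open Classical in
/-- its domain. -/
noncomputable def pU (x : V) : Set (CE ι) :=
  if h : x ∈ 𝓜.carrier then (𝓜.cover x h).choose_spec.choose else Set.univ

/-- the coordinate of `x` in the chosen parametrisation. -/
noncomputable def co (x : V) : CE ι := Function.invFunOn (𝓜.pΦ x) (𝓜.pU x) x

/-- globalisation of a chartwise scalar `F Φ z` (meaningful if `F` is invariant). -/
noncomputable def scal (F : (CE ι → V) → CE ι → ℝ) (x : V) : ℝ := F (𝓜.pΦ x) (𝓜.co x)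

/-- a chartwise scalar is invariant (= a function on the manifold). -/
def Invariant (F : (CE ι → V) → CE ι → ℝ) : Prop :=
  ∀ {Φ Ψ : CE ι → V} {U W : Set (CE ι)}, 𝓜.IsHol Φ U → 𝓜.IsHol Ψ W →
    ∀ z ∈ U, ∀ w ∈ W, Φ z = Ψ w → F Φ z = F Ψ w

/-- smooth real function on the manifold. -/
def Smooth (u : V → ℝ) : Prop :=
  ∀ (Φ : CE ι → V) (U : Set (CE ι)), 𝓜.IsHol Φ U → ContDiffOn ℝ ∞ (u ∘ Φ) U

/-- smooth real function on `I × M` (time first; one-sided derivatives at end points of `I`). -/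
def SmoothST (I : Set ℝ) (u : ℝ → V → ℝ) : Prop :=
  ∀ (Φ : CE ι → V) (U : Set (CE ι)), 𝓜.IsHol Φ U →
    ContDiffOn ℝ ∞ (fun q : ℝ × CE ι => u q.1 (Φ q.2)) (I ×ˢ U)

/-- holomorphic function on the manifold. -/
def HolFun (f : V → ℂ) : Prop :=
  ∀ (Φ : CE ι → V) (U : Set (CE ι)), 𝓜.IsHol Φ U → DifferentiableOn ℂ (f ∘ Φ) U

/-- holomorphic tangent field, in ambient representation: `X x ∈ T_x M ⊆ V`, with holomorphic
coordinate components. -/
def HolField (X : V → V) : Prop :=
  ∀ (Φ : CE ι → V) (U : Set (CE ι)), 𝓜.IsHol Φ U →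
    ∃ a : CE ι → CE ι, DifferentiableOn ℂ a U ∧ ∀ z ∈ U, X (Φ z) = fderiv ℝ Φ z (a z)

end CMfd

/-- holomorphic map between complex manifolds, on the relatively open set `𝓜.carrier ∩ Ω`. -/
def HolMapOn {V' : Type} [NormedAddCommGroup V'] [NormedSpace ℝ V'] {κ : Type} [Fintype κ]
    (𝓜 : CMfd V ι) (𝓝 : CMfd V' κ) (F : V → V') (Ω : Set V) : Prop :=
  Set.MapsTo F (𝓜.carrier ∩ Ω) 𝓝.carrier ∧ ContinuousOn F (𝓜.carrier ∩ Ω) ∧
  ∀ (Φ : CE ι → V) (U : Set (CE ι)) (Ψ : CE κ → V') (W : Set (CE κ)), 𝓜.IsHol Φ U → 𝓝.IsHol Ψ W →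
    DifferentiableOn ℂ (Function.invFunOn Ψ W ∘ F ∘ Φ) (U ∩ Φ ⁻¹' Ω ∩ (F ∘ Φ) ⁻¹' (Ψ '' W))

end Manifold

section Forms

variable {V : Type} [NormedAddCommGroup V] [NormedSpace ℝ V]
variable {ι : Type} [Fintype ι] [DecidableEq ι]

variable (V ι) in
/-- raw family of Hermitian matrices, one matrix function per parametrisation. -/
abbrev HFam := (CE ι → V) → CE ι → Matrix ι ι ℂ

/-- `A` is a smooth real `(1,1)`-form (Hermitian form field) on `𝓜`. -/
structure IsHForm (𝓜 : CMfd V ι) (A : HFam V ι) : Prop where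
  herm : ∀ {Φ : CE ι → V} {U : Set (CE ι)}, 𝓜.IsHol Φ U → ∀ z ∈ U, (A Φ z).IsHermitian
  smooth : ∀ {Φ : CE ι → V} {U : Set (CE ι)}, 𝓜.IsHol Φ U →
    ∀ j k, ContDiffOn ℝ ∞ (fun z => A Φ z j k) U
  compat : ∀ {Φ Ψ : CE ι → V} {U W : Set (CE ι)}, 𝓜.IsHol Φ U → 𝓜.IsHol Ψ W →
    ∀ z ∈ U, Φ z ∈ Ψ '' W →
      A Φ z = (jac (Function.invFunOn Ψ W ∘ Φ) z).conjTranspose *
        A Ψ (Function.invFunOn Ψ W (Φ z)) * jac (Function.invFunOn Ψ W ∘ Φ) z

/-- smooth Hermitian metric. -/
structure IsMetric (𝓜 : CMfd V ι) (h : HFam V ι) : Prop extends IsHForm 𝓜 h where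
  posDef : ∀ {Φ : CE ι → V} {U : Set (CE ι)}, 𝓜.IsHol Φ U → ∀ z ∈ U, (h Φ z).PosDef

/-- closedness of a real `(1,1)`-form: `∂_l A_{k \bar j} = ∂_k A_{l \bar j}`. -/
def IsClosedForm (𝓜 : CMfd V ι) (A : HFam V ι) : Prop :=
  ∀ (Φ : CE ι → V) (U : Set (CE ι)), 𝓜.IsHol Φ U → ∀ z ∈ U, ∀ j k l,
    dz l (fun w => A Φ w j k) z = dz k (fun w => A Φ w j l) z

/-- smooth Kaehler metric. -/
structure IsKahler (𝓜 : CMfd V ι) (h : HFam V ι) : Prop extends IsMetric 𝓜 h where
  closed : IsClosedForm 𝓜 h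

/-- order of Hermitian forms. -/
def leF (𝓜 : CMfd V ι) (A B : HFam V ι) : Prop :=
  ∀ (Φ : CE ι → V) (U : Set (CE ι)), 𝓜.IsHol Φ U → ∀ z ∈ U, (B Φ z - A Φ z).PosSemidef

/-- order of Hermitian forms over the points of a set `S ⊆ V`. -/
def leFOn (𝓜 : CMfd V ι) (S : Set V) (A B : HFam V ι) : Prop :=
  ∀ (Φ : CE ι → V) (U : Set (CE ι)), 𝓜.IsHol Φ U → ∀ z ∈ U, Φ z ∈ S →
    (B Φ z - A Φ z).PosSemidef

/-- complex Hessian `dd u` of a function on the manifold. -/
noncomputable def ddc (u : V → ℝ) : HFam V ι := fun Φ z => levi (u ∘ Φ) z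

/-- multiplication of a form by a function. -/
noncomputable def smulF (f : V → ℝ) (A : HFam V ι) : HFam V ι :=
  fun Φ z => ((f (Φ z) : ℝ) : ℂ) • A Φ z

/-- Ricci form `Ric h = - dd log det h`. -/
noncomputable def ricF (h : HFam V ι) : HFam V ι :=
  fun Φ z => - levi (fun w => Real.log (h Φ w).det.re) z

/-- chartwise trace `tr_h A`. -/
noncomputable def trF (h A : HFam V ι) : (CE ι → V) → CE ι → ℝ :=
  fun Φ z => ((h Φ z)⁻¹ * A Φ z).trace.re

/-- chartwise determinant ratio `det h / det g`. -/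
noncomputable def detF (h g : HFam V ι) : (CE ι → V) → CE ι → ℝ :=
  fun Φ z => ((h Φ z).det / (g Φ z).det).re

/-- chartwise squared gradient norm `|∂u|²_h`. -/
noncomputable def gradSqF (h : HFam V ι) (u : V → ℝ) : (CE ι → V) → CE ι → ℝ :=
  fun Φ z => qf ((h Φ z)⁻¹).transpose (grad10 (u ∘ Φ) z)

/-- `tr_h A` as a function on the manifold. -/
noncomputable def tr (𝓜 : CMfd V ι) (h A : HFam V ι) : V → ℝ := 𝓜.scal (trF h A)

/-- `Δ_h u = tr_h dd u`. -/
noncomputable def lap (𝓜 : CMfd V ι) (h : HFam V ι) (u : V → ℝ) : V → ℝ := tr 𝓜 h (ddc u)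

/-- `det h / det g` as a function on the manifold. -/
noncomputable def detRatio (𝓜 : CMfd V ι) (h g : HFam V ι) : V → ℝ := 𝓜.scal (detF h g)

/-- `|∂u|²_h` as a function on the manifold. -/
noncomputable def gradSq (𝓜 : CMfd V ι) (h : HFam V ι) (u : V → ℝ) : V → ℝ :=
  𝓜.scal (gradSqF h u)

/-- scalar curvature `R_h = tr_h Ric h`. -/
noncomputable def scalCurv (𝓜 : CMfd V ι) (h : HFam V ι) : V → ℝ := tr 𝓜 h (ricF h)

/-- curvature components in classical notation, `Rm h Φ z j k l m = R_{j \bar k l \bar m}`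
`= - ∂_l ∂_{\bar m} h_{j \bar k} + h^{p \bar q} ∂_l h_{j \bar q} ∂_{\bar m} h_{p \bar k}`
(recall `h_{j \bar k} = H k j`, `h^{p \bar q} = H⁻¹ p q`). -/
noncomputable def Rm (h : HFam V ι) (Φ : CE ι → V) (z : CE ι) (j k l m : ι) : ℂ :=
  - dzb m (fun w => dz l (fun y => h Φ y k j) w) z +
    ∑ p, ∑ q, (h Φ z)⁻¹ p q * dz l (fun y => h Φ y q j) z * dzb m (fun y => h Φ y k p) z

/-- holomorphic bisectional curvature numerator `R(v, \bar v, w, \bar w)`. -/
noncomputable def bisec (h : HFam V ι) (Φ : CE ι → V) (z : CE ι) (v w : ι → ℂ) : ℝ :=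
  (∑ j, ∑ k, ∑ l, ∑ m, Rm h Φ z j k l m * v j * star (v k) * w l * star (w m)).re

/-- strictly positive holomorphic bisectional curvature. -/
def BisecPos (𝓜 : CMfd V ι) (h : HFam V ι) : Prop :=
  ∀ (Φ : CE ι → V) (U : Set (CE ι)), 𝓜.IsHol Φ U → ∀ z ∈ U, ∀ v w : ι → ℂ, v ≠ 0 → w ≠ 0 →
    0 < bisec h Φ z v w

/-- nonnegative holomorphic bisectional curvature. -/
def BisecNonneg (𝓜 : CMfd V ι) (h : HFam V ι) : Prop :=
  ∀ (Φ : CE ι → V) (U : Set (CE ι)), 𝓜.IsHol Φ U → ∀ z ∈ U, ∀ v w : ι → ℂ,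
    0 ≤ bisec h Φ z v w

/-- holomorphic canonical section (holomorphic `n`-form): a family of holomorphic coefficient
functions with `S_Φ(z) = det(∂τ/∂z) S_Ψ(τ z)`. -/
structure IsCanSection (𝓜 : CMfd V ι) (S : (CE ι → V) → CE ι → ℂ) : Prop where
  hol : ∀ {Φ : CE ι → V} {U : Set (CE ι)}, 𝓜.IsHol Φ U → DifferentiableOn ℂ (S Φ) U
  compat : ∀ {Φ Ψ : CE ι → V} {U W : Set (CE ι)}, 𝓜.IsHol Φ U → 𝓜.IsHol Ψ W →
    ∀ z ∈ U, Φ z ∈ Ψ '' W →
      S Φ z = (jac (Function.invFunOn Ψ W ∘ Φ) z).det * S Ψ (Function.invFunOn Ψ W (Φ z))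

/-- `|S|²_g` as a function on the manifold. -/
noncomputable def canNormSq (𝓜 : CMfd V ι) (g : HFam V ι) (S : (CE ι → V) → CE ι → ℂ) : V → ℝ :=
  𝓜.scal (fun Φ z => ‖S Φ z‖ ^ 2 / (g Φ z).det.re)

end Forms

end Claimed.Agent.R316
end

/- ===== packed: Claimed.Agent.R316.Core.Geo ===== -/
section
/-!
# Row 316 core: length, distance, volume of a Hermitian metric family

Only DEFINITIONS (the API is proved in `R316/Base/`).
-/

set_option autoImplicit false
open scoped ContDiff ComplexOrder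
open MeasureTheory

namespace Claimed.Agent.R316

variable {V : Type} [NormedAddCommGroup V] [NormedSpace ℝ V]
variable {ι : Type} [Fintype ι] [DecidableEq ι]

/-- coordinate components (in the parametrisation `Φ` at `z`) of an ambient tangent vector. -/
noncomputable def coVec (Φ : CE ι → V) (z : CE ι) (a : V) : CE ι :=
  Function.invFun (fderiv ℝ Φ z) a

/-- the tangent space `T_x M ⊆ V`. -/
def CMfd.tangent (𝓜 : CMfd V ι) (x : V) : Set V :=
  Set.range (fderiv ℝ (𝓜.pΦ x) (𝓜.co x))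

/-- squared `h`-norm of an ambient tangent vector `a ∈ T_x M ⊆ V`. -/
noncomputable def ambQ (𝓜 : CMfd V ι) (h : HFam V ι) (x a : V) : ℝ :=
  qf (h (𝓜.pΦ x) (𝓜.co x)) (coVec (𝓜.pΦ x) (𝓜.co x) a)

/-- `C¹` curve in the manifold (defined for all times). -/
def IsC1Curve (𝓜 : CMfd V ι) (γ : ℝ → V) : Prop :=
  ContDiff ℝ 1 γ ∧ ∀ t, γ t ∈ 𝓜.carrier

/-- `h`-length of `γ` on `[a,b]`. -/
noncomputable def len (𝓜 : CMfd V ι) (h : HFam V ι) (γ : ℝ → V) (a b : ℝ) : ℝ :=
  ∫ t in a..b, Real.sqrt (ambQ 𝓜 h (γ t) (deriv γ t))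

/-- Riemannian distance of the metric `h` (norm `|v|² = vᴴ H v`). -/
noncomputable def hdist (𝓜 : CMfd V ι) (h : HFam V ι) (x y : V) : ℝ :=
  sInf {L : ℝ | ∃ γ : ℝ → V, IsC1Curve 𝓜 γ ∧ γ 0 = x ∧ γ 1 = y ∧ L = len 𝓜 h γ 0 1}

/-- open metric ball. -/
def hball (𝓜 : CMfd V ι) (h : HFam V ι) (x : V) (r : ℝ) : Set V :=
  {y | y ∈ 𝓜.carrier ∧ hdist 𝓜 h x y < r}

/-- closed metric ball. -/
def hcball (𝓜 : CMfd V ι) (h : HFam V ι) (x : V) (r : ℝ) : Set V :=
  {y | y ∈ 𝓜.carrier ∧ hdist 𝓜 h x y ≤ r}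

/-- completeness, in the Heine-Borel form (equivalent by Hopf-Rinow). -/
def IsProperMetric (𝓜 : CMfd V ι) (h : HFam V ι) : Prop :=
  ∀ x ∈ 𝓜.carrier, ∀ r : ℝ, IsCompact (hcball 𝓜 h x r)

variable [MeasurableSpace V] [BorelSpace V]

/-- `μ` is the Riemannian volume measure `dV_h = det H dλ` of `h`, carried by the manifold. -/
def IsVol (𝓜 : CMfd V ι) (h : HFam V ι) (μ : Measure V) : Prop :=
  μ 𝓜.carrierᶜ = 0 ∧
  ∀ (Φ : CE ι → V) (U : Set (CE ι)), 𝓜.IsHol Φ U → ∀ A ⊆ U, MeasurableSet A →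
    μ (Φ '' A) = ∫⁻ z in A, ENNReal.ofReal (h Φ z).det.re

open Classical in
/-- the volume measure of `h`. -/
noncomputable def hvol (𝓜 : CMfd V ι) (h : HFam V ι) : Measure V :=
  if H : ∃ μ : Measure V, IsVol 𝓜 h μ then H.choose else 0

end Claimed.Agent.R316
end

/- ===== packed: Claimed.Agent.R316.Core.Restr ===== -/
section
/-!
# Row 316 core: restriction of a complex manifold to a relatively open subset
-/

set_option autoImplicit false
open scoped ContDiff ComplexOrder

namespace Claimed.Agent.R316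

variable {V : Type} [NormedAddCommGroup V] [NormedSpace ℝ V]
variable {ι : Type} [Fintype ι]

/-- restriction of a holomorphic parametrisation to a smaller open set. -/
theorem CMfd.isHol_mono (𝓜 : CMfd V ι) {Φ : CE ι → V} {U U' : Set (CE ι)} (h : 𝓜.IsHol Φ U)
    (hU' : IsOpen U') (hsub : U' ⊆ U) : 𝓜.IsHol Φ U' := by
  have := 𝓜.reparam h id U' hU' differentiableOn_id (Set.injOn_id _)
    (fun z _ => by simpa using Function.injective_id) (fun z hz => hsub hz)
  simpa using this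

/-- The open submanifold `𝓜.carrier ∩ W` (`W` open in the ambient space). -/
def CMfd.restr (𝓜 : CMfd V ι) (W : Set V) (hW : IsOpen W) : CMfd V ι where
  carrier := 𝓜.carrier ∩ W
  IsHol Φ U := 𝓜.IsHol Φ U ∧ Φ '' U ⊆ W
  isParam := by
    rintro Φ U ⟨h, hs⟩
    have hp := 𝓜.isParam h
    obtain ⟨W0, hW0, himg⟩ := hp.image
    refine ⟨hp.isOpen, hp.smooth, hp.immersion, hp.injOn, ⟨W0, hW0, ?_⟩, hp.cont_inv⟩
    ext x
    constructor
    · intro hx
      have h1 : x ∈ 𝓜.carrier ∩ W0 := himg ▸ hx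
      exact ⟨⟨h1.1, hs hx⟩, h1.2⟩
    · rintro ⟨⟨h1, _⟩, h3⟩
      exact himg ▸ (⟨h1, h3⟩ : x ∈ 𝓜.carrier ∩ W0)
  cover := by
    rintro x ⟨hx, hxW⟩
    obtain ⟨Φ, U, h, z, hz, rfl⟩ := 𝓜.cover x hx
    have hp := 𝓜.isParam h
    have hopen : IsOpen (U ∩ Φ ⁻¹' W) := hp.smooth.continuousOn.isOpen_inter_preimage hp.isOpen hW
    refine ⟨Φ, U ∩ Φ ⁻¹' W, ⟨𝓜.isHol_mono h hopen Set.inter_subset_left, ?_⟩, z, ⟨hz, hxW⟩, rfl⟩
    rintro _ ⟨w, hw, rfl⟩
    exact hw.2
  compat := by
    rintro Φ Ψ U W' ⟨h, _⟩ ⟨h', _⟩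
    exact 𝓜.compat h h'
  reparam := by
    rintro Φ U ⟨h, hs⟩ τ U' hU' hτ hinj hder hmaps
    refine ⟨𝓜.reparam h τ U' hU' hτ hinj hder hmaps, ?_⟩
    rintro _ ⟨w, hw, rfl⟩
    exact hs ⟨τ w, hmaps hw, rfl⟩
  congr := by
    rintro Φ Ψ U ⟨h, hs⟩ heq
    refine ⟨𝓜.congr h heq, ?_⟩
    rintro _ ⟨w, hw, rfl⟩
    exact hs ⟨w, hw, heq hw⟩

@[simp] theorem CMfd.restr_carrier (𝓜 : CMfd V ι) (W : Set V) (hW : IsOpen W) :
    (𝓜.restr W hW).carrier = 𝓜.carrier ∩ W := rfl

theorem CMfd.restr_isHol (𝓜 : CMfd V ι) (W : Set V) (hW : IsOpen W) (Φ : CE ι → V)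
    (U : Set (CE ι)) : (𝓜.restr W hW).IsHol Φ U ↔ 𝓜.IsHol Φ U ∧ Φ '' U ⊆ W := Iff.rfl

end Claimed.Agent.R316
end

/- ===== packed: Claimed.Agent.R316.CW.Basic ===== -/
section
/-!
# Row 316, CW-1: calculus of the Wirtinger derivatives `dz`, `dzb` on `CE ι = EuclideanSpace ℂ ι`

Statement file written by helper262 (sub-captain B6E, first user).  All functions are
`CE ι → ℂ`; real functions enter through the coercion `fun w => ((u w : ℝ) : ℂ)`.
`conj = starRingEnd ℂ` (defeq to `star`).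
-/

set_option autoImplicit false
open scoped ContDiff ComplexOrder ComplexConjugate Topology

namespace Claimed.Agent.R316

section calculus

variable {ι : Type} [Fintype ι] [DecidableEq ι]
variable {f g : CE ι → ℂ} {z : CE ι} {j k : ι}

/-! ### algebra -/

theorem dz_add (hf : DifferentiableAt ℝ f z) (hg : DifferentiableAt ℝ g z) :
    dz j (fun w => f w + g w) z = dz j f z + dz j g z := by
  unfold dz
  rw [fderiv_fun_add hf hg]
  simp only [add_apply]
  ring

theorem dzb_add (hf : DifferentiableAt ℝ f z) (hg : DifferentiableAt ℝ g z) :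
    dzb j (fun w => f w + g w) z = dzb j f z + dzb j g z := by
  unfold dzb
  rw [fderiv_fun_add hf hg]
  simp only [add_apply]
  ring

theorem dz_sub (hf : DifferentiableAt ℝ f z) (hg : DifferentiableAt ℝ g z) :
    dz j (fun w => f w - g w) z = dz j f z - dz j g z := by
  unfold dz
  rw [fderiv_fun_sub hf hg]
  simp only [sub_apply]
  ring

theorem dzb_sub (hf : DifferentiableAt ℝ f z) (hg : DifferentiableAt ℝ g z) :
    dzb j (fun w => f w - g w) z = dzb j f z - dzb j g z := by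
  unfold dzb
  rw [fderiv_fun_sub hf hg]
  simp only [sub_apply]
  ring

theorem dz_neg : dz j (fun w => - f w) z = - dz j f z := by
  unfold dz
  rw [fderiv_fun_neg]
  simp only [neg_apply]
  ring

theorem dzb_neg : dzb j (fun w => - f w) z = - dzb j f z := by
  unfold dzb
  rw [fderiv_fun_neg]
  simp only [neg_apply]
  ring

theorem dz_const (c : ℂ) : dz j (fun _ : CE ι => c) z = 0 := by
  unfold dz
  simp

theorem dzb_const (c : ℂ) : dzb j (fun _ : CE ι => c) z = 0 := by
  unfold dzb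
  simp

theorem dz_const_mul (c : ℂ) (hf : DifferentiableAt ℝ f z) :
    dz j (fun w => c * f w) z = c * dz j f z := by
  unfold dz
  rw [fderiv_const_mul hf]
  simp only [smul_apply, smul_eq_mul]
  ring

theorem dzb_const_mul (c : ℂ) (hf : DifferentiableAt ℝ f z) :
    dzb j (fun w => c * f w) z = c * dzb j f z := by
  unfold dzb
  rw [fderiv_const_mul hf]
  simp only [smul_apply, smul_eq_mul]
  ring

theorem dz_mul_const (c : ℂ) (hf : DifferentiableAt ℝ f z) :
    dz j (fun w => f w * c) z = dz j f z * c := by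
  unfold dz
  rw [fderiv_mul_const hf]
  simp only [smul_apply, smul_eq_mul]
  ring

theorem dzb_mul_const (c : ℂ) (hf : DifferentiableAt ℝ f z) :
    dzb j (fun w => f w * c) z = dzb j f z * c := by
  unfold dzb
  rw [fderiv_mul_const hf]
  simp only [smul_apply, smul_eq_mul]
  ring

theorem dz_mul (hf : DifferentiableAt ℝ f z) (hg : DifferentiableAt ℝ g z) :
    dz j (fun w => f w * g w) z = dz j f z * g z + f z * dz j g z := by
  unfold dz
  rw [fderiv_fun_mul hf hg]
  simp only [add_apply, smul_apply, smul_eq_mul]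
  ring

theorem dzb_mul (hf : DifferentiableAt ℝ f z) (hg : DifferentiableAt ℝ g z) :
    dzb j (fun w => f w * g w) z = dzb j f z * g z + f z * dzb j g z := by
  unfold dzb
  rw [fderiv_fun_mul hf hg]
  simp only [add_apply, smul_apply, smul_eq_mul]
  ring

theorem dz_sum {α : Type} (s : Finset α) (F : α → CE ι → ℂ)
    (h : ∀ a ∈ s, DifferentiableAt ℝ (F a) z) :
    dz j (fun w => ∑ a ∈ s, F a w) z = ∑ a ∈ s, dz j (F a) z := by
  unfold dz
  rw [fderiv_fun_sum h]
  simp only [sum_apply, Finset.mul_sum, ← Finset.sum_sub_distrib]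

theorem dzb_sum {α : Type} (s : Finset α) (F : α → CE ι → ℂ)
    (h : ∀ a ∈ s, DifferentiableAt ℝ (F a) z) :
    dzb j (fun w => ∑ a ∈ s, F a w) z = ∑ a ∈ s, dzb j (F a) z := by
  unfold dzb
  rw [fderiv_fun_sum h]
  simp only [sum_apply, Finset.mul_sum, ← Finset.sum_add_distrib]

/-- outer holomorphic function. -/
theorem dz_hol_comp (F : ℂ → ℂ) (hF : DifferentiableAt ℂ F (f z)) (hf : DifferentiableAt ℝ f z) :
    dz j (fun w => F (f w)) z = deriv F (f z) * dz j f z := by
  have h := (hF.hasDerivAt.comp_hasFDerivAt z hf.hasFDerivAt).fderiv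
  have h' : fderiv ℝ (fun w => F (f w)) z = deriv F (f z) • fderiv ℝ f z := h
  unfold dz
  rw [h']
  simp only [smul_apply, smul_eq_mul]
  ring

theorem dzb_hol_comp (F : ℂ → ℂ) (hF : DifferentiableAt ℂ F (f z)) (hf : DifferentiableAt ℝ f z) :
    dzb j (fun w => F (f w)) z = deriv F (f z) * dzb j f z := by
  have h := (hF.hasDerivAt.comp_hasFDerivAt z hf.hasFDerivAt).fderiv
  have h' : fderiv ℝ (fun w => F (f w)) z = deriv F (f z) • fderiv ℝ f z := h
  unfold dzb
  rw [h']
  simp only [smul_apply, smul_eq_mul]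
  ring

theorem dz_inv (hf : DifferentiableAt ℝ f z) (h0 : f z ≠ 0) :
    dz j (fun w => (f w)⁻¹) z = - dz j f z / (f z) ^ 2 := by
  rw [dz_hol_comp (fun x => x⁻¹) (differentiableAt_inv h0) hf]
  simp only [deriv_inv']
  field_simp

theorem dzb_inv (hf : DifferentiableAt ℝ f z) (h0 : f z ≠ 0) :
    dzb j (fun w => (f w)⁻¹) z = - dzb j f z / (f z) ^ 2 := by
  rw [dzb_hol_comp (fun x => x⁻¹) (differentiableAt_inv h0) hf]
  simp only [deriv_inv']
  field_simp

theorem dz_div (hf : DifferentiableAt ℝ f z) (hg : DifferentiableAt ℝ g z) (h0 : g z ≠ 0) :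
    dz j (fun w => f w / g w) z = (dz j f z * g z - f z * dz j g z) / (g z) ^ 2 := by
  have hgi : DifferentiableAt ℝ (fun w => (g w)⁻¹) z := hg.inv h0
  simp only [div_eq_mul_inv]
  rw [dz_mul hf hgi, dz_inv hg h0]
  field_simp
  ring

theorem dzb_div (hf : DifferentiableAt ℝ f z) (hg : DifferentiableAt ℝ g z) (h0 : g z ≠ 0) :
    dzb j (fun w => f w / g w) z = (dzb j f z * g z - f z * dzb j g z) / (g z) ^ 2 := by
  have hgi : DifferentiableAt ℝ (fun w => (g w)⁻¹) z := hg.inv h0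
  simp only [div_eq_mul_inv]
  rw [dzb_mul hf hgi, dzb_inv hg h0]
  field_simp
  ring

/-! ### conjugation, real functions -/

theorem fderiv_conj_apply (v : CE ι) :
    fderiv ℝ (fun w => conj (f w)) z v = conj (fderiv ℝ f z v) := by
  have h := Complex.conjCLE.comp_fderiv (f := f) (x := z)
  have h' : fderiv ℝ (fun w => conj (f w)) z
      = (Complex.conjCLE : ℂ →L[ℝ] ℂ).comp (fderiv ℝ f z) := h
  rw [h']
  rfl

theorem dz_conj : dz j (fun w => conj (f w)) z = conj (dzb j f z) := by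
  unfold dz dzb
  rw [fderiv_conj_apply, fderiv_conj_apply]
  simp only [map_mul, map_add, Complex.conj_I, map_div₀, map_one, map_ofNat]
  ring

theorem dzb_conj : dzb j (fun w => conj (f w)) z = conj (dz j f z) := by
  unfold dz dzb
  rw [fderiv_conj_apply, fderiv_conj_apply]
  simp only [map_mul, map_sub, Complex.conj_I, map_div₀, map_one, map_ofNat]
  ring

theorem dzb_ofReal (u : CE ι → ℝ) :
    dzb j (fun w => ((u w : ℝ) : ℂ)) z = conj (dz j (fun w => ((u w : ℝ) : ℂ)) z) := by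
  rw [← dzb_conj]
  simp only [Complex.conj_ofReal]

theorem dz_ofReal (u : CE ι → ℝ) :
    dz j (fun w => ((u w : ℝ) : ℂ)) z = conj (dzb j (fun w => ((u w : ℝ) : ℂ)) z) := by
  rw [← dz_conj]
  simp only [Complex.conj_ofReal]

theorem grad10_apply (u : CE ι → ℝ) : grad10 u z j = dz j (fun w => ((u w : ℝ) : ℂ)) z := rfl

theorem dzb_ofReal_eq_grad10 (u : CE ι → ℝ) :
    dzb j (fun w => ((u w : ℝ) : ℂ)) z = conj (grad10 u z j) := dzb_ofReal u

/-- differentiability of the coercion. -/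
theorem differentiableAt_ofReal {u : CE ι → ℝ} (hu : DifferentiableAt ℝ u z) :
    DifferentiableAt ℝ (fun w => ((u w : ℝ) : ℂ)) z :=
  Complex.ofRealCLM.differentiableAt.comp z hu

theorem fderiv_ofReal_apply {u : CE ι → ℝ} (hu : DifferentiableAt ℝ u z) (v : CE ι) :
    fderiv ℝ (fun w => ((u w : ℝ) : ℂ)) z v = ((fderiv ℝ u z v : ℝ) : ℂ) := by
  have h := (Complex.ofRealCLM.hasFDerivAt.comp z hu.hasFDerivAt).fderiv
  have h' : fderiv ℝ (fun w => ((u w : ℝ) : ℂ)) z = Complex.ofRealCLM.comp (fderiv ℝ u z) := h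
  rw [h']
  rfl

theorem eb_apply (j k : ι) : (eb j : CE ι) k = if k = j then 1 else 0 := by
  unfold eb
  simp [PiLp.single_apply]

theorem CE_eq_sum (v : CE ι) :
    v = ∑ j, ((v j).re • eb j + (v j).im • (Complex.I • eb j)) := by
  ext k
  simp only [eb_apply, WithLp.ofLp_sum, Finset.sum_apply,
    WithLp.ofLp_add, WithLp.ofLp_smul, Pi.add_apply, Pi.smul_apply]
  rw [Finset.sum_eq_single k]
  · simp only [if_true, Complex.real_smul, smul_eq_mul, mul_one]
    exact (Complex.re_add_im (v k)).symm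
  · intro b _ hb
    simp [Ne.symm hb]
  · intro h
    exact absurd (Finset.mem_univ k) h

/-- the real differential in terms of the Wirtinger derivatives (pure linear algebra, no
differentiability hypothesis). -/
theorem fderiv_eq_sum (v : CE ι) :
    fderiv ℝ f z v = ∑ j, (dz j f z * v j + dzb j f z * conj (v j)) := by
  conv_lhs => rw [CE_eq_sum v]
  rw [map_sum]
  refine Finset.sum_congr rfl fun j _ => ?_
  rw [map_add, map_smul, map_smul]
  unfold dz dzb
  have h1 : conj (v j) = ((v j).re : ℂ) - ((v j).im : ℂ) * Complex.I := by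
    apply Complex.ext <;> simp
  have h2 : v j = ((v j).re : ℂ) + ((v j).im : ℂ) * Complex.I := (Complex.re_add_im (v j)).symm
  simp only [Complex.real_smul]
  have hI : Complex.I * Complex.I = -1 := Complex.I_mul_I
  linear_combination
    (-(1 / 2 : ℂ) * (fderiv ℝ f z (eb j) - Complex.I * fderiv ℝ f z (Complex.I • eb j))) * h2
    + (-(1 / 2 : ℂ) * (fderiv ℝ f z (eb j) + Complex.I * fderiv ℝ f z (Complex.I • eb j))) * h1
    + (((v j).im : ℂ) * fderiv ℝ f z (Complex.I • eb j)) * hI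
/-- real functions: `du(v) = 2 Re ∑ ∂_j u v_j`. -/
theorem fderiv_real_eq (u : CE ι → ℝ) (hu : DifferentiableAt ℝ u z) (v : CE ι) :
    fderiv ℝ u z v = 2 * (∑ j, grad10 u z j * v j).re := by
  have h1 := fderiv_ofReal_apply hu v
  rw [fderiv_eq_sum] at h1
  have h2 : (fderiv ℝ u z v) = (((fderiv ℝ u z v : ℝ) : ℂ)).re := (Complex.ofReal_re _).symm
  rw [h2, ← h1, Complex.re_sum, Complex.re_sum, Finset.mul_sum]
  refine Finset.sum_congr rfl fun j _ => ?_
  rw [dzb_ofReal, grad10_apply, ← map_mul, Complex.add_re, Complex.conj_re]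
  ring

/-! ### holomorphic functions, coordinates -/

theorem dzb_of_differentiableAt (h : DifferentiableAt ℂ f z) : dzb j f z = 0 := by
  unfold dzb
  rw [h.fderiv_restrictScalars ℝ]
  simp only [ContinuousLinearMap.coe_restrictScalars', map_smul, smul_eq_mul]
  have hI : Complex.I * Complex.I = -1 := Complex.I_mul_I
  linear_combination ((1 / 2 : ℂ) * fderiv ℂ f z (eb j)) * hI

theorem dz_of_differentiableAt (h : DifferentiableAt ℂ f z) : dz j f z = fderiv ℂ f z (eb j) := by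
  unfold dz
  rw [h.fderiv_restrictScalars ℝ]
  simp only [ContinuousLinearMap.coe_restrictScalars', map_smul, smul_eq_mul]
  have hI : Complex.I * Complex.I = -1 := Complex.I_mul_I
  linear_combination (-(1 / 2 : ℂ) * fderiv ℂ f z (eb j)) * hI

theorem CE_proj_apply (k : ι) (v : CE ι) : (EuclideanSpace.proj k : CE ι →L[ℂ] ℂ) v = v k := rfl

theorem differentiableAt_complex_of_dzb (hf : DifferentiableAt ℝ f z) (h : ∀ j, dzb j f z = 0) :
    DifferentiableAt ℂ f z := by
  rw [differentiableAt_iff_restrictScalars ℝ hf]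
  refine ⟨∑ j, dz j f z • (EuclideanSpace.proj j : CE ι →L[ℂ] ℂ), ?_⟩
  ext v
  rw [fderiv_eq_sum]
  simp only [ContinuousLinearMap.coe_restrictScalars', sum_apply, smul_apply,
    CE_proj_apply, smul_eq_mul, h, zero_mul, add_zero]

theorem differentiableOn_complex_of_dzb {U : Set (CE ι)} (hU : IsOpen U)
    (hf : DifferentiableOn ℝ f U) (h : ∀ z ∈ U, ∀ j, dzb j f z = 0) : DifferentiableOn ℂ f U :=
  fun z hz => (differentiableAt_complex_of_dzb (hf.differentiableAt (hU.mem_nhds hz))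
    (h z hz)).differentiableWithinAt

theorem differentiableAt_coord_complex : DifferentiableAt ℂ (fun w : CE ι => w k) z :=
  (EuclideanSpace.proj k : CE ι →L[ℂ] ℂ).differentiableAt

theorem dz_coord : dz j (fun w : CE ι => w k) z = if j = k then 1 else 0 := by
  rw [dz_of_differentiableAt differentiableAt_coord_complex]
  have h : fderiv ℂ (fun w : CE ι => w k) z = (EuclideanSpace.proj k : CE ι →L[ℂ] ℂ) :=
    (EuclideanSpace.proj k : CE ι →L[ℂ] ℂ).fderiv
  rw [h, CE_proj_apply, eb_apply]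
  simp only [eq_comm]

theorem dzb_coord : dzb j (fun w : CE ι => w k) z = 0 :=
  dzb_of_differentiableAt differentiableAt_coord_complex

theorem dz_conj_coord : dz j (fun w : CE ι => conj (w k)) z = 0 := by
  rw [dz_conj, dzb_coord, map_zero]

theorem dzb_conj_coord : dzb j (fun w : CE ι => conj (w k)) z = if j = k then 1 else 0 := by
  rw [dzb_conj, dz_coord]
  split_ifs <;> simp

theorem differentiableAt_coord : DifferentiableAt ℝ (fun w : CE ι => w k) z :=
  differentiableAt_coord_complex.restrictScalars ℝ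

theorem contDiff_coord : ContDiff ℝ ∞ (fun w : CE ι => w k) :=
  ((EuclideanSpace.proj k : CE ι →L[ℂ] ℂ).restrictScalars ℝ).contDiff

/-- `∂_j ‖w‖² = \bar z_j`. -/
theorem grad10_normSq : grad10 (fun w : CE ι => ‖w‖ ^ 2) z j = conj (z j) := by
  rw [grad10_apply]
  have h : (fun w : CE ι => ((‖w‖ ^ 2 : ℝ) : ℂ)) = fun w => ∑ k, w k * conj (w k) := by
    funext w
    rw [EuclideanSpace.norm_sq_eq]
    push_cast
    refine Finset.sum_congr rfl fun k _ => ?_
    rw [Complex.mul_conj, Complex.normSq_eq_norm_sq]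
    push_cast
    rfl
  have hc : ∀ k, DifferentiableAt ℝ (fun w : CE ι => conj (w k)) z := fun k =>
    Complex.conjCLE.differentiableAt.comp z differentiableAt_coord
  have hm : ∀ k, DifferentiableAt ℝ (fun w : CE ι => w k * conj (w k)) z := fun k =>
    differentiableAt_coord.mul (hc k)
  rw [h, dz_sum Finset.univ (fun k (w : CE ι) => w k * conj (w k)) fun k _ => hm k]
  rw [Finset.sum_eq_single j]
  · rw [dz_mul differentiableAt_coord (hc j), dz_coord, dz_conj_coord]
    simp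
  · intro b _ hb
    rw [dz_mul differentiableAt_coord (hc b), dz_coord, dz_conj_coord]
    simp [Ne.symm hb]
  · intro h
    exact absurd (Finset.mem_univ j) h

/-! ### chain rules -/

theorem fderiv_comp_real_apply (χ : ℝ → ℝ) (u : CE ι → ℝ) (hχ : DifferentiableAt ℝ χ (u z))
    (hu : DifferentiableAt ℝ u z) (v : CE ι) :
    fderiv ℝ (fun w => ((χ (u w) : ℝ) : ℂ)) z v
      = ((deriv χ (u z) : ℝ) : ℂ) * fderiv ℝ (fun w => ((u w : ℝ) : ℂ)) z v := by
  have h := hχ.hasDerivAt.comp_hasFDerivAt z hu.hasFDerivAt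
  have hd : DifferentiableAt ℝ (fun w => χ (u w)) z := h.differentiableAt
  have h' : fderiv ℝ (fun w => χ (u w)) z = deriv χ (u z) • fderiv ℝ u z := h.fderiv
  rw [fderiv_ofReal_apply hd, fderiv_ofReal_apply hu, h']
  simp

theorem dz_comp_real (χ : ℝ → ℝ) (u : CE ι → ℝ) (hχ : DifferentiableAt ℝ χ (u z))
    (hu : DifferentiableAt ℝ u z) :
    dz j (fun w => ((χ (u w) : ℝ) : ℂ)) z
      = ((deriv χ (u z) : ℝ) : ℂ) * dz j (fun w => ((u w : ℝ) : ℂ)) z := by
  unfold dz
  rw [fderiv_comp_real_apply χ u hχ hu, fderiv_comp_real_apply χ u hχ hu]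
  ring

theorem dzb_comp_real (χ : ℝ → ℝ) (u : CE ι → ℝ) (hχ : DifferentiableAt ℝ χ (u z))
    (hu : DifferentiableAt ℝ u z) :
    dzb j (fun w => ((χ (u w) : ℝ) : ℂ)) z
      = ((deriv χ (u z) : ℝ) : ℂ) * dzb j (fun w => ((u w : ℝ) : ℂ)) z := by
  unfold dzb
  rw [fderiv_comp_real_apply χ u hχ hu, fderiv_comp_real_apply χ u hχ hu]
  ring

theorem grad10_comp_real (χ : ℝ → ℝ) (u : CE ι → ℝ) (hχ : DifferentiableAt ℝ χ (u z))
    (hu : DifferentiableAt ℝ u z) :
    grad10 (fun w => χ (u w)) z j = ((deriv χ (u z) : ℝ) : ℂ) * grad10 u z j :=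
  dz_comp_real χ u hχ hu

theorem dz_exp_real (u : CE ι → ℝ) (hu : DifferentiableAt ℝ u z) :
    dz j (fun w => ((Real.exp (u w) : ℝ) : ℂ)) z
      = ((Real.exp (u z) : ℝ) : ℂ) * dz j (fun w => ((u w : ℝ) : ℂ)) z := by
  rw [dz_comp_real Real.exp u Real.differentiableAt_exp hu, Real.deriv_exp]

theorem dzb_exp_real (u : CE ι → ℝ) (hu : DifferentiableAt ℝ u z) :
    dzb j (fun w => ((Real.exp (u w) : ℝ) : ℂ)) z
      = ((Real.exp (u z) : ℝ) : ℂ) * dzb j (fun w => ((u w : ℝ) : ℂ)) z := by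
  rw [dzb_comp_real Real.exp u Real.differentiableAt_exp hu, Real.deriv_exp]

theorem dz_log_real (u : CE ι → ℝ) (hu : DifferentiableAt ℝ u z) (h0 : u z ≠ 0) :
    dz j (fun w => ((Real.log (u w) : ℝ) : ℂ)) z
      = dz j (fun w => ((u w : ℝ) : ℂ)) z / ((u z : ℝ) : ℂ) := by
  rw [dz_comp_real Real.log u (Real.differentiableAt_log h0) hu, Real.deriv_log]
  push_cast
  rw [div_eq_inv_mul]

theorem dzb_log_real (u : CE ι → ℝ) (hu : DifferentiableAt ℝ u z) (h0 : u z ≠ 0) :
    dzb j (fun w => ((Real.log (u w) : ℝ) : ℂ)) z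
      = dzb j (fun w => ((u w : ℝ) : ℂ)) z / ((u z : ℝ) : ℂ) := by
  rw [dzb_comp_real Real.log u (Real.differentiableAt_log h0) hu, Real.deriv_log]
  push_cast
  rw [div_eq_inv_mul]

/-- translation. -/
theorem dz_comp_add_const (a : CE ι) : dz j (fun w => f (w + a)) z = dz j f (z + a) := by
  unfold dz
  rw [fderiv_comp_add_right]

theorem dzb_comp_add_const (a : CE ι) : dzb j (fun w => f (w + a)) z = dzb j f (z + a) := by
  unfold dzb
  rw [fderiv_comp_add_right]

/-- real dilation. -/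
theorem dz_comp_smul (t : ℝ) : dz j (fun w => f (t • w)) z = (t : ℂ) * dz j f (t • z) := by
  unfold dz
  rw [fderiv_comp_smul]
  simp only [smul_apply, Complex.real_smul]
  ring

theorem dzb_comp_smul (t : ℝ) : dzb j (fun w => f (t • w)) z = (t : ℂ) * dzb j f (t • z) := by
  unfold dzb
  rw [fderiv_comp_smul]
  simp only [smul_apply, Complex.real_smul]
  ring

/-- reflection `w ↦ a - w`. -/
theorem dz_comp_const_sub (a : CE ι) : dz j (fun w => f (a - w)) z = - dz j f (a - z) := by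
  have h : (fun w => f (a - w)) = fun w => (fun y => f (y + a)) ((-1 : ℝ) • w) := by
    funext w
    congr 1
    rw [neg_one_smul]
    abel
  rw [h, dz_comp_smul (f := fun y => f (y + a)), dz_comp_add_const]
  rw [neg_one_smul, neg_add_eq_sub]
  simp

theorem dzb_comp_const_sub (a : CE ι) : dzb j (fun w => f (a - w)) z = - dzb j f (a - z) := by
  have h : (fun w => f (a - w)) = fun w => (fun y => f (y + a)) ((-1 : ℝ) • w) := by
    funext w
    congr 1
    rw [neg_one_smul]
    abel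
  rw [h, dzb_comp_smul (f := fun y => f (y + a)), dzb_comp_add_const]
  rw [neg_one_smul, neg_add_eq_sub]
  simp

/-! ### congruence -/

theorem dz_congr (h : f =ᶠ[𝓝 z] g) : dz j f z = dz j g z := by
  unfold dz
  rw [h.fderiv_eq]

theorem dzb_congr (h : f =ᶠ[𝓝 z] g) : dzb j f z = dzb j g z := by
  unfold dzb
  rw [h.fderiv_eq]

theorem dz_eventuallyEq (h : f =ᶠ[𝓝 z] g) : dz j f =ᶠ[𝓝 z] dz j g :=
  h.eventuallyEq_nhds.mono fun _ hw => dz_congr hw

theorem dzb_eventuallyEq (h : f =ᶠ[𝓝 z] g) : dzb j f =ᶠ[𝓝 z] dzb j g :=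
  h.eventuallyEq_nhds.mono fun _ hw => dzb_congr hw

theorem dz_eqOn {U : Set (CE ι)} (hU : IsOpen U) (h : Set.EqOn f g U) :
    Set.EqOn (dz j f) (dz j g) U :=
  fun _ hz => dz_congr (h.eventuallyEq_of_mem (hU.mem_nhds hz))

theorem dzb_eqOn {U : Set (CE ι)} (hU : IsOpen U) (h : Set.EqOn f g U) :
    Set.EqOn (dzb j f) (dzb j g) U :=
  fun _ hz => dzb_congr (h.eventuallyEq_of_mem (hU.mem_nhds hz))

/-- the derivatives vanish off the (closed) support. -/
theorem dz_eq_zero_of_notMem_tsupport (h : z ∉ tsupport f) : dz j f z = 0 := by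
  unfold dz
  rw [fderiv_of_notMem_tsupport ℝ h]
  simp

theorem dzb_eq_zero_of_notMem_tsupport (h : z ∉ tsupport f) : dzb j f z = 0 := by
  unfold dzb
  rw [fderiv_of_notMem_tsupport ℝ h]
  simp

theorem support_dz_subset : Function.support (dz j f) ⊆ tsupport f := by
  intro w hw
  by_contra hc
  exact hw (dz_eq_zero_of_notMem_tsupport hc)

theorem support_dzb_subset : Function.support (dzb j f) ⊆ tsupport f := by
  intro w hw
  by_contra hc
  exact hw (dzb_eq_zero_of_notMem_tsupport hc)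

theorem tsupport_dz_subset : tsupport (dz j f) ⊆ tsupport f :=
  closure_minimal support_dz_subset (isClosed_tsupport f)

theorem tsupport_dzb_subset : tsupport (dzb j f) ⊆ tsupport f :=
  closure_minimal support_dzb_subset (isClosed_tsupport f)

theorem hasCompactSupport_dz (h : HasCompactSupport f) : HasCompactSupport (dz j f) :=
  h.mono' support_dz_subset

theorem hasCompactSupport_dzb (h : HasCompactSupport f) : HasCompactSupport (dzb j f) :=
  h.mono' support_dzb_subset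
/-! ### smoothness -/

theorem contDiffAt_dz {m n : WithTop ℕ∞} (hf : ContDiffAt ℝ n f z) (hmn : m + 1 ≤ n) :
    ContDiffAt ℝ m (dz j f) z := by
  have h := hf.fderiv_right hmn
  unfold dz
  exact contDiffAt_const.mul ((h.clm_apply contDiffAt_const).sub
    (contDiffAt_const.mul (h.clm_apply contDiffAt_const)))

theorem contDiffAt_dzb {m n : WithTop ℕ∞} (hf : ContDiffAt ℝ n f z) (hmn : m + 1 ≤ n) :
    ContDiffAt ℝ m (dzb j f) z := by
  have h := hf.fderiv_right hmn
  unfold dzb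
  exact contDiffAt_const.mul ((h.clm_apply contDiffAt_const).add
    (contDiffAt_const.mul (h.clm_apply contDiffAt_const)))

theorem contDiffOn_dz {U : Set (CE ι)} (hU : IsOpen U) (hf : ContDiffOn ℝ ∞ f U) :
    ContDiffOn ℝ ∞ (dz j f) U := fun z hz =>
  (contDiffAt_dz (hf.contDiffAt (hU.mem_nhds hz)) (by simp)).contDiffWithinAt

theorem contDiffOn_dzb {U : Set (CE ι)} (hU : IsOpen U) (hf : ContDiffOn ℝ ∞ f U) :
    ContDiffOn ℝ ∞ (dzb j f) U := fun z hz =>
  (contDiffAt_dzb (hf.contDiffAt (hU.mem_nhds hz)) (by simp)).contDiffWithinAt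

theorem contDiff_dz_of_le {m n : WithTop ℕ∞} (hf : ContDiff ℝ n f) (hmn : m + 1 ≤ n) :
    ContDiff ℝ m (dz j f) :=
  contDiff_iff_contDiffAt.2 fun _ => contDiffAt_dz hf.contDiffAt hmn

theorem contDiff_dzb_of_le {m n : WithTop ℕ∞} (hf : ContDiff ℝ n f) (hmn : m + 1 ≤ n) :
    ContDiff ℝ m (dzb j f) :=
  contDiff_iff_contDiffAt.2 fun _ => contDiffAt_dzb hf.contDiffAt hmn

theorem contDiff_dz (hf : ContDiff ℝ ∞ f) : ContDiff ℝ ∞ (dz j f) :=
  contDiff_dz_of_le hf (by simp)

theorem contDiff_dzb (hf : ContDiff ℝ ∞ f) : ContDiff ℝ ∞ (dzb j f) :=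
  contDiff_dzb_of_le hf (by simp)

theorem contDiffOn_ofReal {U : Set (CE ι)} {u : CE ι → ℝ} {n : WithTop ℕ∞}
    (hu : ContDiffOn ℝ n u U) : ContDiffOn ℝ n (fun w => ((u w : ℝ) : ℂ)) U :=
  Complex.ofRealCLM.contDiff.comp_contDiffOn hu

theorem contDiffOn_grad10 {U : Set (CE ι)} (hU : IsOpen U) {u : CE ι → ℝ}
    (hu : ContDiffOn ℝ ∞ u U) : ContDiffOn ℝ ∞ (fun w => grad10 u w j) U :=
  contDiffOn_dz hU (contDiffOn_ofReal hu)

theorem contDiffOn_levi {U : Set (CE ι)} (hU : IsOpen U) {u : CE ι → ℝ}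
    (hu : ContDiffOn ℝ ∞ u U) : ContDiffOn ℝ ∞ (fun w => levi u w j k) U :=
  contDiffOn_dzb hU (contDiffOn_dz hU (contDiffOn_ofReal hu))

/-! ### commutation of second derivatives -/

theorem fderiv_dz_apply (hf : ContDiffAt ℝ 2 f z) (v : CE ι) :
    fderiv ℝ (dz k f) z v = (1 / 2 : ℂ) * (fderiv ℝ (fderiv ℝ f) z v (eb k)
      - Complex.I * fderiv ℝ (fderiv ℝ f) z v (Complex.I • eb k)) := by
  have h : DifferentiableAt ℝ (fderiv ℝ f) z :=
    (hf.fderiv_right (m := 1) (by norm_num)).differentiableAt (by norm_num)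
  have h1 : ∀ e : CE ι, HasFDerivAt (fun w => fderiv ℝ f w e)
      ((ContinuousLinearMap.apply ℝ ℂ e).comp (fderiv ℝ (fderiv ℝ f) z)) z := fun e =>
    (ContinuousLinearMap.apply ℝ ℂ e).hasFDerivAt.comp z h.hasFDerivAt
  have h2 := (((h1 (eb k)).sub ((h1 (Complex.I • eb k)).const_mul Complex.I)).const_mul
    (1 / 2 : ℂ)).fderiv
  have h3 : fderiv ℝ (dz k f) z = _ := h2
  rw [h3]
  simp

theorem fderiv_dzb_apply (hf : ContDiffAt ℝ 2 f z) (v : CE ι) :
    fderiv ℝ (dzb k f) z v = (1 / 2 : ℂ) * (fderiv ℝ (fderiv ℝ f) z v (eb k)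
      + Complex.I * fderiv ℝ (fderiv ℝ f) z v (Complex.I • eb k)) := by
  have h : DifferentiableAt ℝ (fderiv ℝ f) z :=
    (hf.fderiv_right (m := 1) (by norm_num)).differentiableAt (by norm_num)
  have h1 : ∀ e : CE ι, HasFDerivAt (fun w => fderiv ℝ f w e)
      ((ContinuousLinearMap.apply ℝ ℂ e).comp (fderiv ℝ (fderiv ℝ f) z)) z := fun e =>
    (ContinuousLinearMap.apply ℝ ℂ e).hasFDerivAt.comp z h.hasFDerivAt
  have h2 := (((h1 (eb k)).add ((h1 (Complex.I • eb k)).const_mul Complex.I)).const_mul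
    (1 / 2 : ℂ)).fderiv
  have h3 : fderiv ℝ (dzb k f) z = _ := h2
  rw [h3]
  simp
  ring

theorem sndFDeriv_symm (hf : ContDiffAt ℝ 2 f z) (v w : CE ι) :
    fderiv ℝ (fderiv ℝ f) z v w = fderiv ℝ (fderiv ℝ f) z w v :=
  hf.isSymmSndFDerivAt (by rw [minSmoothness_of_isRCLikeNormedField]) v w

theorem dz_def (j : ι) (F : CE ι → ℂ) (z : CE ι) : dz j F z
    = (1 / 2 : ℂ) * (fderiv ℝ F z (eb j) - Complex.I * fderiv ℝ F z (Complex.I • eb j)) := rfl

theorem dzb_def (j : ι) (F : CE ι → ℂ) (z : CE ι) : dzb j F z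
    = (1 / 2 : ℂ) * (fderiv ℝ F z (eb j) + Complex.I * fderiv ℝ F z (Complex.I • eb j)) := rfl

theorem dz_dzb_comm (hf : ContDiffAt ℝ 2 f z) : dz j (dzb k f) z = dzb k (dz j f) z := by
  rw [dz_def j (dzb k f), dzb_def k (dz j f)]
  rw [fderiv_dzb_apply hf, fderiv_dzb_apply hf, fderiv_dz_apply hf, fderiv_dz_apply hf]
  rw [sndFDeriv_symm hf (eb k) (eb j), sndFDeriv_symm hf (eb k) (Complex.I • eb j),
    sndFDeriv_symm hf (Complex.I • eb k) (eb j),
    sndFDeriv_symm hf (Complex.I • eb k) (Complex.I • eb j)]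
  ring

theorem dz_dz_comm (hf : ContDiffAt ℝ 2 f z) : dz j (dz k f) z = dz k (dz j f) z := by
  rw [dz_def j (dz k f), dz_def k (dz j f)]
  rw [fderiv_dz_apply hf, fderiv_dz_apply hf, fderiv_dz_apply hf, fderiv_dz_apply hf]
  rw [sndFDeriv_symm hf (eb k) (eb j), sndFDeriv_symm hf (eb k) (Complex.I • eb j),
    sndFDeriv_symm hf (Complex.I • eb k) (eb j),
    sndFDeriv_symm hf (Complex.I • eb k) (Complex.I • eb j)]
  ring

theorem dzb_dzb_comm (hf : ContDiffAt ℝ 2 f z) : dzb j (dzb k f) z = dzb k (dzb j f) z := by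
  rw [dzb_def j (dzb k f), dzb_def k (dzb j f)]
  rw [fderiv_dzb_apply hf, fderiv_dzb_apply hf, fderiv_dzb_apply hf, fderiv_dzb_apply hf]
  rw [sndFDeriv_symm hf (eb k) (eb j), sndFDeriv_symm hf (eb k) (Complex.I • eb j),
    sndFDeriv_symm hf (Complex.I • eb k) (eb j),
    sndFDeriv_symm hf (Complex.I • eb k) (Complex.I • eb j)]
  ring

end calculus

/-! ### holomorphic inner maps, Jacobians -/

section jac

variable {ι κ μ : Type} [Fintype ι] [DecidableEq ι] [Fintype κ] [DecidableEq κ] [Fintype μ]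
variable {z : CE ι} {j : ι}

theorem CE_eq_sum_complex (v : CE ι) : v = ∑ j, v j • eb j := by
  ext k
  simp only [eb_apply, WithLp.ofLp_sum, Finset.sum_apply, WithLp.ofLp_smul, Pi.smul_apply]
  rw [Finset.sum_eq_single k]
  · simp
  · intro b _ hb
    simp [Ne.symm hb]
  · intro h
    exact absurd (Finset.mem_univ k) h

theorem jac_mulVec (τ : CE ι → CE κ) (v : CE ι) (k : κ) :
    (jac τ z).mulVec (fun j => v j) k = fderiv ℂ τ z v k := by
  conv_rhs => rw [CE_eq_sum_complex v]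
  rw [map_sum]
  simp only [Matrix.mulVec, dotProduct, jac, map_smul, WithLp.ofLp_sum, Finset.sum_apply,
    WithLp.ofLp_smul, Pi.smul_apply, smul_eq_mul]
  exact Finset.sum_congr rfl fun j _ => mul_comm _ _

theorem fderiv_comp_hol_apply (τ : CE ι → CE κ) (f : CE κ → ℂ) (hτ : DifferentiableAt ℂ τ z)
    (hf : DifferentiableAt ℝ f (τ z)) (v : CE ι) :
    fderiv ℝ (fun w => f (τ w)) z v = fderiv ℝ f (τ z) (fderiv ℂ τ z v) := by
  have h := (hf.hasFDerivAt.comp z (hτ.restrictScalars ℝ).hasFDerivAt).fderiv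
  have h' : fderiv ℝ (fun w => f (τ w)) z = (fderiv ℝ f (τ z)).comp (fderiv ℝ τ z) := h
  rw [h', hτ.fderiv_restrictScalars ℝ]
  rfl

theorem dz_comp_hol (τ : CE ι → CE κ) (f : CE κ → ℂ) (hτ : DifferentiableAt ℂ τ z)
    (hf : DifferentiableAt ℝ f (τ z)) :
    dz j (fun w => f (τ w)) z = ∑ k, dz k f (τ z) * jac τ z k j := by
  conv_lhs => unfold dz
  rw [fderiv_comp_hol_apply τ f hτ hf, fderiv_comp_hol_apply τ f hτ hf, map_smul,
    fderiv_eq_sum, fderiv_eq_sum, Finset.mul_sum, ← Finset.sum_sub_distrib, Finset.mul_sum]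
  refine Finset.sum_congr rfl fun k _ => ?_
  simp only [WithLp.ofLp_smul, Pi.smul_apply, smul_eq_mul, map_mul, Complex.conj_I, jac]
  have hI : Complex.I * Complex.I = -1 := Complex.I_mul_I
  linear_combination (-(1 / 2 : ℂ) * dz k f (τ z) * (fderiv ℂ τ z (eb j)) k
    + (1 / 2 : ℂ) * dzb k f (τ z) * conj ((fderiv ℂ τ z (eb j)) k)) * hI

theorem dzb_comp_hol (τ : CE ι → CE κ) (f : CE κ → ℂ) (hτ : DifferentiableAt ℂ τ z)
    (hf : DifferentiableAt ℝ f (τ z)) :
    dzb j (fun w => f (τ w)) z = ∑ k, dzb k f (τ z) * conj (jac τ z k j) := by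
  conv_lhs => unfold dzb
  rw [fderiv_comp_hol_apply τ f hτ hf, fderiv_comp_hol_apply τ f hτ hf, map_smul,
    fderiv_eq_sum, fderiv_eq_sum, Finset.mul_sum, ← Finset.sum_add_distrib, Finset.mul_sum]
  refine Finset.sum_congr rfl fun k _ => ?_
  simp only [WithLp.ofLp_smul, Pi.smul_apply, smul_eq_mul, map_mul, Complex.conj_I, jac]
  have hI : Complex.I * Complex.I = -1 := Complex.I_mul_I
  linear_combination ((1 / 2 : ℂ) * dz k f (τ z) * (fderiv ℂ τ z (eb j)) k
    - (1 / 2 : ℂ) * dzb k f (τ z) * conj ((fderiv ℂ τ z (eb j)) k)) * hI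

theorem jac_comp (σ : CE κ → CE μ) (τ : CE ι → CE κ) (hσ : DifferentiableAt ℂ σ (τ z))
    (hτ : DifferentiableAt ℂ τ z) : jac (σ ∘ τ) z = jac σ (τ z) * jac τ z := by
  classical
  ext a b
  have h : fderiv ℂ (σ ∘ τ) z = (fderiv ℂ σ (τ z)).comp (fderiv ℂ τ z) := fderiv_comp z hσ hτ
  have h2 := jac_mulVec (z := τ z) σ (fderiv ℂ τ z (eb b)) a
  show fderiv ℂ (σ ∘ τ) z (eb b) a = _
  rw [h]
  show fderiv ℂ σ (τ z) (fderiv ℂ τ z (eb b)) a = _
  rw [← h2]
  rfl

theorem jac_id : jac (fun w : CE ι => w) z = 1 := by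
  ext a b
  show fderiv ℂ (fun w : CE ι => w) z (eb b) a = _
  rw [fderiv_fun_id]
  simp [eb_apply, Matrix.one_apply]

theorem jac_congr {τ τ' : CE ι → CE κ} (h : τ =ᶠ[𝓝 z] τ') : jac τ z = jac τ' z := by
  unfold jac
  rw [h.fderiv_eq]

theorem jac_mul_jac_of_leftInverse (σ : CE κ → CE ι) (τ : CE ι → CE κ)
    (hσ : DifferentiableAt ℂ σ (τ z)) (hτ : DifferentiableAt ℂ τ z)
    (h : (fun w => σ (τ w)) =ᶠ[𝓝 z] fun w => w) : jac σ (τ z) * jac τ z = 1 := by
  rw [← jac_comp σ τ hσ hτ, ← jac_id (z := z)]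
  exact jac_congr h

/-- entries of the Jacobian as Wirtinger derivatives of the components. -/
theorem jac_apply_eq_dz (τ : CE ι → CE κ) (hτ : DifferentiableAt ℂ τ z) (k : κ) :
    jac τ z k j = dz j (fun w => τ w k) z := by
  have h1 := ((EuclideanSpace.proj k : CE κ →L[ℂ] ℂ).hasFDerivAt.comp z hτ.hasFDerivAt)
  have h2 : DifferentiableAt ℂ (fun w => τ w k) z := h1.differentiableAt
  have h3 : fderiv ℂ (fun w => τ w k) z
      = (EuclideanSpace.proj k : CE κ →L[ℂ] ℂ).comp (fderiv ℂ τ z) := h1.fderiv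
  rw [dz_of_differentiableAt h2, h3]
  rfl

end jac

end Claimed.Agent.R316
end

/- ===== packed: Claimed.Agent.R316.CW.HolSmooth ===== -/
section
/-!
# Row 316, CW-2a: holomorphic maps of several variables are smooth

Mathlib has "complex differentiable ⟹ analytic" only for functions of ONE complex variable.
Here: a map which is complex (Fréchet) differentiable on an open subset of a finite dimensional
complex normed space has a complex differentiable derivative, hence is `C^∞` (over `ℂ` and `ℝ`).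

Route: `fderiv ℂ f z v = (2πi)⁻¹ ∮_{|t|=r} t⁻² f (z + t v) dt` (one variable Cauchy formula),
`‖fderiv ℂ f z‖` is locally bounded (Cauchy estimate), differentiate under the integral sign.

Owner: helper16.
-/

set_option autoImplicit false
set_option linter.unusedSectionVars false
open scoped ContDiff ComplexOrder ComplexConjugate Topology Real
open MeasureTheory

namespace Claimed.Agent.R316

section general

variable {E F : Type} [NormedAddCommGroup E] [NormedSpace ℂ E] [FiniteDimensional ℂ E]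
  [NormedAddCommGroup F] [NormedSpace ℂ F] [FiniteDimensional ℂ F]
variable {τ : E → F} {U : Set E} {z : E}

/-- restriction to a complex line. -/
theorem hs_line_hasDerivAt {w v : E} {t : ℂ} (h : DifferentiableAt ℂ τ (w + t • v)) :
    HasDerivAt (fun s : ℂ => τ (w + s • v)) (fderiv ℂ τ (w + t • v) v) t := by
  have h1 : HasDerivAt (fun s : ℂ => w + s • v) v t := by
    simpa using ((hasDerivAt_id t).smul_const v).const_add w
  exact h.hasFDerivAt.comp_hasDerivAt t h1

/-- Cauchy estimate for the Fréchet derivative. -/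
theorem hs_norm_fderiv_le {w : E} {ρ C : ℝ} (hρ : 0 < ρ)
    (hd : ∀ y ∈ Metric.closedBall w ρ, DifferentiableAt ℂ τ y)
    (hC : ∀ y ∈ Metric.closedBall w ρ, ‖τ y‖ ≤ C) : ‖fderiv ℂ τ w‖ ≤ C / ρ := by
  have hC0 : 0 ≤ C := (norm_nonneg _).trans (hC w (Metric.mem_closedBall_self hρ.le))
  refine ContinuousLinearMap.opNorm_le_bound _ (div_nonneg hC0 hρ.le) fun x => ?_
  rcases eq_or_ne x 0 with rfl | hx
  · simp
  have hx0 : 0 < ‖x‖ := norm_pos_iff.2 hx
  set R : ℝ := ρ / ‖x‖ with hR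
  have hR0 : 0 < R := div_pos hρ hx0
  have hmem : ∀ t ∈ Metric.closedBall (0 : ℂ) R, w + t • x ∈ Metric.closedBall w ρ := by
    intro t ht
    rw [Metric.mem_closedBall, dist_zero_right] at ht
    rw [Metric.mem_closedBall, dist_eq_norm, add_sub_cancel_left, norm_smul]
    calc ‖t‖ * ‖x‖ ≤ R * ‖x‖ := by gcongr
      _ = ρ := by rw [hR]; field_simp
  have hdiff : ∀ t ∈ Metric.closedBall (0 : ℂ) R,
      DifferentiableAt ℂ (fun s : ℂ => τ (w + s • x)) t := fun t ht =>
    (hs_line_hasDerivAt (hd _ (hmem t ht))).differentiableAt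
  have hdc : DiffContOnCl ℂ (fun s : ℂ => τ (w + s • x)) (Metric.ball 0 R) := by
    refine ⟨fun t ht => (hdiff t (Metric.ball_subset_closedBall ht)).differentiableWithinAt, ?_⟩
    rw [closure_ball _ hR0.ne']
    exact fun t ht => (hdiff t ht).continuousAt.continuousWithinAt
  have h1 := Complex.norm_deriv_le_of_forall_mem_sphere_norm_le hR0 hdc (C := C)
    (fun t ht => hC _ (hmem t (Metric.sphere_subset_closedBall ht)))
  have h2 : deriv (fun s : ℂ => τ (w + s • x)) 0 = fderiv ℂ τ w x := by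
    have := (hs_line_hasDerivAt (τ := τ) (w := w) (v := x) (t := 0)
      (by simpa using hd w (Metric.mem_closedBall_self hρ.le))).deriv
    simpa using this
  rw [h2] at h1
  calc ‖fderiv ℂ τ w x‖ ≤ C / R := h1
    _ = C / ρ * ‖x‖ := by rw [hR]; field_simp

/-- the directional derivatives of a holomorphic map are holomorphic. -/
theorem hs_differentiableAt_fderiv_apply (hU : IsOpen U) (h : DifferentiableOn ℂ τ U)
    (hz : z ∈ U) (v : E) : DifferentiableAt ℂ (fun w => fderiv ℂ τ w v) z := by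
  have hda : ∀ y ∈ U, DifferentiableAt ℂ τ y := fun y hy => (h y hy).differentiableAt (hU.mem_nhds hy)
  obtain ⟨R', hR', hball⟩ := Metric.isOpen_iff.1 hU z hz
  set R : ℝ := R' / 4 with hR
  have hR0 : 0 < R := by positivity
  have hsub : Metric.closedBall z (3 * R) ⊆ U := by
    refine (Metric.closedBall_subset_ball ?_).trans hball
    rw [hR]; linarith
  -- bound of τ on the compact ball
  obtain ⟨C, hC⟩ : ∃ C, ∀ y ∈ Metric.closedBall z (3 * R), ‖τ y‖ ≤ C := by
    have hcont : ContinuousOn (fun y => ‖τ y‖) (Metric.closedBall z (3 * R)) :=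
      (h.continuousOn.mono hsub).norm
    obtain ⟨C, hC⟩ := (isCompact_closedBall z (3 * R)).bddAbove_image hcont
    exact ⟨C, fun y hy => hC ⟨y, hy, rfl⟩⟩
  -- bound of the derivative on the smaller ball
  have hK : ∀ y ∈ Metric.closedBall z (2 * R), ‖fderiv ℂ τ y‖ ≤ C / R := by
    intro y hy
    have hyy : Metric.closedBall y R ⊆ Metric.closedBall z (3 * R) := by
      intro x hx
      rw [Metric.mem_closedBall] at hx hy ⊢
      linarith [dist_triangle x y z]
    exact hs_norm_fderiv_le hR0 (fun x hx => hda x (hsub (hyy hx))) (fun x hx => hC x (hyy hx))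
  -- the radius of the circle
  set r : ℝ := R / (‖v‖ + 1) with hr
  have hv1 : 0 < ‖v‖ + 1 := by positivity
  have hr0 : 0 < r := div_pos hR0 hv1
  have hrv : r * ‖v‖ ≤ R := by
    rw [hr, div_mul_eq_mul_div, div_le_iff₀ hv1]
    nlinarith [norm_nonneg v]
  have hmem : ∀ w ∈ Metric.ball z R, ∀ t ∈ Metric.closedBall (0 : ℂ) r,
      w + t • v ∈ Metric.closedBall z (2 * R) := by
    intro w hw t ht
    rw [Metric.mem_closedBall, dist_zero_right] at ht
    rw [Metric.mem_ball, dist_eq_norm] at hw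
    rw [Metric.mem_closedBall, dist_eq_norm]
    have h1 : ‖t • v‖ ≤ R := by
      rw [norm_smul]
      exact (mul_le_mul_of_nonneg_right ht (norm_nonneg v)).trans hrv
    calc ‖w + t • v - z‖ = ‖(w - z) + t • v‖ := by congr 1; abel
      _ ≤ ‖w - z‖ + ‖t • v‖ := norm_add_le _ _
      _ ≤ 2 * R := by linarith
  have hsub2 : Metric.closedBall z (2 * R) ⊆ U :=
    (Metric.closedBall_subset_closedBall (by linarith)).trans hsub
  have hγ : ∀ θ : ℝ, circleMap 0 r θ ∈ Metric.closedBall (0 : ℂ) r := fun θ =>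
    Metric.sphere_subset_closedBall (circleMap_mem_sphere 0 hr0.le θ)
  -- Cauchy formula
  have hcauchy : ∀ w ∈ Metric.ball z R, fderiv ℂ τ w v =
      (2 * π * Complex.I : ℂ)⁻¹ • ∫ θ in (0 : ℝ)..(2 * π),
        (deriv (circleMap 0 r) θ * ((circleMap 0 r θ) ^ 2)⁻¹) • τ (w + circleMap 0 r θ • v) := by
    intro w hw
    set V : Set ℂ := (fun s : ℂ => w + s • v) ⁻¹' U with hV
    have hVo : IsOpen V := hU.preimage (by fun_prop)
    have hcb : Metric.closedBall (0 : ℂ) r ⊆ V := fun t ht => hsub2 (hmem w hw t ht)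
    have hdV : DifferentiableOn ℂ (fun s : ℂ => τ (w + s • v)) V := fun t ht =>
      (hs_line_hasDerivAt (hda _ ht)).differentiableAt.differentiableWithinAt
    have h1 := Complex.two_pi_I_inv_smul_circleIntegral_sub_sq_inv_smul_of_differentiable hVo hcb hdV
      (Metric.mem_ball_self hr0)
    have h2 : deriv (fun s : ℂ => τ (w + s • v)) 0 = fderiv ℂ τ w v := by
      have h3 : w + (0 : ℂ) • v ∈ U := hcb (Metric.mem_closedBall_self hr0.le)
      have := (hs_line_hasDerivAt (τ := τ) (w := w) (v := v) (t := 0) (hda _ h3)).deriv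
      simpa using this
    rw [← h2, ← h1]
    congr 1
    simp only [circleIntegral, sub_zero, smul_smul]
  -- differentiation under the integral sign
  set c : ℝ → ℂ := fun θ => deriv (circleMap 0 r) θ * ((circleMap 0 r θ) ^ 2)⁻¹ with hc
  have hcc : Continuous c := by
    have h1 : Continuous fun θ : ℝ => deriv (circleMap 0 r) θ := by
      simp only [deriv_circleMap]
      fun_prop
    have h2 : Continuous fun θ : ℝ => ((circleMap 0 r θ) ^ 2)⁻¹ :=
      ((continuous_circleMap 0 r).pow 2).inv₀ fun θ =>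
        pow_ne_zero _ (circleMap_ne_center hr0.ne')
    exact h1.mul h2
  have hcn : ∀ θ, ‖c θ‖ ≤ 1 / r := by
    intro θ
    simp only [hc, norm_mul, norm_inv, norm_pow, deriv_circleMap, Complex.norm_I, mul_one,
      norm_circleMap_zero, abs_of_pos hr0]
    apply le_of_eq
    field_simp
  have hFcont : ∀ w ∈ Metric.ball z R, Continuous fun θ : ℝ => c θ • τ (w + circleMap 0 r θ • v) := by
    intro w hw
    refine hcc.smul ?_
    refine h.continuousOn.comp_continuous (by fun_prop) fun θ => hsub2 (hmem w hw _ (hγ θ))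
  have hmain : HasFDerivAt (fun w => ∫ θ in (0 : ℝ)..(2 * π), c θ • τ (w + circleMap 0 r θ • v))
      (∫ θ in (0 : ℝ)..(2 * π), c θ • fderiv ℂ τ (z + circleMap 0 r θ • v)) z := by
    refine intervalIntegral.hasFDerivAt_integral_of_dominated_of_fderiv_le (𝕜 := ℂ)
      (F := fun w θ => c θ • τ (w + circleMap 0 r θ • v))
      (F' := fun w θ => c θ • fderiv ℂ τ (w + circleMap 0 r θ • v))
      (bound := fun _ => 1 / r * (C / R)) (Metric.ball_mem_nhds z hR0) ?_ ?_ ?_ ?_ ?_ ?_
    · filter_upwards [Metric.ball_mem_nhds z hR0] with w hw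
      exact (hFcont w hw).aestronglyMeasurable
    · exact (hFcont z (Metric.mem_ball_self hR0)).intervalIntegrable _ _
    · let _ : MeasurableSpace E := borel E
      have : BorelSpace E := ⟨rfl⟩
      have h1 : Measurable fun θ : ℝ => fderiv ℂ τ (z + circleMap 0 r θ • v) :=
        (measurable_fderiv ℂ τ).comp (Continuous.measurable (by fun_prop))
      exact (hcc.measurable.smul h1).aestronglyMeasurable
    · refine Filter.Eventually.of_forall fun θ _ w hw => ?_
      rw [norm_smul]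
      have hCR : 0 ≤ C / R := (norm_nonneg _).trans (hK _ (hmem w hw _ (hγ θ)))
      exact mul_le_mul (hcn θ) (hK _ (hmem w hw _ (hγ θ))) (norm_nonneg _) (by positivity)
    · exact intervalIntegrable_const
    · refine Filter.Eventually.of_forall fun θ _ w hw => ?_
      have h1 : HasFDerivAt τ (fderiv ℂ τ (w + circleMap 0 r θ • v)) (w + circleMap 0 r θ • v) :=
        (hda _ (hsub2 (hmem w hw _ (hγ θ)))).hasFDerivAt
      have h2 : HasFDerivAt (fun w : E => w + circleMap 0 r θ • v) (ContinuousLinearMap.id ℂ E) w :=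
        (hasFDerivAt_id w).add_const _
      have h3 := (h1.comp w h2).const_smul (c θ)
      rw [ContinuousLinearMap.comp_id] at h3
      exact h3
  have hfin : DifferentiableAt ℂ (fun w => (2 * π * Complex.I : ℂ)⁻¹ •
      ∫ θ in (0 : ℝ)..(2 * π), c θ • τ (w + circleMap 0 r θ • v)) z :=
    hmain.differentiableAt.const_smul _
  refine hfin.congr_of_eventuallyEq ?_
  filter_upwards [Metric.ball_mem_nhds z hR0] with w hw
  exact hcauchy w hw

/-- a family of continuous linear maps on a finite dimensional space is differentiable as soon as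
all its evaluations are. -/
theorem hs_differentiableAt_clm {G : Type} [NormedAddCommGroup G] [NormedSpace ℂ G]
    {L : G → E →L[ℂ] F} {x : G} (h : ∀ v, DifferentiableAt ℂ (fun w => L w v) x) :
    DifferentiableAt ℂ L x := by
  set b := Module.finBasis ℂ E with hb
  have h1 : L = fun w => ∑ i, (LinearMap.toContinuousLinearMap (b.coord i)).smulRight (L w (b i)) := by
    funext w
    ext v
    simp only [_root_.sum_apply, ContinuousLinearMap.smulRight_apply,
      LinearMap.coe_toContinuousLinearMap', Module.Basis.coord_apply]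
    conv_lhs => rw [← b.sum_repr v]
    rw [map_sum]
    refine Finset.sum_congr rfl fun i _ => ?_
    rw [map_smul]
  rw [h1]
  refine DifferentiableAt.fun_sum fun i _ => ?_
  exact ((ContinuousLinearMap.smulRightL ℂ E F
    (LinearMap.toContinuousLinearMap (b.coord i))).differentiableAt).comp x (h (b i))

/-- the derivative of a holomorphic map is holomorphic. -/
theorem hol_differentiableOn_fderiv (hU : IsOpen U) (h : DifferentiableOn ℂ τ U) :
    DifferentiableOn ℂ (fderiv ℂ τ) U := fun _ hz =>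
  (hs_differentiableAt_clm fun v => hs_differentiableAt_fderiv_apply hU h hz v).differentiableWithinAt

theorem hs_contDiffOn_nat (n : ℕ) : ∀ {F : Type} [NormedAddCommGroup F] [NormedSpace ℂ F]
    [FiniteDimensional ℂ F] {τ : E → F}, IsOpen U → DifferentiableOn ℂ τ U →
    ContDiffOn ℂ n τ U := by
  induction n with
  | zero =>
    intro F _ _ _ τ _ h
    exact contDiffOn_zero.2 h.continuousOn
  | succ n ih =>
    intro F _ _ _ τ hU h
    have : ((n + 1 : ℕ) : WithTop ℕ∞) = (n : WithTop ℕ∞) + 1 := by push_cast; rfl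
    rw [this, contDiffOn_succ_iff_fderiv_of_isOpen hU]
    refine ⟨h, fun hn => ?_, ih hU (hol_differentiableOn_fderiv hU h)⟩
    exact absurd hn (by simp)

theorem hol_contDiffOn (hU : IsOpen U) (h : DifferentiableOn ℂ τ U) : ContDiffOn ℂ ∞ τ U :=
  contDiffOn_infty.2 fun n => hs_contDiffOn_nat n hU h

theorem hol_contDiffOn_real (hU : IsOpen U) (h : DifferentiableOn ℂ τ U) :
    ContDiffOn ℝ ∞ τ U := (hol_contDiffOn hU h).restrict_scalars ℝ

/-- an open set on which `τ` is holomorphic. -/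
theorem hs_exists_open (h : ∀ᶠ w in 𝓝 z, DifferentiableAt ℂ τ w) :
    ∃ V : Set E, IsOpen V ∧ z ∈ V ∧ DifferentiableOn ℂ τ V := by
  obtain ⟨V, hV, hVo, hzV⟩ := eventually_nhds_iff.1 h
  exact ⟨V, hVo, hzV, fun w hw => (hV w hw).differentiableWithinAt⟩

theorem hol_contDiffAt (h : ∀ᶠ w in 𝓝 z, DifferentiableAt ℂ τ w) : ContDiffAt ℂ ∞ τ z := by
  obtain ⟨V, hVo, hzV, hd⟩ := hs_exists_open h
  exact (hol_contDiffOn hVo hd).contDiffAt (hVo.mem_nhds hzV)

theorem hol_contDiffAt_real (h : ∀ᶠ w in 𝓝 z, DifferentiableAt ℂ τ w) :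
    ContDiffAt ℝ ∞ τ z := (hol_contDiffAt h).restrict_scalars ℝ

/-- "holomorphic near `z`" from "holomorphic on an open set". -/
theorem hol_eventually_of_differentiableOn (hU : IsOpen U) (h : DifferentiableOn ℂ τ U)
    (hz : z ∈ U) : ∀ᶠ w in 𝓝 z, DifferentiableAt ℂ τ w := by
  filter_upwards [hU.mem_nhds hz] with w hw
  exact (h w hw).differentiableAt (hU.mem_nhds hw)

theorem hol_eventually_fderiv (h : ∀ᶠ w in 𝓝 z, DifferentiableAt ℂ τ w) :
    ∀ᶠ w in 𝓝 z, DifferentiableAt ℂ (fderiv ℂ τ) w := by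
  obtain ⟨V, hVo, hzV, hd⟩ := hs_exists_open h
  exact hol_eventually_of_differentiableOn hVo (hol_differentiableOn_fderiv hVo hd) hzV

end general

section jac

variable {ι κ : Type} [Fintype ι] [DecidableEq ι] [Fintype κ] [DecidableEq κ]
variable {τ : CE ι → CE κ} {U : Set (CE ι)} {z : CE ι}

/-- components of a holomorphic map. -/
theorem differentiableAt_comp_apply (h : DifferentiableAt ℂ τ z) (a : κ) :
    DifferentiableAt ℂ (fun w => τ w a) z :=
  ((EuclideanSpace.proj (𝕜 := ℂ) a).differentiableAt).comp z h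

theorem hs_differentiableAt_jac (h : DifferentiableAt ℂ (fderiv ℂ τ) z) (a : κ) (k : ι) :
    DifferentiableAt ℂ (fun w => jac τ w a k) z := by
  have h1 : DifferentiableAt ℂ (fun w => fderiv ℂ τ w (eb k)) z :=
    h.clm_apply (differentiableAt_const _)
  exact differentiableAt_comp_apply h1 a

/-- the entries of the complex Jacobian are holomorphic. -/
theorem differentiableOn_jac (hU : IsOpen U) (h : DifferentiableOn ℂ τ U) (a : κ) (k : ι) :
    DifferentiableOn ℂ (fun w => jac τ w a k) U := fun w hw =>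
  (hs_differentiableAt_jac ((hol_differentiableOn_fderiv hU h w hw).differentiableAt
    (hU.mem_nhds hw)) a k).differentiableWithinAt

theorem eventually_differentiableAt_jac (h : ∀ᶠ w in 𝓝 z, DifferentiableAt ℂ τ w) (a : κ)
    (k : ι) : ∀ᶠ w in 𝓝 z, DifferentiableAt ℂ (fun w => jac τ w a k) w := by
  filter_upwards [hol_eventually_fderiv h] with w hw
  exact hs_differentiableAt_jac hw a k

theorem differentiableAt_jac (h : ∀ᶠ w in 𝓝 z, DifferentiableAt ℂ τ w) (a : κ) (k : ι) :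
    DifferentiableAt ℂ (fun w => jac τ w a k) z :=
  (eventually_differentiableAt_jac h a k).self_of_nhds

theorem contDiffOn_jac (hU : IsOpen U) (h : DifferentiableOn ℂ τ U) (a : κ) (k : ι) :
    ContDiffOn ℝ ∞ (fun w => jac τ w a k) U :=
  hol_contDiffOn_real hU (differentiableOn_jac hU h a k)

/-- the determinant of the Jacobian is holomorphic. -/
theorem differentiableOn_det_jac {τ : CE ι → CE ι} (hU : IsOpen U) (h : DifferentiableOn ℂ τ U) :
    DifferentiableOn ℂ (fun w => (jac τ w).det) U := by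
  simp only [Matrix.det_apply]
  refine DifferentiableOn.fun_sum fun σ _ => ?_
  refine DifferentiableOn.const_smul ?_ _
  intro w hw
  exact (HasFDerivWithinAt.finsetProd fun i _ =>
    (differentiableOn_jac hU h (σ i) i w hw).hasFDerivWithinAt).differentiableWithinAt

/-- `∂_j F` of a holomorphic function is holomorphic. -/
theorem differentiableOn_dz {F : CE ι → ℂ} (hU : IsOpen U) (h : DifferentiableOn ℂ F U) (j : ι) :
    DifferentiableOn ℂ (dz j F) U := by
  have h1 : DifferentiableOn ℂ (fun w => fderiv ℂ F w (eb j)) U :=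
    (hol_differentiableOn_fderiv hU h).clm_apply (differentiableOn_const _)
  refine h1.congr fun w hw => ?_
  exact dz_of_differentiableAt ((h w hw).differentiableAt (hU.mem_nhds hw))

theorem eventually_differentiableAt_dz {F : CE ι → ℂ}
    (h : ∀ᶠ w in 𝓝 z, DifferentiableAt ℂ F w) (j : ι) :
    ∀ᶠ w in 𝓝 z, DifferentiableAt ℂ (dz j F) w := by
  obtain ⟨V, hVo, hzV, hd⟩ := hs_exists_open h
  exact hol_eventually_of_differentiableOn hVo (differentiableOn_dz hVo hd j) hzV

end jac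

end Claimed.Agent.R316
end
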