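/- Packed by merge_tool.py (helper293): 3 modules of Claimed.Agent.R316 in one file, same declarations.
   Old modules, in this order: CM.Param, CM.Trans, CM.Top -/
import Claimed.Agent.R316.Pack007

/- ===== packed: Claimed.Agent.R316.CM.Param ===== -/
section
/-!
# Row 316, CM-1a: one parametrisation (`IsParam`)

Statement file written by helper55.  Inverse, relatively open images, neighbourhood filters,
the smooth local left inverse of the immersion (inverse function theorem), smooth maps into the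
carrier are smooth in coordinates.  Elementary point-set topology / calculus.
-/

set_option autoImplicit false
open scoped ContDiff ComplexOrder Topology

namespace Claimed.Agent.R316

variable {V : Type} [NormedAddCommGroup V] [NormedSpace ℝ V]
variable {ι : Type} [Fintype ι]

/-! ### 1. One parametrisation -/

section param

variable {M : Set V} {Φ : CE ι → V} {U : Set (CE ι)}

theorem IsParam.continuousOn (hp : IsParam M Φ U) : ContinuousOn Φ U :=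
  hp.smooth.continuousOn

theorem IsParam.contDiffAt (hp : IsParam M Φ U) {z : CE ι} (hz : z ∈ U) : ContDiffAt ℝ ∞ Φ z :=
  (hp.smooth z hz).contDiffAt (hp.isOpen.mem_nhds hz)

theorem IsParam.differentiableAt (hp : IsParam M Φ U) {z : CE ι} (hz : z ∈ U) :
    DifferentiableAt ℝ Φ z :=
  (hp.contDiffAt hz).differentiableAt (by simp)

theorem IsParam.image_subset (hp : IsParam M Φ U) : Φ '' U ⊆ M := by
  obtain ⟨W, _, h⟩ := hp.image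
  rw [h]
  exact Set.inter_subset_left

theorem IsParam.mem (hp : IsParam M Φ U) {z : CE ι} (hz : z ∈ U) : Φ z ∈ M :=
  hp.image_subset ⟨z, hz, rfl⟩

/-- `Φ⁻¹ (Φ z) = z`. -/
theorem IsParam.leftInv (hp : IsParam M Φ U) {z : CE ι} (hz : z ∈ U) :
    Function.invFunOn Φ U (Φ z) = z :=
  hp.injOn.leftInvOn_invFunOn hz

theorem IsParam.invFunOn_mem (_hp : IsParam M Φ U) {x : V} (hx : x ∈ Φ '' U) :
    Function.invFunOn Φ U x ∈ U :=
  Function.invFunOn_mem hx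

/-- `Φ (Φ⁻¹ x) = x`. -/
theorem IsParam.rightInv (_hp : IsParam M Φ U) {x : V} (hx : x ∈ Φ '' U) :
    Φ (Function.invFunOn Φ U x) = x :=
  Function.invFunOn_eq hx

theorem IsParam.invFunOn_eq_iff (hp : IsParam M Φ U) {x : V} {z : CE ι} (hz : z ∈ U) :
    (x ∈ Φ '' U ∧ Function.invFunOn Φ U x = z) ↔ Φ z = x := by
  constructor
  · rintro ⟨hx, rfl⟩
    exact hp.rightInv hx
  · rintro rfl
    exact ⟨⟨z, hz, rfl⟩, hp.leftInv hz⟩

theorem IsParam.isOpen_inter_preimage (hp : IsParam M Φ U) {O : Set V} (hO : IsOpen O) :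
    IsOpen (U ∩ Φ ⁻¹' O) :=
  hp.continuousOn.isOpen_inter_preimage hp.isOpen hO

/-- images of open subsets are relatively open. -/
theorem IsParam.exists_isOpen_image (hp : IsParam M Φ U) {U' : Set (CE ι)} (hU' : IsOpen U')
    (hsub : U' ⊆ U) : ∃ O : Set V, IsOpen O ∧ Φ '' U' = M ∩ O := by
  obtain ⟨W, hW, hWeq⟩ := hp.image
  obtain ⟨O₁, hO₁, hO₁eq⟩ := (continuousOn_iff'.1 hp.cont_inv) U' hU'
  refine ⟨W ∩ O₁, hW.inter hO₁, ?_⟩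
  have h1 : Φ '' U' = Function.invFunOn Φ U ⁻¹' U' ∩ Φ '' U := by
    ext x
    constructor
    · rintro ⟨w, hw, rfl⟩
      refine ⟨?_, ⟨w, hsub hw, rfl⟩⟩
      show Function.invFunOn Φ U (Φ w) ∈ U'
      rw [hp.leftInv (hsub hw)]
      exact hw
    · rintro ⟨hx1, hx2⟩
      exact ⟨Function.invFunOn Φ U x, hx1, hp.rightInv hx2⟩
  rw [h1, hO₁eq, hWeq]
  ext x
  simp only [Set.mem_inter_iff]
  tauto

/-- the inverse does not depend on the domain. -/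
theorem IsParam.invFunOn_mono (hp : IsParam M Φ U) {U' : Set (CE ι)} (hsub : U' ⊆ U) {x : V}
    (hx : x ∈ Φ '' U') : Function.invFunOn Φ U' x = Function.invFunOn Φ U x := by
  obtain ⟨w, hw, rfl⟩ := hx
  rw [hp.leftInv (hsub hw)]
  exact (hp.injOn.mono hsub).leftInvOn_invFunOn hw

/-- restriction of a parametrisation. -/
theorem IsParam.mono (hp : IsParam M Φ U) {U' : Set (CE ι)} (hU' : IsOpen U') (hsub : U' ⊆ U) :
    IsParam M Φ U' := by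
  refine ⟨hU', hp.smooth.mono hsub, fun z hz => hp.immersion z (hsub hz), hp.injOn.mono hsub,
    hp.exists_isOpen_image hU' hsub, ?_⟩
  refine (hp.cont_inv.mono (Set.image_mono hsub)).congr ?_
  intro x hx
  exact hp.invFunOn_mono hsub hx

/-- neighbourhood form: points of `M` near `Φ z` are of the form `Φ w`, `w` near `z`. -/
theorem IsParam.eventually_mem_image (hp : IsParam M Φ U) {z : CE ι} (hz : z ∈ U)
    {N : Set (CE ι)} (hN : N ∈ 𝓝 z) : ∀ᶠ x in 𝓝[M] (Φ z), x ∈ Φ '' (N ∩ U) := by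
  obtain ⟨N', hN'N, hN'o, hzN'⟩ := mem_nhds_iff.1 hN
  obtain ⟨O, hO, hOeq⟩ := hp.exists_isOpen_image (hN'o.inter hp.isOpen) Set.inter_subset_right
  have hzO : Φ z ∈ O := by
    have : Φ z ∈ M ∩ O := hOeq ▸ ⟨z, ⟨hzN', hz⟩, rfl⟩
    exact this.2
  have h1 : ∀ᶠ x in 𝓝[M] (Φ z), x ∈ M ∩ O :=
    Filter.inter_mem self_mem_nhdsWithin (mem_nhdsWithin_of_mem_nhds (hO.mem_nhds hzO))
  filter_upwards [h1] with x hx
  rw [← hOeq] at hx
  exact Set.image_mono (Set.inter_subset_inter_left _ hN'N) hx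

theorem IsParam.tendsto_invFunOn (hp : IsParam M Φ U) {z : CE ι} (hz : z ∈ U) :
    Filter.Tendsto (Function.invFunOn Φ U) (𝓝[M] (Φ z)) (𝓝 z) := by
  intro N hN
  have h := hp.eventually_mem_image hz hN
  refine Filter.mem_map.2 ?_
  filter_upwards [h] with x hx
  obtain ⟨w, hw, rfl⟩ := hx
  show Function.invFunOn Φ U (Φ w) ∈ N
  rw [hp.leftInv hw.2]
  exact hw.1

/-- `map Φ (𝓝 z) = 𝓝[M] (Φ z)`. -/
theorem IsParam.map_nhds_eq (hp : IsParam M Φ U) {z : CE ι} (hz : z ∈ U) :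
    Filter.map Φ (𝓝 z) = 𝓝[M] (Φ z) := by
  apply le_antisymm
  · refine tendsto_nhdsWithin_of_tendsto_nhds_of_eventually_within _
      (hp.differentiableAt hz).continuousAt ?_
    filter_upwards [hp.isOpen.mem_nhds hz] with w hw using hp.mem hw
  · intro S hS
    have hS' : Φ ⁻¹' S ∈ 𝓝 z := Filter.mem_map.1 hS
    filter_upwards [hp.eventually_mem_image hz hS'] with x hx
    obtain ⟨w, hw, rfl⟩ := hx
    exact hw.1

/-- **smooth local left inverse** of the immersion `Φ` (inverse function theorem applied to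
`(w, c) ↦ Φ w + c` on `ℂ^ι × C`, `C` a complement of the range of `dΦ_z`). -/
theorem IsParam.exists_smooth_leftInverse [FiniteDimensional ℝ V] (hp : IsParam M Φ U) {z : CE ι}
    (hz : z ∈ U) : ∃ (O : Set V) (ρ : V → CE ι), IsOpen O ∧ Φ z ∈ O ∧ ContDiffOn ℝ ∞ ρ O ∧
      ∀ x ∈ M ∩ O, x ∈ Φ '' U ∧ ρ x = Function.invFunOn Φ U x := by
  classical
  -- a continuous left inverse `P` of `dΦ_z`
  obtain ⟨P₀, hP₀⟩ := LinearMap.exists_leftInverse_of_injective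
    (fderiv ℝ Φ z : CE ι →ₗ[ℝ] V) (LinearMap.ker_eq_bot.2 (hp.immersion z hz))
  let P : V →L[ℝ] CE ι := LinearMap.toContinuousLinearMap P₀
  have hP : ∀ v, P (fderiv ℝ Φ z v) = v := fun v => by
    have h := LinearMap.congr_fun hP₀ v
    exact h

  let ψ : CE ι → CE ι := fun w => P (Φ w)
  have hψU : ContDiffOn ℝ ∞ ψ U := P.contDiff.comp_contDiffOn hp.smooth
  have hψat : ∀ w ∈ U, ContDiffAt ℝ ∞ ψ w := fun w hw =>
    (hψU w hw).contDiffAt (hp.isOpen.mem_nhds hw)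
  have hψd : ∀ w ∈ U, HasFDerivAt ψ (fderiv ℝ ψ w) w := fun w hw =>
    ((hψat w hw).differentiableAt (by simp)).hasFDerivAt
  have hfd : fderiv ℝ ψ z = ((ContinuousLinearEquiv.refl ℝ (CE ι) : CE ι ≃L[ℝ] CE ι) :
      CE ι →L[ℝ] CE ι) := by
    have h1 : HasFDerivAt ψ (P.comp (fderiv ℝ Φ z)) z :=
      P.hasFDerivAt.comp z (hp.differentiableAt hz).hasFDerivAt
    rw [h1.fderiv]
    ext1 v
    simp [hP]
  have hz' : HasFDerivAt ψ ((ContinuousLinearEquiv.refl ℝ (CE ι) : CE ι ≃L[ℝ] CE ι) :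
      CE ι →L[ℝ] CE ι) z := hfd ▸ hψd z hz
  let e := ContDiffAt.toOpenPartialHomeomorph ψ (hψat z hz) hz' (by simp)
  have he : (e : CE ι → CE ι) = ψ := ContDiffAt.toOpenPartialHomeomorph_coe _ _ _
  have hze : z ∈ e.source := ContDiffAt.mem_toOpenPartialHomeomorph_source _ _ _
  -- the set where `dψ` is invertible
  have hcont : ContinuousOn (fderiv ℝ ψ) U := hψU.continuousOn_fderiv_of_isOpen hp.isOpen (by simp)
  let S : Set (CE ι) := U ∩ fderiv ℝ ψ ⁻¹'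
    (Set.range (ContinuousLinearEquiv.toContinuousLinearMap : (CE ι ≃L[ℝ] CE ι) → _))
  have hS : IsOpen S := hcont.isOpen_inter_preimage hp.isOpen ContinuousLinearEquiv.isOpen
  have hzS : z ∈ S := ⟨hz, by
    rw [Set.mem_preimage, hfd]; exact ⟨_, rfl⟩⟩
  let N : Set (CE ι) := e.source ∩ S
  have hN : IsOpen N := e.open_source.inter hS
  have hzN : z ∈ N := ⟨hze, hzS⟩
  have hNU : N ⊆ U := fun w hw => hw.2.1
  let O' : Set (CE ι) := e.target ∩ e.symm ⁻¹' N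
  have hO' : IsOpen O' := e.isOpen_inter_preimage_symm hN
  obtain ⟨O₂, hO₂, hO₂eq⟩ := hp.exists_isOpen_image hN hNU
  refine ⟨P ⁻¹' O' ∩ O₂, fun x => e.symm (P x), (hO'.preimage P.continuous).inter hO₂, ⟨?_, ?_⟩,
    ?_, ?_⟩
  · show P (Φ z) ∈ O'
    have h1 : P (Φ z) = e z := by rw [he]
    rw [h1]
    exact ⟨e.map_source hze, by
      show e.symm (e z) ∈ N
      rw [e.left_inv hze]; exact hzN⟩
  · have : Φ z ∈ M ∩ O₂ := hO₂eq ▸ ⟨z, hzN, rfl⟩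
    exact this.2
  · intro x hx
    have hx' : P x ∈ O' := hx.1
    have hw : e.symm (P x) ∈ N := hx'.2
    obtain ⟨f₀, hf₀⟩ := hw.2.2
    have h1 : ContDiffAt ℝ ∞ e.symm (P x) := by
      refine e.contDiffAt_symm (f₀' := f₀) hx'.1 ?_ ?_
      · rw [he]
        have := hψd _ (hNU hw)
        rw [← hf₀] at this
        exact this
      · rw [he]; exact hψat _ (hNU hw)
    exact (h1.comp x P.contDiff.contDiffAt).contDiffWithinAt
  · rintro x ⟨hxM, -, hxO₂⟩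
    have hx : x ∈ Φ '' N := hO₂eq ▸ ⟨hxM, hxO₂⟩
    obtain ⟨w, hw, rfl⟩ := hx
    refine ⟨⟨w, hNU hw, rfl⟩, ?_⟩
    rw [hp.leftInv (hNU hw)]
    have h1 : P (Φ w) = e w := by rw [he]
    show e.symm (P (Φ w)) = w
    rw [h1, e.left_inv hw.1]

/-- a smooth map into `M` is smooth in coordinates. -/
theorem IsParam.contDiffWithinAt_invFunOn_comp [FiniteDimensional ℝ V] {E : Type}
    [NormedAddCommGroup E] [NormedSpace ℝ E] (hp : IsParam M Φ U) {γ : E → V} {s : Set E} {t : E}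
    {n : WithTop ℕ∞} (hn : n ≤ ∞) (hγ : ContDiffWithinAt ℝ n γ s t) (hM : ∀ y ∈ s, γ y ∈ M)
    (ht : t ∈ s) (hx : γ t ∈ Φ '' U) : ContDiffWithinAt ℝ n (Function.invFunOn Φ U ∘ γ) s t := by
  obtain ⟨z, hz, hzt⟩ := hx
  obtain ⟨O, ρ, hO, hzO, hρ, hρeq⟩ := hp.exists_smooth_leftInverse hz
  rw [hzt] at hzO
  have hρat : ContDiffAt ℝ n ρ (γ t) := ((hρ _ hzO).contDiffAt (hO.mem_nhds hzO)).of_le hn
  have h1 : ContDiffWithinAt ℝ n (ρ ∘ γ) s t := hρat.comp_contDiffWithinAt t hγ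
  refine h1.congr_of_eventuallyEq ?_ ?_
  · have h2 : ∀ᶠ y in 𝓝[s] t, γ y ∈ O := hγ.continuousWithinAt (hO.mem_nhds hzO)
    filter_upwards [h2, self_mem_nhdsWithin] with y hy hys
    exact ((hρeq _ ⟨hM y hys, hy⟩).2).symm
  · exact ((hρeq _ ⟨hM t ht, hzO⟩).2).symm

theorem IsParam.contDiffAt_invFunOn_comp [FiniteDimensional ℝ V] {E : Type}
    [NormedAddCommGroup E] [NormedSpace ℝ E] (hp : IsParam M Φ U) {γ : E → V} {t : E}
    {n : WithTop ℕ∞} (hn : n ≤ ∞) (hγ : ContDiffAt ℝ n γ t) (hM : ∀ᶠ y in 𝓝 t, γ y ∈ M)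
    (hx : γ t ∈ Φ '' U) : ContDiffAt ℝ n (Function.invFunOn Φ U ∘ γ) t := by
  obtain ⟨z, hz, hzt⟩ := hx
  obtain ⟨O, ρ, hO, hzO, hρ, hρeq⟩ := hp.exists_smooth_leftInverse hz
  rw [hzt] at hzO
  have hρat : ContDiffAt ℝ n ρ (γ t) := ((hρ _ hzO).contDiffAt (hO.mem_nhds hzO)).of_le hn
  have h1 : ContDiffAt ℝ n (ρ ∘ γ) t := hρat.comp t hγ
  refine h1.congr_of_eventuallyEq ?_
  have h2 : ∀ᶠ y in 𝓝 t, γ y ∈ O := hγ.continuousAt (hO.mem_nhds hzO)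
  filter_upwards [h2, hM] with y hy hyM
  exact ((hρeq _ ⟨hyM, hy⟩).2).symm

/-- differentiable version, with the value of the derivative: `dγ = dΦ (d(Φ⁻¹ ∘ γ))`. -/
theorem IsParam.hasFDerivAt_invFunOn_comp [FiniteDimensional ℝ V] {E : Type}
    [NormedAddCommGroup E] [NormedSpace ℝ E] (hp : IsParam M Φ U) {γ : E → V} {t : E}
    (hγ : DifferentiableAt ℝ γ t) (hM : ∀ᶠ y in 𝓝 t, γ y ∈ M) (hx : γ t ∈ Φ '' U) :
    DifferentiableAt ℝ (Function.invFunOn Φ U ∘ γ) t ∧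
    ∀ v : E, fderiv ℝ γ t v =
      fderiv ℝ Φ (Function.invFunOn Φ U (γ t)) (fderiv ℝ (Function.invFunOn Φ U ∘ γ) t v) := by
  obtain ⟨z, hz, hzt⟩ := hx
  obtain ⟨O, ρ, hO, hzO, hρ, hρeq⟩ := hp.exists_smooth_leftInverse hz
  rw [hzt] at hzO
  have hρat : DifferentiableAt ℝ ρ (γ t) :=
    ((hρ _ hzO).contDiffAt (hO.mem_nhds hzO)).differentiableAt (by simp)
  have h1 : DifferentiableAt ℝ (ρ ∘ γ) t := hρat.comp t hγ
  have h2 : ∀ᶠ y in 𝓝 t, γ y ∈ O := hγ.continuousAt (hO.mem_nhds hzO)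
  have h3 : (Function.invFunOn Φ U ∘ γ) =ᶠ[𝓝 t] (ρ ∘ γ) := by
    filter_upwards [h2, hM] with y hy hyM
    exact ((hρeq _ ⟨hyM, hy⟩).2).symm
  have hd : DifferentiableAt ℝ (Function.invFunOn Φ U ∘ γ) t := h3.differentiableAt_iff.2 h1
  refine ⟨hd, fun v => ?_⟩
  have h4 : γ =ᶠ[𝓝 t] (Φ ∘ (Function.invFunOn Φ U ∘ γ)) := by
    filter_upwards [h2, hM] with y hy hyM
    exact (hp.rightInv (hρeq _ ⟨hyM, hy⟩).1).symm
  have hzc : Function.invFunOn Φ U (γ t) = z := by rw [← hzt]; exact hp.leftInv hz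
  rw [h4.fderiv_eq, hzc]
  have h5 : DifferentiableAt ℝ Φ ((Function.invFunOn Φ U ∘ γ) t) := by
    show DifferentiableAt ℝ Φ (Function.invFunOn Φ U (γ t))
    rw [hzc]; exact hp.differentiableAt hz
  rw [fderiv_comp t h5 hd]
  show fderiv ℝ Φ (Function.invFunOn Φ U (γ t)) _ = _
  rw [hzc]
  rfl

/-- velocity of a curve in `M` is tangent, and `coVec` recovers the coordinate velocity. -/
theorem IsParam.coVec_deriv [FiniteDimensional ℝ V] [DecidableEq ι] (hp : IsParam M Φ U)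
    {γ : ℝ → V} {t : ℝ} (hγ : DifferentiableAt ℝ γ t) (hM : ∀ᶠ y in 𝓝 t, γ y ∈ M)
    (hx : γ t ∈ Φ '' U) :
    coVec Φ (Function.invFunOn Φ U (γ t)) (deriv γ t) = deriv (Function.invFunOn Φ U ∘ γ) t := by
  obtain ⟨_, h⟩ := hp.hasFDerivAt_invFunOn_comp hγ hM hx
  have h1 := h 1
  rw [fderiv_apply_one_eq_deriv, fderiv_apply_one_eq_deriv] at h1
  rw [h1]
  exact Function.leftInverse_invFun (hp.immersion _ (hp.invFunOn_mem hx)) _

theorem IsParam.coVec_fderiv [DecidableEq ι] (hp : IsParam M Φ U) {z : CE ι} (hz : z ∈ U)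
    (v : CE ι) : coVec Φ z (fderiv ℝ Φ z v) = v := by
  exact Function.leftInverse_invFun (hp.immersion z hz) v

end param

end Claimed.Agent.R316
end

/- ===== packed: Claimed.Agent.R316.CM.Trans ===== -/
section
/-!
# Row 316, CM-1b: transition maps, new parametrisations, the chosen parametrisations

Statement file written by helper55.

Notation of the docstrings: `τ = Function.invFunOn Ψ W ∘ Φ` is the transition map from the
parametrisation `(Φ,U)` to `(Ψ,W)`, defined on the overlap `D = U ∩ Φ ⁻¹' (Ψ '' W)`.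
We keep these expressions EXPLICIT (they are the ones occurring in `CMfd.compat`,
`IsHForm.compat`, `IsCanSection.compat`).
-/

set_option autoImplicit false
set_option linter.unusedSectionVars false
open scoped ContDiff ComplexOrder Topology

namespace Claimed.Agent.R316

variable {V : Type} [NormedAddCommGroup V] [NormedSpace ℝ V]
variable {ι : Type} [Fintype ι]

/-! ### 2. Transition maps -/

section trans

variable {𝓜 : CMfd V ι} {Φ Ψ : CE ι → V} {U W : Set (CE ι)}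

theorem CMfd.isOpen_dom (hΦ : 𝓜.IsHol Φ U) : IsOpen U := (𝓜.isParam hΦ).isOpen

theorem CMfd.mem_carrier (hΦ : 𝓜.IsHol Φ U) {z : CE ι} (hz : z ∈ U) : Φ z ∈ 𝓜.carrier :=
  (𝓜.isParam hΦ).mem hz

/-- the overlap is open. -/
theorem CMfd.isOpen_overlap (hΦ : 𝓜.IsHol Φ U) (hΨ : 𝓜.IsHol Ψ W) :
    IsOpen (U ∩ Φ ⁻¹' (Ψ '' W)) := by
  obtain ⟨O, hO, hOeq⟩ := (𝓜.isParam hΨ).image
  have h : U ∩ Φ ⁻¹' (Ψ '' W) = U ∩ Φ ⁻¹' O := by
    ext z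
    constructor
    · rintro ⟨hz, hz'⟩
      have : Φ z ∈ 𝓜.carrier ∩ O := hOeq ▸ hz'
      exact ⟨hz, this.2⟩
    · rintro ⟨hz, hz'⟩
      refine ⟨hz, ?_⟩
      show Φ z ∈ Ψ '' W
      rw [hOeq]
      exact ⟨CMfd.mem_carrier hΦ hz, hz'⟩
  rw [h]
  exact (𝓜.isParam hΦ).isOpen_inter_preimage hO

theorem CMfd.trans_mem (_hΦ : 𝓜.IsHol Φ U) (_hΨ : 𝓜.IsHol Ψ W) {z : CE ι}
    (hz : z ∈ U ∩ Φ ⁻¹' (Ψ '' W)) : (Function.invFunOn Ψ W ∘ Φ) z ∈ W :=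
  Function.invFunOn_mem hz.2

/-- `Ψ (τ z) = Φ z`. -/
theorem CMfd.trans_spec (_hΦ : 𝓜.IsHol Φ U) (_hΨ : 𝓜.IsHol Ψ W) {z : CE ι}
    (hz : z ∈ U ∩ Φ ⁻¹' (Ψ '' W)) : Ψ ((Function.invFunOn Ψ W ∘ Φ) z) = Φ z :=
  Function.invFunOn_eq hz.2

/-- `τ` maps the overlap of `(Φ,Ψ)` into the overlap of `(Ψ,Φ)`. -/
theorem CMfd.trans_mapsTo (hΦ : 𝓜.IsHol Φ U) (hΨ : 𝓜.IsHol Ψ W) :
    Set.MapsTo (Function.invFunOn Ψ W ∘ Φ) (U ∩ Φ ⁻¹' (Ψ '' W)) (W ∩ Ψ ⁻¹' (Φ '' U)) := by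
  intro z hz
  refine ⟨CMfd.trans_mem hΦ hΨ hz, ?_⟩
  show Ψ ((Function.invFunOn Ψ W ∘ Φ) z) ∈ Φ '' U
  rw [CMfd.trans_spec hΦ hΨ hz]
  exact ⟨z, hz.1, rfl⟩

/-- if `Φ z = Ψ w` then `τ z = w`. -/
theorem CMfd.trans_eq (_hΦ : 𝓜.IsHol Φ U) (hΨ : 𝓜.IsHol Ψ W) {z w : CE ι} (hw : w ∈ W)
    (h : Φ z = Ψ w) : (Function.invFunOn Ψ W ∘ Φ) z = w := by
  show Function.invFunOn Ψ W (Φ z) = w
  rw [h]
  exact (𝓜.isParam hΨ).leftInv hw

/-- the inverse transition is a left inverse. -/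
theorem CMfd.trans_leftInv (hΦ : 𝓜.IsHol Φ U) (hΨ : 𝓜.IsHol Ψ W) {z : CE ι}
    (hz : z ∈ U ∩ Φ ⁻¹' (Ψ '' W)) :
    (Function.invFunOn Φ U ∘ Ψ) ((Function.invFunOn Ψ W ∘ Φ) z) = z := by
  exact CMfd.trans_eq hΨ hΦ hz.1 (CMfd.trans_spec hΦ hΨ hz)

theorem CMfd.trans_injOn (hΦ : 𝓜.IsHol Φ U) (hΨ : 𝓜.IsHol Ψ W) :
    Set.InjOn (Function.invFunOn Ψ W ∘ Φ) (U ∩ Φ ⁻¹' (Ψ '' W)) := by
  intro z hz w hw h
  rw [← CMfd.trans_leftInv hΦ hΨ hz, ← CMfd.trans_leftInv hΦ hΨ hw, h]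

/-- `τ` is a bijection between the two overlaps. -/
theorem CMfd.trans_bijOn (hΦ : 𝓜.IsHol Φ U) (hΨ : 𝓜.IsHol Ψ W) :
    Set.BijOn (Function.invFunOn Ψ W ∘ Φ) (U ∩ Φ ⁻¹' (Ψ '' W)) (W ∩ Ψ ⁻¹' (Φ '' U)) := by
  refine ⟨CMfd.trans_mapsTo hΦ hΨ, CMfd.trans_injOn hΦ hΨ, ?_⟩
  intro w hw
  exact ⟨_, CMfd.trans_mapsTo hΨ hΦ hw, CMfd.trans_leftInv hΨ hΦ hw⟩

/-- image of a subset of the overlap. -/
theorem CMfd.trans_image (hΦ : 𝓜.IsHol Φ U) (hΨ : 𝓜.IsHol Ψ W) {B : Set (CE ι)}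
    (hB : B ⊆ U ∩ Φ ⁻¹' (Ψ '' W)) :
    (Function.invFunOn Ψ W ∘ Φ) '' B = W ∩ Ψ ⁻¹' (Φ '' B) := by
  ext w
  constructor
  · rintro ⟨z, hz, rfl⟩
    refine ⟨CMfd.trans_mem hΦ hΨ (hB hz), ?_⟩
    show Ψ ((Function.invFunOn Ψ W ∘ Φ) z) ∈ Φ '' B
    rw [CMfd.trans_spec hΦ hΨ (hB hz)]
    exact ⟨z, hz, rfl⟩
  · rintro ⟨hw, z, hz, hzw⟩
    exact ⟨z, hz, CMfd.trans_eq hΦ hΨ hw hzw⟩

theorem CMfd.trans_differentiableAt (hΦ : 𝓜.IsHol Φ U) (hΨ : 𝓜.IsHol Ψ W) {z : CE ι}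
    (hz : z ∈ U ∩ Φ ⁻¹' (Ψ '' W)) : DifferentiableAt ℂ (Function.invFunOn Ψ W ∘ Φ) z := by
  exact (𝓜.compat hΦ hΨ z hz).differentiableAt ((CMfd.isOpen_overlap hΦ hΨ).mem_nhds hz)

theorem CMfd.trans_eventually_differentiableAt (hΦ : 𝓜.IsHol Φ U) (hΨ : 𝓜.IsHol Ψ W) {z : CE ι}
    (hz : z ∈ U ∩ Φ ⁻¹' (Ψ '' W)) :
    ∀ᶠ w in 𝓝 z, DifferentiableAt ℂ (Function.invFunOn Ψ W ∘ Φ) w := by
  filter_upwards [(CMfd.isOpen_overlap hΦ hΨ).mem_nhds hz] with w hw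
  exact CMfd.trans_differentiableAt hΦ hΨ hw

theorem CMfd.trans_contDiffOn (hΦ : 𝓜.IsHol Φ U) (hΨ : 𝓜.IsHol Ψ W) :
    ContDiffOn ℝ ∞ (Function.invFunOn Ψ W ∘ Φ) (U ∩ Φ ⁻¹' (Ψ '' W)) := by
  exact hol_contDiffOn_real (CMfd.isOpen_overlap hΦ hΨ) (𝓜.compat hΦ hΨ)

theorem CMfd.trans_contDiffAt (hΦ : 𝓜.IsHol Φ U) (hΨ : 𝓜.IsHol Ψ W) {z : CE ι}
    (hz : z ∈ U ∩ Φ ⁻¹' (Ψ '' W)) : ContDiffAt ℝ ∞ (Function.invFunOn Ψ W ∘ Φ) z := by
  exact (CMfd.trans_contDiffOn hΦ hΨ z hz).contDiffAt ((CMfd.isOpen_overlap hΦ hΨ).mem_nhds hz)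

theorem CMfd.trans_continuousAt (hΦ : 𝓜.IsHol Φ U) (hΨ : 𝓜.IsHol Ψ W) {z : CE ι}
    (hz : z ∈ U ∩ Φ ⁻¹' (Ψ '' W)) : ContinuousAt (Function.invFunOn Ψ W ∘ Φ) z :=
  (CMfd.trans_differentiableAt hΦ hΨ hz).continuousAt

/-- the real derivative of the transition map. -/
theorem CMfd.trans_hasFDerivAt_real (hΦ : 𝓜.IsHol Φ U) (hΨ : 𝓜.IsHol Ψ W) {z : CE ι}
    (hz : z ∈ U ∩ Φ ⁻¹' (Ψ '' W)) :
    HasFDerivAt (Function.invFunOn Ψ W ∘ Φ)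
      ((fderiv ℂ (Function.invFunOn Ψ W ∘ Φ) z).restrictScalars ℝ) z :=
  (CMfd.trans_differentiableAt hΦ hΨ hz).hasFDerivAt.restrictScalars ℝ

/-- near a point of the overlap, `Φ = Ψ ∘ τ`. -/
theorem CMfd.eventually_eq_comp_trans (hΦ : 𝓜.IsHol Φ U) (hΨ : 𝓜.IsHol Ψ W) {z : CE ι}
    (hz : z ∈ U ∩ Φ ⁻¹' (Ψ '' W)) : Φ =ᶠ[𝓝 z] Ψ ∘ (Function.invFunOn Ψ W ∘ Φ) := by
  filter_upwards [(CMfd.isOpen_overlap hΦ hΨ).mem_nhds hz] with w hw
  exact (CMfd.trans_spec hΦ hΨ hw).symm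

/-- for a function on the manifold: `u ∘ Φ = (u ∘ Ψ) ∘ τ` near a point of the overlap. -/
theorem CMfd.eventually_comp_eq {α : Type} (u : V → α) (hΦ : 𝓜.IsHol Φ U) (hΨ : 𝓜.IsHol Ψ W)
    {z : CE ι} (hz : z ∈ U ∩ Φ ⁻¹' (Ψ '' W)) :
    u ∘ Φ =ᶠ[𝓝 z] (u ∘ Ψ) ∘ (Function.invFunOn Ψ W ∘ Φ) := by
  filter_upwards [CMfd.eventually_eq_comp_trans hΦ hΨ hz] with w hw
  show u (Φ w) = u ((Ψ ∘ (Function.invFunOn Ψ W ∘ Φ)) w)
  rw [← hw]

/-- chain rule through the embedding. -/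
theorem CMfd.fderiv_eq_comp_trans (hΦ : 𝓜.IsHol Φ U) (hΨ : 𝓜.IsHol Ψ W) {z : CE ι}
    (hz : z ∈ U ∩ Φ ⁻¹' (Ψ '' W)) (v : CE ι) :
    fderiv ℝ Φ z v = fderiv ℝ Ψ ((Function.invFunOn Ψ W ∘ Φ) z)
      (fderiv ℂ (Function.invFunOn Ψ W ∘ Φ) z v) := by
  rw [(CMfd.eventually_eq_comp_trans hΦ hΨ hz).fderiv_eq]
  have h1 : HasFDerivAt (Ψ ∘ (Function.invFunOn Ψ W ∘ Φ))
      ((fderiv ℝ Ψ ((Function.invFunOn Ψ W ∘ Φ) z)).comp
        ((fderiv ℂ (Function.invFunOn Ψ W ∘ Φ) z).restrictScalars ℝ)) z :=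
    ((𝓜.isParam hΨ).differentiableAt (CMfd.trans_mem hΦ hΨ hz)).hasFDerivAt.comp z
      (CMfd.trans_hasFDerivAt_real hΦ hΨ hz)
  rw [h1.fderiv]
  rfl

variable [DecidableEq ι]

/-- `jac τ' (τ z) * jac τ z = 1`. -/
theorem CMfd.jac_trans_mul (hΦ : 𝓜.IsHol Φ U) (hΨ : 𝓜.IsHol Ψ W) {z : CE ι}
    (hz : z ∈ U ∩ Φ ⁻¹' (Ψ '' W)) :
    jac (Function.invFunOn Φ U ∘ Ψ) ((Function.invFunOn Ψ W ∘ Φ) z) *
      jac (Function.invFunOn Ψ W ∘ Φ) z = 1 := by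
  refine jac_mul_jac_of_leftInverse _ _
    (CMfd.trans_differentiableAt hΨ hΦ (CMfd.trans_mapsTo hΦ hΨ hz))
    (CMfd.trans_differentiableAt hΦ hΨ hz) ?_
  filter_upwards [(CMfd.isOpen_overlap hΦ hΨ).mem_nhds hz] with w hw
  exact CMfd.trans_leftInv hΦ hΨ hw

theorem CMfd.jac_trans_mul' (hΦ : 𝓜.IsHol Φ U) (hΨ : 𝓜.IsHol Ψ W) {z : CE ι}
    (hz : z ∈ U ∩ Φ ⁻¹' (Ψ '' W)) :
    jac (Function.invFunOn Ψ W ∘ Φ) z *
      jac (Function.invFunOn Φ U ∘ Ψ) ((Function.invFunOn Ψ W ∘ Φ) z) = 1 := by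
  exact mul_eq_one_comm.1 (CMfd.jac_trans_mul hΦ hΨ hz)

theorem CMfd.isUnit_jac_trans (hΦ : 𝓜.IsHol Φ U) (hΨ : 𝓜.IsHol Ψ W) {z : CE ι}
    (hz : z ∈ U ∩ Φ ⁻¹' (Ψ '' W)) : IsUnit (jac (Function.invFunOn Ψ W ∘ Φ) z) := by
  exact ⟨⟨_, _, CMfd.jac_trans_mul' hΦ hΨ hz, CMfd.jac_trans_mul hΦ hΨ hz⟩, rfl⟩

theorem CMfd.det_jac_trans_ne_zero (hΦ : 𝓜.IsHol Φ U) (hΨ : 𝓜.IsHol Ψ W) {z : CE ι}
    (hz : z ∈ U ∩ Φ ⁻¹' (Ψ '' W)) : (jac (Function.invFunOn Ψ W ∘ Φ) z).det ≠ 0 := by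
  exact ((Matrix.isUnit_iff_isUnit_det _).1 (CMfd.isUnit_jac_trans hΦ hΨ hz)).ne_zero

theorem CMfd.jac_trans_inv (hΦ : 𝓜.IsHol Φ U) (hΨ : 𝓜.IsHol Ψ W) {z : CE ι}
    (hz : z ∈ U ∩ Φ ⁻¹' (Ψ '' W)) :
    (jac (Function.invFunOn Ψ W ∘ Φ) z)⁻¹ =
      jac (Function.invFunOn Φ U ∘ Ψ) ((Function.invFunOn Ψ W ∘ Φ) z) := by
  exact Matrix.inv_eq_left_inv (CMfd.jac_trans_mul hΦ hΨ hz)

theorem CMfd.fderiv_trans_injective (hΦ : 𝓜.IsHol Φ U) (hΨ : 𝓜.IsHol Ψ W) {z : CE ι}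
    (hz : z ∈ U ∩ Φ ⁻¹' (Ψ '' W)) :
    Function.Injective (fderiv ℂ (Function.invFunOn Ψ W ∘ Φ) z) := by
  intro v w hvw
  have h1 := CMfd.fderiv_eq_comp_trans hΦ hΨ hz v
  have h2 := CMfd.fderiv_eq_comp_trans hΦ hΨ hz w
  rw [hvw, ← h2] at h1
  exact (𝓜.isParam hΦ).immersion z hz.1 h1

/-- the transition from a parametrisation to itself is the identity. -/
theorem CMfd.jac_trans_self (hΦ : 𝓜.IsHol Φ U) {z : CE ι} (hz : z ∈ U) :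
    jac (Function.invFunOn Φ U ∘ Φ) z = 1 := by
  rw [← jac_id (z := z)]
  refine jac_congr ?_
  filter_upwards [(CMfd.isOpen_dom hΦ).mem_nhds hz] with w hw
  exact (𝓜.isParam hΦ).leftInv hw

/-- cocycle identity for three parametrisations. -/
theorem CMfd.jac_trans_comp {Θ : CE ι → V} {X : Set (CE ι)} (hΦ : 𝓜.IsHol Φ U)
    (hΨ : 𝓜.IsHol Ψ W) (hΘ : 𝓜.IsHol Θ X) {z : CE ι} (hz : z ∈ U) (h1 : Φ z ∈ Ψ '' W)
    (h2 : Φ z ∈ Θ '' X) :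
    jac (Function.invFunOn Θ X ∘ Φ) z =
      jac (Function.invFunOn Θ X ∘ Ψ) ((Function.invFunOn Ψ W ∘ Φ) z) *
        jac (Function.invFunOn Ψ W ∘ Φ) z := by
  have hz1 : z ∈ U ∩ Φ ⁻¹' (Ψ '' W) := ⟨hz, h1⟩
  have hz2 : z ∈ U ∩ Φ ⁻¹' (Θ '' X) := ⟨hz, h2⟩
  have hw : (Function.invFunOn Ψ W ∘ Φ) z ∈ W ∩ Ψ ⁻¹' (Θ '' X) := by
    refine ⟨CMfd.trans_mem hΦ hΨ hz1, ?_⟩
    show Ψ ((Function.invFunOn Ψ W ∘ Φ) z) ∈ Θ '' X
    rw [CMfd.trans_spec hΦ hΨ hz1]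
    exact h2
  rw [← jac_comp _ _ (CMfd.trans_differentiableAt hΨ hΘ hw) (CMfd.trans_differentiableAt hΦ hΨ hz1)]
  refine jac_congr ?_
  filter_upwards [(CMfd.isOpen_overlap hΦ hΨ).mem_nhds hz1] with y hy
  show Function.invFunOn Θ X (Φ y) = Function.invFunOn Θ X (Ψ ((Function.invFunOn Ψ W ∘ Φ) y))
  rw [CMfd.trans_spec hΦ hΨ hy]

/-- coordinate components of a tangent vector transform by the Jacobian. -/
theorem CMfd.coVec_trans (hΦ : 𝓜.IsHol Φ U) (hΨ : 𝓜.IsHol Ψ W) {z : CE ι}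
    (hz : z ∈ U ∩ Φ ⁻¹' (Ψ '' W)) (v : CE ι) :
    coVec Ψ ((Function.invFunOn Ψ W ∘ Φ) z) (fderiv ℝ Φ z v) =
      fderiv ℂ (Function.invFunOn Ψ W ∘ Φ) z v := by
  rw [CMfd.fderiv_eq_comp_trans hΦ hΨ hz v]
  exact (𝓜.isParam hΨ).coVec_fderiv (CMfd.trans_mem hΦ hΨ hz) _

/-- the tangent space does not depend on the parametrisation. -/
theorem CMfd.range_fderiv_eq (hΦ : 𝓜.IsHol Φ U) (hΨ : 𝓜.IsHol Ψ W) {z w : CE ι} (hz : z ∈ U)
    (hw : w ∈ W) (h : Φ z = Ψ w) : Set.range (fderiv ℝ Φ z) = Set.range (fderiv ℝ Ψ w) := by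
  have key : ∀ {Φ Ψ : CE ι → V} {U W : Set (CE ι)}, 𝓜.IsHol Φ U → 𝓜.IsHol Ψ W → ∀ {z w : CE ι},
      z ∈ U → w ∈ W → Φ z = Ψ w → Set.range (fderiv ℝ Φ z) ⊆ Set.range (fderiv ℝ Ψ w) := by
    intro Φ Ψ U W hΦ hΨ z w hz hw h
    rintro _ ⟨v, rfl⟩
    have hz' : z ∈ U ∩ Φ ⁻¹' (Ψ '' W) := ⟨hz, ⟨w, hw, h.symm⟩⟩
    rw [CMfd.fderiv_eq_comp_trans hΦ hΨ hz' v, CMfd.trans_eq hΦ hΨ hw h]
    exact ⟨_, rfl⟩
  exact Set.Subset.antisymm (key hΦ hΨ hz hw h) (key hΨ hΦ hw hz h.symm)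

end trans

/-! ### 3. New holomorphic parametrisations -/

section reparam

variable {𝓜 : CMfd V ι} {Φ : CE ι → V} {U : Set (CE ι)}

/-- affine change of the domain. -/
theorem CMfd.isHol_affine (hΦ : 𝓜.IsHol Φ U) (L : CE ι ≃L[ℂ] CE ι) (a : CE ι) :
    𝓜.IsHol (fun w => Φ (L w + a)) ((fun w => L w + a) ⁻¹' U) := by
  have hd : ∀ z, HasFDerivAt (fun w : CE ι => L w + a) (L : CE ι →L[ℂ] CE ι) z := fun z =>
    (L : CE ι →L[ℂ] CE ι).hasFDerivAt.add_const a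
  refine 𝓜.reparam hΦ (fun w => L w + a) _ ?_ ?_ ?_ ?_ ?_
  · exact (CMfd.isOpen_dom hΦ).preimage (by fun_prop)
  · exact fun z _ => (hd z).differentiableAt.differentiableWithinAt
  · intro z _ w _ h
    exact L.injective (add_right_cancel h)
  · intro z _
    rw [(hd z).fderiv]
    exact L.injective
  · exact fun z hz => hz

/-- translation of the domain. -/
theorem CMfd.isHol_translate (hΦ : 𝓜.IsHol Φ U) (a : CE ι) :
    𝓜.IsHol (fun w => Φ (w + a)) ((fun w => w + a) ⁻¹' U) := by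
  exact CMfd.isHol_affine hΦ (ContinuousLinearEquiv.refl ℂ (CE ι)) a

/-- complex linear change of the domain. -/
theorem CMfd.isHol_linear (hΦ : 𝓜.IsHol Φ U) (L : CE ι ≃L[ℂ] CE ι) :
    𝓜.IsHol (Φ ∘ L) (L ⁻¹' U) := by
  have h := CMfd.isHol_affine hΦ L 0
  simpa [Function.comp_def] using h

/-- every point has a holomorphic parametrisation centred at `0`, defined on a ball. -/
theorem CMfd.exists_centred (𝓜 : CMfd V ι) {x : V} (hx : x ∈ 𝓜.carrier) :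
    ∃ (Φ : CE ι → V) (r : ℝ), 0 < r ∧ 𝓜.IsHol Φ (Metric.ball 0 r) ∧ Φ 0 = x := by
  obtain ⟨Φ, U, hΦ, z₀, hz₀, rfl⟩ := 𝓜.cover x hx
  obtain ⟨r, hr, hsub⟩ := Metric.isOpen_iff.1 (CMfd.isOpen_dom hΦ) z₀ hz₀
  refine ⟨fun w => Φ (w + z₀), r, hr, ?_, by simp⟩
  refine 𝓜.isHol_mono (CMfd.isHol_translate hΦ z₀) Metric.isOpen_ball ?_
  intro w hw
  apply hsub
  simpa [dist_eq_norm] using hw

/-- the same inside a given ambient neighbourhood, with a parametrisation defined on the bigger ball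
`ball 0 (2 r)` (so that `closedBall 0 r` is a compact subset of the domain). -/
theorem CMfd.exists_centred_in (𝓜 : CMfd V ι) {x : V} (hx : x ∈ 𝓜.carrier) {O : Set V}
    (hO : O ∈ 𝓝 x) :
    ∃ (Φ : CE ι → V) (r : ℝ), 0 < r ∧ 𝓜.IsHol Φ (Metric.ball 0 (2 * r)) ∧ Φ 0 = x ∧
      Φ '' Metric.ball 0 (2 * r) ⊆ O := by
  obtain ⟨Φ, U, hΦ, z₀, hz₀, rfl⟩ := 𝓜.cover x hx
  have hopen : IsOpen (U ∩ Φ ⁻¹' interior O) :=
    (𝓜.isParam hΦ).isOpen_inter_preimage isOpen_interior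
  have hmem : z₀ ∈ U ∩ Φ ⁻¹' interior O := ⟨hz₀, mem_interior_iff_mem_nhds.2 hO⟩
  obtain ⟨r, hr, hsub⟩ := Metric.isOpen_iff.1 hopen z₀ hmem
  have hsub' : ∀ w ∈ Metric.ball (0 : CE ι) (2 * (r / 2)), w + z₀ ∈ U ∩ Φ ⁻¹' interior O := by
    intro w hw
    apply hsub
    have : 2 * (r / 2) = r := by ring
    rw [this] at hw
    simpa [dist_eq_norm] using hw
  refine ⟨fun w => Φ (w + z₀), r / 2, by positivity, ?_, by simp, ?_⟩
  · refine 𝓜.isHol_mono (CMfd.isHol_translate hΦ z₀) Metric.isOpen_ball ?_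
    intro w hw
    exact (hsub' w hw).1
  · rintro _ ⟨w, hw, rfl⟩
    exact interior_subset (hsub' w hw).2

end reparam

/-! ### 4. The chosen parametrisations -/

section chosen

variable (𝓜 : CMfd V ι)

theorem CMfd.isHol_pΦ {x : V} (hx : x ∈ 𝓜.carrier) : 𝓜.IsHol (𝓜.pΦ x) (𝓜.pU x) := by
  have h := (𝓜.cover x hx).choose_spec.choose_spec.1
  simpa [CMfd.pΦ, CMfd.pU, hx] using h

theorem CMfd.mem_image_pΦ {x : V} (hx : x ∈ 𝓜.carrier) : x ∈ 𝓜.pΦ x '' 𝓜.pU x := by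
  have h := (𝓜.cover x hx).choose_spec.choose_spec.2
  simpa [CMfd.pΦ, CMfd.pU, hx] using h

theorem CMfd.co_mem {x : V} (hx : x ∈ 𝓜.carrier) : 𝓜.co x ∈ 𝓜.pU x := by
  exact Function.invFunOn_mem (𝓜.mem_image_pΦ hx)

theorem CMfd.pΦ_co {x : V} (hx : x ∈ 𝓜.carrier) : 𝓜.pΦ x (𝓜.co x) = x := by
  exact Function.invFunOn_eq (𝓜.mem_image_pΦ hx)

variable {𝓜}

/-- an invariant chartwise scalar is computed in ANY parametrisation. -/
theorem CMfd.scal_eq {F : (CE ι → V) → CE ι → ℝ} (hF : 𝓜.Invariant F) {Φ : CE ι → V}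
    {U : Set (CE ι)} (hΦ : 𝓜.IsHol Φ U) {z : CE ι} (hz : z ∈ U) : 𝓜.scal F (Φ z) = F Φ z := by
  have hx : Φ z ∈ 𝓜.carrier := CMfd.mem_carrier hΦ hz
  exact hF (𝓜.isHol_pΦ hx) hΦ _ (𝓜.co_mem hx) z hz (𝓜.pΦ_co hx)

theorem CMfd.scal_eq' {F : (CE ι → V) → CE ι → ℝ} (hF : 𝓜.Invariant F) {Φ : CE ι → V}
    {U : Set (CE ι)} (hΦ : 𝓜.IsHol Φ U) {z : CE ι} (hz : z ∈ U) {x : V} (hx : Φ z = x) :
    𝓜.scal F x = F Φ z := by
  rw [← hx]
  exact CMfd.scal_eq hF hΦ hz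

/-- pointwise statements about `scal` reduce to all parametrisations. -/
theorem CMfd.scal_forall {F : (CE ι → V) → CE ι → ℝ} {P : ℝ → Prop}
    (h : ∀ (Φ : CE ι → V) (U : Set (CE ι)), 𝓜.IsHol Φ U → ∀ z ∈ U, P (F Φ z)) :
    ∀ x ∈ 𝓜.carrier, P (𝓜.scal F x) := by
  intro x hx
  exact h _ _ (𝓜.isHol_pΦ hx) _ (𝓜.co_mem hx)

/-- invariance may be checked through the transition map. -/
theorem CMfd.invariant_iff {F : (CE ι → V) → CE ι → ℝ} :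
    𝓜.Invariant F ↔ ∀ (Φ Ψ : CE ι → V) (U W : Set (CE ι)), 𝓜.IsHol Φ U → 𝓜.IsHol Ψ W →
      ∀ z ∈ U ∩ Φ ⁻¹' (Ψ '' W), F Φ z = F Ψ ((Function.invFunOn Ψ W ∘ Φ) z) := by
  constructor
  · intro hF Φ Ψ U W hΦ hΨ z hz
    exact hF hΦ hΨ z hz.1 _ (CMfd.trans_mem hΦ hΨ hz) (CMfd.trans_spec hΦ hΨ hz).symm
  · intro h Φ Ψ U W hΦ hΨ z hz w hw hzw
    have hz' : z ∈ U ∩ Φ ⁻¹' (Ψ '' W) := ⟨hz, ⟨w, hw, hzw.symm⟩⟩
    rw [h Φ Ψ U W hΦ hΨ z hz', CMfd.trans_eq hΦ hΨ hw hzw]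

/-- a function on the manifold is an invariant scalar. -/
theorem CMfd.invariant_comp (u : V → ℝ) : 𝓜.Invariant (fun Φ z => u (Φ z)) := by
  intro Φ Ψ U W _ _ z _ w _ h
  show u (Φ z) = u (Ψ w)
  rw [h]

/-- smoothness of the globalisation of an invariant chartwise scalar. -/
theorem CMfd.smooth_scal {F : (CE ι → V) → CE ι → ℝ} (hF : 𝓜.Invariant F)
    (hs : ∀ (Φ : CE ι → V) (U : Set (CE ι)), 𝓜.IsHol Φ U → ContDiffOn ℝ ∞ (F Φ) U) :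
    𝓜.Smooth (𝓜.scal F) := by
  intro Φ U hΦ
  refine (hs Φ U hΦ).congr ?_
  intro z hz
  exact CMfd.scal_eq hF hΦ hz

/-- the tangent space in any parametrisation. -/
theorem CMfd.tangent_eq {Φ : CE ι → V} {U : Set (CE ι)} (hΦ : 𝓜.IsHol Φ U) {z : CE ι}
    (hz : z ∈ U) : 𝓜.tangent (Φ z) = Set.range (fderiv ℝ Φ z) := by
  classical
  have hx : Φ z ∈ 𝓜.carrier := CMfd.mem_carrier hΦ hz
  exact CMfd.range_fderiv_eq (𝓜.isHol_pΦ hx) hΦ (𝓜.co_mem hx) hz (𝓜.pΦ_co hx)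

/-- `scal` only depends on the parametrisations of the restricted manifold. -/
theorem CMfd.scal_restr {F : (CE ι → V) → CE ι → ℝ} (hF : 𝓜.Invariant F) {O : Set V}
    (hO : IsOpen O) {x : V} (hx : x ∈ 𝓜.carrier ∩ O) : (𝓜.restr O hO).scal F x = 𝓜.scal F x := by
  have hx' : x ∈ (𝓜.restr O hO).carrier := hx
  have h1 : 𝓜.IsHol ((𝓜.restr O hO).pΦ x) ((𝓜.restr O hO).pU x) :=
    ((𝓜.restr O hO).isHol_pΦ hx').1
  exact (CMfd.scal_eq' hF h1 ((𝓜.restr O hO).co_mem hx') ((𝓜.restr O hO).pΦ_co hx')).symm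

theorem CMfd.Invariant.restr {F : (CE ι → V) → CE ι → ℝ} (hF : 𝓜.Invariant F) {O : Set V}
    (hO : IsOpen O) : (𝓜.restr O hO).Invariant F := by
  intro Φ Ψ U W hΦ hΨ z hz w hw h
  exact hF hΦ.1 hΨ.1 z hz w hw h

end chosen

end Claimed.Agent.R316
end

/- ===== packed: Claimed.Agent.R316.CM.Top ===== -/
section
/-!
# Row 316, CM-1c: continuity, locality of smoothness, topology of the carrier, countable atlas

Statement file written by helper55.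
-/

set_option autoImplicit false
open scoped ContDiff ComplexOrder Topology

namespace Claimed.Agent.R316

variable {V : Type} [NormedAddCommGroup V] [NormedSpace ℝ V]
variable {ι : Type} [Fintype ι]

/-! ### 5. Continuity, topology of the carrier, countable atlas -/

section topology

variable {𝓜 : CMfd V ι}

/-- continuity on the carrier is continuity in all parametrisations. -/
theorem CMfd.continuousOn_iff {X : Type} [TopologicalSpace X] {u : V → X} :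
    ContinuousOn u 𝓜.carrier ↔
      ∀ (Φ : CE ι → V) (U : Set (CE ι)), 𝓜.IsHol Φ U → ContinuousOn (u ∘ Φ) U := by
  constructor
  · intro hu Φ U hΦ
    exact hu.comp (𝓜.isParam hΦ).continuousOn (fun z hz => CMfd.mem_carrier hΦ hz)
  · intro h x hx
    obtain ⟨Φ, U, hΦ, z, hz, rfl⟩ := 𝓜.cover x hx
    have h1 : ContinuousAt (u ∘ Φ) z :=
      (h Φ U hΦ).continuousAt ((CMfd.isOpen_dom hΦ).mem_nhds hz)
    show Filter.Tendsto u (𝓝[𝓜.carrier] (Φ z)) (𝓝 (u (Φ z)))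
    rw [← (𝓜.isParam hΦ).map_nhds_eq hz, Filter.tendsto_map'_iff]
    exact h1

theorem CMfd.Smooth.continuousOn {u : V → ℝ} (hu : 𝓜.Smooth u) : ContinuousOn u 𝓜.carrier := by
  exact CMfd.continuousOn_iff.2 fun Φ U hΦ => (hu Φ U hΦ).continuousOn

theorem CMfd.HolFun.continuousOn {f : V → ℂ} (hf : 𝓜.HolFun f) : ContinuousOn f 𝓜.carrier := by
  exact CMfd.continuousOn_iff.2 fun Φ U hΦ => (hf Φ U hΦ).continuousOn

/-- joint continuity of a space-time function. -/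
theorem CMfd.SmoothST.continuousOn {I : Set ℝ} {u : ℝ → V → ℝ} (hu : 𝓜.SmoothST I u) :
    ContinuousOn (fun p : ℝ × V => u p.1 p.2) (I ×ˢ 𝓜.carrier) := by
  rintro ⟨t, x⟩ ⟨ht, hx⟩
  obtain ⟨Φ, U, hΦ, z, hz, rfl⟩ := 𝓜.cover x hx
  have h1 : ContinuousWithinAt (fun q : ℝ × CE ι => u q.1 (Φ q.2)) (I ×ˢ U) (t, z) :=
    (hu Φ U hΦ).continuousOn (t, z) ⟨ht, hz⟩
  have h2 : 𝓝[I ×ˢ 𝓜.carrier] (t, Φ z) =
      Filter.map (fun q : ℝ × CE ι => (q.1, Φ q.2)) (𝓝[I ×ˢ U] (t, z)) := by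
    rw [nhdsWithin_prod_eq, nhdsWithin_prod_eq, ← (𝓜.isParam hΦ).map_nhds_eq hz,
      (CMfd.isOpen_dom hΦ).nhdsWithin_eq hz]
    have := @Filter.prod_map_map_eq _ _ _ _ (𝓝[I] t) (𝓝 z) (fun s : ℝ => s) Φ
    rw [Filter.map_id'] at this
    exact this
  show Filter.Tendsto (fun p : ℝ × V => u p.1 p.2) (𝓝[I ×ˢ 𝓜.carrier] (t, Φ z)) (𝓝 (u t (Φ z)))
  rw [h2, Filter.tendsto_map'_iff]
  exact h1

theorem CMfd.SmoothST.smooth {I : Set ℝ} {u : ℝ → V → ℝ} (hu : 𝓜.SmoothST I u) {t : ℝ}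
    (ht : t ∈ I) : 𝓜.Smooth (u t) := by
  intro Φ U hΦ
  have h1 : ContDiffOn ℝ ∞ (fun z : CE ι => ((t, z) : ℝ × CE ι)) U :=
    (contDiff_const.prodMk contDiff_id).contDiffOn
  exact (hu Φ U hΦ).comp h1 (fun z hz => ⟨ht, hz⟩)

theorem CMfd.Smooth.smoothST {u : V → ℝ} (hu : 𝓜.Smooth u) (I : Set ℝ) :
    𝓜.SmoothST I (fun _ => u) := by
  intro Φ U hΦ
  exact (hu Φ U hΦ).comp contDiffOn_snd (fun q hq => hq.2)

/-- smoothness is local: it suffices to check it on a family of parametrisations covering the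
carrier. -/
theorem CMfd.smooth_of_cover {u : V → ℝ}
    (h : ∀ x ∈ 𝓜.carrier, ∃ (Φ : CE ι → V) (U : Set (CE ι)), 𝓜.IsHol Φ U ∧ x ∈ Φ '' U ∧
      ContDiffOn ℝ ∞ (u ∘ Φ) U) : 𝓜.Smooth u := by
  intro Ψ W hΨ w hw
  obtain ⟨Φ, U, hΦ, hx, hu⟩ := h (Ψ w) (CMfd.mem_carrier hΨ hw)
  have hw' : w ∈ W ∩ Ψ ⁻¹' (Φ '' U) := ⟨hw, hx⟩
  have h1 : ContDiffAt ℝ ∞ (u ∘ Φ) ((Function.invFunOn Φ U ∘ Ψ) w) :=
    (hu _ (CMfd.trans_mem hΨ hΦ hw')).contDiffAt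
      ((CMfd.isOpen_dom hΦ).mem_nhds (CMfd.trans_mem hΨ hΦ hw'))
  have h2 : ContDiffAt ℝ ∞ ((u ∘ Φ) ∘ (Function.invFunOn Φ U ∘ Ψ)) w :=
    h1.comp w (CMfd.trans_contDiffAt hΨ hΦ hw')
  exact (h2.congr_of_eventuallyEq (CMfd.eventually_comp_eq u hΨ hΦ hw')).contDiffWithinAt

theorem CMfd.smoothST_of_cover {I : Set ℝ} {u : ℝ → V → ℝ}
    (h : ∀ x ∈ 𝓜.carrier, ∃ (Φ : CE ι → V) (U : Set (CE ι)), 𝓜.IsHol Φ U ∧ x ∈ Φ '' U ∧
      ContDiffOn ℝ ∞ (fun q : ℝ × CE ι => u q.1 (Φ q.2)) (I ×ˢ U)) : 𝓜.SmoothST I u := by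
  rintro Ψ W hΨ ⟨t, w⟩ ⟨ht, hw⟩
  obtain ⟨Φ, U, hΦ, hx, hu⟩ := h (Ψ w) (CMfd.mem_carrier hΨ hw)
  have hw' : w ∈ W ∩ Ψ ⁻¹' (Φ '' U) := ⟨hw, hx⟩
  set τ := Function.invFunOn Φ U ∘ Ψ with hτ
  have h1 : ContDiffWithinAt ℝ ∞ (fun q : ℝ × CE ι => u q.1 (Φ q.2)) (I ×ˢ U) (t, τ w) :=
    hu _ ⟨ht, CMfd.trans_mem hΨ hΦ hw'⟩
  have h2 : ContDiffAt ℝ ∞ (fun q : ℝ × CE ι => ((q.1, τ q.2) : ℝ × CE ι)) (t, w) :=
    contDiffAt_fst.prodMk
      (ContDiffAt.comp (g := τ) (f := Prod.snd) (t, w) (CMfd.trans_contDiffAt hΨ hΦ hw')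
        contDiffAt_snd)
  have h3 : ContDiffWithinAt ℝ ∞
      ((fun q : ℝ × CE ι => u q.1 (Φ q.2)) ∘ (fun q : ℝ × CE ι => ((q.1, τ q.2) : ℝ × CE ι)))
      (I ×ˢ (W ∩ Ψ ⁻¹' (Φ '' U))) (t, w) :=
    ContDiffWithinAt.comp (t, w) h1 h2.contDiffWithinAt
      (fun q hq => ⟨hq.1, CMfd.trans_mem hΨ hΦ hq.2⟩)
  have h4 : ContDiffWithinAt ℝ ∞ (fun q : ℝ × CE ι => u q.1 (Ψ q.2))
      (I ×ˢ (W ∩ Ψ ⁻¹' (Φ '' U))) (t, w) := by
    refine h3.congr (fun q hq => ?_) ?_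
    · show u q.1 (Ψ q.2) = u q.1 (Φ (τ q.2))
      rw [CMfd.trans_spec hΨ hΦ hq.2]
    · show u t (Ψ w) = u t (Φ (τ w))
      rw [CMfd.trans_spec hΨ hΦ hw']
  refine h4.mono_of_mem_nhdsWithin ?_
  rw [nhdsWithin_prod_eq]
  exact Filter.prod_mem_prod self_mem_nhdsWithin
    (mem_nhdsWithin_of_mem_nhds ((CMfd.isOpen_overlap hΨ hΦ).mem_nhds hw'))

/-- smoothness only depends on the values on the carrier. -/
theorem CMfd.Smooth.congr {u v : V → ℝ} (hu : 𝓜.Smooth u) (h : Set.EqOn u v 𝓜.carrier) :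
    𝓜.Smooth v := by
  intro Φ U hΦ
  refine (hu Φ U hΦ).congr fun z hz => ?_
  exact (h (CMfd.mem_carrier hΦ hz)).symm

/-- restriction of an ambient smooth function. -/
theorem CMfd.smooth_of_contDiffOn {u : V → ℝ} {O : Set V} (_hO : IsOpen O) (hsub : 𝓜.carrier ⊆ O)
    (hu : ContDiffOn ℝ ∞ u O) : 𝓜.Smooth u := by
  intro Φ U hΦ
  exact hu.comp (𝓜.isParam hΦ).smooth (fun z hz => hsub (CMfd.mem_carrier hΦ hz))

theorem CMfd.smooth_of_contDiff {u : V → ℝ} (hu : ContDiff ℝ ∞ u) : 𝓜.Smooth u := by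
  exact fun Φ U hΦ => hu.comp_contDiffOn (𝓜.isParam hΦ).smooth

/-- compact neighbourhoods: the carrier is locally compact. -/
theorem CMfd.exists_compact_nhdsWithin (𝓜 : CMfd V ι) {x : V} (hx : x ∈ 𝓜.carrier) {O : Set V}
    (hO : O ∈ 𝓝 x) : ∃ K : Set V, IsCompact K ∧ K ⊆ 𝓜.carrier ∩ O ∧ K ∈ 𝓝[𝓜.carrier] x := by
  obtain ⟨Φ, r, hr, hΦ, rfl, hsub⟩ := 𝓜.exists_centred_in hx hO
  have hcb : Metric.closedBall (0 : CE ι) r ⊆ Metric.ball 0 (2 * r) :=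
    Metric.closedBall_subset_ball (by linarith)
  refine ⟨Φ '' Metric.closedBall 0 r, ?_, ?_, ?_⟩
  · exact (isCompact_closedBall 0 r).image_of_continuousOn ((𝓜.isParam hΦ).continuousOn.mono hcb)
  · rintro _ ⟨w, hw, rfl⟩
    exact ⟨CMfd.mem_carrier hΦ (hcb hw), hsub ⟨w, hcb hw, rfl⟩⟩
  · have h0 : (0 : CE ι) ∈ Metric.ball (0 : CE ι) (2 * r) := Metric.mem_ball_self (by linarith)
    filter_upwards [(𝓜.isParam hΦ).eventually_mem_image h0 (Metric.closedBall_mem_nhds 0 hr)]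
      with y hy
    exact Set.image_mono Set.inter_subset_left hy

theorem CMfd.locallyCompactSpace_carrier (𝓜 : CMfd V ι) : LocallyCompactSpace 𝓜.carrier := by
  refine ⟨fun x n hn => ?_⟩
  obtain ⟨O, hO, hOn⟩ := (mem_nhds_subtype _ _ _).1 hn
  obtain ⟨K, hK, hKsub, hKn⟩ := 𝓜.exists_compact_nhdsWithin x.2 hO
  refine ⟨Subtype.val ⁻¹' K, ?_, ?_, ?_⟩
  · rw [mem_nhds_subtype_iff_nhdsWithin, Subtype.image_preimage_coe]
    exact Filter.inter_mem self_mem_nhdsWithin hKn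
  · exact fun y hy => hOn (hKsub hy).2
  · refine (Topology.IsInducing.subtypeVal.isCompact_preimage_iff ?_).2 hK
    rw [Subtype.range_coe]
    exact fun y hy => (hKsub hy).1

/-- the carrier is locally closed in `V`. -/
theorem CMfd.isLocallyClosed_carrier (𝓜 : CMfd V ι) : IsLocallyClosed 𝓜.carrier := by
  refine ((isLocallyClosed_tfae 𝓜.carrier).out 0 3).2 fun x hx => ?_
  obtain ⟨K, hK, hKsub, hKn⟩ := 𝓜.exists_compact_nhdsWithin hx Filter.univ_mem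
  obtain ⟨U, hU, hxU, hUK⟩ := mem_nhdsWithin.1 hKn
  refine ⟨U, hxU, hU, ?_⟩
  intro y hy
  have h1 : y ∈ closure (U ∩ 𝓜.carrier) := hU.inter_closure hy
  have h2 : closure (U ∩ 𝓜.carrier) ⊆ K := closure_minimal hUK hK.isClosed
  exact (hKsub (h2 h1)).1

theorem CMfd.locPathConnectedSpace_carrier (𝓜 : CMfd V ι) : LocallyPathConnectedSpace 𝓜.carrier := by
  refine ⟨fun x => Filter.hasBasis_self.2 fun n hn => ?_⟩
  obtain ⟨O, hO, hOn⟩ := (mem_nhds_subtype _ _ _).1 hn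
  obtain ⟨Φ, r, hr, hΦ, hx0, hsub⟩ := 𝓜.exists_centred_in x.2 hO
  have h2r : (0 : ℝ) < 2 * r := by linarith
  have hS : Φ '' Metric.ball 0 (2 * r) ⊆ 𝓜.carrier := (𝓜.isParam hΦ).image_subset
  refine ⟨Subtype.val ⁻¹' (Φ '' Metric.ball 0 (2 * r)), ?_, ?_, ?_⟩
  · rw [mem_nhds_subtype_iff_nhdsWithin, Subtype.image_preimage_coe, ← hx0]
    have h0 : (0 : CE ι) ∈ Metric.ball (0 : CE ι) (2 * r) := Metric.mem_ball_self h2r
    filter_upwards [(𝓜.isParam hΦ).eventually_mem_image h0 (Metric.ball_mem_nhds 0 h2r),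
      self_mem_nhdsWithin] with y hy hyM
    exact ⟨hyM, Set.image_mono Set.inter_subset_left hy⟩
  · rw [Topology.IsInducing.subtypeVal.isPathConnected_iff, Subtype.image_preimage_coe,
      Set.inter_eq_right.2 hS]
    exact ((convex_ball (0 : CE ι) (2 * r)).isPathConnected ⟨0, Metric.mem_ball_self h2r⟩).image'
      (𝓜.isParam hΦ).continuousOn
  · exact fun y hy => hOn (hsub hy)

theorem CMfd.locallyConnectedSpace_carrier (𝓜 : CMfd V ι) : LocallyConnectedSpace 𝓜.carrier := by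
  have := 𝓜.locPathConnectedSpace_carrier
  infer_instance

/-- a connected carrier is path connected. -/
theorem CMfd.isPathConnected_carrier (𝓜 : CMfd V ι) (h : IsConnected 𝓜.carrier) :
    IsPathConnected 𝓜.carrier := by
  have := 𝓜.locPathConnectedSpace_carrier
  rw [isPathConnected_iff_pathConnectedSpace, pathConnectedSpace_iff_connectedSpace]
  exact isConnected_iff_connectedSpace.1 h

/-- **countable atlas** (Lindelöf). -/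
theorem CMfd.exists_countable_atlas [SecondCountableTopology V] (𝓜 : CMfd V ι) :
    ∃ S : Set ((CE ι → V) × Set (CE ι)), S.Countable ∧ (∀ p ∈ S, 𝓜.IsHol p.1 p.2) ∧
      𝓜.carrier = ⋃ p ∈ S, p.1 '' p.2 := by
  have hf : ∀ x ∈ 𝓜.carrier, 𝓜.pΦ x '' 𝓜.pU x ∈ 𝓝[𝓜.carrier] x := by
    intro x hx
    have h := (𝓜.isParam (𝓜.isHol_pΦ hx)).eventually_mem_image (𝓜.co_mem hx) Filter.univ_mem
    rw [𝓜.pΦ_co hx] at h
    filter_upwards [h] with y hy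
    exact Set.image_mono Set.inter_subset_right hy
  obtain ⟨t, htsub, htc, hcov⟩ := TopologicalSpace.countable_cover_nhdsWithin hf
  refine ⟨(fun x => (𝓜.pΦ x, 𝓜.pU x)) '' t, htc.image _, ?_, ?_⟩
  · rintro _ ⟨x, hx, rfl⟩
    exact 𝓜.isHol_pΦ (htsub hx)
  · apply Set.Subset.antisymm
    · intro y hy
      obtain ⟨x, hx, hyx⟩ := Set.mem_iUnion₂.1 (hcov hy)
      exact Set.mem_iUnion₂.2 ⟨_, ⟨x, hx, rfl⟩, hyx⟩
    · intro y hy
      obtain ⟨_, ⟨x, hx, rfl⟩, hyx⟩ := Set.mem_iUnion₂.1 hy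
      exact (𝓜.isParam (𝓜.isHol_pΦ (htsub hx))).image_subset hyx

/-- sequence form (nonempty carrier). -/
theorem CMfd.exists_seq_atlas [SecondCountableTopology V] (𝓜 : CMfd V ι)
    (hne : 𝓜.carrier.Nonempty) :
    ∃ (Φ : ℕ → CE ι → V) (U : ℕ → Set (CE ι)), (∀ i, 𝓜.IsHol (Φ i) (U i)) ∧
      𝓜.carrier = ⋃ i, Φ i '' U i := by
  obtain ⟨S, hSc, hS, hcov⟩ := 𝓜.exists_countable_atlas
  have hSne : S.Nonempty := by
    obtain ⟨x, hx⟩ := hne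
    rw [hcov] at hx
    obtain ⟨p, hp, _⟩ := Set.mem_iUnion₂.1 hx
    exact ⟨p, hp⟩
  obtain ⟨f, hf⟩ := hSc.exists_eq_range hSne
  refine ⟨fun i => (f i).1, fun i => (f i).2, fun i => hS _ (hf ▸ ⟨i, rfl⟩), ?_⟩
  rw [hcov, hf]
  ext y
  simp

/-- countable atlas by centred balls whose halves still cover and have compact closure in the
domain. -/
theorem CMfd.exists_seq_atlas_balls [SecondCountableTopology V] (𝓜 : CMfd V ι)
    (hne : 𝓜.carrier.Nonempty) :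
    ∃ (Φ : ℕ → CE ι → V) (r : ℕ → ℝ), (∀ i, 0 < r i) ∧
      (∀ i, 𝓜.IsHol (Φ i) (Metric.ball 0 (2 * r i))) ∧
      𝓜.carrier = ⋃ i, Φ i '' Metric.ball 0 (r i) := by
  classical
  choose! Φ r hr hΦ hx0 _ using fun (x : V) (hx : x ∈ 𝓜.carrier) =>
    𝓜.exists_centred_in hx (Filter.univ_mem : (Set.univ : Set V) ∈ 𝓝 x)
  have hbb : ∀ x ∈ 𝓜.carrier, Metric.ball (0 : CE ι) (r x) ⊆ Metric.ball 0 (2 * r x) :=
    fun x hx => Metric.ball_subset_ball (by linarith [hr x hx])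
  have hf : ∀ x ∈ 𝓜.carrier, Φ x '' Metric.ball 0 (r x) ∈ 𝓝[𝓜.carrier] x := by
    intro x hx
    have h0 : (0 : CE ι) ∈ Metric.ball (0 : CE ι) (2 * r x) :=
      Metric.mem_ball_self (by linarith [hr x hx])
    have h := (𝓜.isParam (hΦ x hx)).eventually_mem_image h0 (Metric.ball_mem_nhds 0 (hr x hx))
    rw [hx0 x hx] at h
    filter_upwards [h] with y hy
    exact Set.image_mono Set.inter_subset_left hy
  obtain ⟨t, htsub, htc, hcov⟩ := TopologicalSpace.countable_cover_nhdsWithin hf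
  have htne : t.Nonempty := by
    obtain ⟨x, hx⟩ := hne
    obtain ⟨y, hy, _⟩ := Set.mem_iUnion₂.1 (hcov hx)
    exact ⟨y, hy⟩
  obtain ⟨f, hfr⟩ := htc.exists_eq_range htne
  have hft : ∀ i, f i ∈ 𝓜.carrier := fun i => htsub (hfr ▸ ⟨i, rfl⟩)
  refine ⟨fun i => Φ (f i), fun i => r (f i), fun i => hr _ (hft i), fun i => hΦ _ (hft i), ?_⟩
  apply Set.Subset.antisymm
  · intro y hy
    obtain ⟨x, hx, hyx⟩ := Set.mem_iUnion₂.1 (hcov hy)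
    rw [hfr] at hx
    obtain ⟨i, rfl⟩ := hx
    exact Set.mem_iUnion.2 ⟨i, hyx⟩
  · intro y hy
    obtain ⟨i, hyi⟩ := Set.mem_iUnion.1 hy
    exact (𝓜.isParam (hΦ _ (hft i))).image_subset (Set.image_mono (hbb _ (hft i)) hyi)

theorem CMfd.isSigmaCompact_carrier [SecondCountableTopology V] (𝓜 : CMfd V ι) :
    IsSigmaCompact 𝓜.carrier := by
  rcases 𝓜.carrier.eq_empty_or_nonempty with h | hne
  · rw [h]; exact isSigmaCompact_empty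
  obtain ⟨Φ, r, hr, hΦ, hcov⟩ := 𝓜.exists_seq_atlas_balls hne
  have hcb : ∀ i, Metric.closedBall (0 : CE ι) (r i) ⊆ Metric.ball 0 (2 * r i) :=
    fun i => Metric.closedBall_subset_ball (by linarith [hr i])
  have h : 𝓜.carrier = ⋃ i, Φ i '' Metric.closedBall 0 (r i) := by
    apply Set.Subset.antisymm
    · rw [hcov]
      exact Set.iUnion_mono fun i => Set.image_mono Metric.ball_subset_closedBall
    · exact Set.iUnion_subset fun i =>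
        (Set.image_mono (hcb i)).trans (𝓜.isParam (hΦ i)).image_subset
  rw [h]
  exact isSigmaCompact_iUnion_of_isCompact _ fun i =>
    (isCompact_closedBall 0 (r i)).image_of_continuousOn
      ((𝓜.isParam (hΦ i)).continuousOn.mono (hcb i))

/-- a compact subset of the carrier is covered by finitely many "half balls". -/
theorem CMfd.exists_finite_cover (𝓜 : CMfd V ι) {K : Set V} (hK : IsCompact K)
    (hsub : K ⊆ 𝓜.carrier) :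
    ∃ (m : ℕ) (Φ : Fin m → CE ι → V) (r : Fin m → ℝ), (∀ i, 0 < r i) ∧
      (∀ i, 𝓜.IsHol (Φ i) (Metric.ball 0 (2 * r i))) ∧
      K ⊆ ⋃ i, Φ i '' Metric.ball 0 (r i) := by
  classical
  choose! Φ r hr hΦ hx0 _ using fun (x : V) (hx : x ∈ 𝓜.carrier) =>
    𝓜.exists_centred_in hx (Filter.univ_mem : (Set.univ : Set V) ∈ 𝓝 x)
  have hf : ∀ x ∈ K, Φ x '' Metric.ball 0 (r x) ∈ 𝓝[K] x := by
    intro x hxK
    have hx := hsub hxK
    have h0 : (0 : CE ι) ∈ Metric.ball (0 : CE ι) (2 * r x) :=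
      Metric.mem_ball_self (by linarith [hr x hx])
    have h := (𝓜.isParam (hΦ x hx)).eventually_mem_image h0 (Metric.ball_mem_nhds 0 (hr x hx))
    rw [hx0 x hx] at h
    refine nhdsWithin_mono x hsub ?_
    filter_upwards [h] with y hy
    exact Set.image_mono Set.inter_subset_left hy
  obtain ⟨t, htK, hcov⟩ := hK.elim_nhdsWithin_subcover _ hf
  let e := t.equivFin
  refine ⟨t.card, fun i => Φ (e.symm i), fun i => r (e.symm i),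
    fun i => hr _ (hsub (htK _ (e.symm i).2)), fun i => hΦ _ (hsub (htK _ (e.symm i).2)), ?_⟩
  intro y hy
  obtain ⟨x, hx, hyx⟩ := Set.mem_iUnion₂.1 (hcov hy)
  refine Set.mem_iUnion.2 ⟨e ⟨x, hx⟩, ?_⟩
  simpa using hyx

end topology

end Claimed.Agent.R316
end
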