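/- Packed by merge_tool.py (helper293): 2 modules of Claimed.Agent.R316 in one file, same declarations.
   Old modules, in this order: Top.S2, Top.S3 -/
import Claimed.Agent.R316.Pack007

/- ===== packed: Claimed.Agent.R316.Top.S2 ===== -/
section
/-!
# Row 316, top level: hypotheses, main abstract theorem, Section 2 (Proposition 2.1)

Top-level statements are `def St… : Prop` (no `sorry`); each is proved in its own directory, and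
`R316/Top/Assembly.lean` combines them.
-/

set_option autoImplicit false
open scoped ContDiff ComplexOrder
open MeasureTheory

namespace Claimed.Agent.R316

variable {V : Type} [NormedAddCommGroup V] [NormedSpace ℝ V]
variable {n : ℕ}

/-- The standing hypotheses of the paper: `(M, g)` complete connected noncompact Kaehler with
strictly positive holomorphic bisectional curvature (carrier closed in the ambient space). -/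
structure InitialData (𝓜 : CMfd V (Fin n)) (g : HFam V (Fin n)) : Prop where
  n_pos : 0 < n
  closed : IsClosed 𝓜.carrier
  conn : IsConnected 𝓜.carrier
  noncompact : ¬ IsCompact 𝓜.carrier
  kahler : IsKahler 𝓜 g
  proper : IsProperMetric 𝓜 g
  bisec : BisecPos 𝓜 g

/-- `Ψ` is a biholomorphism of `𝓜` onto `ℂⁿ`. -/
def IsBiholToCn (𝓜 : CMfd V (Fin n)) (Ψ : V → CE (Fin n)) : Prop :=
  Set.BijOn Ψ 𝓜.carrier Set.univ ∧
  ∀ (Φ : CE (Fin n) → V) (U : Set (CE (Fin n))), 𝓜.IsHol Φ U →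
    DifferentiableOn ℂ (Ψ ∘ Φ) U ∧ ∀ z ∈ U, Function.Injective (fderiv ℂ (Ψ ∘ Φ) z)

variable [MeasurableSpace V] [BorelSpace V]

/-- **Proposition 2.1** (initial analytic data), the part used after Section 2. -/
structure PrelimData (𝓜 : CMfd V (Fin n)) (g : HFam V (Fin n)) (o : V) where
  /-- (ii) the injective holomorphic immersion `F : M → ℂ^NF` -/
  NF : ℕ
  F : V → CE (Fin NF)
  F_hol : ∀ (Φ : CE (Fin n) → V) (U : Set (CE (Fin n))), 𝓜.IsHol Φ U →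
    DifferentiableOn ℂ (F ∘ Φ) U
  F_inj : Set.InjOn F 𝓜.carrier
  F_imm : ∀ (Φ : CE (Fin n) → V) (U : Set (CE (Fin n))), 𝓜.IsHol Φ U →
    ∀ z ∈ U, Function.Injective (fderiv ℂ (F ∘ Φ) z)
  /-- (ii) finitely many holomorphic tangent fields spanning `T^{1,0}M` everywhere -/
  mX : ℕ
  X : Fin mX → V → V
  X_hol : ∀ i, 𝓜.HolField (X i)
  X_span : ∀ (Φ : CE (Fin n) → V) (U : Set (CE (Fin n))), 𝓜.IsHol Φ U → ∀ z ∈ U,
    Submodule.span ℂ (Set.range fun i => coVec Φ z (X i (Φ z))) = ⊤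
  /-- (iii) canonical sections with linear logarithmic growth -/
  can : ∀ x ∈ 𝓜.carrier, ∃ S : (CE (Fin n) → V) → CE (Fin n) → ℂ, IsCanSection 𝓜 S ∧
    0 < canNormSq 𝓜 g S x ∧
    ∃ C : ℝ, ∀ y ∈ 𝓜.carrier, canNormSq 𝓜 g S y ≤ Real.exp (C * (1 + hdist 𝓜 g o y))
  /-- (iii) the smooth function `Ξ` -/
  Xi : V → ℝ
  Xi_smooth : 𝓜.Smooth Xi
  Xi_dd : leF 𝓜 (ricF g) (ddc Xi)
  Xi_growth : ∃ C : ℝ, ∀ y ∈ 𝓜.carrier, Xi y ≤ C * (1 + (hdist 𝓜 g o y) ^ (3 / 2 : ℝ))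
  /-- (iv) the smooth exhaustion `u` -/
  u : V → ℝ
  u_smooth : 𝓜.Smooth u
  u_ge_one : ∀ y ∈ 𝓜.carrier, 1 ≤ u y
  Cu : ℝ
  Cu_pos : 0 < Cu
  u_lower : ∀ y ∈ 𝓜.carrier, Cu⁻¹ * (1 + hdist 𝓜 g o y) ≤ u y
  u_upper : ∀ y ∈ 𝓜.carrier, u y ≤ Cu * (1 + hdist 𝓜 g o y)
  u_grad : ∀ y ∈ 𝓜.carrier, gradSq 𝓜 g u y ≤ Cu ^ 2
  u_dd_upper : leF 𝓜 (ddc u) (smulF (fun y => Cu / u y) g)
  u_dd_lower : leF 𝓜 (smulF (fun y => - (Cu / u y)) g) (ddc u)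
  /-- (v) averaged estimates -/
  avg_log : ∀ S : (CE (Fin n) → V) → CE (Fin n) → ℂ, IsCanSection 𝓜 S →
    0 < canNormSq 𝓜 g S o →
    (∃ C : ℝ, ∀ y ∈ 𝓜.carrier, canNormSq 𝓜 g S y ≤ Real.exp (C * (1 + hdist 𝓜 g o y))) →
    ∃ C : ℝ, ∀ L : ℝ, 1 ≤ L →
      IntegrableOn (fun y => |Real.log (canNormSq 𝓜 g S y)|) (hball 𝓜 g o L) (hvol 𝓜 g) ∧
      ∫ y in hball 𝓜 g o L, |Real.log (canNormSq 𝓜 g S y)| ∂(hvol 𝓜 g) ≤
        C * L * (hvol 𝓜 g (hball 𝓜 g o L)).toReal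
  avg_R : ∃ C : ℝ, ∀ L : ℝ, 1 ≤ L →
      ∫ y in hball 𝓜 g o L, scalCurv 𝓜 g y ∂(hvol 𝓜 g) ≤
        C / L * (hvol 𝓜 g (hball 𝓜 g o L)).toReal

end Claimed.Agent.R316
end

/- ===== packed: Claimed.Agent.R316.Top.S3 ===== -/
section
/-!
# Row 316, top level: Section 3 (localized flow, scalar comparison) and the statement of
Theorem 6.3 (joint positivity)
-/

set_option autoImplicit false
open scoped ContDiff ComplexOrder Topology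
open MeasureTheory

namespace Claimed.Agent.R316

variable {V : Type} [NormedAddCommGroup V] [NormedSpace ℝ V]
variable {n : ℕ}

/-- the metric family `h_t = g - t Ric g + dd U_t`. -/
noncomputable def flowMetric (g : HFam V (Fin n)) (U : ℝ → V → ℝ) (t : ℝ) : HFam V (Fin n) :=
  fun Φ z => g Φ z - (t : ℂ) • ricF g Φ z + ddc (U t) Φ z

variable [MeasurableSpace V] [BorelSpace V]

/-- **Theorem 3.1** (localized flow).  `ρ = -P`, `R = R_{h_t} = -P_t`. -/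
structure FlowData (𝓜 : CMfd V (Fin n)) (g : HFam V (Fin n)) (o : V) where
  U : ℝ → V → ℝ
  P : ℝ → V → ℝ
  R : ℝ → V → ℝ
  U_smooth : 𝓜.SmoothST (Set.Ici 0) U
  P_smooth : 𝓜.SmoothST (Set.Ici 0) P
  R_smooth : 𝓜.SmoothST (Set.Ici 0) R
  U_zero : ∀ x ∈ 𝓜.carrier, U 0 x = 0
  U_t : ∀ t : ℝ, 0 ≤ t → ∀ x ∈ 𝓜.carrier,
    HasDerivWithinAt (fun s => U s x) (P t x) (Set.Ici 0) t
  P_t : ∀ t : ℝ, 0 ≤ t → ∀ x ∈ 𝓜.carrier,
    HasDerivWithinAt (fun s => P s x) (- R t x) (Set.Ici 0) t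
  kahler : ∀ t : ℝ, 0 ≤ t → IsKahler 𝓜 (flowMetric g U t)
  le_g : ∀ t : ℝ, 0 ≤ t → leF 𝓜 (flowMetric g U t) g
  P_eq : ∀ t : ℝ, 0 ≤ t → ∀ x ∈ 𝓜.carrier,
    P t x = Real.log (detRatio 𝓜 (flowMetric g U t) g x)
  P_nonpos : ∀ t : ℝ, 0 ≤ t → ∀ x ∈ 𝓜.carrier, P t x ≤ 0
  R_nonneg : ∀ t : ℝ, 0 ≤ t → ∀ x ∈ 𝓜.carrier, 0 ≤ R t x
  R_eq : ∀ t : ℝ, 0 ≤ t → ∀ x ∈ 𝓜.carrier, R t x = scalCurv 𝓜 (flowMetric g U t) x
  rho_avg : ∀ T : ℝ, ∃ C : ℝ, ∀ t ∈ Set.Icc (0 : ℝ) T, ∀ L : ℝ, 1 ≤ L →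
    ∫ x in hball 𝓜 g o L, - P t x ∂(hvol 𝓜 g) ≤ C * L * (hvol 𝓜 g (hball 𝓜 g o L)).toReal
  rho_ptw : ∀ x ∈ 𝓜.carrier, ∃ C : ℝ, ∀ t : ℝ, 0 ≤ t → - P t x ≤ C * (1 + t)
  supercal : ∀ T : ℝ, 0 < T → ∃ (Q Qt : ℝ → V → ℝ) (c : ℝ), 0 < c ∧
    𝓜.SmoothST (Set.Icc 0 T) Q ∧
    (∀ t ∈ Set.Icc (0 : ℝ) T, ∀ x ∈ 𝓜.carrier,
      HasDerivWithinAt (fun s => Q s x) (Qt t x) (Set.Icc 0 T) t ∧
      c * (1 + (hdist 𝓜 g o x) ^ 2) ≤ Q t x ∧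
      c * tr 𝓜 (flowMetric g U t) g x ≤ Qt t x - lap 𝓜 (flowMetric g U t) (Q t) x)

namespace FlowData

variable {𝓜 : CMfd V (Fin n)} {g : HFam V (Fin n)} {o : V} (D : FlowData 𝓜 g o)

/-- the evolving metric `h_t`. -/
noncomputable def h (t : ℝ) : HFam V (Fin n) := flowMetric g D.U t

/-- the logarithmic volume loss `ρ = log (det g / det h_t)`. -/
def rho (t : ℝ) (x : V) : ℝ := - D.P t x

/-- **Proposition 3.5 (i)**, the tails `ρ_j` (the part used later). -/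
def StTails : Prop :=
  ∀ T : ℝ, 0 < T → ∃ (r rt : ℕ → ℝ → V → ℝ) (C : ℕ → ℝ),
    (∀ j, 𝓜.SmoothST (Set.Icc 0 T) (r j)) ∧
    (∀ j, ∀ t ∈ Set.Icc (0 : ℝ) T, ∀ x ∈ 𝓜.carrier,
      HasDerivWithinAt (fun s => r j s x) (rt j t x) (Set.Icc 0 T) t ∧
      0 ≤ rt j t x - lap 𝓜 (D.h t) (r j t) x ∧
      0 ≤ r j t x ∧ r j t x ≤ D.rho t x ∧ D.rho t x - C j ≤ r j t x) ∧
    (∀ K : Set V, IsCompact K → K ⊆ 𝓜.carrier →
      ∀ ε : ℝ, 0 < ε → ∃ j₀, ∀ j, j₀ ≤ j → ∀ t ∈ Set.Icc (0 : ℝ) T, ∀ x ∈ K, r j t x ≤ ε)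

/-- upper viscosity sense of `∂_t v ≤ e^{-v} Δ_{h_t} v + (1 - e^{-v}) R_{h_t}` on `0 < t < T`:
tests are globally smooth functions touching `v` from above locally. -/
def ViscSubNL (T : ℝ) (v : ℝ → V → ℝ) : Prop :=
  ∀ (φ : ℝ → V → ℝ) (t₀ : ℝ) (x₀ : V), 0 < t₀ → t₀ < T → x₀ ∈ 𝓜.carrier →
    𝓜.SmoothST (Set.Ioo 0 T) φ → φ t₀ x₀ = v t₀ x₀ →
    (∀ᶠ p : ℝ × V in 𝓝 (t₀, x₀), p.2 ∈ 𝓜.carrier → v p.1 p.2 ≤ φ p.1 p.2) →
    deriv (fun s => φ s x₀) t₀ ≤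
      Real.exp (- v t₀ x₀) * lap 𝓜 (D.h t₀) (φ t₀) x₀ + (1 - Real.exp (- v t₀ x₀)) * D.R t₀ x₀

/-- **Proposition 3.5 (ii)** (nonlinear scalar comparison). -/
def StComparison : Prop :=
  ∀ (T : ℝ) (v : ℝ → V → ℝ), 0 < T →
    UpperSemicontinuousOn (fun p : ℝ × V => v p.1 p.2) (Set.Icc 0 T ×ˢ 𝓜.carrier) →
    (∀ t ∈ Set.Icc (0 : ℝ) T, ∀ x ∈ 𝓜.carrier, 0 ≤ v t x ∧ v t x ≤ D.rho t x) →
    D.ViscSubNL T v →
    ∀ t ∈ Set.Ico (0 : ℝ) T, ∀ x ∈ 𝓜.carrier, v t x = 0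

end FlowData

section Joint

/-- coordinates on `U × ℂⁿ × ℂ ⊆ ℂ^{(n+n)+1}`: base part. -/
noncomputable def pBase (p : CE ((Fin n ⊕ Fin n) ⊕ Unit)) : CE (Fin n) :=
  WithLp.toLp 2 fun j => p (Sum.inl (Sum.inl j))

/-- fibre (cotangent) part. -/
def pFib (p : CE ((Fin n ⊕ Fin n) ⊕ Unit)) : Fin n → ℂ := fun j => p (Sum.inl (Sum.inr j))

/-- logarithmic time part. -/
def pLog (p : CE ((Fin n ⊕ Fin n) ⊕ Unit)) : ℂ := p (Sum.inr ())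

/-- the function `(z, ζ, w) ↦ N(z, ζ, e^{w + \bar w}) = |ζ|²` in the dual metric of `h_t`,
`t = e^{w + \bar w}`, in cotangent coordinates over the parametrisation `Φ`. -/
noncomputable def jointNorm (h : ℝ → HFam V (Fin n)) (Φ : CE (Fin n) → V)
    (p : CE ((Fin n ⊕ Fin n) ⊕ Unit)) : ℝ :=
  qf ((h (Real.exp (2 * (pLog p).re)) Φ (pBase p))⁻¹).transpose (pFib p)

/-- **Theorem 6.3** (joint positivity): `N(x, ξ, e^{w + \bar w})` is plurisubharmonic on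
`T^*M × ℂ` (the function is smooth, so this is nonnegativity of the Levi matrix). -/
def StJointPositivity {𝓜 : CMfd V (Fin n)} {g : HFam V (Fin n)} {o : V}
    (D : FlowData 𝓜 g o) : Prop :=
  ∀ (Φ : CE (Fin n) → V) (U : Set (CE (Fin n))), 𝓜.IsHol Φ U →
    ∀ p : CE ((Fin n ⊕ Fin n) ⊕ Unit), pBase p ∈ U → (levi (jointNorm D.h Φ) p).PosSemidef

end Joint

end Claimed.Agent.R316
end
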