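/- Packed by merge_tool.py (helper293): 2 modules of Claimed.Agent.R316 in one file, same declarations.
   Old modules, in this order: CW.MatFun, CW.LapC -/
import Claimed.Agent.R316.CW.Levi
import Claimed.Agent.R316.CW.MatAlg

/- ===== packed: Claimed.Agent.R316.CW.MatFun ===== -/
section
/-!
# Row 316, CW-3: matrix valued functions: products, trace, `det`, inverse, `log det`

Owner: helper141.

All matrix functions are given ENTRYWISE: the regularity hypothesis on `H : E → Matrix m n ℂ` is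
`∀ j k, DifferentiableAt ℝ (fun w => H w j k) x` (resp. `ContDiffAt`, `ContDiffOn`, `HasDerivWithinAt` ...),
which is the shape of `IsHForm.smooth` and of the flow interfaces of `S3/Defs.lean`.

* Part A: Hermitian / positive definite matrices: `det` is real, positive; `log det` algebra.
* Part B: regularity on a real normed space `E` (within arbitrary sets: use it for `Icc a b ×ˢ U`).
* Part C: `fdM H x v` (entrywise directional derivative): product rule, Jacobi formula, inverse, `log det`.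
* Part D: one real parameter, `HasDerivWithinAt` / `HasDerivAt` forms.
* Part E: `dzM l H z`, `dzbM l H z` (entrywise Wirtinger derivatives) on `CE ι`.
* Part F: `log det`: gradient, Levi matrix, transformation laws (=> `ricF`).

Conventions: `logdet` is always `fun w => Real.log (H w).det.re` (as in `ricF`).
-/

set_option autoImplicit false
set_option linter.unusedSectionVars false
open scoped ContDiff ComplexOrder ComplexConjugate Topology Matrix

namespace Claimed.Agent.R316

/-! ## Part A: determinants of Hermitian and positive definite matrices -/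

section partA

variable {m : Type} [Fintype m] [DecidableEq m]
variable {A B T : Matrix m m ℂ}

theorem det_im_of_isHermitian (hA : A.IsHermitian) : A.det.im = 0 := by
  have h : star A.det = A.det := by
    rw [← Matrix.det_conjTranspose, hA.eq]
  exact Complex.conj_eq_iff_im.1 h

theorem ofReal_det_re_of_isHermitian (hA : A.IsHermitian) : ((A.det.re : ℝ) : ℂ) = A.det := by
  apply Complex.ext
  · simp
  · simp [det_im_of_isHermitian hA]

theorem det_re_pos_of_posDef (hA : A.PosDef) : 0 < A.det.re := by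
  have h := hA.det_pos
  rw [Complex.lt_def] at h
  simpa using h.1

theorem det_ne_zero_of_posDef (hA : A.PosDef) : A.det ≠ 0 := hA.det_pos.ne'

theorem det_re_ne_zero_of_posDef (hA : A.PosDef) : A.det.re ≠ 0 := (det_re_pos_of_posDef hA).ne'

theorem ofReal_det_re_of_posDef (hA : A.PosDef) : ((A.det.re : ℝ) : ℂ) = A.det :=
  ofReal_det_re_of_isHermitian hA.isHermitian

theorem isUnit_of_posDef (hA : A.PosDef) : IsUnit A := hA.isUnit

theorem inv_mul_cancel_of_posDef (hA : A.PosDef) : A⁻¹ * A = 1 :=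
  Matrix.nonsing_inv_mul A ((Matrix.isUnit_iff_isUnit_det A).1 hA.isUnit)

theorem mul_inv_cancel_of_posDef (hA : A.PosDef) : A * A⁻¹ = 1 :=
  Matrix.mul_nonsing_inv A ((Matrix.isUnit_iff_isUnit_det A).1 hA.isUnit)

/-- `tr (A⁻¹ B)` is real for `A > 0`, `B` Hermitian. -/
theorem trace_inv_mul_im (hA : A.PosDef) (hB : B.IsHermitian) : (A⁻¹ * B).trace.im = 0 := by
  have h : star (A⁻¹ * B).trace = (A⁻¹ * B).trace := by
    rw [← Matrix.trace_conjTranspose, Matrix.conjTranspose_mul, Matrix.conjTranspose_nonsing_inv,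
      hA.isHermitian.eq, hB.eq, Matrix.trace_mul_comm]
  exact Complex.conj_eq_iff_im.1 h

theorem ofReal_trace_inv_mul_re (hA : A.PosDef) (hB : B.IsHermitian) :
    (((A⁻¹ * B).trace.re : ℝ) : ℂ) = (A⁻¹ * B).trace := by
  apply Complex.ext
  · simp
  · simp [trace_inv_mul_im hA hB]

/-- `det (Tᴴ A T) = |det T|² det A`. -/
theorem det_conjTranspose_mul_mul (T A : Matrix m m ℂ) :
    (Tᴴ * A * T).det = ((‖T.det‖ ^ 2 : ℝ) : ℂ) * A.det := by
  rw [Matrix.det_mul, Matrix.det_mul, Matrix.det_conjTranspose]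
  have : ((‖T.det‖ ^ 2 : ℝ) : ℂ) = star T.det * T.det := by
    rw [← Complex.normSq_eq_norm_sq, Complex.normSq_eq_conj_mul_self]
    rfl
  rw [this]; ring

theorem det_re_conjTranspose_mul_mul (T A : Matrix m m ℂ) :
    (Tᴴ * A * T).det.re = ‖T.det‖ ^ 2 * A.det.re := by
  rw [det_conjTranspose_mul_mul, Complex.re_ofReal_mul]

theorem logDet_conjTranspose_mul_mul (hT : T.det ≠ 0) (hA : A.det.re ≠ 0) :
    Real.log (Tᴴ * A * T).det.re = Real.log A.det.re + Real.log (‖T.det‖ ^ 2) := by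
  rw [det_re_conjTranspose_mul_mul, Real.log_mul (by positivity) hA, add_comm]

theorem posDef_conjTranspose_mul_mul (hT : T.det ≠ 0) (hA : A.PosDef) : (Tᴴ * A * T).PosDef := by
  apply hA.conjTranspose_mul_mul_same
  exact Matrix.mulVec_injective_iff_isUnit.2 ((Matrix.isUnit_iff_isUnit_det T).2 (isUnit_iff_ne_zero.2 hT))

/-- `det (c A) = c^n det A`. -/
theorem det_re_smul_real (c : ℝ) (A : Matrix m m ℂ) :
    (((c : ℝ) : ℂ) • A).det.re = c ^ Fintype.card m * A.det.re := by
  rw [Matrix.det_smul, ← Complex.ofReal_pow, Complex.re_ofReal_mul]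

theorem logDet_smul_real {c : ℝ} (hc : c ≠ 0) (hA : A.det.re ≠ 0) :
    Real.log (((c : ℝ) : ℂ) • A).det.re = Fintype.card m * Real.log c + Real.log A.det.re := by
  rw [det_re_smul_real, Real.log_mul (pow_ne_zero _ hc) hA, Real.log_pow]

theorem logDet_exp_smul (a : ℝ) (hA : A.det.re ≠ 0) :
    Real.log (((Real.exp a : ℝ) : ℂ) • A).det.re = Fintype.card m * a + Real.log A.det.re := by
  rw [logDet_smul_real (Real.exp_ne_zero a) hA, Real.log_exp]

theorem det_div_re (hA : A.IsHermitian) (hB : B.IsHermitian) :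
    (A.det / B.det).re = A.det.re / B.det.re := by
  rw [← ofReal_det_re_of_isHermitian hA, ← ofReal_det_re_of_isHermitian hB, ← Complex.ofReal_div,
    Complex.ofReal_re, Complex.ofReal_re, Complex.ofReal_re]

theorem log_det_div_re (hA : A.PosDef) (hB : B.PosDef) :
    Real.log (A.det / B.det).re = Real.log A.det.re - Real.log B.det.re := by
  rw [det_div_re hA.isHermitian hB.isHermitian,
    Real.log_div (det_re_ne_zero_of_posDef hA) (det_re_ne_zero_of_posDef hB)]

theorem det_inv_mul (hB : B.det ≠ 0) : (B⁻¹ * A).det = A.det / B.det := by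
  rw [Matrix.det_mul, Matrix.det_nonsing_inv, Ring.inverse_eq_inv', div_eq_mul_inv, mul_comm]

theorem logDet_one : Real.log (1 : Matrix m m ℂ).det.re = 0 := by
  simp

end partA

/-! ## Part B: regularity of products, traces, determinants, inverses -/

section partB

variable {E : Type} [NormedAddCommGroup E] [NormedSpace ℝ E]
variable {m n p : Type} [Fintype m] [Fintype n] [Fintype p] [DecidableEq m]
variable {H : E → Matrix m m ℂ} {A : E → Matrix m n ℂ} {B : E → Matrix n p ℂ}
variable {s : Set E} {x : E} {N : WithTop ℕ∞}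

/-! ### `ContDiffWithinAt` -/

theorem contDiffWithinAt_matMul (hA : ∀ j k, ContDiffWithinAt ℝ N (fun w => A w j k) s x)
    (hB : ∀ j k, ContDiffWithinAt ℝ N (fun w => B w j k) s x) (j : m) (k : p) :
    ContDiffWithinAt ℝ N (fun w => (A w * B w) j k) s x := by
  simp only [Matrix.mul_apply]
  exact ContDiffWithinAt.sum fun l _ => (hA j l).mul (hB l k)

theorem contDiffWithinAt_matTrace (hH : ∀ j k, ContDiffWithinAt ℝ N (fun w => H w j k) s x) :
    ContDiffWithinAt ℝ N (fun w => (H w).trace) s x := by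
  simp only [Matrix.trace, Matrix.diag_apply]
  exact ContDiffWithinAt.sum fun l _ => hH l l

theorem contDiffWithinAt_conjTranspose (hA : ∀ j k, ContDiffWithinAt ℝ N (fun w => A w j k) s x)
    (k : n) (j : m) : ContDiffWithinAt ℝ N (fun w => (A w)ᴴ k j) s x := by
  simp only [Matrix.conjTranspose_apply]
  exact Complex.conjCLE.contDiff.comp_contDiffWithinAt (hA j k)

theorem contDiffWithinAt_det (hH : ∀ j k, ContDiffWithinAt ℝ N (fun w => H w j k) s x) :
    ContDiffWithinAt ℝ N (fun w => (H w).det) s x := by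
  simp only [Matrix.det_apply]
  refine ContDiffWithinAt.sum fun σ _ => ?_
  refine ContDiffWithinAt.const_smul _ ?_
  exact contDiffWithinAt_prod fun i _ => hH (σ i) i

theorem contDiffWithinAt_det_re (hH : ∀ j k, ContDiffWithinAt ℝ N (fun w => H w j k) s x) :
    ContDiffWithinAt ℝ N (fun w => (H w).det.re) s x :=
  Complex.reCLM.contDiff.comp_contDiffWithinAt (contDiffWithinAt_det hH)

theorem contDiffWithinAt_adjugate (hH : ∀ j k, ContDiffWithinAt ℝ N (fun w => H w j k) s x)
    (j k : m) : ContDiffWithinAt ℝ N (fun w => (H w).adjugate j k) s x := by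
  simp only [Matrix.adjugate_apply]
  apply contDiffWithinAt_det
  intro a b
  simp only [Matrix.updateRow_apply]
  by_cases h : a = k
  · simp only [h, if_true]; exact contDiffWithinAt_const
  · simp only [h, if_false]; exact hH a b

theorem contDiffWithinAt_matInv (hH : ∀ j k, ContDiffWithinAt ℝ N (fun w => H w j k) s x)
    (h0 : (H x).det ≠ 0) (j k : m) : ContDiffWithinAt ℝ N (fun w => (H w)⁻¹ j k) s x := by
  simp only [Matrix.inv_def, Ring.inverse_eq_inv', Matrix.smul_apply, smul_eq_mul]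
  exact ((contDiffWithinAt_det hH).inv h0).mul (contDiffWithinAt_adjugate hH j k)

theorem contDiffWithinAt_logDet (hH : ∀ j k, ContDiffWithinAt ℝ N (fun w => H w j k) s x)
    (h0 : (H x).det.re ≠ 0) : ContDiffWithinAt ℝ N (fun w => Real.log (H w).det.re) s x :=
  (contDiffWithinAt_det_re hH).log h0

/-! ### `ContDiffAt` -/

theorem contDiffAt_matMul (hA : ∀ j k, ContDiffAt ℝ N (fun w => A w j k) x)
    (hB : ∀ j k, ContDiffAt ℝ N (fun w => B w j k) x) (j : m) (k : p) :
    ContDiffAt ℝ N (fun w => (A w * B w) j k) x :=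
  contDiffWithinAt_matMul (s := Set.univ) hA hB j k

theorem contDiffAt_matTrace (hH : ∀ j k, ContDiffAt ℝ N (fun w => H w j k) x) :
    ContDiffAt ℝ N (fun w => (H w).trace) x :=
  contDiffWithinAt_matTrace (s := Set.univ) hH

theorem contDiffAt_conjTranspose (hA : ∀ j k, ContDiffAt ℝ N (fun w => A w j k) x)
    (k : n) (j : m) : ContDiffAt ℝ N (fun w => (A w)ᴴ k j) x :=
  contDiffWithinAt_conjTranspose (s := Set.univ) hA k j

theorem contDiffAt_det (hH : ∀ j k, ContDiffAt ℝ N (fun w => H w j k) x) :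
    ContDiffAt ℝ N (fun w => (H w).det) x :=
  contDiffWithinAt_det (s := Set.univ) hH

theorem contDiffAt_det_re (hH : ∀ j k, ContDiffAt ℝ N (fun w => H w j k) x) :
    ContDiffAt ℝ N (fun w => (H w).det.re) x :=
  contDiffWithinAt_det_re (s := Set.univ) hH

theorem contDiffAt_matInv (hH : ∀ j k, ContDiffAt ℝ N (fun w => H w j k) x)
    (h0 : (H x).det ≠ 0) (j k : m) : ContDiffAt ℝ N (fun w => (H w)⁻¹ j k) x :=
  contDiffWithinAt_matInv (s := Set.univ) hH h0 j k

theorem contDiffAt_logDet (hH : ∀ j k, ContDiffAt ℝ N (fun w => H w j k) x)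
    (h0 : (H x).det.re ≠ 0) : ContDiffAt ℝ N (fun w => Real.log (H w).det.re) x :=
  contDiffWithinAt_logDet (s := Set.univ) hH h0

theorem contDiffAt_logDet_of_posDef (hH : ∀ j k, ContDiffAt ℝ N (fun w => H w j k) x)
    (h0 : (H x).PosDef) : ContDiffAt ℝ N (fun w => Real.log (H w).det.re) x :=
  contDiffAt_logDet hH (det_re_ne_zero_of_posDef h0)

/-! ### `ContDiffOn` -/

theorem contDiffOn_matMul (hA : ∀ j k, ContDiffOn ℝ N (fun w => A w j k) s)
    (hB : ∀ j k, ContDiffOn ℝ N (fun w => B w j k) s) (j : m) (k : p) :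
    ContDiffOn ℝ N (fun w => (A w * B w) j k) s := fun w hw =>
  contDiffWithinAt_matMul (fun a b => hA a b w hw) (fun a b => hB a b w hw) j k

theorem contDiffOn_matTrace (hH : ∀ j k, ContDiffOn ℝ N (fun w => H w j k) s) :
    ContDiffOn ℝ N (fun w => (H w).trace) s := fun w hw =>
  contDiffWithinAt_matTrace (fun a b => hH a b w hw)

theorem contDiffOn_conjTranspose (hA : ∀ j k, ContDiffOn ℝ N (fun w => A w j k) s)
    (k : n) (j : m) : ContDiffOn ℝ N (fun w => (A w)ᴴ k j) s := fun w hw =>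
  contDiffWithinAt_conjTranspose (fun a b => hA a b w hw) k j

theorem contDiffOn_det (hH : ∀ j k, ContDiffOn ℝ N (fun w => H w j k) s) :
    ContDiffOn ℝ N (fun w => (H w).det) s := fun w hw =>
  contDiffWithinAt_det (fun a b => hH a b w hw)

theorem contDiffOn_det_re (hH : ∀ j k, ContDiffOn ℝ N (fun w => H w j k) s) :
    ContDiffOn ℝ N (fun w => (H w).det.re) s := fun w hw =>
  contDiffWithinAt_det_re (fun a b => hH a b w hw)

theorem contDiffOn_matInv (hH : ∀ j k, ContDiffOn ℝ N (fun w => H w j k) s)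
    (h0 : ∀ w ∈ s, (H w).det ≠ 0) (j k : m) : ContDiffOn ℝ N (fun w => (H w)⁻¹ j k) s :=
  fun w hw => contDiffWithinAt_matInv (fun a b => hH a b w hw) (h0 w hw) j k

theorem contDiffOn_matInv_of_posDef (hH : ∀ j k, ContDiffOn ℝ N (fun w => H w j k) s)
    (h0 : ∀ w ∈ s, (H w).PosDef) (j k : m) : ContDiffOn ℝ N (fun w => (H w)⁻¹ j k) s :=
  contDiffOn_matInv hH (fun w hw => det_ne_zero_of_posDef (h0 w hw)) j k

theorem contDiffOn_logDet (hH : ∀ j k, ContDiffOn ℝ N (fun w => H w j k) s)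
    (h0 : ∀ w ∈ s, (H w).det.re ≠ 0) : ContDiffOn ℝ N (fun w => Real.log (H w).det.re) s :=
  fun w hw => contDiffWithinAt_logDet (fun a b => hH a b w hw) (h0 w hw)

theorem contDiffOn_logDet_of_posDef (hH : ∀ j k, ContDiffOn ℝ N (fun w => H w j k) s)
    (h0 : ∀ w ∈ s, (H w).PosDef) : ContDiffOn ℝ N (fun w => Real.log (H w).det.re) s :=
  contDiffOn_logDet hH fun w hw => det_re_ne_zero_of_posDef (h0 w hw)

/-- `tr (H⁻¹ A)` (complex value). -/
theorem contDiffOn_trace_inv_mul {A : E → Matrix m m ℂ}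
    (hH : ∀ j k, ContDiffOn ℝ N (fun w => H w j k) s) (h0 : ∀ w ∈ s, (H w).det ≠ 0)
    (hA : ∀ j k, ContDiffOn ℝ N (fun w => A w j k) s) :
    ContDiffOn ℝ N (fun w => ((H w)⁻¹ * A w).trace) s :=
  contDiffOn_matTrace (H := fun w => (H w)⁻¹ * A w)
    (fun j k => contDiffOn_matMul (A := fun w => (H w)⁻¹) (contDiffOn_matInv hH h0) hA j k)

/-- `tr (H⁻¹ A)` (real part, as in `trF`). -/
theorem contDiffOn_trace_inv_mul_re {A : E → Matrix m m ℂ}
    (hH : ∀ j k, ContDiffOn ℝ N (fun w => H w j k) s) (h0 : ∀ w ∈ s, (H w).det ≠ 0)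
    (hA : ∀ j k, ContDiffOn ℝ N (fun w => A w j k) s) :
    ContDiffOn ℝ N (fun w => ((H w)⁻¹ * A w).trace.re) s :=
  Complex.reCLM.contDiff.comp_contDiffOn (contDiffOn_trace_inv_mul hH h0 hA)

/-- `det H / det G` (real part, as in `detF`). -/
theorem contDiffOn_det_div_re {G : E → Matrix m m ℂ}
    (hH : ∀ j k, ContDiffOn ℝ N (fun w => H w j k) s)
    (hG : ∀ j k, ContDiffOn ℝ N (fun w => G w j k) s) (h0 : ∀ w ∈ s, (G w).det ≠ 0) :
    ContDiffOn ℝ N (fun w => ((H w).det / (G w).det).re) s :=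
  by
  simp only [div_eq_mul_inv]
  exact Complex.reCLM.contDiff.comp_contDiffOn
    ((contDiffOn_det hH).mul ((contDiffOn_det hG).inv h0))

/-- `qf (H w) (v w)`. -/
theorem contDiffOn_qf {v : E → m → ℂ} (hH : ∀ j k, ContDiffOn ℝ N (fun w => H w j k) s)
    (hv : ∀ j, ContDiffOn ℝ N (fun w => v w j) s) : ContDiffOn ℝ N (fun w => qf (H w) (v w)) s := by
  unfold qf
  refine Complex.reCLM.contDiff.comp_contDiffOn ?_
  simp only [dotProduct, Matrix.mulVec, Pi.star_apply]
  refine ContDiffOn.sum fun j _ => ?_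
  refine ContDiffOn.mul (Complex.conjCLE.contDiff.comp_contDiffOn (hv j)) ?_
  exact ContDiffOn.sum fun k _ => (hH j k).mul (hv k)

/-! ### differentiability -/

theorem differentiableAt_matMul (hA : ∀ j k, DifferentiableAt ℝ (fun w => A w j k) x)
    (hB : ∀ j k, DifferentiableAt ℝ (fun w => B w j k) x) (j : m) (k : p) :
    DifferentiableAt ℝ (fun w => (A w * B w) j k) x := by
  simp only [Matrix.mul_apply]
  exact DifferentiableAt.fun_sum fun l _ => (hA j l).mul (hB l k)

theorem differentiableAt_matTrace (hH : ∀ j k, DifferentiableAt ℝ (fun w => H w j k) x) :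
    DifferentiableAt ℝ (fun w => (H w).trace) x := by
  simp only [Matrix.trace, Matrix.diag_apply]
  exact DifferentiableAt.fun_sum fun l _ => hH l l

theorem differentiableAt_det (hH : ∀ j k, DifferentiableAt ℝ (fun w => H w j k) x) :
    DifferentiableAt ℝ (fun w => (H w).det) x := by
  simp only [Matrix.det_apply]
  refine DifferentiableAt.fun_sum fun σ _ => ?_
  refine DifferentiableAt.const_smul ?_ _
  exact (HasFDerivAt.finsetProd (u := Finset.univ) (g := fun i w => H w (σ i) i)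
    (fun i _ => (hH (σ i) i).hasFDerivAt)).differentiableAt

theorem differentiableAt_det_re (hH : ∀ j k, DifferentiableAt ℝ (fun w => H w j k) x) :
    DifferentiableAt ℝ (fun w => (H w).det.re) x :=
  Complex.reCLM.differentiableAt.comp x (differentiableAt_det hH)

theorem differentiableAt_adjugate (hH : ∀ j k, DifferentiableAt ℝ (fun w => H w j k) x)
    (j k : m) : DifferentiableAt ℝ (fun w => (H w).adjugate j k) x := by
  simp only [Matrix.adjugate_apply]
  apply differentiableAt_det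
  intro a b
  simp only [Matrix.updateRow_apply]
  by_cases h : a = k
  · simp only [h, if_true]; exact differentiableAt_const _
  · simp only [h, if_false]; exact hH a b

theorem differentiableAt_matInv (hH : ∀ j k, DifferentiableAt ℝ (fun w => H w j k) x)
    (h0 : (H x).det ≠ 0) (j k : m) : DifferentiableAt ℝ (fun w => (H w)⁻¹ j k) x := by
  simp only [Matrix.inv_def, Ring.inverse_eq_inv', Matrix.smul_apply, smul_eq_mul]
  exact ((differentiableAt_det hH).inv h0).mul (differentiableAt_adjugate hH j k)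

theorem differentiableAt_logDet (hH : ∀ j k, DifferentiableAt ℝ (fun w => H w j k) x)
    (h0 : (H x).det.re ≠ 0) : DifferentiableAt ℝ (fun w => Real.log (H w).det.re) x :=
  (differentiableAt_det_re hH).log h0

/-- continuity of the determinant: invertibility is an open condition. -/
theorem eventually_det_ne_zero (hH : ∀ j k, ContinuousAt (fun w => H w j k) x)
    (h0 : (H x).det ≠ 0) : ∀ᶠ w in 𝓝 x, (H w).det ≠ 0 := by
  have hc : ContinuousAt H x := continuousAt_pi.2 fun j => continuousAt_pi.2 fun k => hH j k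
  have hd : ContinuousAt (fun w => (H w).det) x :=
    (Continuous.matrix_det continuous_id).continuousAt.comp hc
  exact hd.eventually_ne h0

/-- positive definiteness is an open condition among Hermitian matrix functions. -/
theorem eventually_posDef (hH : ∀ j k, ContinuousAt (fun w => H w j k) x)
    (hh : ∀ᶠ w in 𝓝 x, (H w).IsHermitian) (h0 : (H x).PosDef) : ∀ᶠ w in 𝓝 x, (H w).PosDef := by
  have hK : IsCompact (Metric.sphere (0 : m → ℂ) 1) := isCompact_sphere _ _
  have key : ∀ᶠ w in 𝓝 x, ∀ v ∈ Metric.sphere (0 : m → ℂ) 1, 0 < (star v ⬝ᵥ (H w *ᵥ v)).re := by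
    apply hK.eventually_forall_of_forall_eventually
    intro v hv
    have hv0 : v ≠ 0 := by
      intro h; rw [h] at hv; simp at hv
    have hpos : 0 < (star v ⬝ᵥ (H x *ᵥ v)).re := by
      have := h0.dotProduct_mulVec_pos hv0
      rw [Complex.lt_def] at this
      simpa using this.1
    have hcont : ContinuousAt (fun q : E × (m → ℂ) => (star q.2 ⬝ᵥ (H q.1 *ᵥ q.2)).re) (x, v) := by
      refine Complex.continuous_re.continuousAt.comp ?_
      simp only [dotProduct, Matrix.mulVec, Pi.star_apply]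
      refine tendsto_finsetSum _ fun j _ => ?_
      refine Filter.Tendsto.mul ?_ ?_
      · exact ((continuous_star.comp ((continuous_apply j).comp continuous_snd))).continuousAt
      · refine tendsto_finsetSum _ fun k _ => ?_
        refine Filter.Tendsto.mul ?_ ?_
        · exact ContinuousAt.comp (f := fun q : E × (m → ℂ) => q.1) (x := (x, v)) (hH j k)
            continuousAt_fst
        · exact ((continuous_apply k).comp continuous_snd).continuousAt
    exact hcont.eventually (lt_mem_nhds hpos)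
  filter_upwards [key, hh] with w hw hherm
  refine Matrix.PosDef.of_dotProduct_mulVec_pos hherm fun v hv => ?_
  have hn : 0 < ‖v‖ := norm_pos_iff.2 hv
  set u : m → ℂ := ((‖v‖⁻¹ : ℝ) : ℂ) • v with hu
  have hus : u ∈ Metric.sphere (0 : m → ℂ) 1 := by
    rw [mem_sphere_zero_iff_norm, hu, norm_smul]
    simp only [Complex.norm_real, norm_inv, norm_norm]
    exact inv_mul_cancel₀ hn.ne'
  have hvu : v = ((‖v‖ : ℝ) : ℂ) • u := by
    rw [hu, smul_smul, ← Complex.ofReal_mul, mul_inv_cancel₀ hn.ne']; simp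
  have h1 := hw u hus
  have him : (star v ⬝ᵥ (H w *ᵥ v)).im = 0 := by
    have : star (star v ⬝ᵥ (H w *ᵥ v)) = star v ⬝ᵥ (H w *ᵥ v) := by
      conv_rhs => rw [Matrix.star_dotProduct]
      rw [Matrix.star_mulVec, hherm.eq, ← Matrix.dotProduct_mulVec]
    exact Complex.conj_eq_iff_im.1 this
  have hre : (star v ⬝ᵥ (H w *ᵥ v)).re = ‖v‖ ^ 2 * (star u ⬝ᵥ (H w *ᵥ u)).re := by
    conv_lhs => rw [hvu]
    rw [Matrix.mulVec_smul, star_smul, smul_dotProduct, dotProduct_smul, smul_eq_mul, smul_eq_mul,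
      ← mul_assoc]
    have : star ((‖v‖ : ℝ) : ℂ) * ((‖v‖ : ℝ) : ℂ) = ((‖v‖ ^ 2 : ℝ) : ℂ) := by
      simp [sq]
    rw [this, Complex.re_ofReal_mul]
  rw [Complex.lt_def]
  refine ⟨?_, ?_⟩
  · rw [hre]; simp only [Complex.zero_re]; positivity
  · rw [him]; simp

end partB

/-! ## Part C: entrywise directional derivatives -/

section partC

variable {E : Type} [NormedAddCommGroup E] [NormedSpace ℝ E]
variable {m n p : Type} [Fintype m] [Fintype n] [Fintype p] [DecidableEq m]

/-- entrywise derivative of a matrix function in the direction `v`. -/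
noncomputable def fdM (H : E → Matrix m n ℂ) (x v : E) : Matrix m n ℂ :=
  fun j k => fderiv ℝ (fun w => H w j k) x v

variable {H : E → Matrix m m ℂ} {A : E → Matrix m n ℂ} {B : E → Matrix n p ℂ}
variable {s : Set E} {x : E}

theorem fdM_apply (A : E → Matrix m n ℂ) (x v : E) (j : m) (k : n) :
    fdM A x v j k = fderiv ℝ (fun w => A w j k) x v := rfl

theorem matFun_det_updateCol (M : Matrix m m ℂ) (k : m) (b : m → ℂ) :
    (M.updateCol k b).det = ∑ σ : Equiv.Perm m,
      Equiv.Perm.sign σ • ((∏ j ∈ Finset.univ.erase k, M (σ j) j) * b (σ k)) := by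
  rw [Matrix.det_apply]
  refine Finset.sum_congr rfl fun σ _ => ?_
  congr 1
  rw [← Finset.prod_erase_mul _ _ (Finset.mem_univ k)]
  congr 1
  · refine Finset.prod_congr rfl fun j hj => ?_
    rw [Matrix.updateCol_ne (Finset.ne_of_mem_erase hj)]
  · rw [Matrix.updateCol_self]

theorem matFun_jacobi_aux (M N : Matrix m m ℂ) :
    ∑ σ : Equiv.Perm m, Equiv.Perm.sign σ •
        ∑ i, (∏ j ∈ Finset.univ.erase i, M (σ j) j) * N (σ i) i
      = ∑ j, ∑ k, M.adjugate k j * N j k := by
  have h : ∀ k, ∑ j, M.adjugate k j * N j k = (M.updateCol k (fun j => N j k)).det := by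
    intro k
    rw [← Matrix.cramer_apply, Matrix.cramer_eq_adjugate_mulVec]; rfl
  rw [Finset.sum_comm (s := Finset.univ) (t := Finset.univ) (f := fun j k => M.adjugate k j * N j k)]
  simp_rw [h, matFun_det_updateCol, Finset.smul_sum]
  rw [Finset.sum_comm]

theorem matFun_trace_mul (M N : Matrix m m ℂ) : (M * N).trace = ∑ j, ∑ k, M k j * N j k := by
  simp only [Matrix.trace, Matrix.diag_apply, Matrix.mul_apply]
  rw [Finset.sum_comm]

theorem matFun_triple_apply (P N Q : Matrix m m ℂ) (a b : m) :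
    (P * N * Q) a b = ∑ j, ∑ k, (P a j * Q k b) * N j k := by
  simp only [Matrix.mul_apply, Finset.sum_mul]
  rw [Finset.sum_comm]
  refine Finset.sum_congr rfl fun j _ => Finset.sum_congr rfl fun k _ => ?_
  ring

/-- master Jacobi formula. -/
theorem hasFDerivWithinAt_det {H' : m → m → E →L[ℝ] ℂ}
    (h : ∀ j k, HasFDerivWithinAt (fun w => H w j k) (H' j k) s x) :
    HasFDerivWithinAt (fun w => (H w).det) (∑ j, ∑ k, (H x).adjugate k j • H' j k) s x := by
  have h1 : HasFDerivWithinAt (fun w => (H w).det)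
      (∑ σ : Equiv.Perm m, Equiv.Perm.sign σ •
        ∑ i, (∏ j ∈ Finset.univ.erase i, H x (σ j) j) • H' (σ i) i) s x := by
    simp only [Matrix.det_apply]
    exact HasFDerivWithinAt.fun_sum fun σ _ =>
      (HasFDerivWithinAt.finsetProd (u := Finset.univ) (g := fun i w => H w (σ i) i)
        (fun i _ => h (σ i) i)).const_smul _
  refine h1.congr_fderiv ?_
  ext v
  have := matFun_jacobi_aux (H x) (fun j k => H' j k v)
  simpa [_root_.sum_apply] using this

theorem hasFDerivWithinAt_matMul {A' : m → n → E →L[ℝ] ℂ} {B' : n → p → E →L[ℝ] ℂ}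
    (hA : ∀ j k, HasFDerivWithinAt (fun w => A w j k) (A' j k) s x)
    (hB : ∀ j k, HasFDerivWithinAt (fun w => B w j k) (B' j k) s x) (j : m) (k : p) :
    HasFDerivWithinAt (fun w => (A w * B w) j k)
      (∑ l, (A x j l • B' l k + B x l k • A' j l)) s x := by
  simp only [Matrix.mul_apply]
  exact HasFDerivWithinAt.fun_sum fun l _ => (hA j l).mul (hB l k)

theorem matFun_hasFDerivAt_matInv {H' : m → m → E →L[ℝ] ℂ}
    (h : ∀ j k, HasFDerivAt (fun w => H w j k) (H' j k) x) (h0 : (H x).det ≠ 0)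
    (a b : m) :
    HasFDerivAt (fun w => (H w)⁻¹ a b)
      (- ∑ j, ∑ k, ((H x)⁻¹ a j * (H x)⁻¹ k b) • H' j k) x := by
  have hd : ∀ j k, DifferentiableAt ℝ (fun w => (H w)⁻¹ j k) x :=
    differentiableAt_matInv (fun j k => (h j k).differentiableAt) h0
  have hu : IsUnit (H x).det := isUnit_iff_ne_zero.2 h0
  -- derivative of the product `H⁻¹ H = 1`
  have hprod : ∀ c d, HasFDerivAt (fun w => ((H w)⁻¹ * H w) c d)
      (∑ l, ((H x)⁻¹ c l • H' l d + H x l d • fderiv ℝ (fun w => (H w)⁻¹ c l) x)) x := by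
    intro c d
    have := hasFDerivWithinAt_matMul (s := Set.univ) (x := x) (A := fun w => (H w)⁻¹) (B := H)
      (A' := fun j k => fderiv ℝ (fun w => (H w)⁻¹ j k) x) (B' := H')
      (fun j k => (hd j k).hasFDerivAt.hasFDerivWithinAt)
      (fun j k => (h j k).hasFDerivWithinAt) c d
    exact hasFDerivWithinAt_univ.1 this
  have hconst : ∀ c d, HasFDerivAt (fun w => ((H w)⁻¹ * H w) c d) (0 : E →L[ℝ] ℂ) x := by
    intro c d
    have hev : (fun w => ((H w)⁻¹ * H w) c d) =ᶠ[𝓝 x] fun _ => (1 : Matrix m m ℂ) c d := by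
      filter_upwards [eventually_det_ne_zero (fun j k => (h j k).continuousAt) h0] with w hw
      rw [Matrix.nonsing_inv_mul _ (isUnit_iff_ne_zero.2 hw)]
    exact (hasFDerivAt_const _ _).congr_of_eventuallyEq hev
  have hzero : ∀ c d, (∑ l, ((H x)⁻¹ c l • H' l d + H x l d • fderiv ℝ (fun w => (H w)⁻¹ c l) x))
      = (0 : E →L[ℝ] ℂ) := fun c d => (hprod c d).unique (hconst c d)
  refine (hd a b).hasFDerivAt.congr_fderiv ?_
  ext v
  -- matrices
  set G' : Matrix m m ℂ := fun j k => fderiv ℝ (fun w => (H w)⁻¹ j k) x v with hG'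
  set N : Matrix m m ℂ := fun j k => H' j k v with hN
  have hmat : (H x)⁻¹ * N + G' * H x = 0 := by
    ext c d
    have := congrArg (fun L : E →L[ℝ] ℂ => L v) (hzero c d)
    simp only [_root_.sum_apply, _root_.add_apply,
      _root_.smul_apply, smul_eq_mul, _root_.zero_apply] at this
    rw [Matrix.add_apply, Matrix.mul_apply, Matrix.mul_apply, ← Finset.sum_add_distrib]
    rw [Matrix.zero_apply, ← this]
    refine Finset.sum_congr rfl fun l _ => ?_
    simp only [hG', hN]; ring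
  have hG : G' = - ((H x)⁻¹ * N * (H x)⁻¹) := by
    have h1 : G' * H x = - ((H x)⁻¹ * N) := by
      rw [eq_neg_iff_add_eq_zero, add_comm]; exact hmat
    calc G' = G' * (H x * (H x)⁻¹) := by rw [Matrix.mul_nonsing_inv _ hu, Matrix.mul_one]
      _ = (G' * H x) * (H x)⁻¹ := by rw [Matrix.mul_assoc]
      _ = - ((H x)⁻¹ * N * (H x)⁻¹) := by rw [h1, Matrix.neg_mul]
  have : G' a b = (- ((H x)⁻¹ * N * (H x)⁻¹)) a b := by rw [hG]
  rw [show fderiv ℝ (fun w => (H w)⁻¹ a b) x v = G' a b from rfl, this, Matrix.neg_apply,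
    matFun_triple_apply]
  simp [hN]

theorem hasFDerivWithinAt_matInv {H' : m → m → E →L[ℝ] ℂ}
    (h : ∀ j k, HasFDerivWithinAt (fun w => H w j k) (H' j k) s x) (h0 : (H x).det ≠ 0)
    (a b : m) :
    HasFDerivWithinAt (fun w => (H w)⁻¹ a b)
      (- ∑ j, ∑ k, ((H x)⁻¹ a j * (H x)⁻¹ k b) • H' j k) s x := by
  -- the identity family on the space of matrices
  let P : m → m → (m → m → ℂ) →L[ℝ] ℂ := fun j k =>
    (ContinuousLinearMap.proj (R := ℝ) (φ := fun _ : m => ℂ) k).comp
      (ContinuousLinearMap.proj (R := ℝ) (φ := fun _ : m => m → ℂ) j)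
  have hP : ∀ j k, HasFDerivAt (fun w : m → m → ℂ => w j k) (P j k) (H x : m → m → ℂ) :=
    fun j k => (P j k).hasFDerivAt
  have hid := matFun_hasFDerivAt_matInv (E := m → m → ℂ) (H := fun M => (M : Matrix m m ℂ))
    (x := (H x : m → m → ℂ)) (H' := P) hP h0 a b
  have hH : HasFDerivWithinAt (fun w => (H w : m → m → ℂ))
      (ContinuousLinearMap.pi fun j => ContinuousLinearMap.pi fun k => H' j k) s x :=
    hasFDerivWithinAt_pi.2 fun j => hasFDerivWithinAt_pi.2 fun k => h j k
  refine (hid.comp_hasFDerivWithinAt x hH).congr_fderiv ?_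
  ext v
  simp [P]

theorem fdM_mul (hA : ∀ j k, DifferentiableAt ℝ (fun w => A w j k) x)
    (hB : ∀ j k, DifferentiableAt ℝ (fun w => B w j k) x) (v : E) :
    fdM (fun w => A w * B w) x v = fdM A x v * B x + A x * fdM B x v := by
  ext j k
  have := hasFDerivWithinAt_matMul (s := Set.univ)
    (fun j k => (hA j k).hasFDerivAt.hasFDerivWithinAt)
    (fun j k => (hB j k).hasFDerivAt.hasFDerivWithinAt) j k
  rw [fdM_apply, (hasFDerivWithinAt_univ.1 this).fderiv]
  simp only [_root_.sum_apply, _root_.add_apply,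
    _root_.smul_apply, smul_eq_mul, Matrix.add_apply, Matrix.mul_apply, fdM_apply]
  rw [← Finset.sum_add_distrib]
  refine Finset.sum_congr rfl fun l _ => ?_
  ring

theorem fderiv_matTrace (hH : ∀ j k, DifferentiableAt ℝ (fun w => H w j k) x) (v : E) :
    fderiv ℝ (fun w => (H w).trace) x v = (fdM H x v).trace := by
  simp only [Matrix.trace, Matrix.diag_apply, fdM_apply]
  rw [fderiv_fun_sum fun l _ => hH l l]
  simp

theorem fderiv_det (hH : ∀ j k, DifferentiableAt ℝ (fun w => H w j k) x) (v : E) :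
    fderiv ℝ (fun w => (H w).det) x v = ((H x).adjugate * fdM H x v).trace := by
  have := hasFDerivWithinAt_det (s := Set.univ)
    (fun j k => (hH j k).hasFDerivAt.hasFDerivWithinAt)
  rw [(hasFDerivWithinAt_univ.1 this).fderiv, matFun_trace_mul]
  simp [fdM_apply]

theorem matFun_adjugate_eq (M : Matrix m m ℂ) (h0 : M.det ≠ 0) : M.adjugate = M.det • M⁻¹ := by
  rw [Matrix.inv_def, Ring.inverse_eq_inv', smul_smul, mul_inv_cancel₀ h0, one_smul]

theorem fderiv_det' (hH : ∀ j k, DifferentiableAt ℝ (fun w => H w j k) x) (h0 : (H x).det ≠ 0)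
    (v : E) :
    fderiv ℝ (fun w => (H w).det) x v = (H x).det * ((H x)⁻¹ * fdM H x v).trace := by
  rw [fderiv_det hH, matFun_adjugate_eq _ h0, Matrix.smul_mul, Matrix.trace_smul, smul_eq_mul]

theorem fdM_inv (hH : ∀ j k, DifferentiableAt ℝ (fun w => H w j k) x) (h0 : (H x).det ≠ 0)
    (v : E) : fdM (fun w => (H w)⁻¹) x v = - ((H x)⁻¹ * fdM H x v * (H x)⁻¹) := by
  ext a b
  rw [fdM_apply, (matFun_hasFDerivAt_matInv (fun j k => (hH j k).hasFDerivAt) h0 a b).fderiv,
    Matrix.neg_apply, matFun_triple_apply]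
  simp [fdM_apply]

/-- only positivity AT `x` is needed. -/
theorem fderiv_logDet (hH : ∀ j k, DifferentiableAt ℝ (fun w => H w j k) x) (h0 : (H x).PosDef)
    (v : E) :
    fderiv ℝ (fun w => Real.log (H w).det.re) x v = ((H x)⁻¹ * fdM H x v).trace.re := by
  have hdet : HasFDerivAt (fun w => (H w).det) (fderiv ℝ (fun w => (H w).det) x) x := by
    have := hasFDerivWithinAt_det (s := Set.univ)
      (fun j k => (hH j k).hasFDerivAt.hasFDerivWithinAt)
    exact (hasFDerivWithinAt_univ.1 this).differentiableAt.hasFDerivAt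
  have hre : HasFDerivAt (fun w => (H w).det.re)
      (Complex.reCLM.comp (fderiv ℝ (fun w => (H w).det) x)) x :=
    Complex.reCLM.hasFDerivAt.comp x hdet
  have hlog := hre.log (det_re_ne_zero_of_posDef h0)
  rw [hlog.fderiv]
  simp only [_root_.smul_apply, ContinuousLinearMap.comp_apply, Complex.reCLM_apply,
    smul_eq_mul]
  rw [fderiv_det' hH (det_ne_zero_of_posDef h0), Complex.mul_re,
    det_im_of_isHermitian h0.isHermitian, zero_mul, sub_zero, ← mul_assoc,
    inv_mul_cancel₀ (det_re_ne_zero_of_posDef h0), one_mul]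

theorem fdM_conjTranspose (A : E → Matrix m n ℂ) (x v : E) :
    fdM (fun w => (A w)ᴴ) x v = (fdM A x v)ᴴ := by
  ext k j
  simp only [fdM_apply, Matrix.conjTranspose_apply]
  rw [fderiv_star]
  simp

theorem fdM_isHermitian (hh : ∀ᶠ w in 𝓝 x, (H w).IsHermitian) (v : E) :
    (fdM H x v).IsHermitian := by
  unfold Matrix.IsHermitian
  rw [← fdM_conjTranspose]
  ext j k
  simp only [fdM_apply]
  have : (fun w => (H w)ᴴ j k) =ᶠ[𝓝 x] fun w => H w j k := by
    filter_upwards [hh] with w hw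
    rw [hw.eq]
  rw [this.fderiv_eq]

end partC

/-! ## Part D: one real parameter -/

section partD

variable {m n p : Type} [Fintype m] [Fintype n] [Fintype p] [DecidableEq m]
variable {H : ℝ → Matrix m m ℂ} {H' : Matrix m m ℂ}
variable {A : ℝ → Matrix m n ℂ} {A' : Matrix m n ℂ} {B : ℝ → Matrix n p ℂ} {B' : Matrix n p ℂ}
variable {s : Set ℝ} {t : ℝ}

theorem hasDerivWithinAt_matMul (hA : ∀ j k, HasDerivWithinAt (fun r => A r j k) (A' j k) s t)
    (hB : ∀ j k, HasDerivWithinAt (fun r => B r j k) (B' j k) s t) (j : m) (k : p) :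
    HasDerivWithinAt (fun r => (A r * B r) j k) ((A' * B t + A t * B') j k) s t := by
  simp only [Matrix.mul_apply, Matrix.add_apply]
  rw [← Finset.sum_add_distrib]
  exact HasDerivWithinAt.fun_sum fun l _ => (hA j l).mul (hB l k)

theorem hasDerivWithinAt_matTrace (h : ∀ j k, HasDerivWithinAt (fun r => H r j k) (H' j k) s t) :
    HasDerivWithinAt (fun r => (H r).trace) H'.trace s t := by
  simp only [Matrix.trace, Matrix.diag_apply]
  exact HasDerivWithinAt.fun_sum fun l _ => h l l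

theorem hasDerivWithinAt_det (h : ∀ j k, HasDerivWithinAt (fun r => H r j k) (H' j k) s t) :
    HasDerivWithinAt (fun r => (H r).det) ((H t).adjugate * H').trace s t := by
  have := (hasFDerivWithinAt_det fun j k => (h j k).hasFDerivWithinAt).hasDerivWithinAt
  refine this.congr_deriv ?_
  rw [matFun_trace_mul]
  simp

theorem hasDerivWithinAt_det' (h : ∀ j k, HasDerivWithinAt (fun r => H r j k) (H' j k) s t)
    (h0 : (H t).det ≠ 0) :
    HasDerivWithinAt (fun r => (H r).det) ((H t).det * ((H t)⁻¹ * H').trace) s t := by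
  refine (hasDerivWithinAt_det h).congr_deriv ?_
  rw [matFun_adjugate_eq _ h0, Matrix.smul_mul, Matrix.trace_smul, smul_eq_mul]

theorem hasDerivWithinAt_matInv (h : ∀ j k, HasDerivWithinAt (fun r => H r j k) (H' j k) s t)
    (h0 : (H t).det ≠ 0) (j k : m) :
    HasDerivWithinAt (fun r => (H r)⁻¹ j k) ((- ((H t)⁻¹ * H' * (H t)⁻¹)) j k) s t := by
  have := (hasFDerivWithinAt_matInv (fun j k => (h j k).hasFDerivWithinAt) h0 j k).hasDerivWithinAt
  refine this.congr_deriv ?_
  rw [Matrix.neg_apply, matFun_triple_apply]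
  simp

/-- `d/dt log det H = tr (H⁻¹ H')` (only positivity at time `t` is needed). -/
theorem hasDerivWithinAt_logDet (h : ∀ j k, HasDerivWithinAt (fun r => H r j k) (H' j k) s t)
    (h0 : (H t).PosDef) :
    HasDerivWithinAt (fun r => Real.log (H r).det.re) ((H t)⁻¹ * H').trace.re s t := by
  have hdet := hasDerivWithinAt_det' h (det_ne_zero_of_posDef h0)
  have hre : HasDerivWithinAt (fun r => (H r).det.re)
      ((H t).det * ((H t)⁻¹ * H').trace).re s t :=
    (Complex.reCLM.hasFDerivAt.comp_hasDerivWithinAt t hdet)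
  refine (hre.log (det_re_ne_zero_of_posDef h0)).congr_deriv ?_
  rw [Complex.mul_re, det_im_of_isHermitian h0.isHermitian, zero_mul, sub_zero,
    mul_div_assoc, mul_comm, div_mul_cancel₀ _ (det_re_ne_zero_of_posDef h0)]

/-- `d/dt tr (H⁻¹ A) = tr (H⁻¹ A') - tr (H⁻¹ H' H⁻¹ A)`. -/
theorem hasDerivWithinAt_trace_inv_mul {A : ℝ → Matrix m m ℂ} {A' : Matrix m m ℂ}
    (h : ∀ j k, HasDerivWithinAt (fun r => H r j k) (H' j k) s t) (h0 : (H t).det ≠ 0)
    (hA : ∀ j k, HasDerivWithinAt (fun r => A r j k) (A' j k) s t) :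
    HasDerivWithinAt (fun r => ((H r)⁻¹ * A r).trace)
      (((H t)⁻¹ * A').trace - ((H t)⁻¹ * H' * (H t)⁻¹ * A t).trace) s t := by
  have h1 := hasDerivWithinAt_matTrace (H := fun r => (H r)⁻¹ * A r)
    (H' := (- ((H t)⁻¹ * H' * (H t)⁻¹)) * A t + (H t)⁻¹ * A')
    (fun j k => hasDerivWithinAt_matMul (A := fun r => (H r)⁻¹)
      (hasDerivWithinAt_matInv h h0) hA j k)
  refine h1.congr_deriv ?_
  rw [Matrix.trace_add, Matrix.neg_mul, Matrix.trace_neg]
  ring

theorem hasDerivWithinAt_trace_inv_mul_re {A : ℝ → Matrix m m ℂ} {A' : Matrix m m ℂ}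
    (h : ∀ j k, HasDerivWithinAt (fun r => H r j k) (H' j k) s t) (h0 : (H t).det ≠ 0)
    (hA : ∀ j k, HasDerivWithinAt (fun r => A r j k) (A' j k) s t) :
    HasDerivWithinAt (fun r => ((H r)⁻¹ * A r).trace.re)
      (((H t)⁻¹ * A').trace.re - ((H t)⁻¹ * H' * (H t)⁻¹ * A t).trace.re) s t := by
  have := Complex.reCLM.hasFDerivAt.comp_hasDerivWithinAt t (hasDerivWithinAt_trace_inv_mul h h0 hA)
  refine this.congr_deriv ?_
  simp

theorem hasDerivAt_matMul (hA : ∀ j k, HasDerivAt (fun r => A r j k) (A' j k) t)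
    (hB : ∀ j k, HasDerivAt (fun r => B r j k) (B' j k) t) (j : m) (k : p) :
    HasDerivAt (fun r => (A r * B r) j k) ((A' * B t + A t * B') j k) t :=
  hasDerivWithinAt_univ.1 (hasDerivWithinAt_matMul (fun j k => (hA j k).hasDerivWithinAt)
    (fun j k => (hB j k).hasDerivWithinAt) j k)

theorem hasDerivAt_det (h : ∀ j k, HasDerivAt (fun r => H r j k) (H' j k) t) :
    HasDerivAt (fun r => (H r).det) ((H t).adjugate * H').trace t :=
  hasDerivWithinAt_univ.1 (hasDerivWithinAt_det fun j k => (h j k).hasDerivWithinAt)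

theorem hasDerivAt_det' (h : ∀ j k, HasDerivAt (fun r => H r j k) (H' j k) t)
    (h0 : (H t).det ≠ 0) :
    HasDerivAt (fun r => (H r).det) ((H t).det * ((H t)⁻¹ * H').trace) t :=
  hasDerivWithinAt_univ.1 (hasDerivWithinAt_det' (fun j k => (h j k).hasDerivWithinAt) h0)

theorem hasDerivAt_matInv (h : ∀ j k, HasDerivAt (fun r => H r j k) (H' j k) t)
    (h0 : (H t).det ≠ 0) (j k : m) :
    HasDerivAt (fun r => (H r)⁻¹ j k) ((- ((H t)⁻¹ * H' * (H t)⁻¹)) j k) t :=
  hasDerivWithinAt_univ.1 (hasDerivWithinAt_matInv (fun j k => (h j k).hasDerivWithinAt) h0 j k)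

theorem hasDerivAt_logDet (h : ∀ j k, HasDerivAt (fun r => H r j k) (H' j k) t)
    (h0 : (H t).PosDef) :
    HasDerivAt (fun r => Real.log (H r).det.re) ((H t)⁻¹ * H').trace.re t :=
  hasDerivWithinAt_univ.1 (hasDerivWithinAt_logDet (fun j k => (h j k).hasDerivWithinAt) h0)

theorem hasDerivAt_trace_inv_mul {A : ℝ → Matrix m m ℂ} {A' : Matrix m m ℂ}
    (h : ∀ j k, HasDerivAt (fun r => H r j k) (H' j k) t) (h0 : (H t).det ≠ 0)
    (hA : ∀ j k, HasDerivAt (fun r => A r j k) (A' j k) t) :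
    HasDerivAt (fun r => ((H r)⁻¹ * A r).trace)
      (((H t)⁻¹ * A').trace - ((H t)⁻¹ * H' * (H t)⁻¹ * A t).trace) t :=
  hasDerivWithinAt_univ.1 (hasDerivWithinAt_trace_inv_mul (fun j k => (h j k).hasDerivWithinAt) h0
    fun j k => (hA j k).hasDerivWithinAt)

end partD

/-! ## Part E: entrywise Wirtinger derivatives -/

section partE

variable {ι : Type} [Fintype ι] [DecidableEq ι]
variable {m n p : Type} [Fintype m] [Fintype n] [Fintype p] [DecidableEq m]

/-- entrywise `∂/∂z_l` of a matrix function. -/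
noncomputable def dzM (l : ι) (H : CE ι → Matrix m n ℂ) (z : CE ι) : Matrix m n ℂ :=
  fun j k => dz l (fun w => H w j k) z

/-- entrywise `∂/∂z̄_l` of a matrix function. -/
noncomputable def dzbM (l : ι) (H : CE ι → Matrix m n ℂ) (z : CE ι) : Matrix m n ℂ :=
  fun j k => dzb l (fun w => H w j k) z

variable {H : CE ι → Matrix m m ℂ} {A A₂ : CE ι → Matrix m n ℂ} {B : CE ι → Matrix n p ℂ}
variable {z : CE ι} {l : ι}

theorem dzM_apply (A : CE ι → Matrix m n ℂ) (j : m) (k : n) :
    dzM l A z j k = dz l (fun w => A w j k) z := rfl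

theorem dzbM_apply (A : CE ι → Matrix m n ℂ) (j : m) (k : n) :
    dzbM l A z j k = dzb l (fun w => A w j k) z := rfl

theorem dzM_eq_fdM (A : CE ι → Matrix m n ℂ) :
    dzM l A z = (1 / 2 : ℂ) • (fdM A z (eb l) - Complex.I • fdM A z (Complex.I • eb l)) := by
  ext j k
  simp only [dzM_apply, dz, Matrix.smul_apply, Matrix.sub_apply, fdM_apply, smul_eq_mul]

theorem dzbM_eq_fdM (A : CE ι → Matrix m n ℂ) :
    dzbM l A z = (1 / 2 : ℂ) • (fdM A z (eb l) + Complex.I • fdM A z (Complex.I • eb l)) := by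
  ext j k
  simp only [dzbM_apply, dzb, Matrix.smul_apply, Matrix.add_apply, fdM_apply, smul_eq_mul]

/-! ### algebra -/

theorem dzM_const (C : Matrix m n ℂ) : dzM l (fun _ : CE ι => C) z = 0 := by
  ext j k
  simp only [dzM_apply, Matrix.zero_apply]
  exact dz_const _

theorem dzbM_const (C : Matrix m n ℂ) : dzbM l (fun _ : CE ι => C) z = 0 := by
  ext j k
  simp only [dzbM_apply, Matrix.zero_apply]
  exact dzb_const _

theorem dzM_add (hA : ∀ j k, DifferentiableAt ℝ (fun w => A w j k) z)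
    (hA₂ : ∀ j k, DifferentiableAt ℝ (fun w => A₂ w j k) z) :
    dzM l (fun w => A w + A₂ w) z = dzM l A z + dzM l A₂ z := by
  ext j k
  simp only [dzM_apply, Matrix.add_apply]
  exact dz_add (hA j k) (hA₂ j k)

theorem dzbM_add (hA : ∀ j k, DifferentiableAt ℝ (fun w => A w j k) z)
    (hA₂ : ∀ j k, DifferentiableAt ℝ (fun w => A₂ w j k) z) :
    dzbM l (fun w => A w + A₂ w) z = dzbM l A z + dzbM l A₂ z := by
  ext j k
  simp only [dzbM_apply, Matrix.add_apply]
  exact dzb_add (hA j k) (hA₂ j k)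

theorem dzM_sub (hA : ∀ j k, DifferentiableAt ℝ (fun w => A w j k) z)
    (hA₂ : ∀ j k, DifferentiableAt ℝ (fun w => A₂ w j k) z) :
    dzM l (fun w => A w - A₂ w) z = dzM l A z - dzM l A₂ z := by
  ext j k
  simp only [dzM_apply, Matrix.sub_apply]
  exact dz_sub (hA j k) (hA₂ j k)

theorem dzbM_sub (hA : ∀ j k, DifferentiableAt ℝ (fun w => A w j k) z)
    (hA₂ : ∀ j k, DifferentiableAt ℝ (fun w => A₂ w j k) z) :
    dzbM l (fun w => A w - A₂ w) z = dzbM l A z - dzbM l A₂ z := by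
  ext j k
  simp only [dzbM_apply, Matrix.sub_apply]
  exact dzb_sub (hA j k) (hA₂ j k)

theorem dzM_neg (A : CE ι → Matrix m n ℂ) : dzM l (fun w => - A w) z = - dzM l A z := by
  ext j k
  simp only [dzM_apply, Matrix.neg_apply]
  exact dz_neg

theorem dzbM_neg (A : CE ι → Matrix m n ℂ) : dzbM l (fun w => - A w) z = - dzbM l A z := by
  ext j k
  simp only [dzbM_apply, Matrix.neg_apply]
  exact dzb_neg

/-- scalar function times matrix function. -/
theorem dzM_smul {c : CE ι → ℂ} (hc : DifferentiableAt ℝ c z)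
    (hA : ∀ j k, DifferentiableAt ℝ (fun w => A w j k) z) :
    dzM l (fun w => c w • A w) z = dz l c z • A z + c z • dzM l A z := by
  ext j k
  simp only [dzM_apply, Matrix.add_apply, Matrix.smul_apply, smul_eq_mul]
  exact dz_mul hc (hA j k)

theorem dzbM_smul {c : CE ι → ℂ} (hc : DifferentiableAt ℝ c z)
    (hA : ∀ j k, DifferentiableAt ℝ (fun w => A w j k) z) :
    dzbM l (fun w => c w • A w) z = dzb l c z • A z + c z • dzbM l A z := by
  ext j k
  simp only [dzbM_apply, Matrix.add_apply, Matrix.smul_apply, smul_eq_mul]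
  exact dzb_mul hc (hA j k)

theorem dzM_const_smul (c : ℂ) (hA : ∀ j k, DifferentiableAt ℝ (fun w => A w j k) z) :
    dzM l (fun w => c • A w) z = c • dzM l A z := by
  ext j k
  simp only [dzM_apply, Matrix.smul_apply, smul_eq_mul]
  exact dz_const_mul c (hA j k)

theorem dzbM_const_smul (c : ℂ) (hA : ∀ j k, DifferentiableAt ℝ (fun w => A w j k) z) :
    dzbM l (fun w => c • A w) z = c • dzbM l A z := by
  ext j k
  simp only [dzbM_apply, Matrix.smul_apply, smul_eq_mul]
  exact dzb_const_mul c (hA j k)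

/-- product rule. -/
theorem dzM_mul (hA : ∀ j k, DifferentiableAt ℝ (fun w => A w j k) z)
    (hB : ∀ j k, DifferentiableAt ℝ (fun w => B w j k) z) :
    dzM l (fun w => A w * B w) z = dzM l A z * B z + A z * dzM l B z := by
  ext j k
  simp only [dzM_apply, Matrix.add_apply, Matrix.mul_apply]
  rw [dz_sum Finset.univ (fun a w => A w j a * B w a k) fun a _ => (hA j a).mul (hB a k),
    ← Finset.sum_add_distrib]
  exact Finset.sum_congr rfl fun a _ => dz_mul (hA j a) (hB a k)

theorem dzbM_mul (hA : ∀ j k, DifferentiableAt ℝ (fun w => A w j k) z)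
    (hB : ∀ j k, DifferentiableAt ℝ (fun w => B w j k) z) :
    dzbM l (fun w => A w * B w) z = dzbM l A z * B z + A z * dzbM l B z := by
  ext j k
  simp only [dzbM_apply, Matrix.add_apply, Matrix.mul_apply]
  rw [dzb_sum Finset.univ (fun a w => A w j a * B w a k) fun a _ => (hA j a).mul (hB a k),
    ← Finset.sum_add_distrib]
  exact Finset.sum_congr rfl fun a _ => dzb_mul (hA j a) (hB a k)

theorem dzM_const_mul (C : Matrix m n ℂ) (hB : ∀ j k, DifferentiableAt ℝ (fun w => B w j k) z) :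
    dzM l (fun w => C * B w) z = C * dzM l B z := by
  rw [dzM_mul (A := fun _ => C) (fun _ _ => differentiableAt_const _) hB, dzM_const,
    Matrix.zero_mul, zero_add]

theorem dzbM_const_mul (C : Matrix m n ℂ) (hB : ∀ j k, DifferentiableAt ℝ (fun w => B w j k) z) :
    dzbM l (fun w => C * B w) z = C * dzbM l B z := by
  rw [dzbM_mul (A := fun _ => C) (fun _ _ => differentiableAt_const _) hB, dzbM_const,
    Matrix.zero_mul, zero_add]

theorem dzM_mul_const (hA : ∀ j k, DifferentiableAt ℝ (fun w => A w j k) z) (C : Matrix n p ℂ) :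
    dzM l (fun w => A w * C) z = dzM l A z * C := by
  classical
  rw [dzM_mul (B := fun _ => C) hA (fun _ _ => differentiableAt_const _), dzM_const,
    Matrix.mul_zero, add_zero]

theorem dzbM_mul_const (hA : ∀ j k, DifferentiableAt ℝ (fun w => A w j k) z) (C : Matrix n p ℂ) :
    dzbM l (fun w => A w * C) z = dzbM l A z * C := by
  classical
  rw [dzbM_mul (B := fun _ => C) hA (fun _ _ => differentiableAt_const _), dzbM_const,
    Matrix.mul_zero, add_zero]

theorem dzM_transpose (A : CE ι → Matrix m n ℂ) :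
    dzM l (fun w => (A w)ᵀ) z = (dzM l A z)ᵀ := rfl

theorem dzbM_transpose (A : CE ι → Matrix m n ℂ) :
    dzbM l (fun w => (A w)ᵀ) z = (dzbM l A z)ᵀ := rfl

theorem dzM_conjTranspose (A : CE ι → Matrix m n ℂ) :
    dzM l (fun w => (A w)ᴴ) z = (dzbM l A z)ᴴ := by
  ext k j
  simp only [dzM_apply, dzbM_apply, Matrix.conjTranspose_apply]
  exact dz_conj

theorem dzbM_conjTranspose (A : CE ι → Matrix m n ℂ) :
    dzbM l (fun w => (A w)ᴴ) z = (dzM l A z)ᴴ := by
  ext k j
  simp only [dzM_apply, dzbM_apply, Matrix.conjTranspose_apply]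
  exact dzb_conj

theorem dzM_congr (h : ∀ᶠ w in 𝓝 z, A w = A₂ w) : dzM l A z = dzM l A₂ z := by
  ext j k
  simp only [dzM_apply]
  apply dz_congr
  filter_upwards [h] with w hw
  rw [hw]

theorem dzbM_congr (h : ∀ᶠ w in 𝓝 z, A w = A₂ w) : dzbM l A z = dzbM l A₂ z := by
  ext j k
  simp only [dzbM_apply]
  apply dzb_congr
  filter_upwards [h] with w hw
  rw [hw]

/-- for a Hermitian matrix function `(∂_l H)ᴴ = ∂̄_l H`. -/
theorem conjTranspose_dzM_of_isHermitian (hh : ∀ᶠ w in 𝓝 z, (H w).IsHermitian) :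
    (dzM l H z)ᴴ = dzbM l H z := by
  rw [← dzbM_conjTranspose]
  apply dzbM_congr
  filter_upwards [hh] with w hw
  exact hw.eq

theorem conjTranspose_dzbM_of_isHermitian (hh : ∀ᶠ w in 𝓝 z, (H w).IsHermitian) :
    (dzbM l H z)ᴴ = dzM l H z := by
  rw [← dzM_conjTranspose]
  apply dzM_congr
  filter_upwards [hh] with w hw
  exact hw.eq

theorem dz_matTrace (hH : ∀ j k, DifferentiableAt ℝ (fun w => H w j k) z) :
    dz l (fun w => (H w).trace) z = (dzM l H z).trace := by
  simp only [Matrix.trace, Matrix.diag_apply, dzM_apply]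
  exact dz_sum Finset.univ (fun a w => H w a a) fun a _ => hH a a

theorem dzb_matTrace (hH : ∀ j k, DifferentiableAt ℝ (fun w => H w j k) z) :
    dzb l (fun w => (H w).trace) z = (dzbM l H z).trace := by
  simp only [Matrix.trace, Matrix.diag_apply, dzbM_apply]
  exact dzb_sum Finset.univ (fun a w => H w a a) fun a _ => hH a a

/-- matrix function applied to a vector function. -/
theorem dz_mulVec {v : CE ι → n → ℂ} (hA : ∀ j k, DifferentiableAt ℝ (fun w => A w j k) z)
    (hv : ∀ k, DifferentiableAt ℝ (fun w => v w k) z) (j : m) :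
    dz l (fun w => (A w *ᵥ v w) j) z
      = (dzM l A z *ᵥ v z) j + (A z *ᵥ fun k => dz l (fun w => v w k) z) j := by
  simp only [Matrix.mulVec, dotProduct, dzM_apply]
  rw [dz_sum Finset.univ (fun a w => A w j a * v w a) fun a _ => (hA j a).mul (hv a),
    ← Finset.sum_add_distrib]
  exact Finset.sum_congr rfl fun a _ => dz_mul (hA j a) (hv a)

theorem dzb_mulVec {v : CE ι → n → ℂ} (hA : ∀ j k, DifferentiableAt ℝ (fun w => A w j k) z)
    (hv : ∀ k, DifferentiableAt ℝ (fun w => v w k) z) (j : m) :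
    dzb l (fun w => (A w *ᵥ v w) j) z
      = (dzbM l A z *ᵥ v z) j + (A z *ᵥ fun k => dzb l (fun w => v w k) z) j := by
  simp only [Matrix.mulVec, dotProduct, dzbM_apply]
  rw [dzb_sum Finset.univ (fun a w => A w j a * v w a) fun a _ => (hA j a).mul (hv a),
    ← Finset.sum_add_distrib]
  exact Finset.sum_congr rfl fun a _ => dzb_mul (hA j a) (hv a)

/-! ### regularity of `dzM`, `dzbM` -/

theorem contDiffAt_dzM {N N' : WithTop ℕ∞} (hA : ∀ j k, ContDiffAt ℝ N' (fun w => A w j k) z)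
    (hN : N + 1 ≤ N') (j : m) (k : n) : ContDiffAt ℝ N (fun w => dzM l A w j k) z :=
  contDiffAt_dz (hA j k) hN

theorem contDiffAt_dzbM {N N' : WithTop ℕ∞} (hA : ∀ j k, ContDiffAt ℝ N' (fun w => A w j k) z)
    (hN : N + 1 ≤ N') (j : m) (k : n) : ContDiffAt ℝ N (fun w => dzbM l A w j k) z :=
  contDiffAt_dzb (hA j k) hN

theorem contDiffOn_dzM {U : Set (CE ι)} (hU : IsOpen U)
    (hA : ∀ j k, ContDiffOn ℝ ∞ (fun w => A w j k) U) (j : m) (k : n) :
    ContDiffOn ℝ ∞ (fun w => dzM l A w j k) U :=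
  contDiffOn_dz hU (hA j k)

theorem contDiffOn_dzbM {U : Set (CE ι)} (hU : IsOpen U)
    (hA : ∀ j k, ContDiffOn ℝ ∞ (fun w => A w j k) U) (j : m) (k : n) :
    ContDiffOn ℝ ∞ (fun w => dzbM l A w j k) U :=
  contDiffOn_dzb hU (hA j k)

theorem dzM_dzbM_comm {l' : ι} (hA : ∀ j k, ContDiffAt ℝ 2 (fun w => A w j k) z) :
    dzM l (dzbM l' A) z = dzbM l' (dzM l A) z := by
  ext j k
  exact dz_dzb_comm (hA j k)

/-! ### Jacobi formula, inverse -/

theorem dz_det (hH : ∀ j k, DifferentiableAt ℝ (fun w => H w j k) z) :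
    dz l (fun w => (H w).det) z = ((H z).adjugate * dzM l H z).trace := by
  rw [dzM_eq_fdM, dz, fderiv_det hH, fderiv_det hH, Matrix.mul_smul, Matrix.trace_smul,
    Matrix.mul_sub, Matrix.trace_sub, Matrix.mul_smul, Matrix.trace_smul, smul_eq_mul, smul_eq_mul]

theorem dzb_det (hH : ∀ j k, DifferentiableAt ℝ (fun w => H w j k) z) :
    dzb l (fun w => (H w).det) z = ((H z).adjugate * dzbM l H z).trace := by
  rw [dzbM_eq_fdM, dzb, fderiv_det hH, fderiv_det hH, Matrix.mul_smul, Matrix.trace_smul,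
    Matrix.mul_add, Matrix.trace_add, Matrix.mul_smul, Matrix.trace_smul, smul_eq_mul, smul_eq_mul]

theorem dz_det' (hH : ∀ j k, DifferentiableAt ℝ (fun w => H w j k) z) (h0 : (H z).det ≠ 0) :
    dz l (fun w => (H w).det) z = (H z).det * ((H z)⁻¹ * dzM l H z).trace := by
  rw [dz_det hH, matFun_adjugate_eq _ h0, Matrix.smul_mul, Matrix.trace_smul, smul_eq_mul]

theorem dzb_det' (hH : ∀ j k, DifferentiableAt ℝ (fun w => H w j k) z) (h0 : (H z).det ≠ 0) :
    dzb l (fun w => (H w).det) z = (H z).det * ((H z)⁻¹ * dzbM l H z).trace := by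
  rw [dzb_det hH, matFun_adjugate_eq _ h0, Matrix.smul_mul, Matrix.trace_smul, smul_eq_mul]

theorem dzM_inv (hH : ∀ j k, DifferentiableAt ℝ (fun w => H w j k) z) (h0 : (H z).det ≠ 0) :
    dzM l (fun w => (H w)⁻¹) z = - ((H z)⁻¹ * dzM l H z * (H z)⁻¹) := by
  rw [dzM_eq_fdM, dzM_eq_fdM, fdM_inv hH h0, fdM_inv hH h0]
  simp only [Matrix.mul_smul, Matrix.smul_mul, Matrix.mul_sub, Matrix.sub_mul, smul_neg, smul_sub]
  abel

theorem dzbM_inv (hH : ∀ j k, DifferentiableAt ℝ (fun w => H w j k) z) (h0 : (H z).det ≠ 0) :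
    dzbM l (fun w => (H w)⁻¹) z = - ((H z)⁻¹ * dzbM l H z * (H z)⁻¹) := by
  rw [dzbM_eq_fdM, dzbM_eq_fdM, fdM_inv hH h0, fdM_inv hH h0]
  simp only [Matrix.mul_smul, Matrix.smul_mul, Matrix.mul_add, Matrix.add_mul, smul_neg, smul_add]
  abel

theorem dz_inv_apply (hH : ∀ j k, DifferentiableAt ℝ (fun w => H w j k) z) (h0 : (H z).det ≠ 0)
    (a b : m) :
    dz l (fun w => (H w)⁻¹ a b) z = - ((H z)⁻¹ * dzM l H z * (H z)⁻¹) a b := by
  rw [← Matrix.neg_apply, ← dzM_inv hH h0]
  rfl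

theorem dzb_inv_apply (hH : ∀ j k, DifferentiableAt ℝ (fun w => H w j k) z) (h0 : (H z).det ≠ 0)
    (a b : m) :
    dzb l (fun w => (H w)⁻¹ a b) z = - ((H z)⁻¹ * dzbM l H z * (H z)⁻¹) a b := by
  rw [← Matrix.neg_apply, ← dzbM_inv hH h0]
  rfl

/-- `∂_l tr (H⁻¹ A) = tr (H⁻¹ ∂_l A) - tr (H⁻¹ ∂_l H H⁻¹ A)`. -/
theorem dz_trace_inv_mul {A : CE ι → Matrix m m ℂ}
    (hH : ∀ j k, DifferentiableAt ℝ (fun w => H w j k) z) (h0 : (H z).det ≠ 0)
    (hA : ∀ j k, DifferentiableAt ℝ (fun w => A w j k) z) :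
    dz l (fun w => ((H w)⁻¹ * A w).trace) z
      = ((H z)⁻¹ * dzM l A z).trace - ((H z)⁻¹ * dzM l H z * (H z)⁻¹ * A z).trace := by
  have hi := differentiableAt_matInv hH h0
  rw [dz_matTrace (H := fun w => (H w)⁻¹ * A w)
      (differentiableAt_matMul (A := fun w => (H w)⁻¹) hi hA),
    dzM_mul (A := fun w => (H w)⁻¹) hi hA, dzM_inv hH h0, Matrix.trace_add, Matrix.neg_mul,
    Matrix.trace_neg]
  ring

theorem dzb_trace_inv_mul {A : CE ι → Matrix m m ℂ}
    (hH : ∀ j k, DifferentiableAt ℝ (fun w => H w j k) z) (h0 : (H z).det ≠ 0)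
    (hA : ∀ j k, DifferentiableAt ℝ (fun w => A w j k) z) :
    dzb l (fun w => ((H w)⁻¹ * A w).trace) z
      = ((H z)⁻¹ * dzbM l A z).trace - ((H z)⁻¹ * dzbM l H z * (H z)⁻¹ * A z).trace := by
  have hi := differentiableAt_matInv hH h0
  rw [dzb_matTrace (H := fun w => (H w)⁻¹ * A w)
      (differentiableAt_matMul (A := fun w => (H w)⁻¹) hi hA),
    dzbM_mul (A := fun w => (H w)⁻¹) hi hA, dzbM_inv hH h0, Matrix.trace_add, Matrix.neg_mul,
    Matrix.trace_neg]
  ring

end partE

/-! ## Part F: `log det` -/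

section partF

variable {ι : Type} [Fintype ι] [DecidableEq ι]
variable {m : Type} [Fintype m] [DecidableEq m]
variable {H : CE ι → Matrix m m ℂ} {z : CE ι} {j k l : ι}

theorem matFun_ofReal_det_re_eventuallyEq (hh : ∀ᶠ w in 𝓝 z, (H w).IsHermitian) :
    (fun w => (((H w).det.re : ℝ) : ℂ)) =ᶠ[𝓝 z] fun w => (H w).det := by
  filter_upwards [hh] with w hw
  exact ofReal_det_re_of_isHermitian hw

/-- `∂_l log det H = tr (H⁻¹ ∂_l H)`. -/
theorem dz_logDet (hH : ∀ a b, DifferentiableAt ℝ (fun w => H w a b) z)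
    (hh : ∀ᶠ w in 𝓝 z, (H w).IsHermitian) (h0 : (H z).PosDef) :
    dz l (fun w => ((Real.log (H w).det.re : ℝ) : ℂ)) z = ((H z)⁻¹ * dzM l H z).trace := by
  rw [dz_log_real (fun w => (H w).det.re) (differentiableAt_det_re hH)
      (det_re_ne_zero_of_posDef h0), dz_congr (matFun_ofReal_det_re_eventuallyEq hh),
    dz_det' hH (det_ne_zero_of_posDef h0), ofReal_det_re_of_posDef h0,
    mul_div_cancel_left₀ _ (det_ne_zero_of_posDef h0)]

theorem dzb_logDet (hH : ∀ a b, DifferentiableAt ℝ (fun w => H w a b) z)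
    (hh : ∀ᶠ w in 𝓝 z, (H w).IsHermitian) (h0 : (H z).PosDef) :
    dzb l (fun w => ((Real.log (H w).det.re : ℝ) : ℂ)) z = ((H z)⁻¹ * dzbM l H z).trace := by
  rw [dzb_log_real (fun w => (H w).det.re) (differentiableAt_det_re hH)
      (det_re_ne_zero_of_posDef h0), dzb_congr (matFun_ofReal_det_re_eventuallyEq hh),
    dzb_det' hH (det_ne_zero_of_posDef h0), ofReal_det_re_of_posDef h0,
    mul_div_cancel_left₀ _ (det_ne_zero_of_posDef h0)]

theorem grad10_logDet (hH : ∀ a b, DifferentiableAt ℝ (fun w => H w a b) z)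
    (hh : ∀ᶠ w in 𝓝 z, (H w).IsHermitian) (h0 : (H z).PosDef) :
    grad10 (fun w => Real.log (H w).det.re) z l = ((H z)⁻¹ * dzM l H z).trace :=
  dz_logDet hH hh h0

/-- `∂̄_j ∂_k log det H = tr (H⁻¹ ∂̄_j ∂_k H) - tr (H⁻¹ ∂̄_j H H⁻¹ ∂_k H)`. -/
theorem levi_logDet (hH : ∀ a b, ContDiffAt ℝ 2 (fun w => H w a b) z)
    (hh : ∀ᶠ w in 𝓝 z, (H w).IsHermitian) (h0 : (H z).PosDef) :
    levi (fun w => Real.log (H w).det.re) z j k
      = ((H z)⁻¹ * dzbM j (dzM k H) z).trace
        - ((H z)⁻¹ * dzbM j H z * (H z)⁻¹ * dzM k H z).trace := by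
  have hd : ∀ a b, DifferentiableAt ℝ (fun w => H w a b) z :=
    fun a b => (hH a b).differentiableAt (by norm_num)
  have hev1 : ∀ᶠ w in 𝓝 z, ∀ a b, DifferentiableAt ℝ (fun y => H y a b) w := by
    rw [Filter.eventually_all]; intro a
    rw [Filter.eventually_all]; intro b
    filter_upwards [(hH a b).eventually (by simp)] with w hw
    exact hw.differentiableAt (by norm_num)
  have hev2 : ∀ᶠ w in 𝓝 z, (H w).PosDef :=
    eventually_posDef (fun a b => (hd a b).continuousAt) hh h0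
  have hev : (fun w => dz k (fun y => ((Real.log (H y).det.re : ℝ) : ℂ)) w)
      =ᶠ[𝓝 z] fun w => ((H w)⁻¹ * dzM k H w).trace := by
    filter_upwards [hev1, hev2, hh.eventually_nhds] with w h1 h2 h3
    exact dz_logDet h1 h3 h2
  have hA : ∀ a b, DifferentiableAt ℝ (fun w => dzM k H w a b) z := fun a b =>
    (contDiffAt_dzM (N := 1) hH (by norm_num) a b).differentiableAt (by norm_num)
  rw [levi_apply]
  rw [dzb_congr hev, dzb_trace_inv_mul hd (det_ne_zero_of_posDef h0) hA]

/-- the same on an open set of positivity. -/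
theorem levi_logDet_on {U : Set (CE ι)} (hU : IsOpen U)
    (hH : ∀ a b, ContDiffOn ℝ ∞ (fun w => H w a b) U) (h0 : ∀ w ∈ U, (H w).PosDef) (hz : z ∈ U) :
    levi (fun w => Real.log (H w).det.re) z j k
      = ((H z)⁻¹ * dzbM j (dzM k H) z).trace
        - ((H z)⁻¹ * dzbM j H z * (H z)⁻¹ * dzM k H z).trace := by
  apply levi_logDet
  · intro a b
    exact ((hH a b).contDiffAt (hU.mem_nhds hz)).of_le (WithTop.coe_le_coe.2 le_top)
  · filter_upwards [hU.mem_nhds hz] with w hw
    exact (h0 w hw).isHermitian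
  · exact h0 z hz

theorem matFun_sum_comm3 {α β γ : Type} [Fintype α] [Fintype β] [Fintype γ] (F : α → β → γ → ℂ) :
    ∑ a, ∑ b, ∑ c, F a b c = ∑ c, ∑ b, ∑ a, F a b c := by
  calc ∑ a, ∑ b, ∑ c, F a b c = ∑ b, ∑ a, ∑ c, F a b c := Finset.sum_comm
    _ = ∑ b, ∑ c, ∑ a, F a b c := Finset.sum_congr rfl fun b _ => Finset.sum_comm
    _ = ∑ c, ∑ b, ∑ a, F a b c := Finset.sum_comm

/-- index form: `- ∂̄_b ∂_a log det H` is the contraction of the curvature expression of `Core.Rm` in its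
FIRST pair of indices (no Kaehler condition). -/
theorem neg_levi_logDet_eq_sum {H : CE ι → Matrix ι ι ℂ} (hH : ∀ a b, ContDiffAt ℝ 2 (fun w => H w a b) z)
    (hh : ∀ᶠ w in 𝓝 z, (H w).IsHermitian) (h0 : (H z).PosDef) (a b : ι) :
    - levi (fun w => Real.log (H w).det.re) z b a
      = ∑ j, ∑ k, (H z)⁻¹ j k *
          (- dzb b (fun w => dz a (fun y => H y k j) w) z
            + ∑ p, ∑ q, (H z)⁻¹ p q * dz a (fun y => H y q j) z * dzb b (fun y => H y k p) z) := by
  rw [levi_logDet hH hh h0]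
  have e1 : ((H z)⁻¹ * dzbM b (dzM a H) z).trace
      = ∑ j, ∑ k, (H z)⁻¹ j k * dzb b (fun w => dz a (fun y => H y k j) w) z := by
    simp only [Matrix.trace, Matrix.diag_apply, Matrix.mul_apply]
    rfl
  have e2 : ((H z)⁻¹ * dzbM b H z * (H z)⁻¹ * dzM a H z).trace
      = ∑ j, ∑ k, (H z)⁻¹ j k *
          ∑ p, ∑ q, (H z)⁻¹ p q * dz a (fun y => H y q j) z * dzb b (fun y => H y k p) z := by
    simp only [Matrix.trace, Matrix.diag_apply, Matrix.mul_apply, dzM_apply, dzbM_apply,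
      Finset.sum_mul, Finset.mul_sum]
    refine Finset.sum_congr rfl fun j _ => ?_
    rw [matFun_sum_comm3]
    refine Finset.sum_congr rfl fun k _ => Finset.sum_congr rfl fun p _ =>
      Finset.sum_congr rfl fun q _ => ?_
    ring
  rw [e1, e2]
  simp only [mul_add, Finset.sum_add_distrib, mul_neg, Finset.sum_neg_distrib]
  ring

/-- conformal change: `log det (e^f H) = n f + log det H`. -/
theorem levi_logDet_exp_smul {f : CE ι → ℝ} (hf : ContDiffAt ℝ 2 f z)
    (hH : ∀ a b, ContDiffAt ℝ 2 (fun w => H w a b) z) (h0 : (H z).det.re ≠ 0) :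
    levi (fun w => Real.log (((Real.exp (f w) : ℝ) : ℂ) • H w).det.re) z
      = (Fintype.card m : ℂ) • levi f z + levi (fun w => Real.log (H w).det.re) z := by
  have hc : ContinuousAt (fun w => (H w).det.re) z := (contDiffAt_det_re hH).continuousAt
  have hev : (fun w => Real.log (((Real.exp (f w) : ℝ) : ℂ) • H w).det.re)
      =ᶠ[𝓝 z] fun w => (Fintype.card m : ℝ) * f w + Real.log (H w).det.re := by
    filter_upwards [hc.eventually_ne h0] with w hw
    exact logDet_exp_smul (f w) hw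
  rw [levi_congr hev, levi_add (contDiffAt_const.mul hf) (contDiffAt_logDet hH h0),
    levi_const_mul _ hf]
  simp

theorem matFun_differentiableAt_det_complex {E : Type} [NormedAddCommGroup E] [NormedSpace ℂ E]
    {G : E → Matrix m m ℂ} {x : E} (hG : ∀ a b, DifferentiableAt ℂ (fun w => G w a b) x) :
    DifferentiableAt ℂ (fun w => (G w).det) x := by
  simp only [Matrix.det_apply]
  refine DifferentiableAt.fun_sum fun σ _ => ?_
  refine DifferentiableAt.const_smul ?_ _
  exact (HasFDerivAt.finsetProd (u := Finset.univ) (g := fun i w => G w (σ i) i)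
    (fun i _ => (hG (σ i) i).hasFDerivAt)).differentiableAt

theorem eventually_differentiableAt_det_jac (τ : CE ι → CE ι)
    (hτ : ∀ᶠ w in 𝓝 z, DifferentiableAt ℂ τ w) :
    ∀ᶠ w in 𝓝 z, DifferentiableAt ℂ (fun y => (jac τ y).det) w := by
  have h : ∀ᶠ w in 𝓝 z, ∀ a b, DifferentiableAt ℂ (fun y => jac τ y a b) w := by
    rw [Filter.eventually_all]; intro a
    rw [Filter.eventually_all]; intro b
    exact eventually_differentiableAt_jac hτ a b
  filter_upwards [h] with w hw
  exact matFun_differentiableAt_det_complex hw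

/-- `log |det jac τ|²` is pluriharmonic. -/
theorem levi_log_normSq_det_jac (τ : CE ι → CE ι) (hτ : ∀ᶠ w in 𝓝 z, DifferentiableAt ℂ τ w)
    (h0 : (jac τ z).det ≠ 0) : levi (fun w => Real.log (‖(jac τ w).det‖ ^ 2)) z = 0 :=
  levi_log_normSq_hol _ (eventually_differentiableAt_det_jac τ hτ) h0

/-- transformation law of `levi (log det H)` under `H ↦ (jac τ)ᴴ (H ∘ τ) (jac τ)`
(⟹ `ricF h` is a Hermitian form). -/
theorem levi_logDet_comp_hol {H : CE ι → Matrix ι ι ℂ} (τ : CE ι → CE ι)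
    (hτ : ∀ᶠ w in 𝓝 z, DifferentiableAt ℂ τ w) (hj : (jac τ z).det ≠ 0)
    (hH : ∀ a b, ContDiffAt ℝ 2 (fun y => H y a b) (τ z)) (h0 : (H (τ z)).det.re ≠ 0) :
    levi (fun w => Real.log ((jac τ w)ᴴ * H (τ w) * jac τ w).det.re) z
      = (jac τ z)ᴴ * levi (fun y => Real.log (H y).det.re) (τ z) * jac τ z := by
  have hτs : ContDiffAt ℝ 2 τ z := (hol_contDiffAt_real hτ).of_le
    (WithTop.coe_le_coe.2 le_top)
  have hdj := eventually_differentiableAt_det_jac τ hτ
  have hdjs : ContDiffAt ℝ 2 (fun w => (jac τ w).det) z := (hol_contDiffAt_real hdj).of_le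
    (WithTop.coe_le_coe.2 le_top)
  have hl : ContDiffAt ℝ 2 (fun y => Real.log (H y).det.re) (τ z) := contDiffAt_logDet hH h0
  have h1 : ContDiffAt ℝ 2 (fun w => Real.log (H (τ w)).det.re) z :=
    ContDiffAt.comp (g := fun y => Real.log (H y).det.re) z hl hτs
  have h2 : ContDiffAt ℝ 2 (fun w => Real.log (‖(jac τ w).det‖ ^ 2)) z :=
    (hdjs.norm_sq ℝ).log (by positivity)
  have hc1 : ContinuousAt (fun w => (H (τ w)).det.re) z :=
    ContinuousAt.comp (g := fun y => (H y).det.re) (contDiffAt_det_re hH).continuousAt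
      hτs.continuousAt
  have hev : (fun w => Real.log ((jac τ w)ᴴ * H (τ w) * jac τ w).det.re)
      =ᶠ[𝓝 z] fun w => Real.log (H (τ w)).det.re + Real.log (‖(jac τ w).det‖ ^ 2) := by
    filter_upwards [hc1.eventually_ne h0, hdjs.continuousAt.eventually_ne hj] with w hw1 hw2
    exact logDet_conjTranspose_mul_mul hw2 hw1
  rw [levi_congr hev, levi_add h1 h2, levi_log_normSq_det_jac τ hτ hj, add_zero,
    levi_comp_hol τ (fun y => Real.log (H y).det.re) hτ hl]

/-- difference of two `log det`: `levi log (det H / det G)`. -/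
theorem levi_log_det_div {G : CE ι → Matrix m m ℂ}
    (hH : ∀ a b, ContDiffAt ℝ 2 (fun w => H w a b) z) (hG : ∀ a b, ContDiffAt ℝ 2 (fun w => G w a b) z)
    (hpH : ∀ᶠ w in 𝓝 z, (H w).PosDef) (hpG : ∀ᶠ w in 𝓝 z, (G w).PosDef) :
    levi (fun w => Real.log ((H w).det / (G w).det).re) z
      = levi (fun w => Real.log (H w).det.re) z - levi (fun w => Real.log (G w).det.re) z := by
  have hev : (fun w => Real.log ((H w).det / (G w).det).re)
      =ᶠ[𝓝 z] fun w => Real.log (H w).det.re - Real.log (G w).det.re := by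
    filter_upwards [hpH, hpG] with w h1 h2
    exact log_det_div_re h1 h2
  rw [levi_congr hev, levi_sub (contDiffAt_logDet_of_posDef hH hpH.self_of_nhds)
    (contDiffAt_logDet_of_posDef hG hpG.self_of_nhds)]

end partF

end Claimed.Agent.R316
end

/- ===== packed: Claimed.Agent.R316.CW.LapC ===== -/
section
/-!
# Row 316, G6-LapC: the dual pairing of cotangent columns and the chartwise Laplacian

Statement file written by helper55 (sub-captain BP-G6).  Pure pointwise calculus in one chart.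

* `dualIP A ξ η = Re (ξᴴ (A⁻¹)ᵀ η)`: the real inner product of two cotangent columns for the Hermitian
  matrix `A` (column convention of `Core/Basic.lean`).  `qf (A⁻¹)ᵀ ξ = dualIP A ξ ξ` by `rfl`, so
  `gradSqF h u Φ z = dualIP (h Φ z) (grad10 (u ∘ Φ) z) (grad10 (u ∘ Φ) z)`.
* `lapP A f z = Re tr (A⁻¹ levi f z)`: `trF h (ddc u) Φ z = lapP (h Φ z) (u ∘ Φ) z` by `rfl`.

All proofs: unfold, use `levi_*`, `grad10_*` of `CW/Levi.lean`, `Matrix.trace`, `Finset.sum_comm`.
Key algebraic fact: `trace_inv_mul_outer`.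
-/

set_option autoImplicit false
set_option linter.unusedSectionVars false
open scoped ContDiff ComplexOrder ComplexConjugate Topology Matrix

namespace Claimed.Agent.R316

variable {ι : Type} [Fintype ι] [DecidableEq ι]

/-- real inner product of cotangent columns: `Re (ξᴴ (A⁻¹)ᵀ η) = Re ∑ conj ξ_j A⁻¹_{kj} η_k`. -/
noncomputable def dualIP (A : Matrix ι ι ℂ) (ξ η : ι → ℂ) : ℝ :=
  (star ξ ⬝ᵥ (A⁻¹.transpose.mulVec η)).re

/-- chartwise Laplacian at a point, for the metric matrix `A` at that point. -/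
noncomputable def lapP (A : Matrix ι ι ℂ) (f : CE ι → ℝ) (z : CE ι) : ℝ :=
  (A⁻¹ * levi f z).trace.re

/-! ### algebra of `dualIP` -/

section dual

variable {A B : Matrix ι ι ℂ} {ξ η ζ : ι → ℂ}

theorem qf_eq_dualIP (A : Matrix ι ι ℂ) (ξ : ι → ℂ) : qf A⁻¹.transpose ξ = dualIP A ξ ξ := rfl

theorem dualIP_eq_sum (A : Matrix ι ι ℂ) (ξ η : ι → ℂ) :
    dualIP A ξ η = (∑ j, ∑ k, conj (ξ j) * A⁻¹ k j * η k).re := by
  simp only [dualIP, dotProduct, Matrix.mulVec, Matrix.transpose_apply, Pi.star_apply,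
    Finset.mul_sum, RCLike.star_def, mul_assoc]

/-- the trace of `A⁻¹` against the rank one matrix `conj ξ_j η_k`. -/
theorem trace_inv_mul_outer (A : Matrix ι ι ℂ) (ξ η : ι → ℂ) :
    (A⁻¹ * (Matrix.of fun j k => conj (ξ j) * η k)).trace.re = dualIP A ξ η := by
  rw [dualIP_eq_sum]
  congr 1
  simp only [Matrix.trace, Matrix.diag_apply, Matrix.mul_apply, Matrix.of_apply]
  rw [Finset.sum_comm]
  refine Finset.sum_congr rfl fun j _ => Finset.sum_congr rfl fun k _ => ?_
  ring

theorem dualIP_add_left (A : Matrix ι ι ℂ) (ξ η ζ : ι → ℂ) :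
    dualIP A (ξ + η) ζ = dualIP A ξ ζ + dualIP A η ζ := by
  simp only [dualIP, star_add, add_dotProduct, Complex.add_re]

theorem dualIP_add_right (A : Matrix ι ι ℂ) (ξ η ζ : ι → ℂ) :
    dualIP A ξ (η + ζ) = dualIP A ξ η + dualIP A ξ ζ := by
  simp only [dualIP, Matrix.mulVec_add, dotProduct_add, Complex.add_re]

theorem dualIP_sub_left (A : Matrix ι ι ℂ) (ξ η ζ : ι → ℂ) :
    dualIP A (ξ - η) ζ = dualIP A ξ ζ - dualIP A η ζ := by
  simp only [dualIP, star_sub, sub_dotProduct, Complex.sub_re]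

theorem dualIP_sub_right (A : Matrix ι ι ℂ) (ξ η ζ : ι → ℂ) :
    dualIP A ξ (η - ζ) = dualIP A ξ η - dualIP A ξ ζ := by
  simp only [dualIP, Matrix.mulVec_sub, dotProduct_sub, Complex.sub_re]

theorem dualIP_neg_left (A : Matrix ι ι ℂ) (ξ η : ι → ℂ) : dualIP A (-ξ) η = - dualIP A ξ η := by
  simp only [dualIP, star_neg, neg_dotProduct, Complex.neg_re]

theorem dualIP_neg_right (A : Matrix ι ι ℂ) (ξ η : ι → ℂ) : dualIP A ξ (-η) = - dualIP A ξ η := by
  simp only [dualIP, Matrix.mulVec_neg, dotProduct_neg, Complex.neg_re]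

theorem dualIP_zero_left (A : Matrix ι ι ℂ) (η : ι → ℂ) : dualIP A 0 η = 0 := by
  simp only [dualIP, star_zero, zero_dotProduct, Complex.zero_re]

theorem dualIP_zero_right (A : Matrix ι ι ℂ) (ξ : ι → ℂ) : dualIP A ξ 0 = 0 := by
  simp only [dualIP, Matrix.mulVec_zero, dotProduct_zero, Complex.zero_re]

theorem dualIP_smul_left (A : Matrix ι ι ℂ) (c : ℝ) (ξ η : ι → ℂ) :
    dualIP A ((c : ℂ) • ξ) η = c * dualIP A ξ η := by
  simp only [dualIP, star_smul, smul_dotProduct, RCLike.star_def, Complex.conj_ofReal, smul_eq_mul,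
    Complex.re_ofReal_mul]

theorem dualIP_smul_right (A : Matrix ι ι ℂ) (c : ℝ) (ξ η : ι → ℂ) :
    dualIP A ξ ((c : ℂ) • η) = c * dualIP A ξ η := by
  simp only [dualIP, Matrix.mulVec_smul, dotProduct_smul, smul_eq_mul, Complex.re_ofReal_mul]

theorem dualIP_sum_left {α : Type} (A : Matrix ι ι ℂ) (s : Finset α) (X : α → ι → ℂ) (η : ι → ℂ) :
    dualIP A (∑ a ∈ s, X a) η = ∑ a ∈ s, dualIP A (X a) η := by
  classical
  induction s using Finset.induction_on with
  | empty => simp [dualIP_zero_left]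
  | insert a s ha ih => rw [Finset.sum_insert ha, Finset.sum_insert ha, dualIP_add_left, ih]

theorem dualIP_sum_right {α : Type} (A : Matrix ι ι ℂ) (s : Finset α) (ξ : ι → ℂ) (X : α → ι → ℂ) :
    dualIP A ξ (∑ a ∈ s, X a) = ∑ a ∈ s, dualIP A ξ (X a) := by
  classical
  induction s using Finset.induction_on with
  | empty => simp [dualIP_zero_right]
  | insert a s ha ih => rw [Finset.sum_insert ha, Finset.sum_insert ha, dualIP_add_right, ih]

theorem dualIP_comm (hA : A.IsHermitian) (ξ η : ι → ℂ) : dualIP A ξ η = dualIP A η ξ := by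
  have hi : ∀ j k, conj (A⁻¹ k j) = A⁻¹ j k := fun j k => hA.inv.apply j k
  rw [dualIP_eq_sum, dualIP_eq_sum, ← Complex.conj_re]
  congr 1
  simp only [map_sum, map_mul, Complex.conj_conj, hi]
  rw [Finset.sum_comm]
  refine Finset.sum_congr rfl fun j _ => Finset.sum_congr rfl fun k _ => ?_
  ring

theorem dualIP_self_nonneg (hA : A.PosDef) (ξ : ι → ℂ) : 0 ≤ dualIP A ξ ξ := by
  exact qf_nonneg (posDef_inv_transpose hA).posSemidef ξ

theorem dualIP_self_pos (hA : A.PosDef) (hξ : ξ ≠ 0) : 0 < dualIP A ξ ξ := by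
  exact qf_pos (posDef_inv_transpose hA) hξ

theorem dualIP_self_eq_zero_iff (hA : A.PosDef) : dualIP A ξ ξ = 0 ↔ ξ = 0 := by
  constructor
  · intro h
    by_contra hξ
    exact (dualIP_self_pos hA hξ).ne' h
  · rintro rfl
    exact dualIP_zero_left A 0

/-- Cauchy-Schwarz. -/
theorem dualIP_sq_le (hA : A.PosDef) (ξ η : ι → ℂ) :
    dualIP A ξ η ^ 2 ≤ dualIP A ξ ξ * dualIP A η η := by
  have h1 := qf_cauchy_schwarz (posDef_inv_transpose hA).posSemidef ξ η
  refine le_trans ?_ h1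
  rw [← sq_abs (dualIP A ξ η)]
  exact pow_le_pow_left₀ (abs_nonneg _) (Complex.abs_re_le_norm _) 2

theorem abs_dualIP_le (hA : A.PosDef) (ξ η : ι → ℂ) :
    |dualIP A ξ η| ≤ Real.sqrt (dualIP A ξ ξ) * Real.sqrt (dualIP A η η) := by
  rw [← Real.sqrt_mul (dualIP_self_nonneg hA ξ)]
  exact Real.abs_le_sqrt (dualIP_sq_le hA ξ η)

/-- Young: `2 |⟨ξ,η⟩| ≤ ε |ξ|² + ε⁻¹ |η|²`. -/
theorem two_abs_dualIP_le (hA : A.PosDef) (ξ η : ι → ℂ) {ε : ℝ} (hε : 0 < ε) :
    2 * |dualIP A ξ η| ≤ ε * dualIP A ξ ξ + ε⁻¹ * dualIP A η η := by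
  have h1 := abs_dualIP_le hA ξ η
  set s := Real.sqrt (dualIP A ξ ξ) with hs
  set t := Real.sqrt (dualIP A η η) with ht
  have hs2 : dualIP A ξ ξ = s ^ 2 := (Real.sq_sqrt (dualIP_self_nonneg hA ξ)).symm
  have ht2 : dualIP A η η = t ^ 2 := (Real.sq_sqrt (dualIP_self_nonneg hA η)).symm
  have h2 : 0 ≤ (ε * s - t) ^ 2 / ε := div_nonneg (sq_nonneg _) hε.le
  have h3 : (ε * s - t) ^ 2 / ε = ε * s ^ 2 - 2 * (s * t) + ε⁻¹ * t ^ 2 := by
    field_simp
    ring
  rw [hs2, ht2]
  linarith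

theorem dualIP_add_self (hA : A.IsHermitian) (ξ η : ι → ℂ) :
    dualIP A (ξ + η) (ξ + η) = dualIP A ξ ξ + 2 * dualIP A ξ η + dualIP A η η := by
  rw [dualIP_add_left, dualIP_add_right, dualIP_add_right, dualIP_comm hA η ξ]
  ring

/-- polarisation. -/
theorem dualIP_eq_polar (hA : A.IsHermitian) (ξ η : ι → ℂ) :
    dualIP A ξ η = (dualIP A (ξ + η) (ξ + η) - dualIP A (ξ - η) (ξ - η)) / 4 := by
  rw [dualIP_add_left, dualIP_add_right, dualIP_add_right, dualIP_sub_left, dualIP_sub_right,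
    dualIP_sub_right, dualIP_comm hA η ξ]
  ring

theorem lc_outer_conj (T : Matrix ι ι ℂ) (ξ η : ι → ℂ) :
    (Matrix.of fun j k => conj ((Tᵀ *ᵥ ξ) j) * (Tᵀ *ᵥ η) k : Matrix ι ι ℂ)
      = Tᴴ * (Matrix.of fun j k => conj (ξ j) * η k) * T := by
  have e : ∀ a b : ι → ℂ, (Matrix.of fun j k => conj (a j) * b k : Matrix ι ι ℂ)
      = Matrix.vecMulVec (star a) b := by
    intro a b
    ext j k
    rfl
  rw [e, e, Matrix.mul_vecMulVec, Matrix.vecMulVec_mul, Matrix.mulVec_transpose,
    Matrix.mulVec_transpose, Matrix.star_vecMul]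

theorem lc_inv_smul (c : ℂ) (H : Matrix ι ι ℂ) : (c • H)⁻¹ = c⁻¹ • H⁻¹ := by
  by_cases hc : c = 0
  · simp [hc]
  by_cases hH : IsUnit H.det
  · let _ := invertibleOfNonzero hc
    rw [Matrix.inv_smul H c hH, invOf_eq_inv]
  · have h2 : ¬ IsUnit (c • H).det := by
      rw [Matrix.det_smul]
      intro h
      exact hH (isUnit_of_mul_isUnit_right h)
    rw [Matrix.nonsing_inv_apply_not_isUnit _ hH, Matrix.nonsing_inv_apply_not_isUnit _ h2,
      smul_zero]

/-- invariance under a change of coordinates: `A ↦ Tᴴ A T`, `ξ ↦ Tᵀ ξ`. -/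
theorem dualIP_congr_trans (A T : Matrix ι ι ℂ) (hT : IsUnit T) (ξ η : ι → ℂ) :
    dualIP (T.conjTranspose * A * T) (T.transpose.mulVec ξ) (T.transpose.mulVec η)
      = dualIP A ξ η := by
  have hd : T.det ≠ 0 := ((Matrix.isUnit_iff_isUnit_det T).1 hT).ne_zero
  rw [← trace_inv_mul_outer, ← trace_inv_mul_outer, lc_outer_conj, trace_inv_mul_conj hd]

theorem dualIP_smul_matrix (A : Matrix ι ι ℂ) {c : ℝ} (hc : c ≠ 0) (ξ η : ι → ℂ) :
    dualIP ((c : ℂ) • A) ξ η = c⁻¹ * dualIP A ξ η := by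
  simp only [dualIP, lc_inv_smul, Matrix.transpose_smul, Matrix.smul_mulVec, dotProduct_smul,
    smul_eq_mul]
  rw [← Complex.ofReal_inv, Complex.re_ofReal_mul]

theorem dualIP_one (ξ η : ι → ℂ) : dualIP (1 : Matrix ι ι ℂ) ξ η = (∑ j, conj (ξ j) * η j).re := by
  simp only [dualIP, inv_one, Matrix.transpose_one, Matrix.one_mulVec, dotProduct, Pi.star_apply,
    RCLike.star_def]

/-- a bigger metric has a smaller dual norm. -/
theorem dualIP_self_anti (hA : A.PosDef) (hAB : (B - A).PosSemidef) (ξ : ι → ℂ) :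
    dualIP B ξ ξ ≤ dualIP A ξ ξ := by
  exact qf_inv_transpose_anti hA hAB ξ

/-- duality, inequality: `(Re ∑ ξ_k v_k)² ≤ |ξ|²_{A⁻¹} |v|²_A`. -/
theorem re_sum_mul_sq_le (hA : A.PosDef) (ξ v : ι → ℂ) :
    (∑ k, ξ k * v k).re ^ 2 ≤ dualIP A ξ ξ * qf A v := by
  refine le_trans ?_ (dual_cauchy_schwarz hA ξ v)
  rw [← sq_abs (∑ k, ξ k * v k).re]
  exact pow_le_pow_left₀ (abs_nonneg _) (Complex.abs_re_le_norm _) 2

/-- duality, the extremal vector `v = conj ((A⁻¹)ᵀ ξ)`. -/
theorem exists_extremal_vector (hA : A.PosDef) (ξ : ι → ℂ) :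
    ∃ v : ι → ℂ, (∑ k, ξ k * v k).re = dualIP A ξ ξ ∧ qf A v = dualIP A ξ ξ := by
  obtain ⟨h1, h2⟩ := dual_attained hA ξ
  refine ⟨A⁻¹ *ᵥ star ξ, ?_, h1⟩
  rw [h2, Complex.ofReal_re]
  rfl

/-- a covector `v ↦ 2 Re ∑ ξ_k v_k` of `A`-norm `≤ L` has `|ξ|² ≤ L²/4`. -/
theorem dualIP_self_le_of_forall (hA : A.PosDef) {L : ℝ} (hL : 0 ≤ L)
    (h : ∀ v : ι → ℂ, 2 * (∑ k, ξ k * v k).re ≤ L * Real.sqrt (qf A v)) :
    dualIP A ξ ξ ≤ L ^ 2 / 4 := by
  obtain ⟨v, h1, h2⟩ := exists_extremal_vector hA ξ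
  have h3 := h v
  rw [h1, h2] at h3
  have h0 := dualIP_self_nonneg hA ξ
  set s := Real.sqrt (dualIP A ξ ξ) with hs
  have hs0 : 0 ≤ s := Real.sqrt_nonneg _
  have hs2 : dualIP A ξ ξ = s ^ 2 := (Real.sq_sqrt h0).symm
  rw [hs2] at h3 ⊢
  rcases hs0.eq_or_lt with h | h
  · rw [← h]
    have : 0 ≤ L ^ 2 / 4 := by positivity
    simpa using this
  · have : 2 * s ≤ L := by
      by_contra hc
      have hc' : L < 2 * s := not_le.1 hc
      nlinarith
    nlinarith

end dual

/-! ### calculus of `lapP` and of the gradient pairing -/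

section lap

variable {A : Matrix ι ι ℂ} {f g u v w : CE ι → ℝ} {z : CE ι}

theorem lapP_eq_sum (A : Matrix ι ι ℂ) (f : CE ι → ℝ) (z : CE ι) :
    lapP A f z = (∑ k, ∑ j, A⁻¹ k j * levi f z j k).re := by
  simp only [lapP, Matrix.trace, Matrix.diag_apply, Matrix.mul_apply]

theorem lapP_congr (A : Matrix ι ι ℂ) (h : f =ᶠ[𝓝 z] g) : lapP A f z = lapP A g z := by
  simp only [lapP, levi_congr h]

theorem lapP_const (A : Matrix ι ι ℂ) (c : ℝ) : lapP A (fun _ => c) z = 0 := by
  simp only [lapP, levi_const, Matrix.mul_zero, Matrix.trace_zero, Complex.zero_re]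

theorem lapP_add (A : Matrix ι ι ℂ) (hf : ContDiffAt ℝ 2 f z) (hg : ContDiffAt ℝ 2 g z) :
    lapP A (fun y => f y + g y) z = lapP A f z + lapP A g z := by
  simp only [lapP, levi_add hf hg, Matrix.mul_add, Matrix.trace_add, Complex.add_re]

theorem lapP_sub (A : Matrix ι ι ℂ) (hf : ContDiffAt ℝ 2 f z) (hg : ContDiffAt ℝ 2 g z) :
    lapP A (fun y => f y - g y) z = lapP A f z - lapP A g z := by
  simp only [lapP, levi_sub hf hg, Matrix.mul_sub, Matrix.trace_sub, Complex.sub_re]

theorem lapP_neg (A : Matrix ι ι ℂ) : lapP A (fun y => - f y) z = - lapP A f z := by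
  simp only [lapP, levi_neg, Matrix.mul_neg, Matrix.trace_neg, Complex.neg_re]

theorem lapP_const_mul (A : Matrix ι ι ℂ) (c : ℝ) (hf : ContDiffAt ℝ 2 f z) :
    lapP A (fun y => c * f y) z = c * lapP A f z := by
  simp only [lapP, levi_const_mul c hf, Matrix.mul_smul, Matrix.trace_smul, smul_eq_mul,
    Complex.re_ofReal_mul]

theorem lapP_add_const (A : Matrix ι ι ℂ) (c : ℝ) : lapP A (fun y => f y + c) z = lapP A f z := by
  simp only [lapP, levi_add_const]

theorem lapP_sum {α : Type} (A : Matrix ι ι ℂ) (s : Finset α) (F : α → CE ι → ℝ)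
    (h : ∀ a ∈ s, ContDiffAt ℝ 2 (F a) z) :
    lapP A (fun y => ∑ a ∈ s, F a y) z = ∑ a ∈ s, lapP A (F a) z := by
  simp only [lapP, levi_sum s F h, Matrix.mul_sum, Matrix.trace_sum, Complex.re_sum]

/-- Leibniz rule `Δ(fg) = f Δg + g Δf + 2⟨∂f,∂g⟩`. -/
theorem lapP_mul (hA : A.IsHermitian) (hf : ContDiffAt ℝ 2 f z) (hg : ContDiffAt ℝ 2 g z) :
    lapP A (fun y => f y * g y) z =
      f z * lapP A g z + g z * lapP A f z + 2 * dualIP A (grad10 f z) (grad10 g z) := by
  have e : levi (fun y => f y * g y) z = ((f z : ℝ) : ℂ) • levi g z + ((g z : ℝ) : ℂ) • levi f z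
      + (Matrix.of fun j k => conj (grad10 f z j) * grad10 g z k)
      + (Matrix.of fun j k => conj (grad10 g z j) * grad10 f z k) := by
    ext j k
    rw [levi_mul hf hg]
    rfl
  simp only [lapP]
  rw [e]
  simp only [Matrix.mul_add, Matrix.trace_add, Complex.add_re, Matrix.mul_smul, Matrix.trace_smul,
    smul_eq_mul, Complex.re_ofReal_mul, trace_inv_mul_outer]
  rw [dualIP_comm hA (grad10 g z)]
  ring

theorem lc_lapP_of_levi (A : Matrix ι ι ℂ) {F : CE ι → ℝ} {a b : ℝ}
    (h : ∀ j k, levi F z j k = ((a : ℝ) : ℂ) * levi f z j k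
      + ((b : ℝ) : ℂ) * (conj (grad10 f z j) * grad10 f z k)) :
    lapP A F z = a * lapP A f z + b * dualIP A (grad10 f z) (grad10 f z) := by
  have e : levi F z = ((a : ℝ) : ℂ) • levi f z
      + ((b : ℝ) : ℂ) • (Matrix.of fun j k => conj (grad10 f z j) * grad10 f z k) := by
    ext j k
    rw [h j k]
    rfl
  simp only [lapP]
  rw [e]
  simp only [Matrix.mul_add, Matrix.trace_add, Complex.add_re, Matrix.mul_smul, Matrix.trace_smul,
    smul_eq_mul, Complex.re_ofReal_mul, trace_inv_mul_outer]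

/-- chain rule `Δ(χ∘f) = χ' Δf + χ'' |∂f|²`. -/
theorem lapP_comp_real (A : Matrix ι ι ℂ) (χ : ℝ → ℝ) (hχ : ContDiffAt ℝ 2 χ (f z))
    (hf : ContDiffAt ℝ 2 f z) :
    lapP A (fun y => χ (f y)) z =
      deriv χ (f z) * lapP A f z + deriv (deriv χ) (f z) * dualIP A (grad10 f z) (grad10 f z) := by
  exact lc_lapP_of_levi A fun j k => levi_comp_real χ hχ hf

theorem lapP_exp (A : Matrix ι ι ℂ) (hf : ContDiffAt ℝ 2 f z) :
    lapP A (fun y => Real.exp (f y)) z =
      Real.exp (f z) * (lapP A f z + dualIP A (grad10 f z) (grad10 f z)) := by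
  rw [lc_lapP_of_levi (f := f) (a := Real.exp (f z)) (b := Real.exp (f z)) A fun j k => by
    rw [levi_exp hf]
    ring]
  ring

theorem lapP_log (A : Matrix ι ι ℂ) (hf : ContDiffAt ℝ 2 f z) (h0 : f z ≠ 0) :
    lapP A (fun y => Real.log (f y)) z =
      lapP A f z / f z - dualIP A (grad10 f z) (grad10 f z) / f z ^ 2 := by
  rw [lc_lapP_of_levi (f := f) (a := (f z)⁻¹) (b := - ((f z) ^ 2)⁻¹) A fun j k => by
    rw [levi_log hf h0]
    push_cast
    ring]
  ring

theorem lapP_sq (A : Matrix ι ι ℂ) (hf : ContDiffAt ℝ 2 f z) :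
    lapP A (fun y => f y ^ 2) z =
      2 * f z * lapP A f z + 2 * dualIP A (grad10 f z) (grad10 f z) := by
  rw [lc_lapP_of_levi (f := f) (a := 2 * f z) (b := 2) A fun j k => by
    rw [levi_sq hf]
    push_cast
    ring]

theorem lapP_sqrt (A : Matrix ι ι ℂ) (hf : ContDiffAt ℝ 2 f z) (h0 : 0 < f z) :
    lapP A (fun y => Real.sqrt (f y)) z =
      lapP A f z / (2 * Real.sqrt (f z))
        - dualIP A (grad10 f z) (grad10 f z) / (4 * f z * Real.sqrt (f z)) := by
  rw [lc_lapP_of_levi (f := f) (a := (2 * Real.sqrt (f z))⁻¹)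
    (b := - (4 * f z * Real.sqrt (f z))⁻¹) A fun j k => by
    rw [levi_sqrt hf h0]
    push_cast
    ring]
  ring

theorem lapP_rpow (A : Matrix ι ι ℂ) (p : ℝ) (hf : ContDiffAt ℝ 2 f z) (h0 : 0 < f z) :
    lapP A (fun y => f y ^ p) z =
      p * f z ^ (p - 1) * lapP A f z
        + p * (p - 1) * f z ^ (p - 2) * dualIP A (grad10 f z) (grad10 f z) := by
  exact lc_lapP_of_levi A fun j k => levi_rpow p hf h0

theorem lapP_smul_matrix (A : Matrix ι ι ℂ) {c : ℝ} (hc : c ≠ 0) (f : CE ι → ℝ) (z : CE ι) :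
    lapP ((c : ℂ) • A) f z = c⁻¹ * lapP A f z := by
  simp only [lapP, lc_inv_smul, Matrix.smul_mul, Matrix.trace_smul, smul_eq_mul]
  rw [← Complex.ofReal_inv, Complex.re_ofReal_mul]

theorem lapP_one (f : CE ι → ℝ) (z : CE ι) :
    lapP (1 : Matrix ι ι ℂ) f z = (∑ k, levi f z k k).re := by
  simp only [lapP, inv_one, Matrix.one_mul, Matrix.trace, Matrix.diag_apply]

/-- `levi f ≥ 0` implies `Δ f ≥ 0`. -/
theorem lapP_nonneg (hA : A.PosDef) (h : (levi f z).PosSemidef) : 0 ≤ lapP A f z := by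
  exact trace_inv_mul_nonneg hA h

/-- invariance of the Laplacian under holomorphic changes of coordinates. -/
theorem lapP_comp_hol (A : Matrix ι ι ℂ) (τ : CE ι → CE ι)
    (hτ : ∀ᶠ y in 𝓝 z, DifferentiableAt ℂ τ y) (hJ : IsUnit (jac τ z))
    (hf : ContDiffAt ℝ 2 f (τ z)) :
    lapP ((jac τ z).conjTranspose * A * jac τ z) (fun y => f (τ y)) z = lapP A f (τ z) := by
  have hd : (jac τ z).det ≠ 0 := ((Matrix.isUnit_iff_isUnit_det _).1 hJ).ne_zero
  simp only [lapP]
  rw [levi_comp_hol τ f hτ hf, trace_inv_mul_conj hd]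

/-- invariance of the gradient pairing, differentiable functions. -/
theorem dualIP_grad10_comp_hol (A : Matrix ι ι ℂ) (τ : CE ι → CE ι)
    (hτ : DifferentiableAt ℂ τ z) (hJ : IsUnit (jac τ z))
    (hu : DifferentiableAt ℝ u (τ z)) (hv : DifferentiableAt ℝ v (τ z)) :
    dualIP ((jac τ z).conjTranspose * A * jac τ z) (grad10 (fun y => u (τ y)) z)
      (grad10 (fun y => v (τ y)) z) = dualIP A (grad10 u (τ z)) (grad10 v (τ z)) := by
  rw [grad10_comp_hol' τ u hτ hu, grad10_comp_hol' τ v hτ hv, dualIP_congr_trans A _ hJ]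

/-- `grad10` of a function which is not differentiable at the point is `0`. -/
theorem grad10_of_not_differentiableAt (h : ¬ DifferentiableAt ℝ u z) : grad10 u z = 0 := by
  exact lv_grad10_eq_zero_of_fderiv (fderiv_zero_of_not_differentiableAt h)

/-- gradient rules in the form used for the pairing. -/
theorem dualIP_grad10_mul_left (A : Matrix ι ι ℂ) (hu : DifferentiableAt ℝ u z)
    (hv : DifferentiableAt ℝ v z) (η : ι → ℂ) :
    dualIP A (grad10 (fun y => u y * v y) z) η =
      u z * dualIP A (grad10 v z) η + v z * dualIP A (grad10 u z) η := by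
  rw [grad10_mul hu hv, dualIP_add_left, dualIP_smul_left, dualIP_smul_left]

theorem dualIP_grad10_mul_right (A : Matrix ι ι ℂ) (hu : DifferentiableAt ℝ u z)
    (hv : DifferentiableAt ℝ v z) (ξ : ι → ℂ) :
    dualIP A ξ (grad10 (fun y => u y * v y) z) =
      u z * dualIP A ξ (grad10 v z) + v z * dualIP A ξ (grad10 u z) := by
  rw [grad10_mul hu hv, dualIP_add_right, dualIP_smul_right, dualIP_smul_right]

theorem lc_grad10_comp_real (χ : ℝ → ℝ) (hχ : DifferentiableAt ℝ χ (u z))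
    (hu : DifferentiableAt ℝ u z) :
    grad10 (fun y => χ (u y)) z = ((deriv χ (u z) : ℝ) : ℂ) • grad10 u z := by
  funext j
  rw [grad10_comp_real χ u hχ hu]
  rfl

theorem dualIP_grad10_comp_left (A : Matrix ι ι ℂ) (χ : ℝ → ℝ) (hχ : DifferentiableAt ℝ χ (u z))
    (hu : DifferentiableAt ℝ u z) (η : ι → ℂ) :
    dualIP A (grad10 (fun y => χ (u y)) z) η = deriv χ (u z) * dualIP A (grad10 u z) η := by
  rw [lc_grad10_comp_real χ hχ hu, dualIP_smul_left]

theorem dualIP_grad10_comp_right (A : Matrix ι ι ℂ) (χ : ℝ → ℝ) (hχ : DifferentiableAt ℝ χ (u z))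
    (hu : DifferentiableAt ℝ u z) (ξ : ι → ℂ) :
    dualIP A ξ (grad10 (fun y => χ (u y)) z) = deriv χ (u z) * dualIP A ξ (grad10 u z) := by
  rw [lc_grad10_comp_real χ hχ hu, dualIP_smul_right]

/-- the norm of the real differential: `|du(v)|² ≤ 4 |∂u|² |v|²`. -/
theorem fderiv_sq_le (hA : A.PosDef) (hu : DifferentiableAt ℝ u z) (v : CE ι) :
    (fderiv ℝ u z v) ^ 2 ≤ 4 * dualIP A (grad10 u z) (grad10 u z) * qf A (fun j => v j) := by
  rw [fderiv_real_eq u hu v]
  have := re_sum_mul_sq_le hA (grad10 u z) (fun j => v j)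
  nlinarith

/-- converse: a bound of the differential gives a bound of `|∂u|²` (valid for every `u`). -/
theorem dualIP_grad10_le_of_fderiv_le (hA : A.PosDef) {L : ℝ} (hL : 0 ≤ L)
    (h : ∀ v : CE ι, fderiv ℝ u z v ≤ L * Real.sqrt (qf A (fun j => v j))) :
    dualIP A (grad10 u z) (grad10 u z) ≤ L ^ 2 / 4 := by
  by_cases hu : DifferentiableAt ℝ u z
  · refine dualIP_self_le_of_forall hA hL fun v => ?_
    have h1 := h (WithLp.toLp 2 v)
    rw [fderiv_real_eq u hu] at h1
    exact h1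
  · rw [grad10_of_not_differentiableAt hu, dualIP_zero_left]
    positivity

end lap

/-! ### smoothness -/

section smooth

variable {E : Type} [NormedAddCommGroup E] [NormedSpace ℝ E]

theorem contDiffOn_dualIP {N : WithTop ℕ∞} {s : Set E} {H : E → Matrix ι ι ℂ} {X Y : E → ι → ℂ}
    (hH : ∀ j k, ContDiffOn ℝ N (fun y => H y j k) s) (hdet : ∀ y ∈ s, (H y).det ≠ 0)
    (hX : ∀ j, ContDiffOn ℝ N (fun y => X y j) s) (hY : ∀ j, ContDiffOn ℝ N (fun y => Y y j) s) :
    ContDiffOn ℝ N (fun y => dualIP (H y) (X y) (Y y)) s := by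
  have e : (fun y => dualIP (H y) (X y) (Y y))
      = fun y => (∑ j, ∑ k, conj (X y j) * (H y)⁻¹ k j * Y y k).re := by
    funext y
    exact dualIP_eq_sum _ _ _
  rw [e]
  refine Complex.reCLM.contDiff.comp_contDiffOn ?_
  refine ContDiffOn.sum fun j _ => ContDiffOn.sum fun k _ => ?_
  exact ((Complex.conjCLE.contDiff.comp_contDiffOn (hX j)).mul (contDiffOn_matInv hH hdet k j)).mul
    (hY k)

theorem contDiffOn_lapP {U : Set (CE ι)} (hU : IsOpen U) {H : CE ι → Matrix ι ι ℂ} {f : CE ι → ℝ}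
    (hH : ∀ j k, ContDiffOn ℝ ∞ (fun y => H y j k) U) (hdet : ∀ y ∈ U, (H y).det ≠ 0)
    (hf : ContDiffOn ℝ ∞ f U) : ContDiffOn ℝ ∞ (fun y => lapP (H y) f y) U := by
  exact contDiffOn_trace_inv_mul_re hH hdet (fun j k => contDiffOn_levi hU hf)

theorem contDiffOn_dualIP_grad10 {U : Set (CE ι)} (hU : IsOpen U) {H : CE ι → Matrix ι ι ℂ}
    {u v : CE ι → ℝ} (hH : ∀ j k, ContDiffOn ℝ ∞ (fun y => H y j k) U)
    (hdet : ∀ y ∈ U, (H y).det ≠ 0) (hu : ContDiffOn ℝ ∞ u U) (hv : ContDiffOn ℝ ∞ v U) :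
    ContDiffOn ℝ ∞ (fun y => dualIP (H y) (grad10 u y) (grad10 v y)) U := by
  exact contDiffOn_dualIP hH hdet (fun j => contDiffOn_grad10 hU hu)
    (fun j => contDiffOn_grad10 hU hv)

theorem lc_measurable_grad10 (u : CE ι → ℝ) (k : ι) : Measurable fun y => grad10 u y k := by
  simp only [grad10, dz]
  exact measurable_const.mul ((measurable_fderiv_apply_const ℝ _ _).sub
    (measurable_const.mul (measurable_fderiv_apply_const ℝ _ _)))

/-- measurability of the pairing for ARBITRARY functions `u v`, continuous `H`. -/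
theorem measurable_dualIP_grad10_indicator {U : Set (CE ι)} (hU : IsOpen U)
    {H : CE ι → Matrix ι ι ℂ} (hH : ∀ j k, ContinuousOn (fun y => H y j k) U)
    (hdet : ∀ y ∈ U, (H y).det ≠ 0) (u v : CE ι → ℝ) :
    Measurable (U.indicator fun y => dualIP (H y) (grad10 u y) (grad10 v y)) := by
  classical
  have hinv : ∀ j k, Measurable (U.indicator fun y => (H y)⁻¹ k j) := by
    intro j k
    have hc : ContinuousOn (fun y => (H y)⁻¹ k j) U :=
      (contDiffOn_matInv (N := 0) (fun a b => contDiffOn_zero.2 (hH a b)) hdet k j).continuousOn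
    rw [← Set.piecewise_eq_indicator]
    exact hc.measurable_piecewise continuousOn_const hU.measurableSet
  have e : (U.indicator fun y => dualIP (H y) (grad10 u y) (grad10 v y))
      = fun y => (∑ j, ∑ k, conj (grad10 u y j) * (U.indicator (fun y => (H y)⁻¹ k j) y)
        * grad10 v y k).re := by
    funext y
    by_cases hy : y ∈ U
    · simp only [Set.indicator_of_mem hy]
      exact dualIP_eq_sum _ _ _
    · simp only [Set.indicator_of_notMem hy, mul_zero, zero_mul, Finset.sum_const_zero,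
        Complex.zero_re]
  rw [e]
  refine Complex.measurable_re.comp ?_
  refine Finset.measurable_sum _ fun j _ => Finset.measurable_sum _ fun k _ => ?_
  exact ((Complex.continuous_conj.measurable.comp (lc_measurable_grad10 u j)).mul (hinv j k)).mul
    (lc_measurable_grad10 v k)

end smooth

end Claimed.Agent.R316
end
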