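/- Packed by merge_tool.py (helper293): 3 modules of Claimed.Agent.R316 in one file, same declarations.
   Old modules, in this order: CM.Forms, CM.Curv, B13.Defs -/
import Claimed.Agent.R316.CM.SmoothAlg
import Claimed.Agent.R316.CW.MatAlg
import Mathlib
import Claimed.Agent.R316.Pack003
import Claimed.Agent.R316.Pack004

/- ===== packed: Claimed.Agent.R316.CM.Forms ===== -/
section
/-!
# Row 316, CM-2: Hermitian forms on a `CMfd`: closure properties, invariance, order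

Owner: helper141.

`τ = Function.invFunOn Ψ W ∘ Φ` is the transition map (kept explicit, as in `CM/Trans.lean`).
Sums, differences, multiples of forms are written as explicit lambdas `fun Φ z => A Φ z + B Φ z`
(this is the shape of `flowMetric` and of `S3/Defs.lean`; `A + B` is defeq to it).

0. chartwise regularity of smooth functions and forms;   1. smooth functions from holomorphic ones (algebra: `CM/SmoothAlg.lean`);
2. `IsHForm`, `IsClosedForm`, `IsMetric`, `IsKahler`: closure properties, `ddc u`, `ricF h`;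
3. invariance of `trF`, `detF`, `gradSqF`; `tr`, `lap`, `detRatio`, `gradSq`, `scalCurv` in ANY parametrisation; smoothness;
4. the order `leF`;   5. canonical sections.

Curvature tensor: `CM/Curv.lean`.  Space-time families, `flowMetric`: `CM/FormsST.lean`.
-/

set_option autoImplicit false
set_option linter.unusedSectionVars false
open scoped ContDiff ComplexOrder ComplexConjugate Topology Matrix

namespace Claimed.Agent.R316

variable {V : Type} [NormedAddCommGroup V] [NormedSpace ℝ V]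
variable {ι : Type} [Fintype ι] [DecidableEq ι]
variable {𝓜 : CMfd V ι} {A B C h g : HFam V ι} {u v f : V → ℝ}
variable {Φ Ψ : CE ι → V} {U W : Set (CE ι)} {z : CE ι}

/-! ## 0. Chartwise regularity -/

section regularity

theorem CMfd.Smooth.contDiffAt_comp (hu : 𝓜.Smooth u) (hΦ : 𝓜.IsHol Φ U) (hz : z ∈ U) :
    ContDiffAt ℝ ∞ (u ∘ Φ) z := by
  exact (hu Φ U hΦ z hz).contDiffAt ((CMfd.isOpen_dom hΦ).mem_nhds hz)

theorem CMfd.Smooth.contDiffAt_comp_two (hu : 𝓜.Smooth u) (hΦ : 𝓜.IsHol Φ U) (hz : z ∈ U) :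
    ContDiffAt ℝ 2 (u ∘ Φ) z := by
  exact (hu.contDiffAt_comp hΦ hz).of_le lv_two_le_infty

theorem CMfd.Smooth.differentiableAt_comp (hu : 𝓜.Smooth u) (hΦ : 𝓜.IsHol Φ U) (hz : z ∈ U) :
    DifferentiableAt ℝ (u ∘ Φ) z := by
  exact (hu.contDiffAt_comp hΦ hz).differentiableAt (by simp)

theorem IsHForm.contDiffAt (hA : IsHForm 𝓜 A) (hΦ : 𝓜.IsHol Φ U) (hz : z ∈ U) (j k : ι) :
    ContDiffAt ℝ ∞ (fun w => A Φ w j k) z := by
  exact (hA.smooth hΦ j k z hz).contDiffAt ((CMfd.isOpen_dom hΦ).mem_nhds hz)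

theorem IsHForm.contDiffAt_two (hA : IsHForm 𝓜 A) (hΦ : 𝓜.IsHol Φ U) (hz : z ∈ U) (j k : ι) :
    ContDiffAt ℝ 2 (fun w => A Φ w j k) z := by
  exact (hA.contDiffAt hΦ hz j k).of_le lv_two_le_infty

theorem IsHForm.differentiableAt (hA : IsHForm 𝓜 A) (hΦ : 𝓜.IsHol Φ U) (hz : z ∈ U) (j k : ι) :
    DifferentiableAt ℝ (fun w => A Φ w j k) z := by
  exact (hA.contDiffAt hΦ hz j k).differentiableAt (by simp)

theorem IsHForm.eventually_isHermitian (hA : IsHForm 𝓜 A) (hΦ : 𝓜.IsHol Φ U) (hz : z ∈ U) :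
    ∀ᶠ w in 𝓝 z, (A Φ w).IsHermitian := by
  exact Filter.eventually_of_mem ((CMfd.isOpen_dom hΦ).mem_nhds hz) (fun w hw => hA.herm hΦ w hw)

theorem IsMetric.eventually_posDef (hh : IsMetric 𝓜 h) (hΦ : 𝓜.IsHol Φ U) (hz : z ∈ U) :
    ∀ᶠ w in 𝓝 z, (h Φ w).PosDef := by
  exact Filter.eventually_of_mem ((CMfd.isOpen_dom hΦ).mem_nhds hz) (fun w hw => hh.posDef hΦ w hw)

theorem IsMetric.det_ne_zero (hh : IsMetric 𝓜 h) (hΦ : 𝓜.IsHol Φ U) (hz : z ∈ U) :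
    (h Φ z).det ≠ 0 := by
  exact det_ne_zero_of_posDef (hh.posDef hΦ z hz)

/-- `IsHForm.compat` on the overlap. -/
theorem IsHForm.compat_trans (hA : IsHForm 𝓜 A) (hΦ : 𝓜.IsHol Φ U) (hΨ : 𝓜.IsHol Ψ W)
    (hz : z ∈ U ∩ Φ ⁻¹' (Ψ '' W)) :
    A Φ z = (jac (Function.invFunOn Ψ W ∘ Φ) z)ᴴ * A Ψ ((Function.invFunOn Ψ W ∘ Φ) z)
      * jac (Function.invFunOn Ψ W ∘ Φ) z := by
  exact hA.compat hΦ hΨ z hz.1 hz.2

theorem IsHForm.eventually_compat (hA : IsHForm 𝓜 A) (hΦ : 𝓜.IsHol Φ U) (hΨ : 𝓜.IsHol Ψ W)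
    (hz : z ∈ U ∩ Φ ⁻¹' (Ψ '' W)) :
    ∀ᶠ w in 𝓝 z, A Φ w = (jac (Function.invFunOn Ψ W ∘ Φ) w)ᴴ
      * A Ψ ((Function.invFunOn Ψ W ∘ Φ) w) * jac (Function.invFunOn Ψ W ∘ Φ) w := by
  exact Filter.eventually_of_mem ((CMfd.isOpen_overlap hΦ hΨ).mem_nhds hz)
    (fun w hw => hA.compat_trans hΦ hΨ hw)

/-- two forms which agree in the parametrisations of a cover agree in every parametrisation. -/
theorem IsHForm.eq_of_cover (hA : IsHForm 𝓜 A) (hB : IsHForm 𝓜 B)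
    (h : ∀ x ∈ 𝓜.carrier, ∃ (Ψ : CE ι → V) (W : Set (CE ι)) (w : CE ι), 𝓜.IsHol Ψ W ∧ w ∈ W ∧
      Ψ w = x ∧ A Ψ w = B Ψ w) (hΦ : 𝓜.IsHol Φ U) (hz : z ∈ U) : A Φ z = B Φ z := by
  obtain ⟨Ψ, W, w, hΨ, hw, hwx, hAB⟩ := h (Φ z) (CMfd.mem_carrier hΦ hz)
  have hz' : z ∈ U ∩ Φ ⁻¹' (Ψ '' W) := ⟨hz, ⟨w, hw, hwx⟩⟩
  have hτ : (Function.invFunOn Ψ W ∘ Φ) z = w := CMfd.trans_eq hΦ hΨ hw hwx.symm
  rw [hA.compat_trans hΦ hΨ hz', hB.compat_trans hΦ hΨ hz', hτ, hAB]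

/-- third order symmetry of the Levi matrix (chart level). -/
theorem dz_levi_comm {F : CE ι → ℝ} (hF : ContDiffAt ℝ 3 F z) (j k l : ι) :
    dz l (fun w => levi F w j k) z = dz k (fun w => levi F w j l) z := by
  have hG : ContDiffAt ℝ 3 (fun y => ((F y : ℝ) : ℂ)) z := contDiffAt_ofReal hF
  have h2 : ∀ m : ι, ContDiffAt ℝ 2 (dz m (fun y => ((F y : ℝ) : ℂ))) z := fun m =>
    contDiffAt_dz hG (by norm_num)
  have hev : ∀ᶠ w in 𝓝 z, ContDiffAt ℝ 2 (fun y => ((F y : ℝ) : ℂ)) w :=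
    lv_eventually_contDiffAt (hG.of_le (by norm_num))
  have e1 : (fun w => levi F w j k) = dzb j (dz k (fun y => ((F y : ℝ) : ℂ))) := by
    funext w; exact levi_apply
  have e2 : (fun w => levi F w j l) = dzb j (dz l (fun y => ((F y : ℝ) : ℂ))) := by
    funext w; exact levi_apply
  rw [e1, e2, dz_dzb_comm (h2 k), dz_dzb_comm (h2 l)]
  exact dzb_congr (hev.mono fun w hw => dz_dz_comm hw)

end regularity

/-! ## 1. Smooth functions -/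

section smooth

/-! The algebra of `CMfd.Smooth` / `CMfd.SmoothST` (add, mul, comp, exp, log, ...) is in `CM/SmoothAlg.lean`
(helper55, sorry-free). -/

/-- squared modulus of a holomorphic function. -/
theorem CMfd.HolFun.smooth_normSq {F : V → ℂ} (hF : 𝓜.HolFun F) :
    𝓜.Smooth (fun x => ‖F x‖ ^ 2) := by
  intro Φ U hΦ
  exact (hol_contDiffOn_real (CMfd.isOpen_dom hΦ) (hF Φ U hΦ)).norm_sq ℝ

theorem CMfd.HolFun.smooth_re {F : V → ℂ} (hF : 𝓜.HolFun F) : 𝓜.Smooth (fun x => (F x).re) := by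
  intro Φ U hΦ
  exact Complex.reCLM.contDiff.comp_contDiffOn
    (hol_contDiffOn_real (CMfd.isOpen_dom hΦ) (hF Φ U hΦ))

theorem CMfd.HolFun.smooth_im {F : V → ℂ} (hF : 𝓜.HolFun F) : 𝓜.Smooth (fun x => (F x).im) := by
  intro Φ U hΦ
  exact Complex.imCLM.contDiff.comp_contDiffOn
    (hol_contDiffOn_real (CMfd.isOpen_dom hΦ) (hF Φ U hΦ))

end smooth

/-! ## 2. Closure properties of forms -/

section forms

theorem isHForm_zero : IsHForm 𝓜 (fun _ _ => (0 : Matrix ι ι ℂ)) := by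
  exact ⟨fun _ _ _ => Matrix.isHermitian_zero, fun _ _ _ => contDiffOn_const,
    fun _ _ _ _ _ => by simp⟩

theorem IsHForm.add (hA : IsHForm 𝓜 A) (hB : IsHForm 𝓜 B) :
    IsHForm 𝓜 (fun Φ z => A Φ z + B Φ z) := by
  refine ⟨fun hΦ z hz => (hA.herm hΦ z hz).add (hB.herm hΦ z hz),
    fun hΦ j k => (hA.smooth hΦ j k).add (hB.smooth hΦ j k), fun hΦ hΨ z hz hz' => ?_⟩
  rw [hA.compat hΦ hΨ z hz hz', hB.compat hΦ hΨ z hz hz', Matrix.mul_add, Matrix.add_mul]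

theorem IsHForm.sub (hA : IsHForm 𝓜 A) (hB : IsHForm 𝓜 B) :
    IsHForm 𝓜 (fun Φ z => A Φ z - B Φ z) := by
  refine ⟨fun hΦ z hz => (hA.herm hΦ z hz).sub (hB.herm hΦ z hz),
    fun hΦ j k => (hA.smooth hΦ j k).sub (hB.smooth hΦ j k), fun hΦ hΨ z hz hz' => ?_⟩
  rw [hA.compat hΦ hΨ z hz hz', hB.compat hΦ hΨ z hz hz', Matrix.mul_sub, Matrix.sub_mul]

theorem IsHForm.neg (hA : IsHForm 𝓜 A) : IsHForm 𝓜 (fun Φ z => - A Φ z) := by
  refine ⟨fun hΦ z hz => (hA.herm hΦ z hz).neg,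
    fun hΦ j k => (hA.smooth hΦ j k).neg, fun hΦ hΨ z hz hz' => ?_⟩
  rw [hA.compat hΦ hΨ z hz hz', Matrix.mul_neg, Matrix.neg_mul]

theorem IsHForm.smul_real (c : ℝ) (hA : IsHForm 𝓜 A) :
    IsHForm 𝓜 (fun Φ z => ((c : ℝ) : ℂ) • A Φ z) := by
  refine ⟨fun hΦ z hz => isHermitian_smul_real c (hA.herm hΦ z hz),
    fun hΦ j k => contDiffOn_const.mul (hA.smooth hΦ j k), fun hΦ hΨ z hz hz' => ?_⟩
  rw [hA.compat hΦ hΨ z hz hz', Matrix.mul_smul, Matrix.smul_mul]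

theorem IsHForm.smulF (hf : 𝓜.Smooth f) (hA : IsHForm 𝓜 A) : IsHForm 𝓜 (smulF f A) := by
  refine ⟨fun hΦ z hz => isHermitian_smul_real _ (hA.herm hΦ z hz),
    fun {Φ U} hΦ j k => (contDiffOn_ofReal (hf Φ U hΦ)).mul (hA.smooth hΦ j k),
    fun {Φ Ψ U W} hΦ hΨ z hz hz' => ?_⟩
  have e : Ψ (Function.invFunOn Ψ W (Φ z)) = Φ z := Function.invFunOn_eq hz'
  simp only [R316.smulF]
  rw [hA.compat hΦ hΨ z hz hz', Matrix.mul_smul, Matrix.smul_mul, e]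

theorem IsHForm.sum {α : Type} (s : Finset α) {F : α → HFam V ι} (hF : ∀ a ∈ s, IsHForm 𝓜 (F a)) :
    IsHForm 𝓜 (fun Φ z => ∑ a ∈ s, F a Φ z) := by
  classical
  induction s using Finset.induction_on with
  | empty => simpa using (isHForm_zero (𝓜 := 𝓜))
  | insert a s ha ih =>
    have h1 := (hF a (Finset.mem_insert_self a s)).add
      (ih (fun b hb => hF b (Finset.mem_insert_of_mem hb)))
    simpa [Finset.sum_insert ha] using h1

/-- only the values in holomorphic parametrisations matter. -/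
theorem IsHForm.congr (hA : IsHForm 𝓜 A)
    (h : ∀ (Φ : CE ι → V) (U : Set (CE ι)), 𝓜.IsHol Φ U → ∀ z ∈ U, A Φ z = B Φ z) :
    IsHForm 𝓜 B := by
  refine ⟨fun {Φ U} hΦ z hz => h Φ U hΦ z hz ▸ hA.herm hΦ z hz,
    fun {Φ U} hΦ j k => (hA.smooth hΦ j k).congr (fun w hw => by rw [h Φ U hΦ w hw]),
    fun {Φ Ψ U W} hΦ hΨ z hz hz' => ?_⟩
  rw [← h Φ U hΦ z hz, ← h Ψ W hΨ _ (Function.invFunOn_mem hz')]
  exact hA.compat hΦ hΨ z hz hz'

theorem isHForm_ddc (hu : 𝓜.Smooth u) : IsHForm 𝓜 (ddc u) := by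
  refine ⟨fun hΦ z hz => levi_isHermitian (hu.contDiffAt_comp_two hΦ hz),
    fun {Φ U} hΦ j k => contDiffOn_levi (CMfd.isOpen_dom hΦ) (hu Φ U hΦ),
    fun {Φ Ψ U W} hΦ hΨ z hz hz' => ?_⟩
  have hzz : z ∈ U ∩ Φ ⁻¹' (Ψ '' W) := ⟨hz, hz'⟩
  have h1 : ddc u Φ z = levi (fun w => (u ∘ Ψ) ((Function.invFunOn Ψ W ∘ Φ) w)) z :=
    levi_congr (CMfd.eventually_comp_eq u hΦ hΨ hzz)
  rw [h1, levi_comp_hol _ _ (CMfd.trans_eventually_differentiableAt hΦ hΨ hzz)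
    (hu.contDiffAt_comp_two hΨ (CMfd.trans_mem hΦ hΨ hzz))]
  rfl

theorem isClosedForm_ddc (hu : 𝓜.Smooth u) : IsClosedForm 𝓜 (ddc u) := by
  intro Φ U hΦ z hz j k l
  exact dz_levi_comm ((hu.contDiffAt_comp hΦ hz).of_le (WithTop.coe_le_coe.2 le_top)) j k l

theorem isHForm_ricF (hh : IsMetric 𝓜 h) : IsHForm 𝓜 (ricF h) := by
  refine ⟨fun hΦ z hz => (levi_isHermitian (contDiffAt_logDet_of_posDef
      (fun j k => hh.toIsHForm.contDiffAt_two hΦ hz j k) (hh.posDef hΦ z hz))).neg,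
    fun {Φ U} hΦ j k => (contDiffOn_levi (CMfd.isOpen_dom hΦ) (contDiffOn_logDet_of_posDef
      (fun j k => hh.smooth hΦ j k) (fun w hw => hh.posDef hΦ w hw))).neg,
    fun {Φ Ψ U W} hΦ hΨ z hz hz' => ?_⟩
  have hzz : z ∈ U ∩ Φ ⁻¹' (Ψ '' W) := ⟨hz, hz'⟩
  have hw := CMfd.trans_mem hΦ hΨ hzz
  have h1 : levi (fun w => Real.log (h Φ w).det.re) z
      = levi (fun w => Real.log ((jac (Function.invFunOn Ψ W ∘ Φ) w)ᴴ
        * h Ψ ((Function.invFunOn Ψ W ∘ Φ) w) * jac (Function.invFunOn Ψ W ∘ Φ) w).det.re) z :=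
    levi_congr ((hh.toIsHForm.eventually_compat hΦ hΨ hzz).mono fun w hw => by
      show Real.log (h Φ w).det.re = _
      rw [hw])
  simp only [R316.ricF]
  rw [h1, levi_logDet_comp_hol _ (CMfd.trans_eventually_differentiableAt hΦ hΨ hzz)
    (CMfd.det_jac_trans_ne_zero hΦ hΨ hzz) (fun a b => hh.toIsHForm.contDiffAt_two hΨ hw a b)
    (det_re_ne_zero_of_posDef (hh.posDef hΨ _ hw)), Matrix.mul_neg, Matrix.neg_mul]
  rfl

theorem isClosedForm_ricF (hh : IsMetric 𝓜 h) : IsClosedForm 𝓜 (ricF h) := by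
  intro Φ U hΦ z hz j k l
  have hC : ContDiffAt ℝ 3 (fun w => Real.log (h Φ w).det.re) z :=
    contDiffAt_logDet_of_posDef (fun j k => (hh.toIsHForm.contDiffAt hΦ hz j k).of_le
      (WithTop.coe_le_coe.2 le_top)) (hh.posDef hΦ z hz)
  have := dz_levi_comm hC j k l
  simp only [R316.ricF, Matrix.neg_apply]
  rw [dz_neg, dz_neg, this]

theorem isClosedForm_zero : IsClosedForm 𝓜 (fun _ _ => (0 : Matrix ι ι ℂ)) := by
  intro Φ U hΦ z hz j k l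
  simp only [Matrix.zero_apply]
  rw [dz_const, dz_const]

theorem IsClosedForm.add (hA : IsHForm 𝓜 A) (hB : IsHForm 𝓜 B) (cA : IsClosedForm 𝓜 A)
    (cB : IsClosedForm 𝓜 B) : IsClosedForm 𝓜 (fun Φ z => A Φ z + B Φ z) := by
  intro Φ U hΦ z hz j k l
  simp only [Matrix.add_apply]
  rw [dz_add (hA.differentiableAt hΦ hz j k) (hB.differentiableAt hΦ hz j k),
    dz_add (hA.differentiableAt hΦ hz j l) (hB.differentiableAt hΦ hz j l),
    cA Φ U hΦ z hz j k l, cB Φ U hΦ z hz j k l]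

theorem IsClosedForm.sub (hA : IsHForm 𝓜 A) (hB : IsHForm 𝓜 B) (cA : IsClosedForm 𝓜 A)
    (cB : IsClosedForm 𝓜 B) : IsClosedForm 𝓜 (fun Φ z => A Φ z - B Φ z) := by
  intro Φ U hΦ z hz j k l
  simp only [Matrix.sub_apply]
  rw [dz_sub (hA.differentiableAt hΦ hz j k) (hB.differentiableAt hΦ hz j k),
    dz_sub (hA.differentiableAt hΦ hz j l) (hB.differentiableAt hΦ hz j l),
    cA Φ U hΦ z hz j k l, cB Φ U hΦ z hz j k l]

theorem IsClosedForm.neg (cA : IsClosedForm 𝓜 A) : IsClosedForm 𝓜 (fun Φ z => - A Φ z) := by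
  intro Φ U hΦ z hz j k l
  simp only [Matrix.neg_apply]
  rw [dz_neg, dz_neg, cA Φ U hΦ z hz j k l]

theorem IsClosedForm.smul_real (c : ℝ) (hA : IsHForm 𝓜 A) (cA : IsClosedForm 𝓜 A) :
    IsClosedForm 𝓜 (fun Φ z => ((c : ℝ) : ℂ) • A Φ z) := by
  intro Φ U hΦ z hz j k l
  simp only [Matrix.smul_apply, smul_eq_mul]
  rw [dz_const_mul _ (hA.differentiableAt hΦ hz j k), dz_const_mul _ (hA.differentiableAt hΦ hz j l),
    cA Φ U hΦ z hz j k l]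

/-- conjugate form of closedness: `∂̄_l A_{k \bar j} = ∂̄_j A_{k \bar l}`. -/
theorem IsClosedForm.dzb (hA : IsHForm 𝓜 A) (cA : IsClosedForm 𝓜 A) (hΦ : 𝓜.IsHol Φ U)
    (hz : z ∈ U) (j k l : ι) :
    dzb l (fun w => A Φ w j k) z = dzb j (fun w => A Φ w l k) z := by
  have hc : ∀ a b : ι, (fun w => A Φ w a b) =ᶠ[𝓝 z] fun w => conj (A Φ w b a) := fun a b =>
    (hA.eventually_isHermitian hΦ hz).mono fun w hw => by
      show A Φ w a b = _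
      exact (hw.apply a b).symm
  rw [dzb_congr (hc j k), dzb_congr (hc l k), dzb_conj, dzb_conj, cA Φ U hΦ z hz k j l]

/-! ### metrics -/

theorem IsMetric.of_leF (hh : IsMetric 𝓜 h) (hA : IsHForm 𝓜 A) (hle : leF 𝓜 h A) :
    IsMetric 𝓜 A := by
  exact ⟨hA, fun {Φ U} hΦ z hz => posDef_of_loewner (hh.posDef hΦ z hz) (hle Φ U hΦ z hz)⟩

theorem IsMetric.add_of_nonneg (hh : IsMetric 𝓜 h) (hA : IsHForm 𝓜 A)
    (h0 : leF 𝓜 (fun _ _ => 0) A) : IsMetric 𝓜 (fun Φ z => h Φ z + A Φ z) := by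
  refine ⟨hh.toIsHForm.add hA, fun {Φ U} hΦ z hz => ?_⟩
  have h1 := h0 Φ U hΦ z hz
  rw [sub_zero] at h1
  exact (hh.posDef hΦ z hz).add_posSemidef h1

theorem IsMetric.add (hh : IsMetric 𝓜 h) (hg : IsMetric 𝓜 g) :
    IsMetric 𝓜 (fun Φ z => h Φ z + g Φ z) := by
  exact ⟨hh.toIsHForm.add hg.toIsHForm,
    fun hΦ z hz => (hh.posDef hΦ z hz).add (hg.posDef hΦ z hz)⟩

theorem IsMetric.smulF (hf : 𝓜.Smooth f) (hpos : ∀ x ∈ 𝓜.carrier, 0 < f x) (hh : IsMetric 𝓜 h) :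
    IsMetric 𝓜 (smulF f h) := by
  exact ⟨hh.toIsHForm.smulF hf, fun hΦ z hz =>
    posDef_smul_real (hpos _ (CMfd.mem_carrier hΦ hz)) (hh.posDef hΦ z hz)⟩

theorem IsMetric.smul_real {c : ℝ} (hc : 0 < c) (hh : IsMetric 𝓜 h) :
    IsMetric 𝓜 (fun Φ z => ((c : ℝ) : ℂ) • h Φ z) := by
  exact ⟨hh.toIsHForm.smul_real c, fun hΦ z hz => posDef_smul_real hc (hh.posDef hΦ z hz)⟩

theorem IsKahler.smul_real {c : ℝ} (hc : 0 < c) (hh : IsKahler 𝓜 h) :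
    IsKahler 𝓜 (fun Φ z => ((c : ℝ) : ℂ) • h Φ z) := by
  exact ⟨hh.toIsMetric.smul_real hc, IsClosedForm.smul_real c hh.toIsHForm hh.closed⟩

/-- `h + dd u` is Kaehler as soon as it is positive. -/
theorem IsKahler.add_ddc (hh : IsKahler 𝓜 h) (hu : 𝓜.Smooth u)
    (hpos : ∀ (Φ : CE ι → V) (U : Set (CE ι)), 𝓜.IsHol Φ U → ∀ z ∈ U,
      (h Φ z + ddc u Φ z).PosDef) : IsKahler 𝓜 (fun Φ z => h Φ z + ddc u Φ z) := by
  exact ⟨⟨hh.toIsHForm.add (isHForm_ddc hu), fun {Φ U} hΦ z hz => hpos Φ U hΦ z hz⟩,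
    IsClosedForm.add hh.toIsHForm (isHForm_ddc hu) hh.closed (isClosedForm_ddc hu)⟩

theorem IsMetric.congr (hh : IsMetric 𝓜 h)
    (he : ∀ (Φ : CE ι → V) (U : Set (CE ι)), 𝓜.IsHol Φ U → ∀ z ∈ U, h Φ z = g Φ z) :
    IsMetric 𝓜 g := by
  exact ⟨hh.toIsHForm.congr he, fun {Φ U} hΦ z hz => he Φ U hΦ z hz ▸ hh.posDef hΦ z hz⟩

theorem IsKahler.congr (hh : IsKahler 𝓜 h)
    (he : ∀ (Φ : CE ι → V) (U : Set (CE ι)), 𝓜.IsHol Φ U → ∀ z ∈ U, h Φ z = g Φ z) :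
    IsKahler 𝓜 g := by
  refine ⟨hh.toIsMetric.congr he, fun Φ U hΦ z hz j k l => ?_⟩
  have hc : ∀ a b : ι, (fun w => g Φ w a b) =ᶠ[𝓝 z] fun w => h Φ w a b := fun a b =>
    Filter.eventually_of_mem ((CMfd.isOpen_dom hΦ).mem_nhds hz) fun w hw => by
      show g Φ w a b = h Φ w a b
      rw [he Φ U hΦ w hw]
  rw [dz_congr (hc j k), dz_congr (hc j l)]
  exact hh.closed Φ U hΦ z hz j k l

/-! ### `ddc` and `ricF`: algebra -/

theorem ddc_add (hu : 𝓜.Smooth u) (hv : 𝓜.Smooth v) (hΦ : 𝓜.IsHol Φ U) (hz : z ∈ U) :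
    ddc (fun x => u x + v x) Φ z = ddc u Φ z + ddc v Φ z := by
  exact levi_add (hu.contDiffAt_comp_two hΦ hz) (hv.contDiffAt_comp_two hΦ hz)

theorem ddc_sub (hu : 𝓜.Smooth u) (hv : 𝓜.Smooth v) (hΦ : 𝓜.IsHol Φ U) (hz : z ∈ U) :
    ddc (fun x => u x - v x) Φ z = ddc u Φ z - ddc v Φ z := by
  exact levi_sub (hu.contDiffAt_comp_two hΦ hz) (hv.contDiffAt_comp_two hΦ hz)

theorem ddc_neg (u : V → ℝ) (Φ : CE ι → V) (z : CE ι) :
    ddc (fun x => - u x) Φ z = - ddc u Φ z := by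
  exact levi_neg

theorem ddc_const (c : ℝ) (Φ : CE ι → V) (z : CE ι) : ddc (fun _ => c) Φ z = 0 := by
  exact levi_const c

theorem ddc_const_mul (c : ℝ) (hu : 𝓜.Smooth u) (hΦ : 𝓜.IsHol Φ U) (hz : z ∈ U) :
    ddc (fun x => c * u x) Φ z = ((c : ℝ) : ℂ) • ddc u Φ z := by
  exact levi_const_mul c (hu.contDiffAt_comp_two hΦ hz)

theorem ddc_add_const (c : ℝ) (u : V → ℝ) (Φ : CE ι → V) (z : CE ι) :
    ddc (fun x => u x + c) Φ z = ddc u Φ z := by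
  exact levi_add_const c

theorem ddc_sum {α : Type} (s : Finset α) {F : α → V → ℝ} (hF : ∀ a ∈ s, 𝓜.Smooth (F a))
    (hΦ : 𝓜.IsHol Φ U) (hz : z ∈ U) :
    ddc (fun x => ∑ a ∈ s, F a x) Φ z = ∑ a ∈ s, ddc (F a) Φ z := by
  exact levi_sum s (fun a => F a ∘ Φ) (fun a ha => (hF a ha).contDiffAt_comp_two hΦ hz)

/-- `ddc` only depends on the values on the carrier. -/
theorem ddc_congr (he : Set.EqOn u v 𝓜.carrier) (hΦ : 𝓜.IsHol Φ U) (hz : z ∈ U) :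
    ddc u Φ z = ddc v Φ z := by
  exact levi_congr (Filter.eventually_of_mem ((CMfd.isOpen_dom hΦ).mem_nhds hz)
    fun w hw => he (CMfd.mem_carrier hΦ hw))

/-- chain rule `dd χ(u) = χ'(u) dd u + χ''(u) ∂u ⊗ \bar∂u`. -/
theorem ddc_comp_real (χ : ℝ → ℝ) (hu : 𝓜.Smooth u) (hΦ : 𝓜.IsHol Φ U) (hz : z ∈ U)
    (hχ : ContDiffAt ℝ 2 χ (u (Φ z))) (j k : ι) :
    ddc (fun x => χ (u x)) Φ z j k = ((deriv χ (u (Φ z)) : ℝ) : ℂ) * ddc u Φ z j k
      + ((deriv (deriv χ) (u (Φ z)) : ℝ) : ℂ)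
        * (conj (grad10 (u ∘ Φ) z j) * grad10 (u ∘ Φ) z k) := by
  exact levi_comp_real χ hχ (hu.contDiffAt_comp_two hΦ hz)

/-- `ricF` only depends on the values in holomorphic parametrisations. -/
theorem ricF_congr (he : ∀ (Φ : CE ι → V) (U : Set (CE ι)), 𝓜.IsHol Φ U → ∀ z ∈ U, h Φ z = g Φ z)
    (hΦ : 𝓜.IsHol Φ U) (hz : z ∈ U) : ricF h Φ z = ricF g Φ z := by
  simp only [R316.ricF]
  rw [levi_congr (Filter.eventually_of_mem ((CMfd.isOpen_dom hΦ).mem_nhds hz)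
    fun w hw => by rw [he Φ U hΦ w hw])]

/-- `Ric (e^f h) = Ric h - n dd f`. -/
theorem ricF_exp_smulF (hh : IsMetric 𝓜 h) (hf : 𝓜.Smooth f) (hΦ : 𝓜.IsHol Φ U) (hz : z ∈ U) :
    ricF (smulF (fun x => Real.exp (f x)) h) Φ z
      = ricF h Φ z - (Fintype.card ι : ℂ) • ddc f Φ z := by
  simp only [R316.ricF, R316.smulF]
  have h1 := levi_logDet_exp_smul (f := f ∘ Φ) (hf.contDiffAt_comp_two hΦ hz)
    (fun a b => hh.toIsHForm.contDiffAt_two hΦ hz a b)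
    (det_re_ne_zero_of_posDef (hh.posDef hΦ z hz))
  simp only [Function.comp_apply] at h1
  rw [h1]
  simp only [R316.ddc]
  abel

/-- `Ric (c h) = Ric h`. -/
theorem ricF_smul_real {c : ℝ} (hc : 0 < c) (hh : IsMetric 𝓜 h) (hΦ : 𝓜.IsHol Φ U) (hz : z ∈ U) :
    ricF (fun Φ z => ((c : ℝ) : ℂ) • h Φ z) Φ z = ricF h Φ z := by
  simp only [R316.ricF]
  have h1 : (fun w => Real.log (((c : ℝ) : ℂ) • h Φ w).det.re)
      =ᶠ[𝓝 z] fun w => Real.log (h Φ w).det.re + Fintype.card ι * Real.log c :=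
    (hh.eventually_posDef hΦ hz).mono fun w hw => by
      show Real.log (((c : ℝ) : ℂ) • h Φ w).det.re = _
      rw [logDet_smul_real hc.ne' (det_re_ne_zero_of_posDef hw)]
      ring
  rw [levi_congr h1, levi_add_const]

end forms

/-! ## 3. Invariance; the scalars in any parametrisation; smoothness -/

section invariance

theorem invariant_trF (hh : IsMetric 𝓜 h) (hA : IsHForm 𝓜 A) : 𝓜.Invariant (trF h A) := by
  rw [CMfd.invariant_iff]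
  intro Φ Ψ U W hΦ hΨ z hz
  simp only [R316.trF]
  rw [hh.toIsHForm.compat_trans hΦ hΨ hz, hA.compat_trans hΦ hΨ hz,
    trace_inv_mul_conj (CMfd.det_jac_trans_ne_zero hΦ hΨ hz)]

theorem invariant_detF (hh : IsHForm 𝓜 h) (hg : IsMetric 𝓜 g) : 𝓜.Invariant (detF h g) := by
  rw [CMfd.invariant_iff]
  intro Φ Ψ U W hΦ hΨ z hz
  simp only [R316.detF]
  have h0 : (((‖(jac (Function.invFunOn Ψ W ∘ Φ) z).det‖ ^ 2 : ℝ)) : ℂ) ≠ 0 := by
    have := CMfd.det_jac_trans_ne_zero hΦ hΨ hz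
    exact_mod_cast pow_ne_zero 2 (norm_ne_zero_iff.2 this)
  rw [hh.compat_trans hΦ hΨ hz, hg.toIsHForm.compat_trans hΦ hΨ hz,
    det_conjTranspose_mul_mul, det_conjTranspose_mul_mul, mul_div_mul_left _ _ h0]

/-- for ARBITRARY `u` (differentiability at a point does not depend on the parametrisation and
`grad10 = 0` at points of non-differentiability). -/
theorem invariant_gradSqF (hh : IsMetric 𝓜 h) (u : V → ℝ) : 𝓜.Invariant (gradSqF h u) := by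
  rw [CMfd.invariant_iff]
  intro Φ Ψ U W hΦ hΨ z hz
  simp only [R316.gradSqF]
  by_cases hd : DifferentiableAt ℝ (u ∘ Ψ) ((Function.invFunOn Ψ W ∘ Φ) z)
  · have h1 : grad10 (u ∘ Φ) z
        = (jac (Function.invFunOn Ψ W ∘ Φ) z)ᵀ *ᵥ grad10 (u ∘ Ψ) ((Function.invFunOn Ψ W ∘ Φ) z) := by
      rw [grad10_congr (CMfd.eventually_comp_eq u hΦ hΨ hz)]
      exact grad10_comp_hol' _ _ (CMfd.trans_differentiableAt hΦ hΨ hz) hd
    rw [h1, hh.toIsHForm.compat_trans hΦ hΨ hz,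
      qf_inv_transpose_conj (CMfd.det_jac_trans_ne_zero hΦ hΨ hz)]
  · have hd' : ¬ DifferentiableAt ℝ (u ∘ Φ) z := by
      intro hd'
      apply hd
      have hz' := CMfd.trans_mapsTo hΦ hΨ hz
      have e := CMfd.eventually_comp_eq u hΨ hΦ hz'
      have hτ : DifferentiableAt ℝ (Function.invFunOn Φ U ∘ Ψ) ((Function.invFunOn Ψ W ∘ Φ) z) :=
        (CMfd.trans_differentiableAt hΨ hΦ hz').restrictScalars ℝ
      have hl := CMfd.trans_leftInv hΦ hΨ hz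
      have hc : DifferentiableAt ℝ ((u ∘ Φ) ∘ (Function.invFunOn Φ U ∘ Ψ))
          ((Function.invFunOn Ψ W ∘ Φ) z) :=
        DifferentiableAt.comp _ (by rw [hl]; exact hd') hτ
      exact hc.congr_of_eventuallyEq e
    rw [grad10_of_not_differentiableAt hd, grad10_of_not_differentiableAt hd', qf_zero_vec,
      qf_zero_vec]

theorem tr_eq (hh : IsMetric 𝓜 h) (hA : IsHForm 𝓜 A) (hΦ : 𝓜.IsHol Φ U) (hz : z ∈ U) :
    tr 𝓜 h A (Φ z) = ((h Φ z)⁻¹ * A Φ z).trace.re := by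
  exact CMfd.scal_eq (invariant_trF hh hA) hΦ hz

theorem lap_eq (hh : IsMetric 𝓜 h) (hu : 𝓜.Smooth u) (hΦ : 𝓜.IsHol Φ U) (hz : z ∈ U) :
    lap 𝓜 h u (Φ z) = ((h Φ z)⁻¹ * levi (u ∘ Φ) z).trace.re := by
  exact tr_eq hh (isHForm_ddc hu) hΦ hz

theorem lap_eq_lapP (hh : IsMetric 𝓜 h) (hu : 𝓜.Smooth u) (hΦ : 𝓜.IsHol Φ U) (hz : z ∈ U) :
    lap 𝓜 h u (Φ z) = lapP (h Φ z) (u ∘ Φ) z := by
  exact lap_eq hh hu hΦ hz

theorem detRatio_eq (hh : IsHForm 𝓜 h) (hg : IsMetric 𝓜 g) (hΦ : 𝓜.IsHol Φ U) (hz : z ∈ U) :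
    detRatio 𝓜 h g (Φ z) = ((h Φ z).det / (g Φ z).det).re := by
  exact CMfd.scal_eq (invariant_detF hh hg) hΦ hz

theorem detRatio_eq' (hh : IsHForm 𝓜 h) (hg : IsMetric 𝓜 g) (hΦ : 𝓜.IsHol Φ U) (hz : z ∈ U) :
    detRatio 𝓜 h g (Φ z) = (h Φ z).det.re / (g Φ z).det.re := by
  rw [detRatio_eq hh hg hΦ hz, det_div_re (hh.herm hΦ z hz) (hg.herm hΦ z hz)]

theorem gradSq_eq (hh : IsMetric 𝓜 h) (u : V → ℝ) (hΦ : 𝓜.IsHol Φ U) (hz : z ∈ U) :
    gradSq 𝓜 h u (Φ z) = qf ((h Φ z)⁻¹)ᵀ (grad10 (u ∘ Φ) z) := by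
  exact CMfd.scal_eq (invariant_gradSqF hh u) hΦ hz

theorem gradSq_eq_dualIP (hh : IsMetric 𝓜 h) (u : V → ℝ) (hΦ : 𝓜.IsHol Φ U) (hz : z ∈ U) :
    gradSq 𝓜 h u (Φ z) = dualIP (h Φ z) (grad10 (u ∘ Φ) z) (grad10 (u ∘ Φ) z) := by
  rw [gradSq_eq hh u hΦ hz]
  exact qf_eq_dualIP _ _

theorem scalCurv_eq (hh : IsMetric 𝓜 h) (hΦ : 𝓜.IsHol Φ U) (hz : z ∈ U) :
    scalCurv 𝓜 h (Φ z) = ((h Φ z)⁻¹ * ricF h Φ z).trace.re := by
  exact tr_eq hh (isHForm_ricF hh) hΦ hz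

/-! ### smoothness -/

theorem smooth_tr (hh : IsMetric 𝓜 h) (hA : IsHForm 𝓜 A) : 𝓜.Smooth (tr 𝓜 h A) := by
  exact CMfd.smooth_scal (invariant_trF hh hA) fun Φ U hΦ =>
    contDiffOn_trace_inv_mul_re (fun j k => hh.smooth hΦ j k)
      (fun w hw => hh.det_ne_zero hΦ hw) (fun j k => hA.smooth hΦ j k)

theorem smooth_lap (hh : IsMetric 𝓜 h) (hu : 𝓜.Smooth u) : 𝓜.Smooth (lap 𝓜 h u) := by
  exact smooth_tr hh (isHForm_ddc hu)

theorem smooth_detRatio (hh : IsHForm 𝓜 h) (hg : IsMetric 𝓜 g) : 𝓜.Smooth (detRatio 𝓜 h g) := by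
  exact CMfd.smooth_scal (invariant_detF hh hg) fun Φ U hΦ =>
    contDiffOn_det_div_re (fun j k => hh.smooth hΦ j k) (fun j k => hg.smooth hΦ j k)
      (fun w hw => hg.det_ne_zero hΦ hw)

theorem smooth_log_detRatio (hh : IsMetric 𝓜 h) (hg : IsMetric 𝓜 g) :
    𝓜.Smooth (fun x => Real.log (detRatio 𝓜 h g x)) := by
  refine (smooth_detRatio hh.toIsHForm hg).log (fun x hx => ?_)
  have hp := CMfd.isHol_pΦ 𝓜 hx
  have hc := CMfd.co_mem 𝓜 hx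
  have h1 : detRatio 𝓜 h g x = _ := det_div_re (hh.herm hp _ hc) (hg.herm hp _ hc)
  rw [h1]
  exact (div_pos (det_re_pos_of_posDef (hh.posDef hp _ hc))
    (det_re_pos_of_posDef (hg.posDef hp _ hc))).ne'

theorem smooth_gradSq (hh : IsMetric 𝓜 h) (hu : 𝓜.Smooth u) : 𝓜.Smooth (gradSq 𝓜 h u) := by
  exact CMfd.smooth_scal (invariant_gradSqF hh u) fun Φ U hΦ =>
    contDiffOn_qf (fun j k => contDiffOn_matInv (fun j k => hh.smooth hΦ j k)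
      (fun w hw => hh.det_ne_zero hΦ hw) k j)
      (fun j => contDiffOn_grad10 (CMfd.isOpen_dom hΦ) (hu Φ U hΦ))

theorem smooth_scalCurv (hh : IsMetric 𝓜 h) : 𝓜.Smooth (scalCurv 𝓜 h) := by
  exact smooth_tr hh (isHForm_ricF hh)

/-! ### algebra of `tr` (pointwise, no hypotheses where possible) -/

theorem tr_add (𝓜 : CMfd V ι) (h A B : HFam V ι) (x : V) :
    tr 𝓜 h (fun Φ z => A Φ z + B Φ z) x = tr 𝓜 h A x + tr 𝓜 h B x := by
  simp only [R316.tr, CMfd.scal, R316.trF, Matrix.mul_add, Matrix.trace_add, Complex.add_re]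

theorem tr_sub (𝓜 : CMfd V ι) (h A B : HFam V ι) (x : V) :
    tr 𝓜 h (fun Φ z => A Φ z - B Φ z) x = tr 𝓜 h A x - tr 𝓜 h B x := by
  simp only [R316.tr, CMfd.scal, R316.trF, Matrix.mul_sub, Matrix.trace_sub, Complex.sub_re]

theorem tr_neg (𝓜 : CMfd V ι) (h A : HFam V ι) (x : V) :
    tr 𝓜 h (fun Φ z => - A Φ z) x = - tr 𝓜 h A x := by
  simp only [R316.tr, CMfd.scal, R316.trF, Matrix.mul_neg, Matrix.trace_neg, Complex.neg_re]

theorem tr_zero (𝓜 : CMfd V ι) (h : HFam V ι) (x : V) : tr 𝓜 h (fun _ _ => 0) x = 0 := by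
  simp only [R316.tr, CMfd.scal, R316.trF, Matrix.mul_zero, Matrix.trace_zero, Complex.zero_re]

theorem tr_smul_real (𝓜 : CMfd V ι) (h A : HFam V ι) (c : ℝ) (x : V) :
    tr 𝓜 h (fun Φ z => ((c : ℝ) : ℂ) • A Φ z) x = c * tr 𝓜 h A x := by
  simp only [R316.tr, CMfd.scal, R316.trF, Matrix.mul_smul, Matrix.trace_smul, smul_eq_mul,
    Complex.re_ofReal_mul]

theorem tr_smulF (h A : HFam V ι) (f : V → ℝ) {x : V} (hx : x ∈ 𝓜.carrier) :
    tr 𝓜 h (smulF f A) x = f x * tr 𝓜 h A x := by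
  simp only [R316.tr, CMfd.scal, R316.trF, R316.smulF, Matrix.mul_smul, Matrix.trace_smul,
    smul_eq_mul, Complex.re_ofReal_mul, CMfd.pΦ_co 𝓜 hx]

theorem tr_sum {α : Type} (𝓜 : CMfd V ι) (h : HFam V ι) (s : Finset α) (F : α → HFam V ι) (x : V) :
    tr 𝓜 h (fun Φ z => ∑ a ∈ s, F a Φ z) x = ∑ a ∈ s, tr 𝓜 h (F a) x := by
  simp only [R316.tr, CMfd.scal, R316.trF, Matrix.mul_sum, Matrix.trace_sum, Complex.re_sum]

/-- `tr_h h = n`. -/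
theorem tr_self (hh : IsMetric 𝓜 h) {x : V} (hx : x ∈ 𝓜.carrier) :
    tr 𝓜 h h x = Fintype.card ι := by
  exact trace_inv_mul_self (hh.posDef (CMfd.isHol_pΦ 𝓜 hx) _ (CMfd.co_mem 𝓜 hx))

theorem forms_inv_smul (c : ℂ) (H : Matrix ι ι ℂ) : (c • H)⁻¹ = c⁻¹ • H⁻¹ := by
  by_cases hc : c = 0
  · simp [hc]
  by_cases hH : IsUnit H.det
  · let _ := invertibleOfNonzero hc
    rw [Matrix.inv_smul H c hH, invOf_eq_inv]
  · have h2 : ¬ IsUnit (c • H).det := by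
      rw [Matrix.det_smul]
      intro h
      exact hH (isUnit_of_mul_isUnit_right h)
    rw [Matrix.nonsing_inv_apply_not_isUnit _ hH, Matrix.nonsing_inv_apply_not_isUnit _ h2,
      smul_zero]

/-- `detRatio` in the chosen parametrisation. -/
theorem detRatio_chosen (hh : IsHForm 𝓜 h) (hg : IsHForm 𝓜 g) {x : V} (hx : x ∈ 𝓜.carrier) :
    detRatio 𝓜 h g x = (h (𝓜.pΦ x) (𝓜.co x)).det.re / (g (𝓜.pΦ x) (𝓜.co x)).det.re :=
  det_div_re (hh.herm (CMfd.isHol_pΦ 𝓜 hx) _ (CMfd.co_mem 𝓜 hx))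
    (hg.herm (CMfd.isHol_pΦ 𝓜 hx) _ (CMfd.co_mem 𝓜 hx))

theorem IsMetric.det_re_pos_chosen (hh : IsMetric 𝓜 h) {x : V} (hx : x ∈ 𝓜.carrier) :
    0 < (h (𝓜.pΦ x) (𝓜.co x)).det.re :=
  det_re_pos_of_posDef (hh.posDef (CMfd.isHol_pΦ 𝓜 hx) _ (CMfd.co_mem 𝓜 hx))

/-- `tr_{c h} A = c⁻¹ tr_h A`. -/
theorem tr_smulF_left (h A : HFam V ι) (f : V → ℝ) {x : V} (hx : x ∈ 𝓜.carrier) :
    tr 𝓜 (smulF f h) A x = (f x)⁻¹ * tr 𝓜 h A x := by
  simp only [R316.tr, CMfd.scal, R316.trF, R316.smulF, forms_inv_smul, Matrix.smul_mul,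
    Matrix.trace_smul, smul_eq_mul, CMfd.pΦ_co 𝓜 hx]
  rw [← Complex.ofReal_inv, Complex.re_ofReal_mul]

theorem tr_congr (he : ∀ (Φ : CE ι → V) (U : Set (CE ι)), 𝓜.IsHol Φ U → ∀ z ∈ U, A Φ z = B Φ z)
    {x : V} (hx : x ∈ 𝓜.carrier) : tr 𝓜 h A x = tr 𝓜 h B x := by
  simp only [R316.tr, CMfd.scal, R316.trF]
  rw [he _ _ (CMfd.isHol_pΦ 𝓜 hx) _ (CMfd.co_mem 𝓜 hx)]

theorem tr_congr_left (he : ∀ (Φ : CE ι → V) (U : Set (CE ι)), 𝓜.IsHol Φ U → ∀ z ∈ U, h Φ z = g Φ z)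
    {x : V} (hx : x ∈ 𝓜.carrier) : tr 𝓜 h A x = tr 𝓜 g A x := by
  simp only [R316.tr, CMfd.scal, R316.trF]
  rw [he _ _ (CMfd.isHol_pΦ 𝓜 hx) _ (CMfd.co_mem 𝓜 hx)]

/-! ### `detRatio` -/

theorem detRatio_pos (hh : IsMetric 𝓜 h) (hg : IsMetric 𝓜 g) {x : V} (hx : x ∈ 𝓜.carrier) :
    0 < detRatio 𝓜 h g x := by
  rw [detRatio_chosen hh.toIsHForm hg.toIsHForm hx]
  exact div_pos (hh.det_re_pos_chosen hx) (hg.det_re_pos_chosen hx)

theorem detRatio_self (hh : IsMetric 𝓜 h) {x : V} (hx : x ∈ 𝓜.carrier) :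
    detRatio 𝓜 h h x = 1 := by
  rw [detRatio_chosen hh.toIsHForm hh.toIsHForm hx]
  exact div_self (hh.det_re_pos_chosen hx).ne'

theorem detRatio_mul (hh : IsMetric 𝓜 h) (hg : IsMetric 𝓜 g) {k : HFam V ι} (hk : IsMetric 𝓜 k)
    {x : V} (hx : x ∈ 𝓜.carrier) : detRatio 𝓜 h g x * detRatio 𝓜 g k x = detRatio 𝓜 h k x := by
  rw [detRatio_chosen hh.toIsHForm hg.toIsHForm hx, detRatio_chosen hg.toIsHForm hk.toIsHForm hx,
    detRatio_chosen hh.toIsHForm hk.toIsHForm hx]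
  exact div_mul_div_cancel₀ (hg.det_re_pos_chosen hx).ne'

theorem detRatio_inv (hh : IsMetric 𝓜 h) (hg : IsMetric 𝓜 g) {x : V} (hx : x ∈ 𝓜.carrier) :
    (detRatio 𝓜 h g x)⁻¹ = detRatio 𝓜 g h x := by
  rw [detRatio_chosen hh.toIsHForm hg.toIsHForm hx, detRatio_chosen hg.toIsHForm hh.toIsHForm hx,
    inv_div]

/-- `det (f h) / det g = f^n det h / det g`. -/
theorem detRatio_smulF (h g : HFam V ι) (hh : IsMetric 𝓜 h) (hg : IsMetric 𝓜 g) (f : V → ℝ) {x : V}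
    (hx : x ∈ 𝓜.carrier) :
    detRatio 𝓜 (smulF f h) g x = f x ^ Fintype.card ι * detRatio 𝓜 h g x := by
  have hs : (R316.smulF f h (𝓜.pΦ x) (𝓜.co x)).IsHermitian :=
    isHermitian_smul_real _ (hh.herm (CMfd.isHol_pΦ 𝓜 hx) _ (CMfd.co_mem 𝓜 hx))
  have h1 : detRatio 𝓜 (R316.smulF f h) g x
      = (R316.smulF f h (𝓜.pΦ x) (𝓜.co x)).det.re / (g (𝓜.pΦ x) (𝓜.co x)).det.re :=
    det_div_re hs (hg.herm (CMfd.isHol_pΦ 𝓜 hx) _ (CMfd.co_mem 𝓜 hx))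
  rw [h1, detRatio_chosen hh.toIsHForm hg.toIsHForm hx]
  simp only [R316.smulF]
  rw [det_re_smul_real, CMfd.pΦ_co 𝓜 hx, mul_div_assoc]

/-- `Ric h - Ric g = - dd log (det h / det g)`. -/
theorem ricF_sub_ricF (hh : IsMetric 𝓜 h) (hg : IsMetric 𝓜 g) (hΦ : 𝓜.IsHol Φ U) (hz : z ∈ U) :
    ricF h Φ z - ricF g Φ z = - ddc (fun x => Real.log (detRatio 𝓜 h g x)) Φ z := by
  have h1 : ((fun x => Real.log (detRatio 𝓜 h g x)) ∘ Φ)
      =ᶠ[𝓝 z] fun w => Real.log ((h Φ w).det / (g Φ w).det).re :=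
    Filter.eventually_of_mem ((CMfd.isOpen_dom hΦ).mem_nhds hz) fun w hw => by
      show Real.log (detRatio 𝓜 h g (Φ w)) = _
      rw [detRatio_eq hh.toIsHForm hg hΦ hw]
  simp only [R316.ricF, R316.ddc]
  rw [levi_congr h1, levi_log_det_div (fun a b => hh.toIsHForm.contDiffAt_two hΦ hz a b)
    (fun a b => hg.toIsHForm.contDiffAt_two hΦ hz a b) (hh.eventually_posDef hΦ hz)
    (hg.eventually_posDef hΦ hz)]
  abel

/-- `gradSq` is nonnegative. -/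
theorem gradSq_nonneg (hh : IsMetric 𝓜 h) (u : V → ℝ) {x : V} (hx : x ∈ 𝓜.carrier) :
    0 ≤ gradSq 𝓜 h u x := by
  exact qf_nonneg (posDef_inv_transpose
    (hh.posDef (CMfd.isHol_pΦ 𝓜 hx) _ (CMfd.co_mem 𝓜 hx))).posSemidef _

theorem scalCurv_eq_tr (𝓜 : CMfd V ι) (h : HFam V ι) : scalCurv 𝓜 h = tr 𝓜 h (ricF h) := rfl

theorem lap_eq_tr (𝓜 : CMfd V ι) (h : HFam V ι) (u : V → ℝ) : lap 𝓜 h u = tr 𝓜 h (ddc u) := rfl

end invariance

/-! ## 4. The order of forms -/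

section order

theorem leF_refl (𝓜 : CMfd V ι) (A : HFam V ι) : leF 𝓜 A A := by
  exact fun Φ U _ z _ => loewner_refl _

theorem leF.trans (h1 : leF 𝓜 A B) (h2 : leF 𝓜 B C) : leF 𝓜 A C := by
  exact fun Φ U hΦ z hz => loewner_trans (h1 Φ U hΦ z hz) (h2 Φ U hΦ z hz)

theorem leF.antisymm (h1 : leF 𝓜 A B) (h2 : leF 𝓜 B A) (hΦ : 𝓜.IsHol Φ U) (hz : z ∈ U) :
    A Φ z = B Φ z := by
  exact loewner_antisymm (h1 Φ U hΦ z hz) (h2 Φ U hΦ z hz)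

theorem leF.add {A' B' : HFam V ι} (h1 : leF 𝓜 A B) (h2 : leF 𝓜 A' B') :
    leF 𝓜 (fun Φ z => A Φ z + A' Φ z) (fun Φ z => B Φ z + B' Φ z) := by
  exact fun Φ U hΦ z hz => loewner_add (h1 Φ U hΦ z hz) (h2 Φ U hΦ z hz)

theorem leF.add_right (h1 : leF 𝓜 A B) (C : HFam V ι) :
    leF 𝓜 (fun Φ z => A Φ z + C Φ z) (fun Φ z => B Φ z + C Φ z) := by
  exact fun Φ U hΦ z hz => loewner_add (h1 Φ U hΦ z hz) (loewner_refl _)

theorem leF.sub_right (h1 : leF 𝓜 A B) (C : HFam V ι) :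
    leF 𝓜 (fun Φ z => A Φ z - C Φ z) (fun Φ z => B Φ z - C Φ z) := by
  intro Φ U hΦ z hz
  have := h1 Φ U hΦ z hz
  rwa [sub_sub_sub_cancel_right]

theorem leF.neg (h1 : leF 𝓜 A B) : leF 𝓜 (fun Φ z => - B Φ z) (fun Φ z => - A Φ z) := by
  exact fun Φ U hΦ z hz => loewner_neg (h1 Φ U hΦ z hz)

theorem leF.smul_real {c : ℝ} (hc : 0 ≤ c) (h1 : leF 𝓜 A B) :
    leF 𝓜 (fun Φ z => ((c : ℝ) : ℂ) • A Φ z) (fun Φ z => ((c : ℝ) : ℂ) • B Φ z) := by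
  exact fun Φ U hΦ z hz => loewner_smul hc (h1 Φ U hΦ z hz)

theorem leF.smulF (hf : ∀ x ∈ 𝓜.carrier, 0 ≤ f x) (h1 : leF 𝓜 A B) :
    leF 𝓜 (smulF f A) (smulF f B) := by
  exact fun Φ U hΦ z hz => loewner_smul (hf _ (CMfd.mem_carrier hΦ hz)) (h1 Φ U hΦ z hz)

/-- monotonicity in the scalar factor, for a nonnegative form. -/
theorem leF_smulF_of_le (hfg : ∀ x ∈ 𝓜.carrier, u x ≤ v x) (h0 : leF 𝓜 (fun _ _ => 0) A) :
    leF 𝓜 (smulF u A) (smulF v A) := by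
  intro Φ U hΦ z hz
  have := h0 Φ U hΦ z hz
  rw [sub_zero] at this
  exact loewner_smul_le (hfg _ (CMfd.mem_carrier hΦ hz)) this

theorem leF_zero_iff : leF 𝓜 (fun _ _ => 0) A ↔
    ∀ (Φ : CE ι → V) (U : Set (CE ι)), 𝓜.IsHol Φ U → ∀ z ∈ U, (A Φ z).PosSemidef := by
  simp only [R316.leF, sub_zero]

theorem IsMetric.zero_leF (hh : IsMetric 𝓜 h) : leF 𝓜 (fun _ _ => 0) h := by
  exact leF_zero_iff.2 fun Φ U hΦ z hz => (hh.posDef hΦ z hz).posSemidef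

/-- the order in terms of quadratic values. -/
theorem leF_iff_qf (hA : IsHForm 𝓜 A) (hB : IsHForm 𝓜 B) : leF 𝓜 A B ↔
    ∀ (Φ : CE ι → V) (U : Set (CE ι)), 𝓜.IsHol Φ U → ∀ z ∈ U, ∀ w : ι → ℂ,
      qf (A Φ z) w ≤ qf (B Φ z) w := by
  constructor
  · intro h Φ U hΦ z hz
    exact (posSemidef_sub_iff_qf (hA.herm hΦ z hz) (hB.herm hΦ z hz)).1 (h Φ U hΦ z hz)
  · intro h Φ U hΦ z hz
    exact (posSemidef_sub_iff_qf (hA.herm hΦ z hz) (hB.herm hΦ z hz)).2 (h Φ U hΦ z hz)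

/-- the order may be checked in the parametrisations of a cover. -/
theorem leF_of_cover (hA : IsHForm 𝓜 A) (hB : IsHForm 𝓜 B)
    (h : ∀ x ∈ 𝓜.carrier, ∃ (Ψ : CE ι → V) (W : Set (CE ι)) (w : CE ι), 𝓜.IsHol Ψ W ∧ w ∈ W ∧
      Ψ w = x ∧ (B Ψ w - A Ψ w).PosSemidef) : leF 𝓜 A B := by
  intro Φ U hΦ z hz
  obtain ⟨Ψ, W, w, hΨ, hw, hwx, hAB⟩ := h (Φ z) (CMfd.mem_carrier hΦ hz)
  have hz' : z ∈ U ∩ Φ ⁻¹' (Ψ '' W) := ⟨hz, ⟨w, hw, hwx⟩⟩
  have hτ : (Function.invFunOn Ψ W ∘ Φ) z = w := CMfd.trans_eq hΦ hΨ hw hwx.symm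
  rw [hA.compat_trans hΦ hΨ hz', hB.compat_trans hΦ hΨ hz', hτ]
  exact loewner_conj hAB _

theorem leFOn_univ : leFOn 𝓜 Set.univ A B ↔ leF 𝓜 A B := by
  exact ⟨fun h Φ U hΦ z hz => h Φ U hΦ z hz (Set.mem_univ _), fun h Φ U hΦ z hz _ => h Φ U hΦ z hz⟩

theorem leF.leFOn (h1 : leF 𝓜 A B) (S : Set V) : leFOn 𝓜 S A B := by
  exact fun Φ U hΦ z hz _ => h1 Φ U hΦ z hz

theorem leFOn.mono {S T : Set V} (h1 : leFOn 𝓜 T A B) (hST : S ⊆ T) : leFOn 𝓜 S A B := by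
  exact fun Φ U hΦ z hz hS => h1 Φ U hΦ z hz (hST hS)

/-- `A ≤ B ⟹ tr_h A ≤ tr_h B`. -/
theorem leF.tr_le (hh : IsMetric 𝓜 h) (h1 : leF 𝓜 A B) {x : V} (hx : x ∈ 𝓜.carrier) :
    tr 𝓜 h A x ≤ tr 𝓜 h B x := by
  exact trace_inv_mul_mono (hh.posDef (CMfd.isHol_pΦ 𝓜 hx) _ (CMfd.co_mem 𝓜 hx))
    (h1 _ _ (CMfd.isHol_pΦ 𝓜 hx) _ (CMfd.co_mem 𝓜 hx))

theorem leFOn.tr_le {S : Set V} (hh : IsMetric 𝓜 h) (h1 : leFOn 𝓜 S A B) {x : V}
    (hx : x ∈ 𝓜.carrier) (hxS : x ∈ S) : tr 𝓜 h A x ≤ tr 𝓜 h B x := by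
  exact trace_inv_mul_mono (hh.posDef (CMfd.isHol_pΦ 𝓜 hx) _ (CMfd.co_mem 𝓜 hx))
    (h1 _ _ (CMfd.isHol_pΦ 𝓜 hx) _ (CMfd.co_mem 𝓜 hx) (by rw [CMfd.pΦ_co 𝓜 hx]; exact hxS))

theorem tr_nonneg (hh : IsMetric 𝓜 h) (h0 : leF 𝓜 (fun _ _ => 0) A) {x : V}
    (hx : x ∈ 𝓜.carrier) : 0 ≤ tr 𝓜 h A x := by
  exact trace_inv_mul_nonneg (hh.posDef (CMfd.isHol_pΦ 𝓜 hx) _ (CMfd.co_mem 𝓜 hx))
    (leF_zero_iff.1 h0 _ _ (CMfd.isHol_pΦ 𝓜 hx) _ (CMfd.co_mem 𝓜 hx))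

/-- `tr_h g > 0` for two metrics. -/
theorem tr_pos [Nonempty ι] (hh : IsMetric 𝓜 h) (hg : IsMetric 𝓜 g) {x : V}
    (hx : x ∈ 𝓜.carrier) : 0 < tr 𝓜 h g x := by
  have hH := hh.posDef (CMfd.isHol_pΦ 𝓜 hx) _ (CMfd.co_mem 𝓜 hx)
  have hG := hg.posDef (CMfd.isHol_pΦ 𝓜 hx) _ (CMfd.co_mem 𝓜 hx)
  refine trace_mul_pos hH.inv hG.posSemidef ?_
  intro h0
  have := det_ne_zero_of_posDef hG
  rw [h0, Matrix.det_zero] at this
  exact this rfl

/-- `h ≤ g ⟹ tr_g A ≤ tr_h A` for `A ≥ 0`. -/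
theorem tr_anti_left (hh : IsMetric 𝓜 h) (hg : IsMetric 𝓜 g) (hle : leF 𝓜 h g)
    (h0 : leF 𝓜 (fun _ _ => 0) A) {x : V} (hx : x ∈ 𝓜.carrier) : tr 𝓜 g A x ≤ tr 𝓜 h A x := by
  exact trace_inv_mul_anti (hh.posDef (CMfd.isHol_pΦ 𝓜 hx) _ (CMfd.co_mem 𝓜 hx))
    (hle _ _ (CMfd.isHol_pΦ 𝓜 hx) _ (CMfd.co_mem 𝓜 hx))
    (leF_zero_iff.1 h0 _ _ (CMfd.isHol_pΦ 𝓜 hx) _ (CMfd.co_mem 𝓜 hx))

/-- `dd u ≥ 0 ⟹ Δ_h u ≥ 0`. -/
theorem lap_nonneg (hh : IsMetric 𝓜 h) (h0 : leF 𝓜 (fun _ _ => 0) (ddc u)) {x : V}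
    (hx : x ∈ 𝓜.carrier) : 0 ≤ lap 𝓜 h u x := by
  exact tr_nonneg hh h0 hx

/-- `-c h ≤ A ≤ c h ⟹ |tr_h A| ≤ n c`. -/
theorem abs_tr_le (hh : IsMetric 𝓜 h) {c : ℝ} (h1 : leF 𝓜 A (smulF (fun _ => c) h))
    (h2 : leF 𝓜 (smulF (fun _ => -c) h) A) {x : V} (hx : x ∈ 𝓜.carrier) :
    |tr 𝓜 h A x| ≤ Fintype.card ι * c := by
  have a1 := h1 _ _ (CMfd.isHol_pΦ 𝓜 hx) _ (CMfd.co_mem 𝓜 hx)
  have a2 := h2 _ _ (CMfd.isHol_pΦ 𝓜 hx) _ (CMfd.co_mem 𝓜 hx)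
  simp only [R316.smulF, Complex.ofReal_neg, neg_smul, sub_neg_eq_add] at a1 a2
  exact abs_trace_inv_mul_le (hh.posDef (CMfd.isHol_pΦ 𝓜 hx) _ (CMfd.co_mem 𝓜 hx)) a1 a2

/-- `h ≤ g ⟹ det h ≤ det g`. -/
theorem detRatio_le_one (hh : IsMetric 𝓜 h) (hg : IsMetric 𝓜 g) (hle : leF 𝓜 h g) {x : V}
    (hx : x ∈ 𝓜.carrier) : detRatio 𝓜 h g x ≤ 1 := by
  rw [detRatio_chosen hh.toIsHForm hg.toIsHForm hx, div_le_one (hg.det_re_pos_chosen hx)]
  exact loewner_det_mono (hh.posDef (CMfd.isHol_pΦ 𝓜 hx) _ (CMfd.co_mem 𝓜 hx)).posSemidef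
    (hle _ _ (CMfd.isHol_pΦ 𝓜 hx) _ (CMfd.co_mem 𝓜 hx))

/-- arithmetic-geometric mean: `n (det h / det g)^{1/n} ≤ tr_g h`. -/
theorem card_mul_detRatio_rpow_le_tr (hh : IsMetric 𝓜 h) (hg : IsMetric 𝓜 g) {x : V}
    (hx : x ∈ 𝓜.carrier) :
    Fintype.card ι * detRatio 𝓜 h g x ^ ((Fintype.card ι : ℝ)⁻¹) ≤ tr 𝓜 g h x := by
  rw [detRatio_chosen hh.toIsHForm hg.toIsHForm hx]
  exact amgm_det (hg.posDef (CMfd.isHol_pΦ 𝓜 hx) _ (CMfd.co_mem 𝓜 hx))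
    (hh.posDef (CMfd.isHol_pΦ 𝓜 hx) _ (CMfd.co_mem 𝓜 hx)).posSemidef

/-- `log (det h / det g) ≤ tr_g h - n`. -/
theorem log_detRatio_le (hh : IsMetric 𝓜 h) (hg : IsMetric 𝓜 g) {x : V} (hx : x ∈ 𝓜.carrier) :
    Real.log (detRatio 𝓜 h g x) ≤ tr 𝓜 g h x - Fintype.card ι := by
  rw [detRatio_chosen hh.toIsHForm hg.toIsHForm hx]
  exact log_det_ratio_le (hg.posDef (CMfd.isHol_pΦ 𝓜 hx) _ (CMfd.co_mem 𝓜 hx))
    (hh.posDef (CMfd.isHol_pΦ 𝓜 hx) _ (CMfd.co_mem 𝓜 hx))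

/-- `h ≤ g ⟹ |∂u|²_g ≤ |∂u|²_h`. -/
theorem gradSq_anti (hh : IsMetric 𝓜 h) (hg : IsMetric 𝓜 g) (hle : leF 𝓜 h g) (u : V → ℝ) {x : V}
    (hx : x ∈ 𝓜.carrier) : gradSq 𝓜 g u x ≤ gradSq 𝓜 h u x := by
  exact qf_inv_transpose_anti (hh.posDef (CMfd.isHol_pΦ 𝓜 hx) _ (CMfd.co_mem 𝓜 hx))
    (hle _ _ (CMfd.isHol_pΦ 𝓜 hx) _ (CMfd.co_mem 𝓜 hx)) _

/-- `|∂u|²_{f h} = f⁻¹ |∂u|²_h`. -/
theorem gradSq_smulF (h : HFam V ι) (f u : V → ℝ) {x : V} (hx : x ∈ 𝓜.carrier) :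
    gradSq 𝓜 (smulF f h) u x = (f x)⁻¹ * gradSq 𝓜 h u x := by
  simp only [R316.gradSq, CMfd.scal, R316.gradSqF, R316.smulF, forms_inv_smul,
    Matrix.transpose_smul, CMfd.pΦ_co 𝓜 hx]
  rw [← Complex.ofReal_inv, qf_smul]

end order

/-! ## 5. Canonical sections -/

section canonical

variable {S T : (CE ι → V) → CE ι → ℂ}

theorem invariant_canNormSqF (hg : IsMetric 𝓜 g) (hS : IsCanSection 𝓜 S) :
    𝓜.Invariant (fun Φ z => ‖S Φ z‖ ^ 2 / (g Φ z).det.re) := by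
  rw [CMfd.invariant_iff]
  intro Φ Ψ U W hΦ hΨ z hz
  have h0 : ‖(jac (Function.invFunOn Ψ W ∘ Φ) z).det‖ ^ 2 ≠ 0 :=
    pow_ne_zero 2 (norm_ne_zero_iff.2 (CMfd.det_jac_trans_ne_zero hΦ hΨ hz))
  show ‖S Φ z‖ ^ 2 / (g Φ z).det.re = _
  rw [hS.compat hΦ hΨ z hz.1 hz.2, hg.toIsHForm.compat_trans hΦ hΨ hz,
    det_re_conjTranspose_mul_mul, norm_mul, mul_pow, mul_div_mul_left _ _ h0]
  rfl

theorem canNormSq_eq (hg : IsMetric 𝓜 g) (hS : IsCanSection 𝓜 S) (hΦ : 𝓜.IsHol Φ U) (hz : z ∈ U) :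
    canNormSq 𝓜 g S (Φ z) = ‖S Φ z‖ ^ 2 / (g Φ z).det.re := by
  exact CMfd.scal_eq (invariant_canNormSqF hg hS) hΦ hz

theorem smooth_canNormSq (hg : IsMetric 𝓜 g) (hS : IsCanSection 𝓜 S) :
    𝓜.Smooth (canNormSq 𝓜 g S) := by
  exact CMfd.smooth_scal (invariant_canNormSqF hg hS) fun Φ U hΦ =>
    ((hol_contDiffOn_real (CMfd.isOpen_dom hΦ) (hS.hol hΦ)).norm_sq ℝ).div
      (contDiffOn_det_re (fun j k => hg.smooth hΦ j k))
      (fun w hw => det_re_ne_zero_of_posDef (hg.posDef hΦ w hw))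

theorem canNormSq_nonneg (hg : IsMetric 𝓜 g) (S : (CE ι → V) → CE ι → ℂ) {x : V}
    (hx : x ∈ 𝓜.carrier) : 0 ≤ canNormSq 𝓜 g S x := by
  exact div_nonneg (sq_nonneg _) (hg.det_re_pos_chosen hx).le

/-- the zero set does not depend on the parametrisation. -/
theorem canNormSq_eq_zero_iff (hg : IsMetric 𝓜 g) (hS : IsCanSection 𝓜 S) (hΦ : 𝓜.IsHol Φ U)
    (hz : z ∈ U) : canNormSq 𝓜 g S (Φ z) = 0 ↔ S Φ z = 0 := by
  rw [canNormSq_eq hg hS hΦ hz, div_eq_zero_iff]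
  constructor
  · rintro (h | h)
    · exact norm_eq_zero.1 (pow_eq_zero_iff (two_ne_zero)|>.1 h)
    · exact absurd h (det_re_ne_zero_of_posDef (hg.posDef hΦ z hz))
  · intro h
    left
    rw [h, norm_zero]
    norm_num

/-- `dd log |S|²_g = Ric g` off the zeros of `S`. -/
theorem ddc_log_canNormSq (hg : IsMetric 𝓜 g) (hS : IsCanSection 𝓜 S) (hΦ : 𝓜.IsHol Φ U)
    (hz : z ∈ U) (h0 : S Φ z ≠ 0) :
    ddc (fun x => Real.log (canNormSq 𝓜 g S x)) Φ z = ricF g Φ z := by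
  have hU := (CMfd.isOpen_dom hΦ).mem_nhds hz
  have hhol : ∀ᶠ w in 𝓝 z, DifferentiableAt ℂ (S Φ) w :=
    hol_eventually_of_differentiableOn (CMfd.isOpen_dom hΦ) (hS.hol hΦ) hz
  have hcont : ContinuousAt (S Φ) z := hhol.self_of_nhds.continuousAt
  have hne : ∀ᶠ w in 𝓝 z, S Φ w ≠ 0 := hcont.eventually_ne h0
  have h1 : ((fun x => Real.log (canNormSq 𝓜 g S x)) ∘ Φ)
      =ᶠ[𝓝 z] fun w => Real.log (‖S Φ w‖ ^ 2) - Real.log (g Φ w).det.re := by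
    filter_upwards [hU, hne] with w hw hw0
    show Real.log (canNormSq 𝓜 g S (Φ w)) = _
    rw [canNormSq_eq hg hS hΦ hw, Real.log_div (pow_ne_zero 2 (norm_ne_zero_iff.2 hw0))
      (det_re_ne_zero_of_posDef (hg.posDef hΦ w hw))]
  have c1 : ContDiffAt ℝ 2 (fun w => Real.log (‖S Φ w‖ ^ 2)) z :=
    (lv_contDiffAt_normSq (S Φ) hhol).log (pow_ne_zero 2 (norm_ne_zero_iff.2 h0))
  have c2 : ContDiffAt ℝ 2 (fun w => Real.log (g Φ w).det.re) z :=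
    contDiffAt_logDet_of_posDef (fun j k => hg.toIsHForm.contDiffAt_two hΦ hz j k)
      (hg.posDef hΦ z hz)
  simp only [R316.ddc, R316.ricF]
  rw [levi_congr h1, levi_sub c1 c2, levi_log_normSq_hol (S Φ) hhol h0, zero_sub]

/-- `|S|²_h = |S|²_g det g / det h`. -/
theorem canNormSq_change (hg : IsMetric 𝓜 g) (hh : IsMetric 𝓜 h) (S : (CE ι → V) → CE ι → ℂ) {x : V}
    (hx : x ∈ 𝓜.carrier) : canNormSq 𝓜 h S x = canNormSq 𝓜 g S x * detRatio 𝓜 g h x := by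
  have a := (hg.det_re_pos_chosen hx).ne'
  have b := (hh.det_re_pos_chosen hx).ne'
  rw [detRatio_chosen hg.toIsHForm hh.toIsHForm hx]
  simp only [R316.canNormSq, CMfd.scal]
  field_simp

theorem IsCanSection.add (hS : IsCanSection 𝓜 S) (hT : IsCanSection 𝓜 T) :
    IsCanSection 𝓜 (fun Φ z => S Φ z + T Φ z) := by
  refine ⟨fun hΦ => (hS.hol hΦ).add (hT.hol hΦ), fun hΦ hΨ z hz hz' => ?_⟩
  rw [hS.compat hΦ hΨ z hz hz', hT.compat hΦ hΨ z hz hz', mul_add]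

theorem IsCanSection.const_smul (c : ℂ) (hS : IsCanSection 𝓜 S) :
    IsCanSection 𝓜 (fun Φ z => c * S Φ z) := by
  refine ⟨fun hΦ => (hS.hol hΦ).const_mul c, fun hΦ hΨ z hz hz' => ?_⟩
  rw [hS.compat hΦ hΨ z hz hz']
  ring

/-- holomorphic function times canonical section. -/
theorem IsCanSection.holFun_mul {F : V → ℂ} (hF : 𝓜.HolFun F) (hS : IsCanSection 𝓜 S) :
    IsCanSection 𝓜 (fun Φ z => F (Φ z) * S Φ z) := by
  refine ⟨fun {Φ U} hΦ => (hF Φ U hΦ).mul (hS.hol hΦ), fun {Φ Ψ U W} hΦ hΨ z hz hz' => ?_⟩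
  have e : Ψ (Function.invFunOn Ψ W (Φ z)) = Φ z := Function.invFunOn_eq hz'
  rw [hS.compat hΦ hΨ z hz hz', e]
  ring

/-- `dd log ∑ |S_a|²_g ≥ Ric g` where the sum does not vanish. -/
theorem ricF_le_ddc_log_sum_canNormSq {α : Type} (s : Finset α) {S : α → (CE ι → V) → CE ι → ℂ}
    (hg : IsMetric 𝓜 g) (hS : ∀ a ∈ s, IsCanSection 𝓜 (S a)) (hΦ : 𝓜.IsHol Φ U) (hz : z ∈ U)
    (h0 : ∃ a ∈ s, S a Φ z ≠ 0) :
    (ddc (fun x => Real.log (∑ a ∈ s, canNormSq 𝓜 g (S a) x)) Φ z - ricF g Φ z).PosSemidef := by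
  have hU := (CMfd.isOpen_dom hΦ).mem_nhds hz
  have hhol : ∀ a ∈ s, ∀ᶠ w in 𝓝 z, DifferentiableAt ℂ (S a Φ) w := fun a ha =>
    hol_eventually_of_differentiableOn (CMfd.isOpen_dom hΦ) ((hS a ha).hol hΦ) hz
  have hpos : 0 < ∑ a ∈ s, ‖S a Φ z‖ ^ 2 := by
    obtain ⟨a, ha, ha0⟩ := h0
    exact Finset.sum_pos' (fun b _ => sq_nonneg _) ⟨a, ha, by positivity⟩
  have cS : ContDiffAt ℝ 2 (fun w => ∑ a ∈ s, ‖S a Φ w‖ ^ 2) z :=
    ContDiffAt.sum fun a ha => lv_contDiffAt_normSq (S a Φ) (hhol a ha)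
  have hne : ∀ᶠ w in 𝓝 z, (∑ a ∈ s, ‖S a Φ w‖ ^ 2) ≠ 0 :=
    cS.continuousAt.eventually_ne hpos.ne'
  have h1 : ((fun x => Real.log (∑ a ∈ s, canNormSq 𝓜 g (S a) x)) ∘ Φ)
      =ᶠ[𝓝 z] fun w => Real.log (∑ a ∈ s, ‖S a Φ w‖ ^ 2) - Real.log (g Φ w).det.re := by
    filter_upwards [hU, hne] with w hw hw0
    show Real.log (∑ a ∈ s, canNormSq 𝓜 g (S a) (Φ w)) = _
    rw [Finset.sum_congr rfl (fun a ha => canNormSq_eq hg (hS a ha) hΦ hw), ← Finset.sum_div,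
      Real.log_div hw0 (det_re_ne_zero_of_posDef (hg.posDef hΦ w hw))]
  have c1 : ContDiffAt ℝ 2 (fun w => Real.log (∑ a ∈ s, ‖S a Φ w‖ ^ 2)) z := cS.log hpos.ne'
  have c2 : ContDiffAt ℝ 2 (fun w => Real.log (g Φ w).det.re) z :=
    contDiffAt_logDet_of_posDef (fun j k => hg.toIsHForm.contDiffAt_two hΦ hz j k)
      (hg.posDef hΦ z hz)
  simp only [R316.ddc, R316.ricF]
  rw [levi_congr h1, levi_sub c1 c2, sub_neg_eq_add, sub_add_cancel]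
  exact levi_log_sum_normSq_hol_posSemidef s (fun a => S a Φ) hhol hpos

end canonical

end Claimed.Agent.R316
end

/- ===== packed: Claimed.Agent.R316.CM.Curv ===== -/
section
/-!
# Row 316, CM-2 (part 2): the curvature tensor `Rm`, `bisec`

Owner: helper141.

`Rm h Φ z j k l m = R_{j \bar k l \bar m}` (`Core/Basic.lean`).  MATRIX FORM: for a matrix function `H` on `ℂ^ι`
`RmM H z l m = - ∂̄_m ∂_l H + ∂̄_m H · H⁻¹ · ∂_l H` and `Rm h Φ z j k l m = RmM (h Φ) z l m k j`.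

Route for `RmM_comp_hol` (`K = Jᴴ (H∘τ) J`, `J = jac τ` holomorphic, so `∂̄_m J = 0`, `∂_l Jᴴ = 0`):
`∂_l K = Jᴴ ∂_l(H∘τ) J + Jᴴ (H∘τ) ∂_l J`,  `∂̄_m K = (∂_m J)ᴴ (H∘τ) J + Jᴴ ∂̄_m(H∘τ) J`,
`∂̄_m ∂_l K = (∂_m J)ᴴ ∂_l(H∘τ) J + Jᴴ ∂̄_m∂_l(H∘τ) J + (∂_m J)ᴴ (H∘τ) ∂_l J + Jᴴ ∂̄_m(H∘τ) ∂_l J`,
`K⁻¹ = J⁻¹ (H∘τ)⁻¹ J⁻ᴴ`; all terms containing derivatives of `J` cancel;
`∂_l (H∘τ) = ∑_c (∂_c H)∘τ J_{cl}` (`dz_comp_hol`), etc.
-/

set_option autoImplicit false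
set_option linter.unusedSectionVars false
open scoped ContDiff ComplexOrder ComplexConjugate Topology Matrix

namespace Claimed.Agent.R316

variable {ι : Type} [Fintype ι] [DecidableEq ι]

/-! ## 1. Chart level -/

section chart

/-- matrix form of the curvature of the Hermitian matrix function `H`:
`(RmM H z l m) k j = R_{j \bar k l \bar m}`. -/
noncomputable def RmM (H : CE ι → Matrix ι ι ℂ) (z : CE ι) (l m : ι) : Matrix ι ι ℂ :=
  - dzbM m (dzM l H) z + dzbM m H z * (H z)⁻¹ * dzM l H z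

variable {H : CE ι → Matrix ι ι ℂ} {z : CE ι}

theorem RmM_apply (H : CE ι → Matrix ι ι ℂ) (z : CE ι) (j k l m : ι) :
    RmM H z l m k j = - dzb m (fun w => dz l (fun y => H y k j) w) z +
      ∑ p, ∑ q, (H z)⁻¹ p q * dz l (fun y => H y q j) z * dzb m (fun y => H y k p) z := by
  have e1 : dzbM m (dzM l H) z k j = dzb m (fun w => dz l (fun y => H y k j) w) z := by
    rw [dzbM_apply]
    rfl
  simp only [RmM, Matrix.add_apply, Matrix.neg_apply, e1, matFun_triple_apply, dzM_apply,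
    dzbM_apply]
  congr 1
  refine Finset.sum_congr rfl fun p _ => Finset.sum_congr rfl fun q _ => ?_
  ring

theorem RmM_congr {H' : CE ι → Matrix ι ι ℂ} (h : ∀ᶠ w in 𝓝 z, H w = H' w) (l m : ι) :
    RmM H z l m = RmM H' z l m := by
  have h1 : ∀ᶠ w in 𝓝 z, dzM l H w = dzM l H' w :=
    h.eventually_nhds.mono fun w hw => dzM_congr hw
  simp only [RmM]
  rw [dzbM_congr h1, dzbM_congr h, dzM_congr h, h.self_of_nhds]

/-- `(Θ_{l \bar m})ᴴ = Θ_{m \bar l}`. -/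
theorem RmM_conjTranspose (hH : ∀ a b, ContDiffAt ℝ 2 (fun w => H w a b) z)
    (hh : ∀ᶠ w in 𝓝 z, (H w).IsHermitian) (l m : ι) :
    (RmM H z l m)ᴴ = RmM H z m l := by
  have h1 : ∀ᶠ w in 𝓝 z, (dzM l H w)ᴴ = dzbM l H w :=
    hh.eventually_nhds.mono fun w hw => conjTranspose_dzM_of_isHermitian hw
  have h2 : (dzbM m (dzM l H) z)ᴴ = dzbM l (dzM m H) z := by
    rw [← dzM_conjTranspose, dzM_congr h1]
    exact dzM_dzbM_comm hH
  have h3 : ((H z)⁻¹)ᴴ = (H z)⁻¹ := by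
    rw [Matrix.conjTranspose_nonsing_inv, hh.self_of_nhds.eq]
  simp only [RmM]
  rw [Matrix.conjTranspose_add, Matrix.conjTranspose_neg, h2, Matrix.conjTranspose_mul,
    Matrix.conjTranspose_mul, h3, conjTranspose_dzM_of_isHermitian hh,
    conjTranspose_dzbM_of_isHermitian hh, Matrix.mul_assoc]

theorem cv_eventually_differentiableAt (hH : ∀ a b, ContDiffAt ℝ 2 (fun w => H w a b) z) :
    ∀ᶠ w in 𝓝 z, ∀ a b, DifferentiableAt ℝ (fun y => H y a b) w := by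
  rw [Filter.eventually_all]
  intro a
  rw [Filter.eventually_all]
  intro b
  exact lv_eventually_differentiableAt (hH a b)

theorem cv_differentiableAt (hH : ∀ a b, ContDiffAt ℝ 2 (fun w => H w a b) z) (a b : ι) :
    DifferentiableAt ℝ (fun y => H y a b) z :=
  (hH a b).differentiableAt (by norm_num)

theorem cv_differentiableAt_dzM (hH : ∀ a b, ContDiffAt ℝ 2 (fun w => H w a b) z) (l a b : ι) :
    DifferentiableAt ℝ (fun y => dzM l H y a b) z :=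
  (contDiffAt_dzM (N := 1) hH (by norm_num) a b).differentiableAt (by norm_num)

theorem cv_differentiableAt_dzbM (hH : ∀ a b, ContDiffAt ℝ 2 (fun w => H w a b) z) (l a b : ι) :
    DifferentiableAt ℝ (fun y => dzbM l H y a b) z :=
  (contDiffAt_dzbM (N := 1) hH (by norm_num) a b).differentiableAt (by norm_num)

/-- scaling. -/
theorem RmM_smul_real {c : ℝ} (hc : c ≠ 0) (hH : ∀ a b, ContDiffAt ℝ 2 (fun w => H w a b) z)
    (l m : ι) : RmM (fun w => ((c : ℝ) : ℂ) • H w) z l m = ((c : ℝ) : ℂ) • RmM H z l m := by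
  have hd := cv_differentiableAt hH
  have h1 : ∀ᶠ w in 𝓝 z, dzM l (fun y => ((c : ℝ) : ℂ) • H y) w = ((c : ℝ) : ℂ) • dzM l H w :=
    (cv_eventually_differentiableAt hH).mono fun w hw => dzM_const_smul _ hw
  have hc' : ((c : ℝ) : ℂ) ≠ 0 := Complex.ofReal_ne_zero.2 hc
  simp only [RmM]
  rw [dzbM_congr h1, dzbM_const_smul _ (cv_differentiableAt_dzM hH l), dzbM_const_smul _ hd,
    dzM_const_smul _ hd, forms_inv_smul]
  simp only [Matrix.smul_mul, Matrix.mul_smul, smul_smul, smul_add, smul_neg]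
  rw [inv_mul_cancel₀ hc', mul_one]

/-- trace of the curvature: `tr (H⁻¹ Θ_{l \bar m}) = - ∂̄_m ∂_l log det H`. -/
theorem trace_inv_mul_RmM (hH : ∀ a b, ContDiffAt ℝ 2 (fun w => H w a b) z)
    (hh : ∀ᶠ w in 𝓝 z, (H w).IsHermitian) (h0 : (H z).PosDef) (l m : ι) :
    ((H z)⁻¹ * RmM H z l m).trace = - levi (fun w => Real.log (H w).det.re) z m l := by
  rw [levi_logDet hH hh h0]
  simp only [RmM]
  rw [Matrix.mul_add, Matrix.trace_add, Matrix.mul_neg, Matrix.trace_neg]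
  simp only [Matrix.mul_assoc]
  ring

/-- the curvature as `\bar∂` of the connection matrix: `Θ_{l \bar m} = - H ∂̄_m (H⁻¹ ∂_l H)`. -/
theorem RmM_eq_dzbM_connection (hH : ∀ a b, ContDiffAt ℝ 2 (fun w => H w a b) z)
    (h0 : (H z).det ≠ 0) (l m : ι) :
    RmM H z l m = - (H z * dzbM m (fun w => (H w)⁻¹ * dzM l H w) z) := by
  have hd := cv_differentiableAt hH
  have hu : IsUnit (H z).det := isUnit_iff_ne_zero.2 h0
  rw [dzbM_mul (fun a b => differentiableAt_matInv hd h0 a b) (cv_differentiableAt_dzM hH l),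
    dzbM_inv hd h0]
  simp only [RmM]
  rw [Matrix.mul_add, Matrix.neg_mul, Matrix.mul_neg, ← Matrix.mul_assoc (H z) (H z)⁻¹,
    Matrix.mul_nonsing_inv _ hu, Matrix.one_mul]
  have e : H z * ((H z)⁻¹ * dzbM m H z * (H z)⁻¹ * dzM l H z)
      = dzbM m H z * (H z)⁻¹ * dzM l H z := by
    rw [← Matrix.mul_assoc, ← Matrix.mul_assoc, ← Matrix.mul_assoc, Matrix.mul_nonsing_inv _ hu,
      Matrix.one_mul]
  rw [e]
  abel

theorem cv_ring_identity {R : Type} [Ring R] (p p' g g1 g2 g12 q q1 qi gi pi : R)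
    (h1 : q * qi = 1) (h2 : pi * p = 1) (h3 : g * gi = 1) (h4 : gi * g = 1) :
    - ((p' * g1 + p * g12) * q + (p' * g + p * g2) * q1)
      + ((p' * g + p * g2) * q) * (qi * (gi * pi)) * (p * g1 * q + p * g * q1)
      = p * (- g12 + g2 * gi * g1) * q := by
  have h1' : ∀ x, q * (qi * x) = x := fun x => by rw [← mul_assoc, h1, one_mul]
  have h2' : ∀ x, pi * (p * x) = x := fun x => by rw [← mul_assoc, h2, one_mul]
  have h3' : ∀ x, g * (gi * x) = x := fun x => by rw [← mul_assoc, h3, one_mul]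
  have h4' : ∀ x, gi * (g * x) = x := fun x => by rw [← mul_assoc, h4, one_mul]
  simp only [mul_add, add_mul, mul_assoc, h1', h2', h3', h4', mul_neg, neg_mul]
  abel

/-- the curvature of `P G Q`, `P` antiholomorphic, `Q` holomorphic. -/
theorem RmM_mul_mul {P G Q : CE ι → Matrix ι ι ℂ}
    (hP : ∀ a b, ContDiffAt ℝ 2 (fun w => P w a b) z)
    (hG : ∀ a b, ContDiffAt ℝ 2 (fun w => G w a b) z)
    (hQ : ∀ a b, ContDiffAt ℝ 2 (fun w => Q w a b) z)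
    (hP0 : ∀ᶠ w in 𝓝 z, ∀ l, dzM l P w = 0) (hQ0 : ∀ᶠ w in 𝓝 z, ∀ m, dzbM m Q w = 0)
    (dP : (P z).det ≠ 0) (dG : (G z).det ≠ 0) (dQ : (Q z).det ≠ 0) (l m : ι) :
    RmM (fun w => P w * G w * Q w) z l m = P z * RmM G z l m * Q z := by
  have aP := cv_differentiableAt hP
  have aG := cv_differentiableAt hG
  have aQ := cv_differentiableAt hQ
  have aG1 := cv_differentiableAt_dzM hG l
  have aQ1 := cv_differentiableAt_dzM hQ l
  have k1 : ∀ᶠ w in 𝓝 z, dzM l (fun y => P y * G y * Q y) w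
      = P w * dzM l G w * Q w + P w * G w * dzM l Q w := by
    filter_upwards [cv_eventually_differentiableAt hP, cv_eventually_differentiableAt hG,
      cv_eventually_differentiableAt hQ, hP0] with w a b c d
    rw [dzM_mul (fun i j => differentiableAt_matMul a b i j) c, dzM_mul a b, d l, Matrix.zero_mul,
      zero_add]
  have dQ12 : dzbM m (dzM l Q) z = 0 := by
    rw [← dzM_dzbM_comm hQ]
    have : ∀ᶠ w in 𝓝 z, dzbM m Q w = (fun _ => (0 : Matrix ι ι ℂ)) w := hQ0.mono fun w hw => hw m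
    rw [dzM_congr this, dzM_const]
  have k2 : dzbM m (dzM l (fun y => P y * G y * Q y)) z
      = (dzbM m P z * dzM l G z + P z * dzbM m (dzM l G) z) * Q z
        + (dzbM m P z * G z + P z * dzbM m G z) * dzM l Q z := by
    rw [dzbM_congr k1, dzbM_add
      (fun i j => differentiableAt_matMul (fun i j => differentiableAt_matMul aP aG1 i j) aQ i j)
      (fun i j => differentiableAt_matMul (fun i j => differentiableAt_matMul aP aG i j) aQ1 i j),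
      dzbM_mul (fun i j => differentiableAt_matMul aP aG1 i j) aQ, dzbM_mul aP aG1,
      dzbM_mul (fun i j => differentiableAt_matMul aP aG i j) aQ1, dzbM_mul aP aG,
      hQ0.self_of_nhds m, dQ12, Matrix.mul_zero, Matrix.mul_zero, add_zero, add_zero]
  have k3 : dzbM m (fun y => P y * G y * Q y) z
      = (dzbM m P z * G z + P z * dzbM m G z) * Q z := by
    rw [dzbM_mul (fun i j => differentiableAt_matMul aP aG i j) aQ, dzbM_mul aP aG,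
      hQ0.self_of_nhds m, Matrix.mul_zero, add_zero]
  have k5 : (P z * G z * Q z)⁻¹ = (Q z)⁻¹ * ((G z)⁻¹ * (P z)⁻¹) := by
    rw [Matrix.mul_inv_rev, Matrix.mul_inv_rev]
  simp only [RmM]
  rw [k2, k3, k1.self_of_nhds, k5]
  exact cv_ring_identity _ _ _ _ _ _ _ _ _ _ _
    (Matrix.mul_nonsing_inv _ (isUnit_iff_ne_zero.2 dQ))
    (Matrix.nonsing_inv_mul _ (isUnit_iff_ne_zero.2 dP))
    (Matrix.mul_nonsing_inv _ (isUnit_iff_ne_zero.2 dG))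
    (Matrix.nonsing_inv_mul _ (isUnit_iff_ne_zero.2 dG))

theorem dzM_comp_hol (τ : CE ι → CE ι) (hτ : DifferentiableAt ℂ τ z)
    (hH : ∀ a b, DifferentiableAt ℝ (fun y => H y a b) (τ z)) (l : ι) :
    dzM l (fun y => H (τ y)) z = ∑ c, jac τ z c l • dzM c H (τ z) := by
  ext a b
  rw [dzM_apply, dz_comp_hol τ (fun y => H y a b) hτ (hH a b), Matrix.sum_apply]
  refine Finset.sum_congr rfl fun c _ => ?_
  rw [Matrix.smul_apply, dzM_apply, smul_eq_mul, mul_comm]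

theorem dzbM_comp_hol (τ : CE ι → CE ι) (hτ : DifferentiableAt ℂ τ z)
    (hH : ∀ a b, DifferentiableAt ℝ (fun y => H y a b) (τ z)) (m : ι) :
    dzbM m (fun y => H (τ y)) z = ∑ d, conj (jac τ z d m) • dzbM d H (τ z) := by
  ext a b
  rw [dzbM_apply, dzb_comp_hol τ (fun y => H y a b) hτ (hH a b), Matrix.sum_apply]
  refine Finset.sum_congr rfl fun c _ => ?_
  rw [Matrix.smul_apply, dzbM_apply, smul_eq_mul, mul_comm]

/-- the curvature of `H ∘ τ`. -/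
theorem RmM_comp (τ : CE ι → CE ι) (hτ : ∀ᶠ w in 𝓝 z, DifferentiableAt ℂ τ w)
    (hH : ∀ a b, ContDiffAt ℝ 2 (fun y => H y a b) (τ z)) (l m : ι) :
    RmM (fun w => H (τ w)) z l m
      = ∑ c, ∑ d, (jac τ z c l * conj (jac τ z d m)) • RmM H (τ z) c d := by
  have hτz : DifferentiableAt ℂ τ z := hτ.self_of_nhds
  have hd := cv_differentiableAt hH
  have hev : ∀ᶠ w in 𝓝 z, ∀ a b, DifferentiableAt ℝ (fun y => H y a b) (τ w) :=
    hτz.continuousAt.eventually (cv_eventually_differentiableAt hH)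
  have b1 : ∀ᶠ w in 𝓝 z, dzM l (fun y => H (τ y)) w = ∑ c, jac τ w c l • dzM c H (τ w) := by
    filter_upwards [hτ, hev] with w h1 h2
    exact dzM_comp_hol τ h1 h2 l
  have b3 : dzbM m (dzM l (fun y => H (τ y))) z
      = ∑ c, ∑ d, (jac τ z c l * conj (jac τ z d m)) • dzbM d (dzM c H) (τ z) := by
    rw [dzbM_congr b1]
    ext a b
    have hA : ∀ c, DifferentiableAt ℝ (fun w => dzM c H (τ w) a b) z := fun c =>
      (cv_differentiableAt_dzM hH c a b).comp z (hτz.restrictScalars ℝ)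
    have hBc : ∀ c, DifferentiableAt ℂ (fun w => jac τ w c l) z := fun c =>
      differentiableAt_jac hτ c l
    have e : (fun w => (∑ c, jac τ w c l • dzM c H (τ w)) a b)
        = fun w => ∑ c, jac τ w c l * dzM c H (τ w) a b := by
      funext w
      rw [Matrix.sum_apply]
      rfl
    rw [dzbM_apply, e, dzb_sum Finset.univ (fun c w => jac τ w c l * dzM c H (τ w) a b)
      fun c _ => ((hBc c).restrictScalars ℝ).mul (hA c), Matrix.sum_apply]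
    refine Finset.sum_congr rfl fun c _ => ?_
    rw [dzb_mul ((hBc c).restrictScalars ℝ) (hA c), dzb_of_differentiableAt (hBc c), zero_mul,
      zero_add, dzb_comp_hol τ (fun y => dzM c H y a b) hτz (cv_differentiableAt_dzM hH c a b),
      Matrix.sum_apply, Finset.mul_sum]
    refine Finset.sum_congr rfl fun d _ => ?_
    rw [Matrix.smul_apply, dzbM_apply, smul_eq_mul]
    ring
  simp only [RmM]
  rw [b3, b1.self_of_nhds, dzbM_comp_hol τ hτz hd m]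
  simp only [smul_add, smul_neg, Finset.sum_add_distrib, Finset.sum_neg_distrib]
  congr 1
  rw [Finset.sum_mul, Finset.sum_mul, Finset.sum_comm]
  refine Finset.sum_congr rfl fun d _ => ?_
  rw [Finset.mul_sum]
  refine Finset.sum_congr rfl fun c _ => ?_
  rw [Matrix.smul_mul, Matrix.smul_mul, Matrix.mul_smul, smul_smul, mul_comm]

/-- transformation law under a holomorphic change of coordinates. -/
theorem RmM_comp_hol (τ : CE ι → CE ι) (hτ : ∀ᶠ w in 𝓝 z, DifferentiableAt ℂ τ w)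
    (hj : (jac τ z).det ≠ 0) (hH : ∀ a b, ContDiffAt ℝ 2 (fun y => H y a b) (τ z))
    (h0 : (H (τ z)).det ≠ 0) (l m : ι) :
    RmM (fun w => (jac τ w)ᴴ * H (τ w) * jac τ w) z l m
      = ∑ c, ∑ d, (jac τ z c l * conj (jac τ z d m)) •
          ((jac τ z)ᴴ * RmM H (τ z) c d * jac τ z) := by
  have hτz : DifferentiableAt ℂ τ z := hτ.self_of_nhds
  have hJ : ∀ a b, ContDiffAt ℝ 2 (fun w => jac τ w a b) z := fun a b =>
    (hol_contDiffAt_real (eventually_differentiableAt_jac hτ a b)).of_le lv_two_le_infty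
  have hJev : ∀ᶠ w in 𝓝 z, ∀ a b, DifferentiableAt ℂ (fun y => jac τ y a b) w := by
    rw [Filter.eventually_all]
    intro a
    rw [Filter.eventually_all]
    intro b
    exact eventually_differentiableAt_jac hτ a b
  have hQ0 : ∀ᶠ w in 𝓝 z, ∀ m, dzbM m (fun y => jac τ y) w = 0 :=
    hJev.mono fun w hw m => by
      ext a b
      rw [dzbM_apply, dzb_of_differentiableAt (hw a b)]
      rfl
  have hP0 : ∀ᶠ w in 𝓝 z, ∀ l, dzM l (fun y => (jac τ y)ᴴ) w = 0 :=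
    hQ0.mono fun w hw l => by rw [dzM_conjTranspose, hw l, Matrix.conjTranspose_zero]
  have hG : ∀ a b, ContDiffAt ℝ 2 (fun w => H (τ w) a b) z := fun a b =>
    (hH a b).comp z ((hol_contDiffAt_real hτ).of_le lv_two_le_infty)
  have dP : ((jac τ z)ᴴ).det ≠ 0 := by
    rw [Matrix.det_conjTranspose]
    exact star_ne_zero.2 hj
  rw [RmM_mul_mul (P := fun w => (jac τ w)ᴴ) (G := fun w => H (τ w)) (Q := fun w => jac τ w)
    (fun a b => contDiffAt_conjTranspose hJ a b) hG hJ hP0 hQ0 dP h0 hj l m, RmM_comp τ hτ hH l m,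
    Finset.mul_sum, Finset.sum_mul]
  refine Finset.sum_congr rfl fun c _ => ?_
  rw [Finset.mul_sum, Finset.sum_mul]
  refine Finset.sum_congr rfl fun d _ => ?_
  rw [Matrix.mul_smul, Matrix.smul_mul]

/-- Kaehler symmetry in the unbarred indices (closedness near `z`). -/
theorem RmM_symm13 (hH : ∀ a b, ContDiffAt ℝ 2 (fun w => H w a b) z)
    (hc : ∀ᶠ w in 𝓝 z, ∀ a b c, dz c (fun y => H y a b) w = dz b (fun y => H y a c) w)
    (j k l m : ι) : RmM H z l m k j = RmM H z j m k l := by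
  have h1 : (fun w => dz l (fun y => H y k j) w) =ᶠ[𝓝 z] fun w => dz j (fun y => H y k l) w :=
    hc.mono fun w hw => hw k j l
  have h2 := hc.self_of_nhds
  rw [RmM_apply, RmM_apply, dzb_congr h1]
  congr 1
  refine Finset.sum_congr rfl fun p _ => Finset.sum_congr rfl fun q _ => ?_
  rw [h2 q j l]

/-- Kaehler symmetry in the barred indices. -/
theorem RmM_symm24 (hH : ∀ a b, ContDiffAt ℝ 2 (fun w => H w a b) z)
    (hh : ∀ᶠ w in 𝓝 z, (H w).IsHermitian)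
    (hc : ∀ᶠ w in 𝓝 z, ∀ a b c, dz c (fun y => H y a b) w = dz b (fun y => H y a c) w)
    (j k l m : ι) : RmM H z l m k j = RmM H z l k m j := by
  have a1 : RmM H z l m k j = conj (RmM H z m l j k) := by
    rw [← RmM_conjTranspose hH hh m l, Matrix.conjTranspose_apply]
    rfl
  have a2 : RmM H z l k m j = conj (RmM H z k l j m) := by
    rw [← RmM_conjTranspose hH hh k l, Matrix.conjTranspose_apply]
    rfl
  rw [a1, a2, RmM_symm13 hH hc k j m l]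

/-- at a point where the first derivatives vanish. -/
theorem RmM_of_dzM_eq_zero (l m : ι) (h1 : dzM l H z = 0) :
    RmM H z l m = - dzbM m (dzM l H) z := by
  simp only [RmM, h1, Matrix.mul_zero, add_zero]

end chart

/-! ## 2. Manifold level -/

section manifold

variable {V : Type} [NormedAddCommGroup V] [NormedSpace ℝ V]
variable {𝓜 : CMfd V ι} {h g : HFam V ι}
variable {Φ Ψ : CE ι → V} {U W : Set (CE ι)} {z : CE ι}

theorem cv_sum22 {α β γ δ : Type} [Fintype α] [Fintype β] [Fintype γ] [Fintype δ]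
    (F : α → β → γ → δ → ℂ) :
    ∑ l, ∑ m, ∑ c, ∑ d, F l m c d = ∑ c, ∑ d, ∑ l, ∑ m, F l m c d := by
  calc ∑ l, ∑ m, ∑ c, ∑ d, F l m c d
      = ∑ l, ∑ c, ∑ m, ∑ d, F l m c d := Finset.sum_congr rfl fun l _ => Finset.sum_comm
    _ = ∑ c, ∑ l, ∑ m, ∑ d, F l m c d := Finset.sum_comm
    _ = ∑ c, ∑ l, ∑ d, ∑ m, F l m c d :=
        Finset.sum_congr rfl fun c _ => Finset.sum_congr rfl fun l _ => Finset.sum_comm
    _ = ∑ c, ∑ d, ∑ l, ∑ m, F l m c d := Finset.sum_congr rfl fun c _ => Finset.sum_comm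

theorem cv_sum4 {α β γ δ : Type} [Fintype α] [Fintype β] [Fintype γ] [Fintype δ]
    (F : α → β → γ → δ → ℂ) :
    ∑ c, ∑ d, ∑ b, ∑ a, F a b c d = ∑ a, ∑ b, ∑ c, ∑ d, F a b c d := by
  calc ∑ c, ∑ d, ∑ b, ∑ a, F a b c d
      = ∑ c, ∑ d, ∑ a, ∑ b, F a b c d :=
        Finset.sum_congr rfl fun c _ => Finset.sum_congr rfl fun d _ => Finset.sum_comm
    _ = ∑ a, ∑ b, ∑ c, ∑ d, F a b c d := cv_sum22 (fun c d a b => F a b c d)

theorem cv_mulVec_ne_zero {T : Matrix ι ι ℂ} (hT : T.det ≠ 0) {v : ι → ℂ} (hv : v ≠ 0) :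
    T *ᵥ v ≠ 0 := by
  intro h
  apply hv
  have : T⁻¹ *ᵥ (T *ᵥ v) = v := by
    rw [Matrix.mulVec_mulVec, Matrix.nonsing_inv_mul _ (isUnit_iff_ne_zero.2 hT),
      Matrix.one_mulVec]
  rw [← this, h, Matrix.mulVec_zero]

theorem Rm_eq_RmM (h : HFam V ι) (Φ : CE ι → V) (z : CE ι) (j k l m : ι) :
    Rm h Φ z j k l m = RmM (h Φ) z l m k j := by
  exact (RmM_apply (h Φ) z j k l m).symm

theorem RmM_trans (hh : IsMetric 𝓜 h) (hΦ : 𝓜.IsHol Φ U) (hΨ : 𝓜.IsHol Ψ W)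
    (hz : z ∈ U ∩ Φ ⁻¹' (Ψ '' W)) (l m : ι) :
    RmM (h Φ) z l m = ∑ c, ∑ d, (jac (Function.invFunOn Ψ W ∘ Φ) z c l
        * conj (jac (Function.invFunOn Ψ W ∘ Φ) z d m)) •
      ((jac (Function.invFunOn Ψ W ∘ Φ) z)ᴴ * RmM (h Ψ) ((Function.invFunOn Ψ W ∘ Φ) z) c d
        * jac (Function.invFunOn Ψ W ∘ Φ) z) := by
  have hw := CMfd.trans_mem hΦ hΨ hz
  rw [RmM_congr (hh.toIsHForm.eventually_compat hΦ hΨ hz) l m,
    RmM_comp_hol (H := h Ψ) _ (CMfd.trans_eventually_differentiableAt hΦ hΨ hz)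
      (CMfd.det_jac_trans_ne_zero hΦ hΨ hz) (fun a b => hh.toIsHForm.contDiffAt_two hΨ hw a b)
      (hh.det_ne_zero hΨ hw) l m]

/-- `Rm` is a tensor. -/
theorem Rm_trans (hh : IsMetric 𝓜 h) (hΦ : 𝓜.IsHol Φ U) (hΨ : 𝓜.IsHol Ψ W)
    (hz : z ∈ U ∩ Φ ⁻¹' (Ψ '' W)) (j k l m : ι) :
    Rm h Φ z j k l m = ∑ a, ∑ b, ∑ c, ∑ d,
      Rm h Ψ ((Function.invFunOn Ψ W ∘ Φ) z) a b c d
        * jac (Function.invFunOn Ψ W ∘ Φ) z a j * conj (jac (Function.invFunOn Ψ W ∘ Φ) z b k)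
        * jac (Function.invFunOn Ψ W ∘ Φ) z c l * conj (jac (Function.invFunOn Ψ W ∘ Φ) z d m) := by
  rw [Rm_eq_RmM, RmM_trans hh hΦ hΨ hz l m, ← cv_sum4, Matrix.sum_apply]
  refine Finset.sum_congr rfl fun c _ => ?_
  rw [Matrix.sum_apply]
  refine Finset.sum_congr rfl fun d _ => ?_
  rw [Matrix.smul_apply, matFun_triple_apply, smul_eq_mul, Finset.mul_sum]
  refine Finset.sum_congr rfl fun b _ => ?_
  rw [Finset.mul_sum]
  refine Finset.sum_congr rfl fun a _ => ?_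
  rw [Rm_eq_RmM, Matrix.conjTranspose_apply]
  simp only [RCLike.star_def]
  ring

theorem bisec_eq_sum_dot (h : HFam V ι) (Φ : CE ι → V) (z : CE ι) (v w : ι → ℂ) :
    bisec h Φ z v w = (∑ l, ∑ m, w l * star (w m) * (star v ⬝ᵥ (RmM (h Φ) z l m *ᵥ v))).re := by
  unfold bisec
  congr 1
  rw [← cv_sum4]
  refine Finset.sum_congr rfl fun l _ => Finset.sum_congr rfl fun m _ => ?_
  rw [lv_dot_eq, Finset.mul_sum]
  refine Finset.sum_congr rfl fun k _ => ?_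
  rw [Finset.mul_sum]
  refine Finset.sum_congr rfl fun j _ => ?_
  rw [Rm_eq_RmM]
  simp only [RCLike.star_def]
  ring

theorem cv_dot_conj (T N : Matrix ι ι ℂ) (v : ι → ℂ) :
    star v ⬝ᵥ ((Tᴴ * N * T) *ᵥ v) = star (T *ᵥ v) ⬝ᵥ (N *ᵥ (T *ᵥ v)) := by
  rw [← Matrix.mulVec_mulVec, ← Matrix.mulVec_mulVec, Matrix.dotProduct_mulVec,
    Matrix.star_mulVec, Matrix.vecMul_conjTranspose]

theorem bisec_trans (hh : IsMetric 𝓜 h) (hΦ : 𝓜.IsHol Φ U) (hΨ : 𝓜.IsHol Ψ W)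
    (hz : z ∈ U ∩ Φ ⁻¹' (Ψ '' W)) (v w : ι → ℂ) :
    bisec h Φ z v w = bisec h Ψ ((Function.invFunOn Ψ W ∘ Φ) z)
      (jac (Function.invFunOn Ψ W ∘ Φ) z *ᵥ v) (jac (Function.invFunOn Ψ W ∘ Φ) z *ᵥ w) := by
  rw [bisec_eq_sum_dot, bisec_eq_sum_dot]
  congr 1
  set J := jac (Function.invFunOn Ψ W ∘ Φ) z with hJ
  set y := (Function.invFunOn Ψ W ∘ Φ) z with hy
  have e1 : ∀ l m, star v ⬝ᵥ (RmM (h Φ) z l m *ᵥ v)
      = ∑ c, ∑ d, (J c l * conj (J d m)) * (star (J *ᵥ v) ⬝ᵥ (RmM (h Ψ) y c d *ᵥ (J *ᵥ v))) := by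
    intro l m
    rw [RmM_trans hh hΦ hΨ hz l m, Matrix.sum_mulVec, dotProduct_sum]
    refine Finset.sum_congr rfl fun c _ => ?_
    rw [Matrix.sum_mulVec, dotProduct_sum]
    refine Finset.sum_congr rfl fun d _ => ?_
    rw [Matrix.smul_mulVec, dotProduct_smul, cv_dot_conj, smul_eq_mul]
  have e2 : ∀ c d, (J *ᵥ w) c * star ((J *ᵥ w) d)
      = ∑ l, ∑ m, w l * star (w m) * (J c l * conj (J d m)) := by
    intro c d
    simp only [Matrix.mulVec, dotProduct, star_sum, star_mul', RCLike.star_def]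
    rw [Finset.sum_mul_sum]
    refine Finset.sum_congr rfl fun l _ => Finset.sum_congr rfl fun m _ => ?_
    ring
  calc ∑ l, ∑ m, w l * star (w m) * (star v ⬝ᵥ (RmM (h Φ) z l m *ᵥ v))
      = ∑ l, ∑ m, ∑ c, ∑ d, w l * star (w m) * (J c l * conj (J d m))
          * (star (J *ᵥ v) ⬝ᵥ (RmM (h Ψ) y c d *ᵥ (J *ᵥ v))) := by
        refine Finset.sum_congr rfl fun l _ => Finset.sum_congr rfl fun m _ => ?_
        rw [e1, Finset.mul_sum]
        refine Finset.sum_congr rfl fun c _ => ?_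
        rw [Finset.mul_sum]
        refine Finset.sum_congr rfl fun d _ => ?_
        ring
    _ = ∑ c, ∑ d, ∑ l, ∑ m, w l * star (w m) * (J c l * conj (J d m))
          * (star (J *ᵥ v) ⬝ᵥ (RmM (h Ψ) y c d *ᵥ (J *ᵥ v))) := cv_sum22 _
    _ = ∑ c, ∑ d, (J *ᵥ w) c * star ((J *ᵥ w) d)
          * (star (J *ᵥ v) ⬝ᵥ (RmM (h Ψ) y c d *ᵥ (J *ᵥ v))) := by
        refine Finset.sum_congr rfl fun c _ => Finset.sum_congr rfl fun d _ => ?_
        rw [e2, Finset.sum_mul]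
        refine Finset.sum_congr rfl fun l _ => ?_
        rw [Finset.sum_mul]

/-- positivity of the bisectional curvature may be checked in the parametrisations of a cover. -/
theorem bisecPos_of_cover (hh : IsMetric 𝓜 h)
    (hc : ∀ x ∈ 𝓜.carrier, ∃ (Ψ : CE ι → V) (W : Set (CE ι)) (y : CE ι), 𝓜.IsHol Ψ W ∧ y ∈ W ∧
      Ψ y = x ∧ ∀ v w : ι → ℂ, v ≠ 0 → w ≠ 0 → 0 < bisec h Ψ y v w) : BisecPos 𝓜 h := by
  intro Φ U hΦ z hz v w hv hw
  obtain ⟨Ψ, W, y, hΨ, hy, hyx, hpos⟩ := hc (Φ z) (CMfd.mem_carrier hΦ hz)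
  have hz' : z ∈ U ∩ Φ ⁻¹' (Ψ '' W) := ⟨hz, ⟨y, hy, hyx⟩⟩
  have hτ : (Function.invFunOn Ψ W ∘ Φ) z = y := CMfd.trans_eq hΦ hΨ hy hyx.symm
  rw [bisec_trans hh hΦ hΨ hz', hτ]
  exact hpos _ _ (cv_mulVec_ne_zero (CMfd.det_jac_trans_ne_zero hΦ hΨ hz') hv)
    (cv_mulVec_ne_zero (CMfd.det_jac_trans_ne_zero hΦ hΨ hz') hw)

theorem bisecNonneg_of_cover (hh : IsMetric 𝓜 h)
    (hc : ∀ x ∈ 𝓜.carrier, ∃ (Ψ : CE ι → V) (W : Set (CE ι)) (y : CE ι), 𝓜.IsHol Ψ W ∧ y ∈ W ∧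
      Ψ y = x ∧ ∀ v w : ι → ℂ, 0 ≤ bisec h Ψ y v w) : BisecNonneg 𝓜 h := by
  intro Φ U hΦ z hz v w
  obtain ⟨Ψ, W, y, hΨ, hy, hyx, hpos⟩ := hc (Φ z) (CMfd.mem_carrier hΦ hz)
  have hz' : z ∈ U ∩ Φ ⁻¹' (Ψ '' W) := ⟨hz, ⟨y, hy, hyx⟩⟩
  have hτ : (Function.invFunOn Ψ W ∘ Φ) z = y := CMfd.trans_eq hΦ hΨ hy hyx.symm
  rw [bisec_trans hh hΦ hΨ hz', hτ]
  exact hpos _ _

theorem BisecPos.nonneg (hp : BisecPos 𝓜 h) : BisecNonneg 𝓜 h := by
  intro Φ U hΦ z hz v w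
  by_cases hv : v = 0
  · simp [bisec, hv]
  by_cases hw : w = 0
  · simp [bisec, hw]
  exact (hp Φ U hΦ z hz v w hv hw).le

/-- `\overline{R_{j \bar k l \bar m}} = R_{k \bar j m \bar l}`. -/
theorem Rm_conj (hh : IsMetric 𝓜 h) (hΦ : 𝓜.IsHol Φ U) (hz : z ∈ U) (j k l m : ι) :
    conj (Rm h Φ z j k l m) = Rm h Φ z k j m l := by
  rw [Rm_eq_RmM, Rm_eq_RmM, ← RmM_conjTranspose (fun a b => hh.toIsHForm.contDiffAt_two hΦ hz a b)
    (hh.toIsHForm.eventually_isHermitian hΦ hz) l m, Matrix.conjTranspose_apply]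
  rfl

theorem IsKahler.eventually_closed (hh : IsKahler 𝓜 h) (hΦ : 𝓜.IsHol Φ U) (hz : z ∈ U) :
    ∀ᶠ w in 𝓝 z, ∀ a b c, dz c (fun y => h Φ y a b) w = dz b (fun y => h Φ y a c) w :=
  Filter.eventually_of_mem ((CMfd.isOpen_dom hΦ).mem_nhds hz)
    fun w hw a b c => hh.closed Φ U hΦ w hw a b c

/-- `R_{j \bar k l \bar m} = R_{l \bar k j \bar m}`. -/
theorem Rm_symm13 (hh : IsKahler 𝓜 h) (hΦ : 𝓜.IsHol Φ U) (hz : z ∈ U) (j k l m : ι) :
    Rm h Φ z j k l m = Rm h Φ z l k j m := by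
  rw [Rm_eq_RmM, Rm_eq_RmM]
  exact RmM_symm13 (fun a b => hh.toIsHForm.contDiffAt_two hΦ hz a b)
    (hh.eventually_closed hΦ hz) j k l m

/-- `R_{j \bar k l \bar m} = R_{j \bar m l \bar k}`. -/
theorem Rm_symm24 (hh : IsKahler 𝓜 h) (hΦ : 𝓜.IsHol Φ U) (hz : z ∈ U) (j k l m : ι) :
    Rm h Φ z j k l m = Rm h Φ z j m l k := by
  rw [Rm_eq_RmM, Rm_eq_RmM]
  exact RmM_symm24 (fun a b => hh.toIsHForm.contDiffAt_two hΦ hz a b)
    (hh.toIsHForm.eventually_isHermitian hΦ hz) (hh.eventually_closed hΦ hz) j k l m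

/-- `R_{j \bar k l \bar m} = R_{l \bar m j \bar k}`. -/
theorem Rm_symm_pair (hh : IsKahler 𝓜 h) (hΦ : 𝓜.IsHol Φ U) (hz : z ∈ U) (j k l m : ι) :
    Rm h Φ z j k l m = Rm h Φ z l m j k := by
  rw [Rm_symm13 hh hΦ hz j k l m, Rm_symm24 hh hΦ hz l k j m]

/-- the sum defining `bisec` is real. -/
theorem bisec_sum_im (hh : IsMetric 𝓜 h) (hΦ : 𝓜.IsHol Φ U) (hz : z ∈ U) (v w : ι → ℂ) :
    (∑ j, ∑ k, ∑ l, ∑ m, Rm h Φ z j k l m * v j * star (v k) * w l * star (w m)).im = 0 := by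
  rw [← Complex.conj_eq_iff_im]
  simp only [map_sum, map_mul, Rm_conj hh hΦ hz, RCLike.star_def, Complex.conj_conj]
  rw [Finset.sum_comm]
  refine Finset.sum_congr rfl fun j _ => Finset.sum_congr rfl fun k _ => ?_
  rw [Finset.sum_comm]
  refine Finset.sum_congr rfl fun l _ => Finset.sum_congr rfl fun m _ => ?_
  ring

theorem bisec_symm (hh : IsKahler 𝓜 h) (hΦ : 𝓜.IsHol Φ U) (hz : z ∈ U) (v w : ι → ℂ) :
    bisec h Φ z v w = bisec h Φ z w v := by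
  unfold bisec
  congr 1
  rw [cv_sum22]
  refine Finset.sum_congr rfl fun l _ => Finset.sum_congr rfl fun m _ =>
    Finset.sum_congr rfl fun j _ => Finset.sum_congr rfl fun k _ => ?_
  rw [Rm_symm_pair hh hΦ hz j k l m]
  ring

/-- homogeneity. -/
theorem bisec_smul (h : HFam V ι) (Φ : CE ι → V) (z : CE ι) (a b : ℂ) (v w : ι → ℂ) :
    bisec h Φ z (a • v) (b • w) = ‖a‖ ^ 2 * ‖b‖ ^ 2 * bisec h Φ z v w := by
  unfold bisec
  have e : ∑ j, ∑ k, ∑ l, ∑ m, Rm h Φ z j k l m * (a • v) j * star ((a • v) k) * (b • w) l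
        * star ((b • w) m)
      = ((‖a‖ ^ 2 * ‖b‖ ^ 2 : ℝ) : ℂ)
        * ∑ j, ∑ k, ∑ l, ∑ m, Rm h Φ z j k l m * v j * star (v k) * w l * star (w m) := by
    simp only [Finset.mul_sum]
    refine Finset.sum_congr rfl fun j _ => Finset.sum_congr rfl fun k _ =>
      Finset.sum_congr rfl fun l _ => Finset.sum_congr rfl fun m _ => ?_
    have ha : ((‖a‖ ^ 2 : ℝ) : ℂ) = a * conj a := by
      rw [Complex.mul_conj, Complex.normSq_eq_norm_sq]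
    have hb : ((‖b‖ ^ 2 : ℝ) : ℂ) = b * conj b := by
      rw [Complex.mul_conj, Complex.normSq_eq_norm_sq]
    rw [Complex.ofReal_mul, ha, hb]
    simp only [Pi.smul_apply, smul_eq_mul, star_mul', RCLike.star_def]
    ring
  rw [e, Complex.re_ofReal_mul]

/-- `bisec` in matrix form: `R(v, \bar v, w, \bar w) = ∑_{l,m} w_l \bar w_m  vᴴ... ` -/
theorem bisec_eq_sum_qf (hh : IsMetric 𝓜 h) (hΦ : 𝓜.IsHol Φ U) (hz : z ∈ U) (v w : ι → ℂ) :
    bisec h Φ z v w = (∑ l, ∑ m, w l * star (w m) * (star v ⬝ᵥ (RmM (h Φ) z l m *ᵥ v))).re := by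
  exact bisec_eq_sum_dot h Φ z v w

/-- scaling of the metric: `Rm (c h) = c Rm h`. -/
theorem Rm_smul_real {c : ℝ} (hc : c ≠ 0) (hh : IsHForm 𝓜 h) (hΦ : 𝓜.IsHol Φ U) (hz : z ∈ U)
    (j k l m : ι) :
    Rm (fun Φ z => ((c : ℝ) : ℂ) • h Φ z) Φ z j k l m = ((c : ℝ) : ℂ) * Rm h Φ z j k l m := by
  rw [Rm_eq_RmM, Rm_eq_RmM, RmM_smul_real hc (fun a b => hh.contDiffAt_two hΦ hz a b) l m,
    Matrix.smul_apply, smul_eq_mul]

theorem bisec_smul_real {c : ℝ} (hc : c ≠ 0) (hh : IsHForm 𝓜 h) (hΦ : 𝓜.IsHol Φ U) (hz : z ∈ U)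
    (v w : ι → ℂ) :
    bisec (fun Φ z => ((c : ℝ) : ℂ) • h Φ z) Φ z v w = c * bisec h Φ z v w := by
  unfold bisec
  have e : ∑ j, ∑ k, ∑ l, ∑ m, Rm (fun Φ z => ((c : ℝ) : ℂ) • h Φ z) Φ z j k l m * v j * star (v k)
        * w l * star (w m)
      = ((c : ℝ) : ℂ) * ∑ j, ∑ k, ∑ l, ∑ m, Rm h Φ z j k l m * v j * star (v k) * w l
        * star (w m) := by
    simp only [Finset.mul_sum]
    refine Finset.sum_congr rfl fun j _ => Finset.sum_congr rfl fun k _ =>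
      Finset.sum_congr rfl fun l _ => Finset.sum_congr rfl fun m _ => ?_
    rw [Rm_smul_real hc hh hΦ hz]
    ring
  rw [e, Complex.re_ofReal_mul]

/-- `Rm` only depends on the values in holomorphic parametrisations. -/
theorem Rm_congr (he : ∀ (Φ : CE ι → V) (U : Set (CE ι)), 𝓜.IsHol Φ U → ∀ z ∈ U, h Φ z = g Φ z)
    (hΦ : 𝓜.IsHol Φ U) (hz : z ∈ U) (j k l m : ι) : Rm h Φ z j k l m = Rm g Φ z j k l m := by
  rw [Rm_eq_RmM, Rm_eq_RmM, RmM_congr (Filter.eventually_of_mem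
    ((CMfd.isOpen_dom hΦ).mem_nhds hz) fun w hw => he Φ U hΦ w hw) l m]

/-- Chern-Ricci: contraction of the FIRST pair (any Hermitian metric), column convention
`(ricF h) m l = R_{l \bar m}`. -/
theorem ricF_eq_sum_Rm_first (hh : IsMetric 𝓜 h) (hΦ : 𝓜.IsHol Φ U) (hz : z ∈ U) (l m : ι) :
    ricF h Φ z m l = ∑ j, ∑ k, (h Φ z)⁻¹ j k * Rm h Φ z j k l m := by
  exact neg_levi_logDet_eq_sum (fun a b => hh.toIsHForm.contDiffAt_two hΦ hz a b)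
    (hh.toIsHForm.eventually_isHermitian hΦ hz) (hh.posDef hΦ z hz) l m

/-- Ricci = contraction of the SECOND pair, Kaehler metrics: `(ricF h) k j = R_{j \bar k} = h^{l \bar m} R_{j \bar k l \bar m}`. -/
theorem ricF_eq_sum_Rm (hh : IsKahler 𝓜 h) (hΦ : 𝓜.IsHol Φ U) (hz : z ∈ U) (j k : ι) :
    ricF h Φ z k j = ∑ l, ∑ m, (h Φ z)⁻¹ l m * Rm h Φ z j k l m := by
  rw [ricF_eq_sum_Rm_first hh.toIsMetric hΦ hz j k]
  refine Finset.sum_congr rfl fun l _ => Finset.sum_congr rfl fun m _ => ?_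
  rw [Rm_symm_pair hh hΦ hz j k l m]

/-- `Ric(v, \bar v) = ∑_a R(v, \bar v, e_a, \bar e_a)` for a basis `e_a` (the columns of `T`) with `Tᴴ H T = 1`. -/
theorem qf_ricF_eq_sum_bisec (hh : IsKahler 𝓜 h) (hΦ : 𝓜.IsHol Φ U) (hz : z ∈ U)
    (T : Matrix ι ι ℂ) (hT : Tᴴ * h Φ z * T = 1) (v : ι → ℂ) :
    qf (ricF h Φ z) v = ∑ a, bisec h Φ z v (fun l => T l a) := by
  have hinv : ∀ l m, (h Φ z)⁻¹ l m = ∑ a, T l a * star (T m a) := by
    intro l m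
    rw [simDiag_inv hT, Matrix.mul_apply]
    rfl
  unfold bisec
  rw [← Complex.re_sum, qf_eq_sum]
  congr 1
  calc ∑ k, ∑ j, conj (v k) * ricF h Φ z k j * v j
      = ∑ k, ∑ j, ∑ l, ∑ m, ∑ a, Rm h Φ z j k l m * v j * star (v k) * T l a * star (T m a) := by
        refine Finset.sum_congr rfl fun k _ => Finset.sum_congr rfl fun j _ => ?_
        rw [ricF_eq_sum_Rm hh hΦ hz j k, Finset.mul_sum, Finset.sum_mul]
        refine Finset.sum_congr rfl fun l _ => ?_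
        rw [Finset.mul_sum, Finset.sum_mul]
        refine Finset.sum_congr rfl fun m _ => ?_
        rw [hinv, Finset.sum_mul, Finset.mul_sum, Finset.sum_mul]
        refine Finset.sum_congr rfl fun a _ => ?_
        simp only [RCLike.star_def]
        ring
    _ = ∑ j, ∑ k, ∑ l, ∑ m, ∑ a, Rm h Φ z j k l m * v j * star (v k) * T l a * star (T m a) :=
        Finset.sum_comm
    _ = ∑ j, ∑ k, ∑ l, ∑ a, ∑ m, Rm h Φ z j k l m * v j * star (v k) * T l a * star (T m a) :=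
        Finset.sum_congr rfl fun j _ => Finset.sum_congr rfl fun k _ =>
          Finset.sum_congr rfl fun l _ => Finset.sum_comm
    _ = ∑ j, ∑ k, ∑ a, ∑ l, ∑ m, Rm h Φ z j k l m * v j * star (v k) * T l a * star (T m a) :=
        Finset.sum_congr rfl fun j _ => Finset.sum_congr rfl fun k _ => Finset.sum_comm
    _ = ∑ j, ∑ a, ∑ k, ∑ l, ∑ m, Rm h Φ z j k l m * v j * star (v k) * T l a * star (T m a) :=
        Finset.sum_congr rfl fun j _ => Finset.sum_comm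
    _ = ∑ a, ∑ j, ∑ k, ∑ l, ∑ m, Rm h Φ z j k l m * v j * star (v k) * T l a * star (T m a) :=
        Finset.sum_comm

/-- smoothness of the components. -/
theorem contDiffOn_Rm (hh : IsMetric 𝓜 h) (hΦ : 𝓜.IsHol Φ U) (j k l m : ι) :
    ContDiffOn ℝ ∞ (fun z => Rm h Φ z j k l m) U := by
  have hU := CMfd.isOpen_dom hΦ
  unfold Rm
  refine (contDiffOn_dzb hU (contDiffOn_dz hU (hh.smooth hΦ k j))).neg.add ?_
  refine ContDiffOn.sum fun p _ => ContDiffOn.sum fun q _ => ?_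
  exact ((contDiffOn_matInv (fun a b => hh.smooth hΦ a b) (fun w hw => hh.det_ne_zero hΦ hw) p q).mul
    (contDiffOn_dz hU (hh.smooth hΦ q j))).mul (contDiffOn_dzb hU (hh.smooth hΦ k p))

end manifold

end Claimed.Agent.R316
end

/- ===== packed: Claimed.Agent.R316.B13.Defs ===== -/
section
/-!
# Row 316, package B13 (sub-captain helper126): second order expansions, subgradients, inf-convolutions

Everything lives on a finite dimensional REAL inner product space `E` (no manifolds, no charts).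
The only consumer is Section 7 of the paper (`ellipsoids.tex`, 7.1 and 7.3).

* `Exp2 f x p A` : Aleksandrov expansion `f (x+h) = f x + ⟪p,h⟫ + ½ ⟪A h,h⟫ + o(|h|²)`.
* `SubG f x p`   : `p` is a (global) subgradient of `f` at `x`.
* `SemiConc c u` : `u - c |·|²` is concave on the WHOLE space (this is what inf-convolutions with a
  compact set of sources give; no localisation is ever needed).
* `infConv κ K v`: inf-convolution with sources restricted to `K`.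
-/

set_option autoImplicit false

open scoped Topology RealInnerProductSpace
open Filter Asymptotics Set

namespace Claimed.Agent.R316.B13

variable {E : Type*} [NormedAddCommGroup E] [InnerProductSpace ℝ E]

/-- second order (Aleksandrov) expansion of `f` at `x` with gradient `p` and Hessian `A`. -/
def Exp2 (f : E → ℝ) (x p : E) (A : E →L[ℝ] E) : Prop :=
  (fun h : E => f (x + h) - f x - ⟪p, h⟫ - (1 / 2) * ⟪A h, h⟫) =o[𝓝 0] fun h => ‖h‖ ^ 2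

/-- `p` is a subgradient of `f` at `x`. -/
def SubG (f : E → ℝ) (x p : E) : Prop := ∀ y, f x + ⟪p, y - x⟫ ≤ f y

/-- global semiconcavity with constant `c`. -/
def SemiConc (c : ℝ) (u : E → ℝ) : Prop := ConcaveOn ℝ univ fun q => u q - c * ‖q‖ ^ 2

/-- inf-convolution of `v` with parameter `κ` and sources in `K`. -/
noncomputable def infConv (κ : ℝ) (K : Set E) (v : E → ℝ) (q : E) : ℝ :=
  ⨅ z : K, (v z + ‖q - z‖ ^ 2 / (2 * κ))

/-- the subdifferential of `f` is differentiable at `x` (value `p`, derivative `A`). -/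
def SubGDiff (f : E → ℝ) (x p : E) (A : E →L[ℝ] E) : Prop :=
  ∀ ε > 0, ∃ δ > 0, ∀ x' p', ‖x' - x‖ < δ → SubG f x' p' → ‖p' - p - A (x' - x)‖ ≤ ε * ‖x' - x‖

/-- the proximal map `(1 + ∂f)⁻¹`. -/
noncomputable def prox (f : E → ℝ) (y : E) : E := Classical.epsilon fun x => SubG f x (y - x)

end Claimed.Agent.R316.B13
end
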