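/- Packed by merge_tool.py (helper293): 3 modules of Claimed.Agent.R316 in one file, same declarations.
   Old modules, in this order: Base.Metric.Norm, Base.Metric.Curve, Base.Metric.Join -/
import Claimed.Agent.R316.Base.RGeo.Defs
import Claimed.Agent.R316.CW.MatAlg
import Claimed.Agent.R316.Pack003

/- ===== packed: Claimed.Agent.R316.Base.Metric.Norm ===== -/
section
/-!
# Row 316 base layer, `BP-G0`, leaf `G0-1`: the norm of ambient tangent vectors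

Statements: helper97 (export file `Api.lean`, section 1).  Sub-captain of `BP-G0`: helper268.

Everything is read off in the chosen parametrisation `Ψ = 𝓜.pΦ x`, `w = 𝓜.co x` (`CMfd.isHol_pΦ`, `CMfd.co_mem`, `CMfd.pΦ_co`):
`ambQ 𝓜 h x a = qf (h Ψ w) (coVec Ψ w a)`; a tangent vector is `a = dΨ_w v` and `coVec Ψ w a = v` (`IsParam.coVec_fderiv`).
Matrix facts: `CW/MatAlg.lean` (`qf_*`, `qf_cauchy_schwarz`, `dual_cauchy_schwarz`).
-/

set_option autoImplicit false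
set_option linter.unusedSectionVars false
set_option linter.unusedVariables false
open scoped ContDiff ComplexOrder Topology
open MeasureTheory

namespace Claimed.Agent.R316

variable {V : Type} [NormedAddCommGroup V] [NormedSpace ℝ V] [FiniteDimensional ℝ V]
variable {ι : Type} [Fintype ι] [DecidableEq ι]
variable {𝓜 : CMfd V ι} {h h' : HFam V ι}

section norm

variable {Φ : CE ι → V} {U : Set (CE ι)} {x : V}

/-- a tangent vector is `dΨ_w v` in the chosen parametrisation, and `coVec` recovers `v`. -/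
theorem g0_tangent_iff (hx : x ∈ 𝓜.carrier) {a : V} :
    a ∈ 𝓜.tangent x ↔ fderiv ℝ (𝓜.pΦ x) (𝓜.co x) (coVec (𝓜.pΦ x) (𝓜.co x) a) = a := by
  constructor
  · rintro ⟨v, rfl⟩
    rw [(𝓜.isParam (𝓜.isHol_pΦ hx)).coVec_fderiv (𝓜.co_mem hx)]
  · intro h
    exact ⟨_, h⟩

theorem g0_coVec_add (hx : x ∈ 𝓜.carrier) {a b : V} (ha : a ∈ 𝓜.tangent x) (hb : b ∈ 𝓜.tangent x) :
    coVec (𝓜.pΦ x) (𝓜.co x) (a + b) =
      coVec (𝓜.pΦ x) (𝓜.co x) a + coVec (𝓜.pΦ x) (𝓜.co x) b := by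
  obtain ⟨v, rfl⟩ := ha
  obtain ⟨w, rfl⟩ := hb
  have hp := 𝓜.isParam (𝓜.isHol_pΦ hx)
  rw [← map_add, hp.coVec_fderiv (𝓜.co_mem hx), hp.coVec_fderiv (𝓜.co_mem hx),
    hp.coVec_fderiv (𝓜.co_mem hx)]

theorem g0_coVec_smul (hx : x ∈ 𝓜.carrier) {a : V} (ha : a ∈ 𝓜.tangent x) (c : ℝ) :
    coVec (𝓜.pΦ x) (𝓜.co x) (c • a) = c • coVec (𝓜.pΦ x) (𝓜.co x) a := by
  obtain ⟨v, rfl⟩ := ha
  have hp := 𝓜.isParam (𝓜.isHol_pΦ hx)
  rw [← map_smul, hp.coVec_fderiv (𝓜.co_mem hx), hp.coVec_fderiv (𝓜.co_mem hx)]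

theorem g0_coVec_zero (hx : x ∈ 𝓜.carrier) : coVec (𝓜.pΦ x) (𝓜.co x) (0 : V) = 0 := by
  have hp := 𝓜.isParam (𝓜.isHol_pΦ hx)
  have := hp.coVec_fderiv (𝓜.co_mem hx) (0 : CE ι)
  rwa [map_zero] at this

/-- the coordinate vector in the chosen parametrisation of `dΦ_z a`. -/
theorem g0_coVec_param (hΦ : 𝓜.IsHol Φ U) {z : CE ι} (hz : z ∈ U) (a : CE ι) :
    coVec (𝓜.pΦ (Φ z)) (𝓜.co (Φ z)) (fderiv ℝ Φ z a) =
      fderiv ℂ (Function.invFunOn (𝓜.pΦ (Φ z)) (𝓜.pU (Φ z)) ∘ Φ) z a := by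
  have hx : Φ z ∈ 𝓜.carrier := CMfd.mem_carrier hΦ hz
  have hz' : z ∈ U ∩ Φ ⁻¹' (𝓜.pΦ (Φ z) '' 𝓜.pU (Φ z)) := ⟨hz, 𝓜.mem_image_pΦ hx⟩
  exact CMfd.coVec_trans hΦ (𝓜.isHol_pΦ hx) hz' a

/-- `reForm` transforms by congruence. -/
theorem g0_reForm_conj (T A : Matrix ι ι ℂ) (a b a' b' : CE ι)
    (ha : ∀ k, T.mulVec (fun j => a j) k = a' k) (hb : ∀ k, T.mulVec (fun j => b j) k = b' k) :
    reForm (T.conjTranspose * A * T) a b = reForm A a' b' := by
  have ha' : T.mulVec (a : ι → ℂ) = (a' : ι → ℂ) := funext ha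
  have hb' : T.mulVec (b : ι → ℂ) = (b' : ι → ℂ) := funext hb
  unfold reForm
  rw [← ha', ← hb', Matrix.star_mulVec, ← Matrix.mulVec_mulVec, ← Matrix.mulVec_mulVec,
    Matrix.dotProduct_mulVec (star (a : ι → ℂ)) T.conjTranspose]

/-- triangle inequality for the norm of a positive semidefinite matrix. -/
theorem g0_sqrt_qf_add_le {A : Matrix ι ι ℂ} (hA : A.PosSemidef) (v w : ι → ℂ) :
    Real.sqrt (qf A (v + w)) ≤ Real.sqrt (qf A v) + Real.sqrt (qf A w) := by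
  have h1 := qf_add_vec (A := A) v w hA.isHermitian
  have h2 := qf_cauchy_schwarz hA v w
  have hv := qf_nonneg hA v
  have hw := qf_nonneg hA w
  have h3 : (star v ⬝ᵥ (A.mulVec w)).re ≤ Real.sqrt (qf A v) * Real.sqrt (qf A w) := by
    refine (Complex.re_le_norm _).trans ?_
    rw [← Real.sqrt_mul hv]
    exact Real.le_sqrt_of_sq_le h2
  rw [Real.sqrt_le_left (by positivity)]
  nlinarith [Real.sq_sqrt hv, Real.sq_sqrt hw]

theorem g0_reForm_self (A : Matrix ι ι ℂ) (a : CE ι) : reForm A a a = qf A a := rfl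

/-- `ambB` in an arbitrary holomorphic parametrisation. -/
theorem ambB_param (hm : IsHForm 𝓜 h) (hΦ : 𝓜.IsHol Φ U) {z : CE ι} (hz : z ∈ U) (a b : CE ι) :
    ambB 𝓜 h (Φ z) (fderiv ℝ Φ z a) (fderiv ℝ Φ z b) = reForm (h Φ z) a b := by
  have hx : Φ z ∈ 𝓜.carrier := CMfd.mem_carrier hΦ hz
  unfold ambB
  rw [g0_coVec_param hΦ hz, g0_coVec_param hΦ hz,
    hm.compat hΦ (𝓜.isHol_pΦ hx) z hz (𝓜.mem_image_pΦ hx)]
  exact (g0_reForm_conj _ _ a b _ _ (fun k => jac_mulVec _ a k) (fun k => jac_mulVec _ b k)).symm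

theorem ambB_self (𝓜 : CMfd V ι) (h : HFam V ι) (x a : V) : ambB 𝓜 h x a a = ambQ 𝓜 h x a := rfl

/-- `ambQ` in an arbitrary holomorphic parametrisation. -/
theorem ambQ_param (hm : IsHForm 𝓜 h) (hΦ : 𝓜.IsHol Φ U) {z : CE ι} (hz : z ∈ U) (a : CE ι) :
    ambQ 𝓜 h (Φ z) (fderiv ℝ Φ z a) = qf (h Φ z) a := by
  rw [← ambB_self, ambB_param hm hΦ hz]
  rfl

theorem ambQ_nonneg (hm : IsMetric 𝓜 h) (hx : x ∈ 𝓜.carrier) (a : V) : 0 ≤ ambQ 𝓜 h x a :=
  qf_nonneg (hm.posDef (𝓜.isHol_pΦ hx) _ (𝓜.co_mem hx)).posSemidef _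

theorem ambQ_pos (hm : IsMetric 𝓜 h) (hx : x ∈ 𝓜.carrier) {a : V} (ha : a ∈ 𝓜.tangent x)
    (ha0 : a ≠ 0) : 0 < ambQ 𝓜 h x a := by
  refine qf_pos (hm.posDef (𝓜.isHol_pΦ hx) _ (𝓜.co_mem hx)) ?_
  intro h0
  apply ha0
  have h1 : coVec (𝓜.pΦ x) (𝓜.co x) a = 0 := by
    ext k
    exact congrFun h0 k
  rw [← (g0_tangent_iff hx).1 ha, h1, map_zero]

theorem ambQ_zero (hx : x ∈ 𝓜.carrier) : ambQ 𝓜 h x 0 = 0 := by
  unfold ambQ
  rw [g0_coVec_zero hx]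
  exact qf_zero_vec _

theorem ambQ_smul (hx : x ∈ 𝓜.carrier) {a : V} (ha : a ∈ 𝓜.tangent x) (c : ℝ) :
    ambQ 𝓜 h x (c • a) = c ^ 2 * ambQ 𝓜 h x a := by
  unfold ambQ
  rw [g0_coVec_smul hx ha]
  have := qf_smul_vec (h (𝓜.pΦ x) (𝓜.co x)) (coVec (𝓜.pΦ x) (𝓜.co x) a : ι → ℂ) (c : ℂ)
  rw [Complex.norm_real, Real.norm_eq_abs, sq_abs] at this
  rw [← this]
  congr 1

theorem ambQ_neg (hx : x ∈ 𝓜.carrier) {a : V} (ha : a ∈ 𝓜.tangent x) :
    ambQ 𝓜 h x (-a) = ambQ 𝓜 h x a := by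
  have := ambQ_smul (h := h) hx ha (-1)
  simpa using this

/-- triangle inequality of the norm. -/
theorem sqrt_ambQ_add_le (hm : IsMetric 𝓜 h) (hx : x ∈ 𝓜.carrier) {a b : V} (ha : a ∈ 𝓜.tangent x)
    (hb : b ∈ 𝓜.tangent x) :
    Real.sqrt (ambQ 𝓜 h x (a + b)) ≤ Real.sqrt (ambQ 𝓜 h x a) + Real.sqrt (ambQ 𝓜 h x b) := by
  have hA := hm.posDef (𝓜.isHol_pΦ hx) _ (𝓜.co_mem hx)
  unfold ambQ
  rw [g0_coVec_add hx ha hb]
  exact g0_sqrt_qf_add_le hA.posSemidef _ _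

theorem ambQ_mono (hle : leF 𝓜 h h') (hx : x ∈ 𝓜.carrier) (a : V) :
    ambQ 𝓜 h x a ≤ ambQ 𝓜 h' x a :=
  qf_mono (hle _ _ (𝓜.isHol_pΦ hx) _ (𝓜.co_mem hx)) _

theorem ambQ_mono_on {S : Set V} (hle : leFOn 𝓜 S h h') (hx : x ∈ 𝓜.carrier) (hxS : x ∈ S) (a : V) :
    ambQ 𝓜 h x a ≤ ambQ 𝓜 h' x a :=
  qf_mono (hle _ _ (𝓜.isHol_pΦ hx) _ (𝓜.co_mem hx) (by rwa [𝓜.pΦ_co hx])) _

theorem ambQ_smulF (f : V → ℝ) (hx : x ∈ 𝓜.carrier) (a : V) :
    ambQ 𝓜 (smulF f h) x a = f x * ambQ 𝓜 h x a := by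
  unfold ambQ smulF
  rw [𝓜.pΦ_co hx, qf_smul]

/-- the tangent space is a linear subspace. -/
theorem CMfd.tangent_add (hx : x ∈ 𝓜.carrier) {a b : V} (ha : a ∈ 𝓜.tangent x)
    (hb : b ∈ 𝓜.tangent x) : a + b ∈ 𝓜.tangent x := by
  obtain ⟨v, rfl⟩ := ha
  obtain ⟨w, rfl⟩ := hb
  exact ⟨v + w, map_add _ _ _⟩

theorem CMfd.tangent_smul (hx : x ∈ 𝓜.carrier) {a : V} (ha : a ∈ 𝓜.tangent x) (c : ℝ) :
    c • a ∈ 𝓜.tangent x := by
  obtain ⟨v, rfl⟩ := ha
  exact ⟨c • v, map_smul _ _ _⟩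

/-- velocities of differentiable curves in the carrier are tangent. -/
theorem CMfd.deriv_mem_tangent {γ : ℝ → V} {t : ℝ} (hγ : DifferentiableAt ℝ γ t)
    (hmem : ∀ᶠ s in 𝓝 t, γ s ∈ 𝓜.carrier) : deriv γ t ∈ 𝓜.tangent (γ t) := by
  have hx : γ t ∈ 𝓜.carrier := hmem.self_of_nhds
  have hp := 𝓜.isParam (𝓜.isHol_pΦ hx)
  obtain ⟨-, h2⟩ := hp.hasFDerivAt_invFunOn_comp hγ hmem (𝓜.mem_image_pΦ hx)
  refine ⟨fderiv ℝ (Function.invFunOn (𝓜.pΦ (γ t)) (𝓜.pU (γ t)) ∘ γ) t 1, ?_⟩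
  exact (h2 1).symm

/-- differential of a smooth function on an ambient tangent vector, Cauchy-Schwarz:
`|d/dt u(γ t)| ≤ 2 |∂u|_h |γ'|_h`. -/
theorem abs_deriv_comp_le (hm : IsMetric 𝓜 h) {u : V → ℝ} (hu : 𝓜.Smooth u) {γ : ℝ → V} {t : ℝ}
    (hγ : DifferentiableAt ℝ γ t) (hmem : ∀ᶠ s in 𝓝 t, γ s ∈ 𝓜.carrier) :
    DifferentiableAt ℝ (u ∘ γ) t ∧
    |deriv (u ∘ γ) t| ≤ 2 * Real.sqrt (gradSq 𝓜 h u (γ t)) * Real.sqrt (ambQ 𝓜 h (γ t) (deriv γ t)) := by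
  have hx : γ t ∈ 𝓜.carrier := hmem.self_of_nhds
  have hΨ := 𝓜.isHol_pΦ hx
  have hp := 𝓜.isParam hΨ
  set Ψ := 𝓜.pΦ (γ t) with hΨdef
  set W := 𝓜.pU (γ t) with hWdef
  obtain ⟨hc, -⟩ := hp.hasFDerivAt_invFunOn_comp hγ hmem (𝓜.mem_image_pΦ hx)
  set c : ℝ → CE ι := Function.invFunOn Ψ W ∘ γ with hcdef
  have hct : c t = 𝓜.co (γ t) := rfl
  have hcW : c t ∈ W := 𝓜.co_mem hx
  -- near `t` the curve stays in the image of the parametrisation
  have hev : ∀ᶠ s in 𝓝 t, γ s ∈ Ψ '' W := by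
    obtain ⟨O, hO, himg⟩ := hp.image
    have h1 : γ t ∈ O := by
      have : γ t ∈ 𝓜.carrier ∩ O := himg ▸ 𝓜.mem_image_pΦ hx
      exact this.2
    have h2 : ∀ᶠ s in 𝓝 t, γ s ∈ O := hγ.continuousAt.eventually (hO.mem_nhds h1)
    filter_upwards [h2, hmem] with s hs1 hs2
    rw [himg]
    exact ⟨hs2, hs1⟩
  have heq : u ∘ γ =ᶠ[𝓝 t] (u ∘ Ψ) ∘ c := by
    filter_upwards [hev] with s hs
    simp only [Function.comp_apply, hcdef]
    rw [hp.rightInv hs]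
  have hud : DifferentiableAt ℝ (u ∘ Ψ) (c t) :=
    ((hu Ψ W hΨ).contDiffAt (hp.isOpen.mem_nhds hcW)).differentiableAt (by simp)
  have hcomp : HasDerivAt ((u ∘ Ψ) ∘ c) (fderiv ℝ (u ∘ Ψ) (c t) (deriv c t)) t :=
    hud.hasFDerivAt.comp_hasDerivAt t hc.hasDerivAt
  have hder : HasDerivAt (u ∘ γ) (fderiv ℝ (u ∘ Ψ) (c t) (deriv c t)) t :=
    hcomp.congr_of_eventuallyEq heq
  refine ⟨hder.differentiableAt, ?_⟩
  rw [hder.deriv, fderiv_real_eq _ hud]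
  have hco : coVec Ψ (𝓜.co (γ t)) (deriv γ t) = deriv c t :=
    hp.coVec_deriv hγ hmem (𝓜.mem_image_pΦ hx)
  have hH := hm.posDef hΨ _ hcW
  have hcs := dual_cauchy_schwarz hH (grad10 (u ∘ Ψ) (c t)) ((deriv c t : CE ι) : ι → ℂ)
  have e1 : gradSq 𝓜 h u (γ t) = qf ((h Ψ (c t))⁻¹).transpose (grad10 (u ∘ Ψ) (c t)) := rfl
  have e2 : ambQ 𝓜 h (γ t) (deriv γ t) = qf (h Ψ (c t)) ((deriv c t : CE ι) : ι → ℂ) := by
    unfold ambQ
    rw [← hΨdef, hco, ← hct]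
  rw [e1, e2, abs_mul, abs_two, mul_assoc]
  refine mul_le_mul_of_nonneg_left ?_ (by norm_num)
  refine (Complex.abs_re_le_norm _).trans ?_
  rw [← Real.sqrt_mul (qf_nonneg (posDef_inv_transpose hH).posSemidef _)]
  exact Real.le_sqrt_of_sq_le hcs

end norm

end Claimed.Agent.R316
end

/- ===== packed: Claimed.Agent.R316.Base.Metric.Curve ===== -/
section
/-!
# Row 316 base layer, `BP-G0`, leaf `G0-2`: curves and lengths

Statements: helper97 (export file `Api.lean`, section 2, first part).  Sub-captain of `BP-G0`: helper268.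

RECIPE.
* `g0_speed_within` (the only real work): `γ` is `C¹` on a set `s ⊆ ℝ` with unique derivatives, with values in the carrier.  Fix `t₀ ∈ s`, a
  holomorphic parametrisation `(Φ,U)` around `γ t₀` (`𝓜.cover`), `c := invFunOn Φ U ∘ γ`.  `IsParam.contDiffWithinAt_invFunOn_comp` : `c` is `C¹` within `s` at `t₀`,
  hence `C¹` on `s ∩ v`, `v` a neighbourhood of `t₀` (`ContDiffWithinAt.contDiffOn`); shrinking `v`: `γ t ∈ Φ '' U` for `t ∈ s ∩ v` (the image is relatively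
  open, `IsParam.image`), so `γ = Φ ∘ c`, `c t ∈ U` there, `derivWithin γ s t = dΦ_{c t} (derivWithin c s t)` (chain rule + uniqueness) and
  `ambQ 𝓜 h (γ t) (derivWithin γ s t) = qf (h Φ (c t)) (derivWithin c s t)` by `ambQ_param`.
  Continuity: entries of `h Φ` are continuous on `U` (`IsHForm.smooth`), `derivWithin c s` is continuous within `s` (`ContDiffOn.continuousOn_derivWithin`), `qf_eq_sum`.
* everything else: interval integrals of the continuous function `speed`; `len_comp`: `deriv (γ ∘ φ) t = φ' t • deriv γ (φ t)`, `ambQ_smul`, `√(c² q) = |c| √q`, `φ' ≥ 0`,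
  `intervalIntegral.integral_comp_mul_deriv`.
* `hdist_le_len`: reparametrise by `t ↦ a + t (b - a)`; `csInf_le` (bounded below by `0`).
* `hdist_le_integral_of_contDiffOn`: `φ t = a + (b - a) * Real.smoothTransition t` maps `ℝ` into `Icc a b`, so `γ ∘ φ` is `C¹` on `ℝ` by `ContDiffOn.comp` (no flatness needed),
  `deriv (γ ∘ φ) t = φ' t • derivWithin γ (Icc a b) (φ t)`; change of variables `intervalIntegral.integral_comp_mul_deriv'''`.
-/

set_option autoImplicit false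
set_option linter.unusedSectionVars false
set_option linter.unusedVariables false
open scoped ContDiff ComplexOrder Topology
open MeasureTheory

namespace Claimed.Agent.R316

variable {V : Type} [NormedAddCommGroup V] [NormedSpace ℝ V] [FiniteDimensional ℝ V]
variable {ι : Type} [Fintype ι] [DecidableEq ι]
variable {𝓜 : CMfd V ι} {h h' : HFam V ι}

section curves

variable {γ : ℝ → V}

/-- local coordinate description of a `C¹` curve (within a set `s` of times). -/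
theorem g0_local_coord {s : Set ℝ} (hs : UniqueDiffOn ℝ s) (hγ : ContDiffOn ℝ 1 γ s)
    (hmem : ∀ t ∈ s, γ t ∈ 𝓜.carrier) {t₀ : ℝ} (ht₀ : t₀ ∈ s) {Φ : CE ι → V} {U : Set (CE ι)}
    (hΦ : 𝓜.IsHol Φ U) (hx : γ t₀ ∈ Φ '' U) :
    ∃ v ∈ 𝓝 t₀, ContDiffOn ℝ 1 (Function.invFunOn Φ U ∘ γ) (s ∩ v) ∧
      ∀ t ∈ s ∩ v, (Function.invFunOn Φ U ∘ γ) t ∈ U ∧ Φ ((Function.invFunOn Φ U ∘ γ) t) = γ t ∧
        derivWithin γ s t = fderiv ℝ Φ ((Function.invFunOn Φ U ∘ γ) t)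
          (derivWithin (Function.invFunOn Φ U ∘ γ) s t) := by
  have hp := 𝓜.isParam hΦ
  obtain ⟨O, hO, hOe⟩ := hp.image
  have hxO : γ t₀ ∈ O := (hOe ▸ hx : γ t₀ ∈ 𝓜.carrier ∩ O).2
  have hpre : γ ⁻¹' O ∈ 𝓝[s] t₀ := (hγ t₀ ht₀).continuousWithinAt.preimage_mem_nhdsWithin
    (hO.mem_nhds hxO)
  obtain ⟨v, hvo, ht₀v, hvs⟩ := mem_nhdsWithin.1 hpre
  have him : ∀ t ∈ s ∩ v, γ t ∈ Φ '' U := by
    intro t ht
    rw [hOe]
    exact ⟨hmem t ht.1, hvs ⟨ht.2, ht.1⟩⟩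
  have hcd : ∀ t ∈ s ∩ v, ContDiffWithinAt ℝ 1 (Function.invFunOn Φ U ∘ γ) s t := fun t ht =>
    hp.contDiffWithinAt_invFunOn_comp (by exact_mod_cast le_top) (hγ t ht.1) hmem ht.1 (him t ht)
  refine ⟨v, hvo.mem_nhds ht₀v, fun t ht => (hcd t ht).mono Set.inter_subset_left, fun t ht => ?_⟩
  have h1 : (Function.invFunOn Φ U ∘ γ) t ∈ U := hp.invFunOn_mem (him t ht)
  have h2 : Φ ((Function.invFunOn Φ U ∘ γ) t) = γ t := hp.rightInv (him t ht)
  refine ⟨h1, h2, ?_⟩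
  have hd : HasDerivWithinAt (Function.invFunOn Φ U ∘ γ)
      (derivWithin (Function.invFunOn Φ U ∘ γ) s t) s t :=
    ((hcd t ht).differentiableWithinAt (by norm_num)).hasDerivWithinAt
  have hcomp := (hp.differentiableAt h1).hasFDerivAt.comp_hasDerivWithinAt t hd
  have hev : γ =ᶠ[𝓝[s] t] Φ ∘ (Function.invFunOn Φ U ∘ γ) := by
    have : s ∩ v ∈ 𝓝[s] t := inter_mem_nhdsWithin s (hvo.mem_nhds ht.2)
    filter_upwards [this] with y hy
    exact (hp.rightInv (him y hy)).symm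
  exact (hcomp.congr_of_eventuallyEq hev h2.symm).derivWithin (hs t ht.1)

/-- one-sided velocities are tangent. -/
theorem g0_derivWithin_mem_tangent {s : Set ℝ} (hs : UniqueDiffOn ℝ s) (hγ : ContDiffOn ℝ 1 γ s)
    (hmem : ∀ t ∈ s, γ t ∈ 𝓜.carrier) {t : ℝ} (ht : t ∈ s) :
    derivWithin γ s t ∈ 𝓜.tangent (γ t) := by
  have hx := hmem t ht
  obtain ⟨v, hv, -, h2⟩ := g0_local_coord hs hγ hmem ht (𝓜.isHol_pΦ hx) (𝓜.mem_image_pΦ hx)
  exact ⟨_, ((h2 t ⟨ht, mem_of_mem_nhds hv⟩).2.2).symm⟩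

/-- continuity of the squared speed, version within a set. -/
theorem g0_speed_within {s : Set ℝ} (hs : UniqueDiffOn ℝ s) (hm : IsHForm 𝓜 h)
    (hγ : ContDiffOn ℝ 1 γ s) (hmem : ∀ t ∈ s, γ t ∈ 𝓜.carrier) :
    ContinuousOn (fun t => ambQ 𝓜 h (γ t) (derivWithin γ s t)) s := by
  intro t₀ ht₀
  obtain ⟨Φ, U, hΦ, hx⟩ := 𝓜.cover (γ t₀) (hmem t₀ ht₀)
  obtain ⟨v, hv, hcd, hall⟩ := g0_local_coord hs hγ hmem ht₀ hΦ hx
  set c := Function.invFunOn Φ U ∘ γ with hc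
  have hvo : IsOpen (interior v) := isOpen_interior
  have ht₀v : t₀ ∈ interior v := mem_interior_iff_mem_nhds.2 hv
  have hsub : s ∩ interior v ⊆ s ∩ v := Set.inter_subset_inter_right s interior_subset
  have hcd' : ContDiffOn ℝ 1 c (s ∩ interior v) := hcd.mono hsub
  have hu : UniqueDiffOn ℝ (s ∩ interior v) := hs.inter hvo
  have hder : ContinuousOn (derivWithin c s) (s ∩ interior v) := by
    refine (hcd'.continuousOn_derivWithin hu le_rfl).congr fun t ht => ?_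
    exact (derivWithin_inter (hvo.mem_nhds ht.2)).symm
  have hcc : ContinuousOn c (s ∩ interior v) := hcd'.continuousOn
  have hmaps : Set.MapsTo c (s ∩ interior v) U := fun t ht => (hall t (hsub ht)).1
  have hF : ContinuousOn (fun t => qf (h Φ (c t)) (derivWithin c s t : CE ι)) (s ∩ interior v) := by
    simp only [qf_eq_sum]
    refine Complex.continuous_re.comp_continuousOn ?_
    refine continuousOn_finsetSum _ fun j _ => continuousOn_finsetSum _ fun k _ => ?_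
    have hj : ∀ j : ι, ContinuousOn (fun t => (derivWithin c s t : CE ι) j) (s ∩ interior v) :=
      fun j => (EuclideanSpace.proj (𝕜 := ℂ) j).continuous.comp_continuousOn hder
    exact ((Complex.continuous_conj.comp_continuousOn (hj j)).mul
      (((hm.smooth hΦ j k).continuousOn).comp hcc hmaps)).mul (hj k)
  have hmemN : s ∩ interior v ∈ 𝓝[s] t₀ := inter_mem_nhdsWithin s (hvo.mem_nhds ht₀v)
  have hev : ∀ t ∈ s ∩ interior v, ambQ 𝓜 h (γ t) (derivWithin γ s t) =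
      qf (h Φ (c t)) (derivWithin c s t : CE ι) := by
    intro t ht
    obtain ⟨h1, h2, h3⟩ := hall t (hsub ht)
    rw [h3, ← h2]
    exact ambQ_param hm hΦ h1 _
  have h1 : ContinuousWithinAt (fun t => qf (h Φ (c t)) (derivWithin c s t : CE ι)) s t₀ :=
    (hF t₀ ⟨ht₀, ht₀v⟩).mono_of_mem_nhdsWithin hmemN
  refine h1.congr_of_eventuallyEq ?_ (hev t₀ ⟨ht₀, ht₀v⟩)
  filter_upwards [hmemN] with t ht
  exact hev t ht

theorem IsC1Curve.continuous_ambQ (hm : IsHForm 𝓜 h) (hγ : IsC1Curve 𝓜 γ) :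
    Continuous fun t => ambQ 𝓜 h (γ t) (deriv γ t) := by
  have := g0_speed_within (s := Set.univ) uniqueDiffOn_univ hm hγ.1.contDiffOn (fun t _ => hγ.2 t)
  simpa [derivWithin_univ, continuousOn_univ] using this

theorem IsC1Curve.comp (hγ : IsC1Curve 𝓜 γ) {φ : ℝ → ℝ} (hφ : ContDiff ℝ 1 φ) :
    IsC1Curve 𝓜 (γ ∘ φ) :=
  ⟨hγ.1.comp hφ, fun t => hγ.2 (φ t)⟩

theorem isC1Curve_const {x : V} (hx : x ∈ 𝓜.carrier) : IsC1Curve 𝓜 (fun _ => x) :=
  ⟨contDiff_const, fun _ => hx⟩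

theorem IsC1Curve.differentiableAt (hγ : IsC1Curve 𝓜 γ) (t : ℝ) : DifferentiableAt ℝ γ t :=
  (hγ.1.differentiable (by simp)) t

theorem IsC1Curve.deriv_mem_tangent (hγ : IsC1Curve 𝓜 γ) (t : ℝ) : deriv γ t ∈ 𝓜.tangent (γ t) :=
  CMfd.deriv_mem_tangent (hγ.differentiableAt t) (Filter.Eventually.of_forall hγ.2)

/-- the speed is continuous. -/
theorem IsC1Curve.continuous_speed (hm : IsHForm 𝓜 h) (hγ : IsC1Curve 𝓜 γ) :
    Continuous fun t => Real.sqrt (ambQ 𝓜 h (γ t) (deriv γ t)) :=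
  Real.continuous_sqrt.comp (hγ.continuous_ambQ hm)

theorem len_nonneg (𝓜 : CMfd V ι) (h : HFam V ι) (γ : ℝ → V) {a b : ℝ} (hab : a ≤ b) :
    0 ≤ len 𝓜 h γ a b :=
  intervalIntegral.integral_nonneg hab fun _ _ => Real.sqrt_nonneg _

theorem len_self (𝓜 : CMfd V ι) (h : HFam V ι) (γ : ℝ → V) (a : ℝ) : len 𝓜 h γ a a = 0 :=
  intervalIntegral.integral_same

theorem len_add (hm : IsHForm 𝓜 h) (hγ : IsC1Curve 𝓜 γ) (a b c : ℝ) :
    len 𝓜 h γ a b + len 𝓜 h γ b c = len 𝓜 h γ a c :=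
  intervalIntegral.integral_add_adjacent_intervals
    ((hγ.continuous_speed hm).intervalIntegrable _ _) ((hγ.continuous_speed hm).intervalIntegrable _ _)

/-- `t ↦ len γ a t` is `C¹` with derivative the speed. -/
theorem hasDerivAt_len (hm : IsHForm 𝓜 h) (hγ : IsC1Curve 𝓜 γ) (a t : ℝ) :
    HasDerivAt (fun s => len 𝓜 h γ a s) (Real.sqrt (ambQ 𝓜 h (γ t) (deriv γ t))) t :=
  intervalIntegral.integral_hasDerivAt_right ((hγ.continuous_speed hm).intervalIntegrable _ _)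
    ((hγ.continuous_speed hm).stronglyMeasurableAtFilter _ _) (hγ.continuous_speed hm).continuousAt

/-- monotonicity of the length in the end point. -/
theorem len_le_len (hm : IsHForm 𝓜 h) (hγ : IsC1Curve 𝓜 γ) {a b c : ℝ} (hbc : b ≤ c) :
    len 𝓜 h γ a b ≤ len 𝓜 h γ a c := by
  rw [← len_add hm hγ a b c]
  linarith [len_nonneg 𝓜 h γ hbc]

/-- invariance under monotone `C¹` reparametrisation. -/
theorem len_comp (hm : IsMetric 𝓜 h) (hγ : IsC1Curve 𝓜 γ) {φ : ℝ → ℝ} (hφ : ContDiff ℝ 1 φ)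
    (hmono : Monotone φ) (a b : ℝ) : len 𝓜 h (γ ∘ φ) a b = len 𝓜 h γ (φ a) (φ b) := by
  have hφd : ∀ t, HasDerivAt φ (deriv φ t) t := fun t =>
    (hφ.differentiable (by norm_num) t).hasDerivAt
  have e : ∀ t, Real.sqrt (ambQ 𝓜 h ((γ ∘ φ) t) (deriv (γ ∘ φ) t)) =
      ((fun s => Real.sqrt (ambQ 𝓜 h (γ s) (deriv γ s))) ∘ φ) t * deriv φ t := by
    intro t
    have h1 : deriv (γ ∘ φ) t = deriv φ t • deriv γ (φ t) :=
      ((hγ.differentiableAt (φ t)).hasDerivAt.scomp t (hφd t)).deriv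
    rw [h1, Function.comp_apply, ambQ_smul (hγ.2 _) (hγ.deriv_mem_tangent _),
      Real.sqrt_mul (sq_nonneg _), Real.sqrt_sq hmono.deriv_nonneg, mul_comm]
    rfl
  unfold len
  simp only [e]
  exact intervalIntegral.integral_comp_mul_deriv (fun t _ => hφd t)
    (hφ.continuous_deriv le_rfl).continuousOn (hγ.continuous_speed hm.toIsHForm)

/-- reversal. -/
theorem len_reverse (hm : IsMetric 𝓜 h) (hγ : IsC1Curve 𝓜 γ) (a b : ℝ) :
    len 𝓜 h (fun t => γ (a + b - t)) a b = len 𝓜 h γ a b := by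
  have e : ∀ t, Real.sqrt (ambQ 𝓜 h (γ (a + b - t)) (deriv (fun t => γ (a + b - t)) t)) =
      (fun s => Real.sqrt (ambQ 𝓜 h (γ s) (deriv γ s))) (a + b - t) := by
    intro t
    have h0 : HasDerivAt (fun t : ℝ => a + b - t) (-1) t := by
      simpa using (hasDerivAt_id t).const_sub (a + b)
    have h1 : deriv (fun t => γ (a + b - t)) t = (-1 : ℝ) • deriv γ (a + b - t) :=
      ((hγ.differentiableAt (a + b - t)).hasDerivAt.scomp t h0).deriv
    rw [h1, neg_one_smul, ambQ_neg (hγ.2 _) (hγ.deriv_mem_tangent _)]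
  unfold len
  simp only [e]
  rw [intervalIntegral.integral_comp_sub_left (fun s => Real.sqrt (ambQ 𝓜 h (γ s) (deriv γ s)))]
  simp

theorem len_mono (hm : IsHForm 𝓜 h) (hm' : IsHForm 𝓜 h') (hle : leF 𝓜 h h') (hγ : IsC1Curve 𝓜 γ)
    {a b : ℝ} (hab : a ≤ b) : len 𝓜 h γ a b ≤ len 𝓜 h' γ a b :=
  intervalIntegral.integral_mono_on hab ((hγ.continuous_speed hm).intervalIntegrable _ _)
    ((hγ.continuous_speed hm').intervalIntegrable _ _)
    fun t _ => Real.sqrt_le_sqrt (ambQ_mono hle (hγ.2 t) _)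

/-- length in one parametrisation. -/
theorem len_param (hm : IsHForm 𝓜 h) {Φ : CE ι → V} {U : Set (CE ι)} (hΦ : 𝓜.IsHol Φ U)
    {c : ℝ → CE ι} {a b : ℝ} (hab : a ≤ b) (hc : ∀ t ∈ Set.Icc a b, DifferentiableAt ℝ c t ∧ c t ∈ U) :
    len 𝓜 h (Φ ∘ c) a b = ∫ t in a..b, Real.sqrt (qf (h Φ (c t)) (deriv c t : CE ι)) := by
  unfold len
  refine intervalIntegral.integral_congr fun t ht => ?_
  rw [Set.uIcc_of_le hab] at ht
  obtain ⟨h1, h2⟩ := hc t ht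
  have h3 : deriv (Φ ∘ c) t = fderiv ℝ Φ (c t) (deriv c t) :=
    (((𝓜.isParam hΦ).differentiableAt h2).hasFDerivAt.comp_hasDerivAt t h1.hasDerivAt).deriv
  simp only [h3, Function.comp_apply]
  rw [ambQ_param hm hΦ h2]

/-- any `C¹` curve bounds the distance of its end points. -/
theorem hdist_le_len (hm : IsMetric 𝓜 h) (hγ : IsC1Curve 𝓜 γ) {a b : ℝ} (hab : a ≤ b) :
    hdist 𝓜 h (γ a) (γ b) ≤ len 𝓜 h γ a b := by
  have hφ : ContDiff ℝ 1 (fun t : ℝ => a + t * (b - a)) := by fun_prop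
  have hmono : Monotone (fun t : ℝ => a + t * (b - a)) := by
    intro s t hst
    have : 0 ≤ b - a := sub_nonneg.2 hab
    simp only
    nlinarith
  have hl := len_comp hm hγ hφ hmono 0 1
  simp only [zero_mul, add_zero, one_mul, add_sub_cancel] at hl
  rw [← hl]
  unfold hdist
  refine csInf_le ⟨0, ?_⟩ ⟨_, hγ.comp hφ, by simp, by simp, rfl⟩
  rintro _ ⟨σ, -, -, -, rfl⟩
  exact len_nonneg 𝓜 h σ zero_le_one

/-- the same for curves which are only defined and `C¹` on a compact interval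
(stopping reparametrisation). -/
theorem hdist_le_integral_of_contDiffOn (hm : IsMetric 𝓜 h) {a b : ℝ} (hab : a ≤ b)
    (hγ : ContDiffOn ℝ 1 γ (Set.Icc a b)) (hmem : ∀ t ∈ Set.Icc a b, γ t ∈ 𝓜.carrier) :
    hdist 𝓜 h (γ a) (γ b) ≤
      ∫ t in a..b, Real.sqrt (ambQ 𝓜 h (γ t) (derivWithin γ (Set.Icc a b) t)) := by
  rcases hab.eq_or_lt with rfl | hlt
  · rw [intervalIntegral.integral_same]
    have hx : γ a ∈ 𝓜.carrier := hmem a ⟨le_rfl, le_rfl⟩
    have := hdist_le_len hm (isC1Curve_const hx) (a := 0) (b := 1) zero_le_one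
    refine this.trans (le_of_eq ?_)
    unfold len
    simp [ambQ_zero hx]
  · set φ : ℝ → ℝ := fun t => a + (b - a) * Real.smoothTransition t with hφdef
    have hba : 0 < b - a := sub_pos.2 hlt
    have hφc : ContDiff ℝ 1 φ :=
      contDiff_const.add (contDiff_const.mul Real.smoothTransition.contDiff)
    have hφm : ∀ t, φ t ∈ Set.Icc a b := by
      intro t
      have h0 := Real.smoothTransition.nonneg t
      have h1 := Real.smoothTransition.le_one t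
      constructor
      · simp only [hφdef]; nlinarith
      · simp only [hφdef]; nlinarith
    have hmono : Monotone φ := fun s t hst => by
      have := Real.smoothTransition.monotone hst
      simp only [hφdef]; nlinarith
    have hφ0 : φ 0 = a := by simp [hφdef]
    have hφ1 : φ 1 = b := by simp [hφdef]
    have hu : UniqueDiffOn ℝ (Set.Icc a b) := uniqueDiffOn_Icc hlt
    have hσ : IsC1Curve 𝓜 (γ ∘ φ) := by
      refine ⟨?_, fun t => hmem _ (hφm t)⟩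
      rw [← contDiffOn_univ]
      exact hγ.comp hφc.contDiffOn (fun t _ => hφm t)
    have hφd : ∀ t, HasDerivAt φ (deriv φ t) t := fun t =>
      (hφc.differentiable (by norm_num) t).hasDerivAt
    have e : ∀ t, Real.sqrt (ambQ 𝓜 h ((γ ∘ φ) t) (deriv (γ ∘ φ) t)) =
        ((fun s => Real.sqrt (ambQ 𝓜 h (γ s) (derivWithin γ (Set.Icc a b) s))) ∘ φ) t
          * deriv φ t := by
      intro t
      have hdw : HasDerivWithinAt γ (derivWithin γ (Set.Icc a b) (φ t)) (Set.Icc a b) (φ t) :=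
        ((hγ (φ t) (hφm t)).differentiableWithinAt (by norm_num)).hasDerivWithinAt
      have h1 : deriv (γ ∘ φ) t = deriv φ t • derivWithin γ (Set.Icc a b) (φ t) :=
        (hdw.scomp_hasDerivAt t (hφd t) hφm).deriv
      rw [h1, Function.comp_apply, ambQ_smul (hmem _ (hφm t))
        (g0_derivWithin_mem_tangent hu hγ hmem (hφm t)), Real.sqrt_mul (sq_nonneg _),
        Real.sqrt_sq hmono.deriv_nonneg, mul_comm]
      rfl
    have h1 := hdist_le_len hm hσ (a := 0) (b := 1) zero_le_one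
    simp only [Function.comp_apply, hφ0, hφ1] at h1
    refine h1.trans (le_of_eq ?_)
    unfold len
    simp only [e]
    have h2 := intervalIntegral.integral_comp_mul_deriv_of_deriv_nonneg (a := 0) (b := 1) (f := φ)
      (f' := deriv φ)
      (g := fun s => Real.sqrt (ambQ 𝓜 h (γ s) (derivWithin γ (Set.Icc a b) s)))
      hφc.continuous.continuousOn (fun t _ => hφd t) (fun t _ => hmono.deriv_nonneg)
    rw [h2, hφ0, hφ1]

/-- the same in one parametrisation. -/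
theorem hdist_le_integral_param (hm : IsMetric 𝓜 h) {Φ : CE ι → V} {U : Set (CE ι)}
    (hΦ : 𝓜.IsHol Φ U) {c : ℝ → CE ι} {a b : ℝ} (hab : a ≤ b)
    (hc : ContDiffOn ℝ 1 c (Set.Icc a b)) (hmem : ∀ t ∈ Set.Icc a b, c t ∈ U) :
    hdist 𝓜 h (Φ (c a)) (Φ (c b)) ≤
      ∫ t in a..b, Real.sqrt (qf (h Φ (c t)) (derivWithin c (Set.Icc a b) t : CE ι)) := by
  have hp := 𝓜.isParam hΦ
  have hγ : ContDiffOn ℝ 1 (Φ ∘ c) (Set.Icc a b) :=
    (hp.smooth.of_le (by exact_mod_cast le_top)).comp hc hmem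
  have h1 := hdist_le_integral_of_contDiffOn hm hab hγ (fun t ht => hp.mem (hmem t ht))
  rcases hab.eq_or_lt with rfl | hlt
  · rw [intervalIntegral.integral_same] at h1 ⊢
    exact h1
  · refine h1.trans (le_of_eq ?_)
    refine intervalIntegral.integral_congr fun t ht => ?_
    rw [Set.uIcc_of_le hab] at ht
    have hd : HasDerivWithinAt c (derivWithin c (Set.Icc a b) t) (Set.Icc a b) t :=
      ((hc t ht).differentiableWithinAt (by norm_num)).hasDerivWithinAt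
    have h3 : derivWithin (Φ ∘ c) (Set.Icc a b) t =
        fderiv ℝ Φ (c t) (derivWithin c (Set.Icc a b) t) :=
      ((hp.differentiableAt (hmem t ht)).hasFDerivAt.comp_hasDerivWithinAt t hd).derivWithin
        (uniqueDiffOn_Icc hlt t ht)
    simp only [h3, Function.comp_apply]
    rw [ambQ_param hm.toIsHForm hΦ (hmem t ht)]

end curves

end Claimed.Agent.R316
end

/- ===== packed: Claimed.Agent.R316.Base.Metric.Join ===== -/
section
/-!
# Row 316 base layer, `BP-G0`, leaf `G0-3`: concatenation, connectedness by `C¹` curves, `hdist` is a (pseudo)distance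

Statements: helper97 (export file `Api.lean`, end of section 2 and section 3).  Sub-captain of `BP-G0`: helper268.

RECIPE.  `σ := Real.smoothTransition` (`C^∞`, monotone, `0` on `(-∞,0]`, `1` on `[1,∞)`, values in `[0,1]`).
* `g0_stop`: `γ ∘ σ` has the same end points and the same length on `[0,1]` (`len_comp`), and its image is `γ '' Icc 0 1`.
* `g0_join` (NO if-then-else): `γ t := γ₁ (σ (2 t)) + γ₂ (σ (2 t - 1)) - y`, `y = γ₁ 1 = γ₂ 0`.  `C¹` as a sum.  For `t ≤ 1/2`: `σ (2t-1) = 0`, so `γ t = γ₁ (σ (2t))`;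
  for `t ≥ 1/2`: `σ (2t) = 1`, so `γ t = γ₂ (σ (2t-1))`.  So `γ` is in the carrier.  Length: `len γ 0 1 = len γ 0 (1/2) + len γ (1/2) 1` (`len_add`); on the OPEN interval
  `Ioo 0 (1/2)`, `γ` coincides near `t` with `γ₁ ∘ (σ ∘ (2 * ·))`, so the integrands agree there (`Filter.EventuallyEq.deriv_eq`); `intervalIntegral.integral_congr_ae` (or
  `integral_Ioc_eq_integral_Ioo`); then `len_comp`.
* `exists_c1Curve`: `R x y := ∃ γ, IsC1Curve 𝓜 γ ∧ γ 0 = x ∧ γ 1 = y` is symmetric (`γ (1 - t)`) and transitive (`g0_join`).  Local step `g0_local_curve`: in a centred parametrisation on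
  `ball 0 r` (`CMfd.exists_centred`) the curve `t ↦ Φ (σ t • w)` joins `Φ 0` to `Φ w`.  The image `Φ '' ball 0 r = carrier ∩ O`, `O` open.  So `{y | R x y}` and its complement in the
  carrier are both of the form `carrier ∩ (open)`; `IsPreconnected` of the carrier.
* `exists_curve_speed_le`: take `γ₀` with `ℓ₀ := len γ₀ 0 1 < L` (`g0_exists_curve_lt`), `ε := (L - ℓ₀)/2 > 0`, `S t := len γ₀ 0 t + ε t`: `C¹`, `S' = speed + ε ≥ ε > 0`, so `S` is a strictly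
  monotone bijection of `ℝ` with `C¹` inverse `T` (`T' = 1/S'(T)`; `HasDerivAt.of_local_left_inverse`, `contDiff_one_iff_deriv`); `S 0 = 0`, `S 1 = ℓ₀ + ε =: Λ < L`.
  `γ t := γ₀ (T (Λ t))`: speed `= Λ * speed₀/(speed₀ + ε) ≤ Λ ≤ L`, `len γ 0 1 = ℓ₀` by `len_comp`.
* `hdist_triangle`: `le_of_forall_pos_le_add`, two almost minimizing curves, `g0_join`, `csInf_le`.
-/

set_option autoImplicit false
set_option linter.unusedSectionVars false
set_option linter.unusedVariables false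
open scoped ContDiff ComplexOrder Topology
open MeasureTheory

namespace Claimed.Agent.R316

variable {V : Type} [NormedAddCommGroup V] [NormedSpace ℝ V] [FiniteDimensional ℝ V]
variable {ι : Type} [Fintype ι] [DecidableEq ι]
variable {𝓜 : CMfd V ι} {h h' : HFam V ι}

section join

variable {γ : ℝ → V}

/-- the set of lengths in the definition of `hdist` is bounded below. -/
theorem g0_bddBelow (𝓜 : CMfd V ι) (h : HFam V ι) (x y : V) :
    BddBelow {L : ℝ | ∃ γ : ℝ → V, IsC1Curve 𝓜 γ ∧ γ 0 = x ∧ γ 1 = y ∧ L = len 𝓜 h γ 0 1} :=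
  ⟨0, by rintro _ ⟨γ, -, -, -, rfl⟩; exact len_nonneg 𝓜 h γ zero_le_one⟩

/-- stopping: the curve `γ ∘ smoothTransition` only uses `γ` on `[0,1]`. -/
theorem g0_stop (hγ : IsC1Curve 𝓜 γ) :
    IsC1Curve 𝓜 (γ ∘ Real.smoothTransition) ∧ (γ ∘ Real.smoothTransition) 0 = γ 0 ∧
      (γ ∘ Real.smoothTransition) 1 = γ 1 ∧
      (∀ t, (γ ∘ Real.smoothTransition) t ∈ γ '' Set.Icc 0 1) ∧
      ∀ h : HFam V ι, IsMetric 𝓜 h → len 𝓜 h (γ ∘ Real.smoothTransition) 0 1 = len 𝓜 h γ 0 1 := by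
  refine ⟨hγ.comp Real.smoothTransition.contDiff, by simp, by simp, fun t =>
    ⟨_, ⟨Real.smoothTransition.nonneg t, Real.smoothTransition.le_one t⟩, rfl⟩, fun h hm => ?_⟩
  rw [len_comp hm hγ Real.smoothTransition.contDiff Real.smoothTransition.monotone,
    Real.smoothTransition.zero, Real.smoothTransition.one]

/-- interval integrals only depend on the values in the open interval. -/
theorem g0_integral_congr_Ioo {f g : ℝ → ℝ} {a b : ℝ} (hab : a ≤ b)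
    (hfg : ∀ t ∈ Set.Ioo a b, f t = g t) : ∫ t in a..b, f t = ∫ t in a..b, g t := by
  rw [intervalIntegral.integral_of_le hab, intervalIntegral.integral_of_le hab,
    integral_Ioc_eq_integral_Ioo, integral_Ioc_eq_integral_Ioo]
  exact setIntegral_congr_fun measurableSet_Ioo hfg

/-- lengths only depend on the germs of the curve at the interior times. -/
theorem g0_len_congr {γ γ' : ℝ → V} {a b : ℝ} (hab : a ≤ b)
    (hfg : ∀ t ∈ Set.Ioo a b, γ =ᶠ[𝓝 t] γ') (h : HFam V ι) :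
    len 𝓜 h γ a b = len 𝓜 h γ' a b := by
  unfold len
  refine g0_integral_congr_Ioo hab fun t ht => ?_
  rw [(hfg t ht).deriv_eq, (hfg t ht).eq_of_nhds]

/-- concatenation of two `C¹` curves. -/
theorem g0_join {γ₁ γ₂ : ℝ → V} (h₁ : IsC1Curve 𝓜 γ₁) (h₂ : IsC1Curve 𝓜 γ₂) (h12 : γ₁ 1 = γ₂ 0) :
    ∃ γ : ℝ → V, IsC1Curve 𝓜 γ ∧ γ 0 = γ₁ 0 ∧ γ 1 = γ₂ 1 ∧
      (∀ t, γ t ∈ γ₁ '' Set.Icc 0 1 ∪ γ₂ '' Set.Icc 0 1) ∧
      ∀ h : HFam V ι, IsMetric 𝓜 h → len 𝓜 h γ 0 1 = len 𝓜 h γ₁ 0 1 + len 𝓜 h γ₂ 0 1 := by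
  set φ₁ : ℝ → ℝ := fun t => Real.smoothTransition (2 * t) with hφ₁
  set φ₂ : ℝ → ℝ := fun t => Real.smoothTransition (2 * t - 1) with hφ₂
  have hc₁ : ContDiff ℝ 1 φ₁ := Real.smoothTransition.contDiff.comp (contDiff_const.mul contDiff_id)
  have hc₂ : ContDiff ℝ 1 φ₂ :=
    Real.smoothTransition.contDiff.comp ((contDiff_const.mul contDiff_id).sub contDiff_const)
  have hm₁ : Monotone φ₁ := fun s t hst => Real.smoothTransition.monotone (by linarith)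
  have hm₂ : Monotone φ₂ := fun s t hst => Real.smoothTransition.monotone (by linarith)
  set γ : ℝ → V := fun t => γ₁ (φ₁ t) + γ₂ (φ₂ t) - γ₁ 1 with hγ
  have hleft : ∀ t, t ≤ 1 / 2 → γ t = (γ₁ ∘ φ₁) t := by
    intro t ht
    have : φ₂ t = 0 := Real.smoothTransition.zero_of_nonpos (by linarith)
    simp only [hγ, this, ← h12, Function.comp_apply]
    abel
  have hright : ∀ t, 1 / 2 ≤ t → γ t = (γ₂ ∘ φ₂) t := by
    intro t ht
    have : φ₁ t = 1 := Real.smoothTransition.one_of_one_le (by linarith)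
    simp only [hγ, this, Function.comp_apply]
    abel
  have hC : IsC1Curve 𝓜 γ := by
    refine ⟨((h₁.1.comp hc₁).add (h₂.1.comp hc₂)).sub contDiff_const, fun t => ?_⟩
    rcases le_total t (1 / 2) with ht | ht
    · rw [hleft t ht]
      exact h₁.2 _
    · rw [hright t ht]
      exact h₂.2 _
  refine ⟨γ, hC, ?_, ?_, ?_, ?_⟩
  · rw [hleft 0 (by norm_num)]
    simp [hφ₁]
  · rw [hright 1 (by norm_num)]
    simp only [hφ₂, Function.comp_apply]
    norm_num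
  · intro t
    rcases le_total t (1 / 2) with ht | ht
    · rw [hleft t ht]
      exact Or.inl ⟨_, ⟨Real.smoothTransition.nonneg _, Real.smoothTransition.le_one _⟩, rfl⟩
    · rw [hright t ht]
      exact Or.inr ⟨_, ⟨Real.smoothTransition.nonneg _, Real.smoothTransition.le_one _⟩, rfl⟩
  · intro h hm
    rw [← len_add hm.toIsHForm hC 0 (1 / 2) 1]
    congr 1
    · rw [g0_len_congr (γ' := γ₁ ∘ φ₁) (by norm_num) (fun t ht => ?_) h, len_comp hm h₁ hc₁ hm₁]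
      · simp only [hφ₁]
        norm_num
      · filter_upwards [Iio_mem_nhds ht.2] with s hs
        exact hleft s (le_of_lt hs)
    · rw [g0_len_congr (γ' := γ₂ ∘ φ₂) (by norm_num) (fun t ht => ?_) h, len_comp hm h₂ hc₂ hm₂]
      · simp only [hφ₂]
        norm_num
      · filter_upwards [Ioi_mem_nhds ht.1] with s hs
        exact hright s (le_of_lt hs)

/-- reversal of a curve from `x` to `y`. -/
theorem g0_reverse (hγ : IsC1Curve 𝓜 γ) :
    IsC1Curve 𝓜 (fun t => γ (1 - t)) ∧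
      ∀ h : HFam V ι, IsMetric 𝓜 h → len 𝓜 h (fun t => γ (1 - t)) 0 1 = len 𝓜 h γ 0 1 := by
  refine ⟨hγ.comp (contDiff_const.sub contDiff_id), fun h hm => ?_⟩
  simpa using len_reverse hm hγ 0 1

/-- radial curves in a parametrisation defined on a ball. -/
theorem g0_local_curve {Φ : CE ι → V} {r : ℝ} (hΦ : 𝓜.IsHol Φ (Metric.ball 0 r)) {w : CE ι}
    (hw : w ∈ Metric.ball (0 : CE ι) r) :
    ∃ γ : ℝ → V, IsC1Curve 𝓜 γ ∧ γ 0 = Φ 0 ∧ γ 1 = Φ w := by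
  have hp := 𝓜.isParam hΦ
  have hmem : ∀ t : ℝ, Real.smoothTransition t • w ∈ Metric.ball (0 : CE ι) r := by
    intro t
    rw [mem_ball_zero_iff] at hw ⊢
    rw [norm_smul, Real.norm_eq_abs, abs_of_nonneg (Real.smoothTransition.nonneg t)]
    calc Real.smoothTransition t * ‖w‖ ≤ 1 * ‖w‖ :=
          mul_le_mul_of_nonneg_right (Real.smoothTransition.le_one t) (norm_nonneg _)
      _ < r := by rwa [one_mul]
  refine ⟨fun t => Φ (Real.smoothTransition t • w), ⟨?_, fun t => hp.mem (hmem t)⟩, by simp,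
    by simp⟩
  rw [← contDiffOn_univ]
  have h1 : ContDiff ℝ 1 (fun t : ℝ => Real.smoothTransition t • w) :=
    Real.smoothTransition.contDiff.smul contDiff_const
  exact (hp.smooth.of_le (by exact_mod_cast le_top)).comp h1.contDiffOn (fun t _ => hmem t)

/-- a connected carrier is connected by `C¹` curves. -/
theorem exists_c1Curve (hconn : IsConnected 𝓜.carrier) {x y : V} (hx : x ∈ 𝓜.carrier)
    (hy : y ∈ 𝓜.carrier) : ∃ γ : ℝ → V, IsC1Curve 𝓜 γ ∧ γ 0 = x ∧ γ 1 = y := by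
  set R : V → V → Prop := fun x y => ∃ γ : ℝ → V, IsC1Curve 𝓜 γ ∧ γ 0 = x ∧ γ 1 = y with hR
  have hsymm : ∀ {a b}, R a b → R b a := by
    rintro a b ⟨γ, hγ, h0, h1⟩
    exact ⟨_, (g0_reverse hγ).1, by simpa using h1, by simpa using h0⟩
  have htrans : ∀ {a b c}, R a b → R b c → R a c := by
    rintro a b c ⟨γ₁, hγ₁, h0, h1⟩ ⟨γ₂, hγ₂, h0', h1'⟩
    obtain ⟨γ, hγ, e0, e1, -⟩ := g0_join hγ₁ hγ₂ (h1.trans h0'.symm)
    exact ⟨γ, hγ, e0.trans h0, e1.trans h1'⟩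
  have hloc : ∀ p ∈ 𝓜.carrier, ∃ O : Set V, IsOpen O ∧ p ∈ O ∧ ∀ q ∈ 𝓜.carrier ∩ O, R p q := by
    intro p hp
    obtain ⟨Φ, r, hr, hΦ, h0⟩ := 𝓜.exists_centred hp
    obtain ⟨O, hO, hOe⟩ := (𝓜.isParam hΦ).image
    have hpO : p ∈ 𝓜.carrier ∩ O := by
      rw [← hOe]
      exact ⟨0, Metric.mem_ball_self hr, h0⟩
    refine ⟨O, hO, hpO.2, fun q hq => ?_⟩
    rw [← hOe] at hq
    obtain ⟨w, hw, rfl⟩ := hq
    rw [← h0]
    exact g0_local_curve hΦ hw
  choose! O hOo hpO hOR using hloc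
  by_contra hcon
  set u : Set V := ⋃ p ∈ {p | p ∈ 𝓜.carrier ∧ R x p}, O p with hu
  set v : Set V := ⋃ p ∈ {p | p ∈ 𝓜.carrier ∧ ¬ R x p}, O p with hv
  have huo : IsOpen u := isOpen_biUnion fun p hp => hOo p hp.1
  have hvo : IsOpen v := isOpen_biUnion fun p hp => hOo p hp.1
  have hcov : 𝓜.carrier ⊆ u ∪ v := by
    intro p hp
    by_cases hxp : R x p
    · exact Or.inl (Set.mem_biUnion (show p ∈ {p | p ∈ 𝓜.carrier ∧ R x p} from ⟨hp, hxp⟩) (hpO p hp))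
    · exact Or.inr (Set.mem_biUnion (show p ∈ {p | p ∈ 𝓜.carrier ∧ ¬ R x p} from ⟨hp, hxp⟩)
        (hpO p hp))
  have hxx : R x x := ⟨fun _ => x, isC1Curve_const hx, rfl, rfl⟩
  have hne1 : (𝓜.carrier ∩ u).Nonempty :=
    ⟨x, hx, Set.mem_biUnion (show x ∈ {p | p ∈ 𝓜.carrier ∧ R x p} from ⟨hx, hxx⟩) (hpO x hx)⟩
  have hne2 : (𝓜.carrier ∩ v).Nonempty :=
    ⟨y, hy, Set.mem_biUnion (show y ∈ {p | p ∈ 𝓜.carrier ∧ ¬ R x p} from ⟨hy, hcon⟩) (hpO y hy)⟩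
  obtain ⟨p, hp, hpu, hpv⟩ := hconn.isPreconnected u v huo hvo hcov hne1 hne2
  obtain ⟨p1, ⟨hp1, hxp1⟩, hpp1⟩ := Set.mem_iUnion₂.1 hpu
  obtain ⟨p2, ⟨hp2, hxp2⟩, hpp2⟩ := Set.mem_iUnion₂.1 hpv
  exact hxp2 (htrans (htrans hxp1 (hOR p1 hp1 p ⟨hp, hpp1⟩)) (hsymm (hOR p2 hp2 p ⟨hp, hpp2⟩)))

/-- almost minimizing curves. -/
theorem g0_exists_curve_lt (hconn : IsConnected 𝓜.carrier) {x y : V}
    (hx : x ∈ 𝓜.carrier) (hy : y ∈ 𝓜.carrier) {L : ℝ} (hL : hdist 𝓜 h x y < L) :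
    ∃ γ : ℝ → V, IsC1Curve 𝓜 γ ∧ γ 0 = x ∧ γ 1 = y ∧ len 𝓜 h γ 0 1 < L := by
  obtain ⟨γ₀, h0, h1, h2⟩ := exists_c1Curve hconn hx hy
  obtain ⟨_, ⟨γ, hγ, hγ0, hγ1, rfl⟩, hlt⟩ :=
    exists_lt_of_csInf_lt (s := {L : ℝ | ∃ γ : ℝ → V, IsC1Curve 𝓜 γ ∧ γ 0 = x ∧ γ 1 = y ∧
      L = len 𝓜 h γ 0 1}) ⟨_, γ₀, h0, h1, h2, rfl⟩ hL
  exact ⟨γ, hγ, hγ0, hγ1, hlt⟩

/-- a `C¹` function on `ℝ` with derivative `≥ ε > 0` has a `C¹` inverse. -/
theorem g0_exists_inverse {S : ℝ → ℝ} (hS : ContDiff ℝ 1 S) {ε : ℝ} (hε : 0 < ε)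
    (hder : ∀ t, ε ≤ deriv S t) :
    ∃ T : ℝ → ℝ, ContDiff ℝ 1 T ∧ Monotone T ∧ (∀ u, S (T u) = u) ∧ (∀ t, T (S t) = t) ∧
      ∀ u, deriv T u = (deriv S (T u))⁻¹ := by
  have hd : Differentiable ℝ S := hS.differentiable (by norm_num)
  have hsm : StrictMono S := strictMono_of_deriv_pos fun t => hε.trans_le (hder t)
  have hg : Monotone (fun t => S t - ε * t) := by
    refine monotone_of_deriv_nonneg (hd.sub ((differentiable_const ε).mul differentiable_id))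
      fun t => ?_
    have : HasDerivAt (fun t => S t - ε * t) (deriv S t - ε * 1) t :=
      (hd t).hasDerivAt.sub ((hasDerivAt_id t).const_mul ε)
    rw [this.deriv]
    linarith [hder t]
  have htop : Filter.Tendsto S Filter.atTop Filter.atTop := by
    have h1 : Filter.Tendsto (fun t : ℝ => S 0 + ε * t) Filter.atTop Filter.atTop :=
      Filter.tendsto_atTop_add_const_left _ _ (Filter.tendsto_id.const_mul_atTop hε)
    refine Filter.tendsto_atTop_mono' _ ?_ h1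
    filter_upwards [Filter.eventually_ge_atTop (0 : ℝ)] with t ht
    have := hg ht
    simp only [mul_zero, sub_zero] at this
    linarith
  have hbot : Filter.Tendsto S Filter.atBot Filter.atBot := by
    have h1 : Filter.Tendsto (fun t : ℝ => S 0 + ε * t) Filter.atBot Filter.atBot :=
      Filter.tendsto_atBot_add_const_left _ _ (Filter.tendsto_id.const_mul_atBot hε)
    refine Filter.tendsto_atBot_mono' _ ?_ h1
    filter_upwards [Filter.eventually_le_atBot (0 : ℝ)] with t ht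
    have := hg ht
    simp only [mul_zero, sub_zero] at this
    linarith
  have hsurj : Function.Surjective S := hS.continuous.surjective htop hbot
  set e : ℝ ≃o ℝ := hsm.orderIsoOfSurjective S hsurj with he
  have heS : ∀ t, e t = S t := fun t => rfl
  have h1 : ∀ u, S (e.symm u) = u := fun u => by rw [← heS, e.apply_symm_apply]
  have h2 : ∀ t, e.symm (S t) = t := fun t => by rw [← heS, e.symm_apply_apply]
  have hT : ∀ u, HasDerivAt e.symm (deriv S (e.symm u))⁻¹ u := fun u =>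
    HasDerivAt.of_local_left_inverse e.symm.continuous.continuousAt (hd _).hasDerivAt
      (hε.trans_le (hder _)).ne' (Filter.Eventually.of_forall h1)
  have hTd : ∀ u, deriv e.symm u = (deriv S (e.symm u))⁻¹ := fun u => (hT u).deriv
  refine ⟨e.symm, ?_, e.symm.monotone, h1, h2, hTd⟩
  rw [contDiff_one_iff_deriv]
  refine ⟨fun u => (hT u).differentiableAt, ?_⟩
  have : deriv e.symm = fun u => (deriv S (e.symm u))⁻¹ := funext hTd
  rw [this]
  exact ((hS.continuous_deriv le_rfl).comp e.symm.continuous).inv₀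
    fun u => (hε.trans_le (hder _)).ne'

/-- almost minimizing curves, run at almost constant speed. -/
theorem exists_curve_speed_le (hm : IsMetric 𝓜 h) (hconn : IsConnected 𝓜.carrier) {x y : V}
    (hx : x ∈ 𝓜.carrier) (hy : y ∈ 𝓜.carrier) {L : ℝ} (hL : hdist 𝓜 h x y < L) :
    ∃ γ : ℝ → V, IsC1Curve 𝓜 γ ∧ γ 0 = x ∧ γ 1 = y ∧ len 𝓜 h γ 0 1 < L ∧
      ∀ t, ambQ 𝓜 h (γ t) (deriv γ t) ≤ L ^ 2 := by
  obtain ⟨γ₀, hγ₀, h0, h1, hlt⟩ := g0_exists_curve_lt hconn hx hy hL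
  set ℓ₀ := len 𝓜 h γ₀ 0 1 with hℓ₀
  have hℓ0 : 0 ≤ ℓ₀ := len_nonneg 𝓜 h γ₀ zero_le_one
  set ε : ℝ := (L - ℓ₀) / 2 with hε
  have hεpos : 0 < ε := by
    rw [hε]
    linarith
  set sp : ℝ → ℝ := fun t => Real.sqrt (ambQ 𝓜 h (γ₀ t) (deriv γ₀ t)) with hsp
  have hspc : Continuous sp := hγ₀.continuous_speed hm.toIsHForm
  have hsp0 : ∀ t, 0 ≤ sp t := fun t => Real.sqrt_nonneg _
  set S : ℝ → ℝ := fun t => len 𝓜 h γ₀ 0 t + ε * t with hS
  have hSd : ∀ t, HasDerivAt S (sp t + ε) t := fun t => by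
    have := (hasDerivAt_len hm.toIsHForm hγ₀ 0 t).add ((hasDerivAt_id t).const_mul ε)
    rw [mul_one] at this
    exact this
  have hSder : deriv S = fun t => sp t + ε := funext fun t => (hSd t).deriv
  have hSc : ContDiff ℝ 1 S := by
    rw [contDiff_one_iff_deriv]
    refine ⟨fun t => (hSd t).differentiableAt, ?_⟩
    rw [hSder]
    exact hspc.add continuous_const
  obtain ⟨T, hTc, hTm, hST, hTS, hTd⟩ := g0_exists_inverse hSc hεpos (fun t => by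
    rw [hSder]
    linarith [hsp0 t])
  have hS0 : S 0 = 0 := by simp [hS, len_self]
  set Λ : ℝ := ℓ₀ + ε with hΛ
  have hS1 : S 1 = Λ := by simp [hS, hΛ, hℓ₀]
  have hΛpos : 0 < Λ := by positivity
  have hΛL : Λ ≤ L := by
    rw [hΛ, hε]
    linarith
  set φ : ℝ → ℝ := fun t => T (Λ * t) with hφ
  have hφc : ContDiff ℝ 1 φ := hTc.comp (contDiff_const.mul contDiff_id)
  have hφm : Monotone φ := fun s t hst => hTm (mul_le_mul_of_nonneg_left hst hΛpos.le)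
  have hφ0 : φ 0 = 0 := by
    simp only [hφ, mul_zero]
    have := hTS 0
    rwa [hS0] at this
  have hφ1 : φ 1 = 1 := by
    simp only [hφ, mul_one]
    have := hTS 1
    rwa [hS1] at this
  refine ⟨γ₀ ∘ φ, hγ₀.comp hφc, by simp [hφ0, h0], by simp [hφ1, h1], ?_, fun t => ?_⟩
  · rw [len_comp hm hγ₀ hφc hφm, hφ0, hφ1]
    exact hlt
  · have hφd : HasDerivAt φ ((sp (φ t) + ε)⁻¹ * (Λ * 1)) t := by
      have hT1 : HasDerivAt T (sp (T (Λ * t)) + ε)⁻¹ (Λ * t) := by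
        have := (hTc.differentiable (by norm_num) (Λ * t)).hasDerivAt
        rw [hTd, hSder] at this
        exact this
      exact hT1.comp t ((hasDerivAt_id t).const_mul Λ)
    have hder : deriv (γ₀ ∘ φ) t = ((sp (φ t) + ε)⁻¹ * (Λ * 1)) • deriv γ₀ (φ t) :=
      ((hγ₀.differentiableAt (φ t)).hasDerivAt.scomp t hφd).deriv
    rw [hder, Function.comp_apply, ambQ_smul (hγ₀.2 _) (hγ₀.deriv_mem_tangent _)]
    have hq : ambQ 𝓜 h (γ₀ (φ t)) (deriv γ₀ (φ t)) = sp (φ t) ^ 2 :=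
      (Real.sq_sqrt (ambQ_nonneg hm (hγ₀.2 _) _)).symm
    rw [hq, ← mul_pow]
    have hs := hsp0 (φ t)
    have hpos : 0 < sp (φ t) + ε := by linarith
    have hle : (sp (φ t) + ε)⁻¹ * (Λ * 1) * sp (φ t) ≤ L := by
      rw [mul_one, inv_mul_eq_div, div_mul_eq_mul_div, div_le_iff₀ hpos]
      nlinarith
    have hnn : 0 ≤ (sp (φ t) + ε)⁻¹ * (Λ * 1) * sp (φ t) := by positivity
    exact pow_le_pow_left₀ hnn hle 2

end join

/-! ### `hdist` is a distance -/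

section dist

variable {x y z o : V}

theorem hdist_nonneg (𝓜 : CMfd V ι) (h : HFam V ι) (x y : V) : 0 ≤ hdist 𝓜 h x y := by
  apply Real.sInf_nonneg
  rintro _ ⟨γ, -, -, -, rfl⟩
  exact len_nonneg 𝓜 h γ zero_le_one

theorem hdist_of_not_mem_left (hx : x ∉ 𝓜.carrier) : hdist 𝓜 h x y = 0 := by
  have : {L : ℝ | ∃ γ : ℝ → V, IsC1Curve 𝓜 γ ∧ γ 0 = x ∧ γ 1 = y ∧ L = len 𝓜 h γ 0 1} = ∅ := by
    ext L
    simp only [Set.mem_setOf_eq, Set.mem_empty_iff_false, iff_false]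
    rintro ⟨γ, hγ, h0, -, -⟩
    exact hx (h0 ▸ hγ.2 0)
  unfold hdist
  rw [this, Real.sInf_empty]

theorem hdist_of_not_mem_right (hy : y ∉ 𝓜.carrier) : hdist 𝓜 h x y = 0 := by
  have : {L : ℝ | ∃ γ : ℝ → V, IsC1Curve 𝓜 γ ∧ γ 0 = x ∧ γ 1 = y ∧ L = len 𝓜 h γ 0 1} = ∅ := by
    ext L
    simp only [Set.mem_setOf_eq, Set.mem_empty_iff_false, iff_false]
    rintro ⟨γ, hγ, -, h1, -⟩
    exact hy (h1 ▸ hγ.2 1)
  unfold hdist
  rw [this, Real.sInf_empty]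

theorem hdist_self (hx : x ∈ 𝓜.carrier) : hdist 𝓜 h x x = 0 := by
  refine le_antisymm ?_ (hdist_nonneg 𝓜 h x x)
  refine csInf_le (g0_bddBelow 𝓜 h x x) ⟨fun _ => x, isC1Curve_const hx, rfl, rfl, ?_⟩
  unfold len
  simp [ambQ_zero hx]

theorem hdist_comm (hm : IsMetric 𝓜 h) (x y : V) : hdist 𝓜 h x y = hdist 𝓜 h y x := by
  have key : ∀ x y : V, {L : ℝ | ∃ γ : ℝ → V, IsC1Curve 𝓜 γ ∧ γ 0 = x ∧ γ 1 = y ∧
      L = len 𝓜 h γ 0 1} ⊆ {L : ℝ | ∃ γ : ℝ → V, IsC1Curve 𝓜 γ ∧ γ 0 = y ∧ γ 1 = x ∧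
      L = len 𝓜 h γ 0 1} := by
    rintro x y _ ⟨γ, hγ, h0, h1, rfl⟩
    exact ⟨_, (g0_reverse hγ).1, by simpa using h1, by simpa using h0,
      ((g0_reverse hγ).2 h hm).symm⟩
  unfold hdist
  rw [Set.Subset.antisymm (key x y) (key y x)]

theorem hdist_triangle (hm : IsMetric 𝓜 h) (hconn : IsConnected 𝓜.carrier) (hx : x ∈ 𝓜.carrier)
    (hy : y ∈ 𝓜.carrier) (hz : z ∈ 𝓜.carrier) :
    hdist 𝓜 h x z ≤ hdist 𝓜 h x y + hdist 𝓜 h y z := by
  refine le_of_forall_pos_le_add fun ε hε => ?_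
  obtain ⟨γ₁, hγ₁, a0, a1, hl₁⟩ := g0_exists_curve_lt (h := h) hconn hx hy
    (L := hdist 𝓜 h x y + ε / 2) (by linarith)
  obtain ⟨γ₂, hγ₂, b0, b1, hl₂⟩ := g0_exists_curve_lt (h := h) hconn hy hz
    (L := hdist 𝓜 h y z + ε / 2) (by linarith)
  obtain ⟨γ, hγ, e0, e1, -, hlen⟩ := g0_join hγ₁ hγ₂ (a1.trans b0.symm)
  have h1 : hdist 𝓜 h x z ≤ len 𝓜 h γ 0 1 :=
    csInf_le (g0_bddBelow 𝓜 h x z) ⟨γ, hγ, e0.trans a0, e1.trans b1, rfl⟩
  rw [hlen h hm] at h1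
  linarith

/-- `hdist o ·` is `1`-Lipschitz. -/
theorem abs_hdist_sub_le (hm : IsMetric 𝓜 h) (hconn : IsConnected 𝓜.carrier) (ho : o ∈ 𝓜.carrier)
    (hx : x ∈ 𝓜.carrier) (hy : y ∈ 𝓜.carrier) :
    |hdist 𝓜 h o x - hdist 𝓜 h o y| ≤ hdist 𝓜 h x y := by
  rw [abs_le]
  constructor
  · have := hdist_triangle hm hconn ho hx hy
    linarith
  · have := hdist_triangle hm hconn ho hy hx
    rw [hdist_comm hm y x] at this
    linarith

/-- points of an almost minimizing curve: `d(x, γ t) ≤ len γ 0 t ≤ len γ 0 1`. -/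
theorem g0_hdist_le_of_curve (hm : IsMetric 𝓜 h) {γ : ℝ → V} (hγ : IsC1Curve 𝓜 γ) {t : ℝ}
    (ht : t ∈ Set.Icc (0 : ℝ) 1) : hdist 𝓜 h (γ 0) (γ t) ≤ len 𝓜 h γ 0 1 :=
  (hdist_le_len hm hγ ht.1).trans (len_le_len hm.toIsHForm hγ ht.2)

end dist

end Claimed.Agent.R316
end
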