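/- Packed by merge_tool.py (helper293): 3 modules of Claimed.Agent.R316 in one file, same declarations.
   Old modules, in this order: B8.Defs, B8.Basic, B8.ConvT -/
import Mathlib

/- ===== packed: Claimed.Agent.R316.B8.Defs ===== -/
section
/-!
# Row 316, package B8 (sub-captain helper263): linear parabolic theory on `[0,T] × E`

SPATIAL SCHAUDER THEORY.  `E` is a finite dimensional REAL normed / inner product space (`CE ι` is an
instance).  No Sobolev spaces, no weak solutions, no lateral boundary, no Hölder norms in time.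

* CURRIED, time first: `u : ℝ → E → ℝ`; the time derivative is carried explicitly as a second function
  `ut` (`HasDerivWithinAt` on the time interval `I`, one-sided at its end points).
* `D1 u t x = D_x u`, `D2 u t x = D_x² u` (a bilinear form, `Bil E`), `jet u t x = (u, Du, D²u) : Jet E`.
* ALL NORMS ARE PREDICATES WITH AN EXPLICIT CONSTANT (no `sSup`):
  `SupB S g K` : `‖g‖ ≤ K` on `S`;  `HolB α S g K` : `[g]_{α;S} ≤ K`;
  `YB α I S f K` : `f` continuous on `I × S`, `sup_t |f(t)|_{0;S} ≤ K`, `sup_t [f(t)]_{α;S} ≤ K`;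
  `XB α I S u ut K` : `u, Du, D²u, u_t` bounded by `K`, `[D²u(t)]_α, [u_t(t)]_α ≤ K`;
  `C2aB α S g K` : `|g|_{2+α;S} ≤ K`.
* `C21 I S u ut` : `u` is `C²` in `x`, `C¹` in `t`, all of `u, Du, D²u, u_t` continuous on `I × S`
  (`S` is always an OPEN set in the applications: `univ` or a ball).
* operator: ONE coefficient field `P : ℝ → E → Jet E →L[ℝ] ℝ` (type `Op E`);
  `Lop P u ut t x = u_t - P(t,x)(u, Du, D²u)`;  ellipticity `lam ‖ξ‖² ≤ P t x (0, 0, ξ ⊗ ξ)`, `ξ` a covector.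

EVERY FILE OF THE PACKAGE STARTS WITH `set_option maxSynthPendingDepth 3` (needed for the instances on
`Jet E →L[ℝ] ℝ`).
-/

set_option autoImplicit false
set_option maxSynthPendingDepth 3

open scoped Topology ContDiff
open Set Filter

namespace Claimed.Agent.R316.B8

/-- continuous bilinear forms. -/
abbrev Bil (E : Type*) [NormedAddCommGroup E] [NormedSpace ℝ E] := E →L[ℝ] E →L[ℝ] ℝ

/-- 2-jets of scalar functions: value, gradient, Hessian (sup norm of the three). -/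
abbrev Jet (E : Type*) [NormedAddCommGroup E] [NormedSpace ℝ E] := ℝ × (E →L[ℝ] ℝ) × Bil E

section Classes

variable {E : Type*} [NormedAddCommGroup E] [NormedSpace ℝ E]
variable {F : Type*} [NormedAddCommGroup F] [NormedSpace ℝ F]

/-- first spatial derivative. -/
noncomputable def D1 (u : ℝ → E → ℝ) (t : ℝ) (x : E) : E →L[ℝ] ℝ := fderiv ℝ (u t) x

/-- second spatial derivative. -/
noncomputable def D2 (u : ℝ → E → ℝ) (t : ℝ) (x : E) : Bil E := fderiv ℝ (fderiv ℝ (u t)) x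

/-- the spatial 2-jet. -/
noncomputable def jet (u : ℝ → E → ℝ) (t : ℝ) (x : E) : Jet E := (u t x, D1 u t x, D2 u t x)

/-- `‖g‖ ≤ K` on `S`. -/
def SupB (S : Set E) (g : E → F) (K : ℝ) : Prop := ∀ x ∈ S, ‖g x‖ ≤ K

/-- Hölder seminorm `[g]_{α;S} ≤ K`. -/
def HolB (α : ℝ) (S : Set E) (g : E → F) (K : ℝ) : Prop :=
  ∀ x ∈ S, ∀ y ∈ S, ‖g x - g y‖ ≤ K * ‖x - y‖ ^ α

/-- `f ∈ Y(I × S)` with norm `≤ K`. -/
structure YB (α : ℝ) (I : Set ℝ) (S : Set E) (f : ℝ → E → F) (K : ℝ) : Prop where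
  cont : ContinuousOn (fun q : ℝ × E => f q.1 q.2) (I ×ˢ S)
  sup : ∀ t ∈ I, SupB S (f t) K
  hol : ∀ t ∈ I, HolB α S (f t) K

/-- `u` is `C^{2,1}` on `I × S` with time derivative `ut`. -/
structure C21 (I : Set ℝ) (S : Set E) (u ut : ℝ → E → ℝ) : Prop where
  c2 : ∀ t ∈ I, ContDiffOn ℝ 2 (u t) S
  dt : ∀ t ∈ I, ∀ x ∈ S, HasDerivWithinAt (fun s => u s x) (ut t x) I t
  cont0 : ContinuousOn (fun q : ℝ × E => u q.1 q.2) (I ×ˢ S)
  cont1 : ContinuousOn (fun q : ℝ × E => D1 u q.1 q.2) (I ×ˢ S)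
  cont2 : ContinuousOn (fun q : ℝ × E => D2 u q.1 q.2) (I ×ˢ S)
  contt : ContinuousOn (fun q : ℝ × E => ut q.1 q.2) (I ×ˢ S)

/-- `u ∈ X(I × S)` with norm `≤ K`. -/
structure XB (α : ℝ) (I : Set ℝ) (S : Set E) (u ut : ℝ → E → ℝ) (K : ℝ) : Prop where
  b0 : ∀ t ∈ I, SupB S (u t) K
  b1 : ∀ t ∈ I, SupB S (D1 u t) K
  b2 : ∀ t ∈ I, SupB S (D2 u t) K
  bt : ∀ t ∈ I, SupB S (ut t) K
  h2 : ∀ t ∈ I, HolB α S (D2 u t) K
  ht : ∀ t ∈ I, HolB α S (ut t) K

/-- `|g|_{2+α;S} ≤ K`. -/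
structure C2aB (α : ℝ) (S : Set E) (g : E → ℝ) (K : ℝ) : Prop where
  c2 : ContDiffOn ℝ 2 g S
  b0 : SupB S g K
  b1 : SupB S (fderiv ℝ g) K
  b2 : SupB S (fderiv ℝ (fderiv ℝ g)) K
  h2 : HolB α S (fderiv ℝ (fderiv ℝ g)) K

/-- coefficient field of a second order linear operator (all coefficients at once). -/
abbrev Op (E : Type*) [NormedAddCommGroup E] [NormedSpace ℝ E] := ℝ → E → Jet E →L[ℝ] ℝ

/-- `L u = u_t - P(u, Du, D²u)`. -/
noncomputable def Lop (P : Op E) (u ut : ℝ → E → ℝ) (t : ℝ) (x : E) : ℝ :=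
  ut t x - P t x (jet u t x)

/-- the rank one form `ξ ⊗ ξ : (v,w) ↦ ξ v * ξ w`. -/
noncomputable def sqB (ξ : E →L[ℝ] ℝ) : Bil E := ξ.smulRight ξ

/-- pure second order jet. -/
def topJ (B : Bil E) : Jet E := (0, 0, B)

/-- symmetric bilinear form. -/
def IsSymmB (B : Bil E) : Prop := ∀ v w, B v w = B w v

/-- bounded coefficients, degenerate ellipticity (enough for the maximum principle). -/
structure Bdd (P : Op E) (M : ℝ) (I : Set ℝ) (S : Set E) : Prop where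
  nonneg : ∀ t ∈ I, ∀ x ∈ S, ∀ ξ : E →L[ℝ] ℝ, 0 ≤ P t x (topJ (sqB ξ))
  le : ∀ t ∈ I, ∀ x ∈ S, ‖P t x‖ ≤ M

/-- admissible operator: uniformly parabolic with constant `lam`, coefficients in `Y` with norm `≤ M`,
leading coefficients `γ`-Hölder in time. -/
structure Adm (P : Op E) (α γ lam M : ℝ) (I : Set ℝ) (S : Set E) : Prop where
  ell : ∀ t ∈ I, ∀ x ∈ S, ∀ ξ : E →L[ℝ] ℝ, lam * ‖ξ‖ ^ 2 ≤ P t x (topJ (sqB ξ))
  coef : YB α I S P M
  time : ∀ t ∈ I, ∀ s ∈ I, ∀ x ∈ S, ∀ B : Bil E,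
    |P t x (topJ B) - P s x (topJ B)| ≤ M * |t - s| ^ γ * ‖B‖

/-- time shift. -/
def shiftT {G : Type*} (t₀ : ℝ) (u : ℝ → G) : ℝ → G := fun t => u (t₀ + t)

end Classes

section Inner

variable {E : Type*} [NormedAddCommGroup E] [InnerProductSpace ℝ E] [FiniteDimensional ℝ E]

/-- the trace functional `B ↦ ∑ B(e_i,e_i)` (so `trB (D² g) = Δ g`). -/
noncomputable def trB : Bil E →L[ℝ] ℝ :=
  ∑ i, (ContinuousLinearMap.apply ℝ ℝ (stdOrthonormalBasis ℝ E i)) ∘L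
    (ContinuousLinearMap.apply ℝ (E →L[ℝ] ℝ) (stdOrthonormalBasis ℝ E i))

/-- a functional on bilinear forms as a functional on jets. -/
noncomputable def ofTop (𝔞 : Bil E →L[ℝ] ℝ) : Jet E →L[ℝ] ℝ :=
  𝔞 ∘L (ContinuousLinearMap.snd ℝ (E →L[ℝ] ℝ) (Bil E)) ∘L
    (ContinuousLinearMap.snd ℝ ℝ ((E →L[ℝ] ℝ) × Bil E))

/-- the constant coefficient operator `u_t - 𝔞(D²u)`. -/
noncomputable def constOp (𝔞 : Bil E →L[ℝ] ℝ) : Op E := fun _ _ => ofTop 𝔞

/-- the heat operator `u_t - Δ u`. -/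
noncomputable def heatOp : Op E := constOp trB

/-- convex combination `(1-σ)(∂_t - Δ) + σ L` (method of continuity). -/
noncomputable def homot (P : Op E) (σ : ℝ) : Op E :=
  fun t x => (1 - σ) • ofTop trB + σ • P t x

end Inner

end Claimed.Agent.R316.B8
end

/- ===== packed: Claimed.Agent.R316.B8.Basic ===== -/
section
/-!
# B8-BASIC: algebra of the predicates `SupB`, `HolB`, `YB`, `C21`, `XB`, `C2aB`, jets, `Lop`

LEAF (proofs only; every statement is elementary).  Do not change statements without telling helper263;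
adding lemmas is welcome.  All later modules use these names.

Hints.
* `HolB.of_lip`: if `‖x-y‖ ≤ 1` then `‖x-y‖ ≤ ‖x-y‖^α` (`Real.rpow_le_rpow_of_exponent_ge`), else `1 ≤ ‖x-y‖^α`.
* `lip_of_fderiv`: `Convex.norm_image_sub_le_of_norm_fderiv_le`.
* `HolB.of_balls`: if `‖x-y‖ < r` use the ball centred at `x`; else `2N ≤ 2N/r^α * ‖x-y‖^α`.
* `absorb`: `K* = sInf {K | Q K}`; `Q K*` by `hclosed`+`hmono`; `Q (θ K* + A)` gives `K* ≤ θ K* + A`.
* jets: on an OPEN set `S`, `ContDiffOn ℝ 2 g S` gives `ContDiffAt ℝ 2 g x`, hence `DifferentiableAt` of `g` and of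
  `fderiv ℝ g` at `x` and `fderiv ℝ (g₁+g₂) =ᶠ[𝓝 x] fderiv ℝ g₁ + fderiv ℝ g₂`.
* `XB.jet_hol`: norm on `Jet E` is the max of the three norms (`Prod.norm_def`); `u` is `K`-Lipschitz and bounded by
  `K`, the same for `Du` (`lip_of_fderiv`, `HolB.of_lip`).
-/

set_option autoImplicit false
set_option maxSynthPendingDepth 3
set_option linter.unusedSectionVars false
set_option linter.unusedVariables false

open scoped Topology ContDiff
open Set Filter Metric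

namespace Claimed.Agent.R316.B8

variable {E : Type*} [NormedAddCommGroup E] [NormedSpace ℝ E]
variable {F : Type*} [NormedAddCommGroup F] [NormedSpace ℝ F]
variable {G : Type*} [NormedAddCommGroup G] [NormedSpace ℝ G]

section SupHol

variable {S S' : Set E} {g g₁ g₂ : E → F} {K K' K₁ K₂ α : ℝ}

theorem SupB.mono (h : SupB S g K) (hK : K ≤ K') : SupB S g K' := fun x hx => (h x hx).trans hK

theorem SupB.subset (h : SupB S g K) (hS : S' ⊆ S) : SupB S' g K := fun x hx => h x (hS hx)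

theorem SupB.add (h₁ : SupB S g₁ K₁) (h₂ : SupB S g₂ K₂) : SupB S (fun x => g₁ x + g₂ x) (K₁ + K₂) :=
  fun x hx => (norm_add_le _ _).trans (add_le_add (h₁ x hx) (h₂ x hx))

theorem SupB.sub (h₁ : SupB S g₁ K₁) (h₂ : SupB S g₂ K₂) : SupB S (fun x => g₁ x - g₂ x) (K₁ + K₂) :=
  fun x hx => (norm_sub_le _ _).trans (add_le_add (h₁ x hx) (h₂ x hx))

theorem SupB.neg (h : SupB S g K) : SupB S (fun x => - g x) K := fun x hx => by
  simpa using h x hx

theorem SupB.const_smul (c : ℝ) (h : SupB S g K) : SupB S (fun x => c • g x) (|c| * K) := by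
  intro x hx
  rw [norm_smul, Real.norm_eq_abs]
  exact mul_le_mul_of_nonneg_left (h x hx) (abs_nonneg _)

/-- pointwise application of an operator valued function. -/
theorem SupB.clm_apply {A : E → F →L[ℝ] G} {v : E → F} {a b : ℝ} (hA : SupB S A a) (hv : SupB S v b)
    (ha : 0 ≤ a) : SupB S (fun x => A x (v x)) (a * b) := by
  intro x hx
  exact ((A x).le_opNorm _).trans (mul_le_mul (hA x hx) (hv x hx) (norm_nonneg _) ha)

theorem SupB.smul {c : E → ℝ} {a b : ℝ} (hc : SupB S c a) (hg : SupB S g b) (ha : 0 ≤ a) :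
    SupB S (fun x => c x • g x) (a * b) := by
  intro x hx
  rw [norm_smul]
  exact mul_le_mul (hc x hx) (hg x hx) (norm_nonneg _) ha

theorem SupB.mul {c d : E → ℝ} {a b : ℝ} (hc : SupB S c a) (hd : SupB S d b) (ha : 0 ≤ a) :
    SupB S (fun x => c x * d x) (a * b) := by
  intro x hx
  rw [norm_mul]
  exact mul_le_mul (hc x hx) (hd x hx) (norm_nonneg _) ha

/-- closedness in the constant. -/
theorem SupB.of_forall_pos (h : ∀ ε > 0, SupB S g (K + ε)) : SupB S g K := by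
  intro x hx
  exact le_of_forall_pos_le_add fun ε hε => h ε hε x hx

theorem SupB.of_tendsto {ι : Type*} {l : Filter ι} [l.NeBot] {gs : ι → E → F}
    (h : ∀ᶠ i in l, SupB S (gs i) K) (hl : ∀ x ∈ S, Tendsto (fun i => gs i x) l (𝓝 (g x))) :
    SupB S g K := by
  intro x hx
  exact le_of_tendsto (hl x hx).norm (h.mono fun i hi => hi x hx)

theorem HolB.mono (h : HolB α S g K) (hK : K ≤ K') : HolB α S g K' := by
  intro x hx y hy
  exact (h x hx y hy).trans (mul_le_mul_of_nonneg_right hK (Real.rpow_nonneg (norm_nonneg _) _))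

theorem HolB.subset (h : HolB α S g K) (hS : S' ⊆ S) : HolB α S' g K :=
  fun x hx y hy => h x (hS hx) y (hS hy)

theorem HolB.add (h₁ : HolB α S g₁ K₁) (h₂ : HolB α S g₂ K₂) :
    HolB α S (fun x => g₁ x + g₂ x) (K₁ + K₂) := by
  intro x hx y hy
  have e : g₁ x + g₂ x - (g₁ y + g₂ y) = (g₁ x - g₁ y) + (g₂ x - g₂ y) := by abel
  simp only
  rw [e, add_mul]
  exact (norm_add_le _ _).trans (add_le_add (h₁ x hx y hy) (h₂ x hx y hy))

theorem HolB.sub (h₁ : HolB α S g₁ K₁) (h₂ : HolB α S g₂ K₂) :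
    HolB α S (fun x => g₁ x - g₂ x) (K₁ + K₂) := by
  intro x hx y hy
  have e : g₁ x - g₂ x - (g₁ y - g₂ y) = (g₁ x - g₁ y) - (g₂ x - g₂ y) := by abel
  simp only
  rw [e, add_mul]
  exact (norm_sub_le _ _).trans (add_le_add (h₁ x hx y hy) (h₂ x hx y hy))

theorem HolB.neg (h : HolB α S g K) : HolB α S (fun x => - g x) K := by
  intro x hx y hy
  have e : - g x - - g y = -(g x - g y) := by abel
  simp only
  rw [e, norm_neg]
  exact h x hx y hy

theorem HolB.const_smul (c : ℝ) (h : HolB α S g K) : HolB α S (fun x => c • g x) (|c| * K) := by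
  intro x hx y hy
  simp only
  rw [← smul_sub, norm_smul, Real.norm_eq_abs, mul_assoc]
  exact mul_le_mul_of_nonneg_left (h x hx y hy) (abs_nonneg _)

theorem HolB.const (c : F) : HolB α S (fun _ : E => c) 0 := by
  intro x hx y hy
  simp

/-- product rule `[A v]_α ≤ |A|_0 [v]_α + [A]_α |v|_0`. -/
theorem HolB.clm_apply {A : E → F →L[ℝ] G} {v : E → F} {a0 a1 v0 v1 : ℝ}
    (hA0 : SupB S A a0) (hA1 : HolB α S A a1) (hv0 : SupB S v v0) (hv1 : HolB α S v v1) :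
    HolB α S (fun x => A x (v x)) (a0 * v1 + a1 * v0) := by
  intro x hx y hy
  have e : A x (v x) - A y (v y) = A x (v x - v y) + (A x - A y) (v y) := by
    simp [map_sub]
  simp only
  rw [e]
  have hr : 0 ≤ ‖x - y‖ ^ α := Real.rpow_nonneg (norm_nonneg _) _
  have h1 : ‖A x (v x - v y)‖ ≤ a0 * (v1 * ‖x - y‖ ^ α) :=
    ((A x).le_opNorm _).trans (mul_le_mul (hA0 x hx) (hv1 x hx y hy) (norm_nonneg _)
      ((norm_nonneg _).trans (hA0 x hx)))
  have h2 : ‖(A x - A y) (v y)‖ ≤ (a1 * ‖x - y‖ ^ α) * v0 :=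
    ((A x - A y).le_opNorm _).trans (mul_le_mul (hA1 x hx y hy) (hv0 y hy) (norm_nonneg _)
      ((norm_nonneg _).trans (hA1 x hx y hy)))
  calc ‖A x (v x - v y) + (A x - A y) (v y)‖ ≤ _ := norm_add_le _ _
    _ ≤ a0 * (v1 * ‖x - y‖ ^ α) + (a1 * ‖x - y‖ ^ α) * v0 := add_le_add h1 h2
    _ = (a0 * v1 + a1 * v0) * ‖x - y‖ ^ α := by ring

theorem HolB.smul {c : E → ℝ} {c0 c1 v0 v1 : ℝ}
    (hc0 : SupB S c c0) (hc1 : HolB α S c c1) (hv0 : SupB S g v0) (hv1 : HolB α S g v1) :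
    HolB α S (fun x => c x • g x) (c0 * v1 + c1 * v0) := by
  intro x hx y hy
  have e : c x • g x - c y • g y = c x • (g x - g y) + (c x - c y) • g y := by
    rw [smul_sub, sub_smul]; abel
  simp only
  rw [e]
  have h1 : ‖c x • (g x - g y)‖ ≤ c0 * (v1 * ‖x - y‖ ^ α) := by
    rw [norm_smul]
    exact mul_le_mul (hc0 x hx) (hv1 x hx y hy) (norm_nonneg _) ((norm_nonneg _).trans (hc0 x hx))
  have h2 : ‖(c x - c y) • g y‖ ≤ (c1 * ‖x - y‖ ^ α) * v0 := by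
    rw [norm_smul]
    exact mul_le_mul (hc1 x hx y hy) (hv0 y hy) (norm_nonneg _)
      ((norm_nonneg _).trans (hc1 x hx y hy))
  calc ‖c x • (g x - g y) + (c x - c y) • g y‖ ≤ _ := norm_add_le _ _
    _ ≤ c0 * (v1 * ‖x - y‖ ^ α) + (c1 * ‖x - y‖ ^ α) * v0 := add_le_add h1 h2
    _ = (c0 * v1 + c1 * v0) * ‖x - y‖ ^ α := by ring

theorem HolB.mul {c d : E → ℝ} {c0 c1 d0 d1 : ℝ}
    (hc0 : SupB S c c0) (hc1 : HolB α S c c1) (hd0 : SupB S d d0) (hd1 : HolB α S d d1) :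
    HolB α S (fun x => c x * d x) (c0 * d1 + c1 * d0) :=
  HolB.smul (g := d) hc0 hc1 hd0 hd1

/-- post-composition with a fixed continuous linear map. -/
theorem HolB.clm_comp (L : F →L[ℝ] G) (h : HolB α S g K) : HolB α S (fun x => L (g x)) (‖L‖ * K) := by
  intro x hx y hy
  simp only
  rw [← map_sub, mul_assoc]
  exact (L.le_opNorm _).trans (mul_le_mul_of_nonneg_left (h x hx y hy) (norm_nonneg _))

theorem SupB.clm_comp (L : F →L[ℝ] G) (h : SupB S g K) : SupB S (fun x => L (g x)) (‖L‖ * K) := by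
  intro x hx
  exact (L.le_opNorm _).trans (mul_le_mul_of_nonneg_left (h x hx) (norm_nonneg _))

theorem HolB.of_forall_pos (h : ∀ ε > 0, HolB α S g (K + ε)) : HolB α S g K := by
  intro x hx y hy
  have hr : 0 ≤ ‖x - y‖ ^ α := Real.rpow_nonneg (norm_nonneg _) _
  refine le_of_forall_pos_le_add fun ε hε => ?_
  have h1 := h (ε / (‖x - y‖ ^ α + 1)) (by positivity) x hx y hy
  have h2 : ε / (‖x - y‖ ^ α + 1) * ‖x - y‖ ^ α ≤ ε := by
    rw [div_mul_eq_mul_div, div_le_iff₀ (by positivity)]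
    nlinarith
  calc ‖g x - g y‖ ≤ (K + ε / (‖x - y‖ ^ α + 1)) * ‖x - y‖ ^ α := h1
    _ = K * ‖x - y‖ ^ α + ε / (‖x - y‖ ^ α + 1) * ‖x - y‖ ^ α := by ring
    _ ≤ K * ‖x - y‖ ^ α + ε := by linarith

theorem HolB.of_tendsto {ι : Type*} {l : Filter ι} [l.NeBot] {gs : ι → E → F}
    (h : ∀ᶠ i in l, HolB α S (gs i) K) (hl : ∀ x ∈ S, Tendsto (fun i => gs i x) l (𝓝 (g x))) :
    HolB α S g K := by
  intro x hx y hy
  exact le_of_tendsto ((hl x hx).sub (hl y hy)).norm (h.mono fun i hi => hi x hx y hy)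

/-- bounded + Lipschitz implies Hölder. -/
theorem HolB.of_lip {A B : ℝ} (hα0 : 0 < α) (hα1 : α ≤ 1) (hs : SupB S g A)
    (hl : ∀ x ∈ S, ∀ y ∈ S, ‖g x - g y‖ ≤ B * ‖x - y‖) (hB : 0 ≤ B) : HolB α S g (2 * A + B) := by
  intro x hx y hy
  have hA : 0 ≤ A := (norm_nonneg _).trans (hs x hx)
  have hd : 0 ≤ ‖x - y‖ := norm_nonneg _
  have hr : 0 ≤ ‖x - y‖ ^ α := Real.rpow_nonneg hd _
  rcases le_total ‖x - y‖ 1 with h | h
  · have h1 : ‖x - y‖ ≤ ‖x - y‖ ^ α := by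
      have := Real.rpow_le_rpow_of_exponent_ge' hd h hα0.le hα1
      rwa [Real.rpow_one] at this
    calc ‖g x - g y‖ ≤ B * ‖x - y‖ := hl x hx y hy
      _ ≤ B * ‖x - y‖ ^ α := by gcongr
      _ ≤ (2 * A + B) * ‖x - y‖ ^ α := by nlinarith
  · have h1 : 1 ≤ ‖x - y‖ ^ α := Real.one_le_rpow h hα0.le
    calc ‖g x - g y‖ ≤ ‖g x‖ + ‖g y‖ := norm_sub_le _ _
      _ ≤ 2 * A := by linarith [hs x hx, hs y hy]
      _ ≤ (2 * A + B) * ‖x - y‖ ^ α := by nlinarith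

/-- scale invariant version: `min (2A) (B d) ≤ 2 (A/ρ^α + ...)`: if `|g| ≤ A` and `Lip g ≤ A/ρ` then
`[g]_α ≤ 2 A / ρ^α`. -/
theorem HolB.of_lip_scaled {A ρ : ℝ} (hα0 : 0 < α) (hα1 : α ≤ 1) (hρ : 0 < ρ) (hs : SupB S g A)
    (hl : ∀ x ∈ S, ∀ y ∈ S, ‖g x - g y‖ ≤ A / ρ * ‖x - y‖) (hA : 0 ≤ A) :
    HolB α S g (2 * A / ρ ^ α) := by
  intro x hx y hy
  have hd : 0 ≤ ‖x - y‖ := norm_nonneg _
  have hρα : 0 < ρ ^ α := Real.rpow_pos_of_pos hρ _
  have hq : 0 ≤ ‖x - y‖ / ρ := by positivity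
  have he : 2 * A / ρ ^ α * ‖x - y‖ ^ α = 2 * A * (‖x - y‖ / ρ) ^ α := by
    rw [Real.div_rpow hd hρ.le]; ring
  rw [he]
  have hr : 0 ≤ (‖x - y‖ / ρ) ^ α := Real.rpow_nonneg hq _
  rcases le_total (‖x - y‖ / ρ) 1 with h | h
  · have h1 : ‖x - y‖ / ρ ≤ (‖x - y‖ / ρ) ^ α := by
      have := Real.rpow_le_rpow_of_exponent_ge' hq h hα0.le hα1
      rwa [Real.rpow_one] at this
    calc ‖g x - g y‖ ≤ A / ρ * ‖x - y‖ := hl x hx y hy
      _ = A * (‖x - y‖ / ρ) := by ring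
      _ ≤ A * (‖x - y‖ / ρ) ^ α := by gcongr
      _ ≤ 2 * A * (‖x - y‖ / ρ) ^ α := by nlinarith
  · have h1 : 1 ≤ (‖x - y‖ / ρ) ^ α := Real.one_le_rpow h hα0.le
    calc ‖g x - g y‖ ≤ ‖g x‖ + ‖g y‖ := norm_sub_le _ _
      _ ≤ 2 * A := by linarith [hs x hx, hs y hy]
      _ ≤ 2 * A * (‖x - y‖ / ρ) ^ α := by nlinarith

/-- mean value inequality on a convex open set. -/
theorem lip_of_fderiv {B : ℝ} (hS : IsOpen S) (hc : Convex ℝ S) (hg : DifferentiableOn ℝ g S)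
    (hB : SupB S (fderiv ℝ g) B) : ∀ x ∈ S, ∀ y ∈ S, ‖g x - g y‖ ≤ B * ‖x - y‖ := by
  intro x hx y hy
  exact hc.norm_image_sub_le_of_norm_fderiv_le
    (fun z hz => (hg z hz).differentiableAt (hS.mem_nhds hz)) hB hy hx

/-- the same inside a ball: from balls `ball x r ⊆ ball x₀ R`. -/
theorem HolB.of_balls_in {S : Set E} {r H N : ℝ} (hr : 0 < r) (hα0 : 0 ≤ α) (hH : 0 ≤ H)
    (hloc : ∀ x ∈ S, HolB α (ball x r ∩ S) g H) (hs : SupB S g N) :
    HolB α S g (H + 2 * N / r ^ α) := by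
  intro x hx y hy
  have hN : 0 ≤ N := (norm_nonneg _).trans (hs x hx)
  have hd : 0 ≤ ‖x - y‖ := norm_nonneg _
  have hrα : 0 < r ^ α := Real.rpow_pos_of_pos hr _
  have hr' : 0 ≤ ‖x - y‖ ^ α := Real.rpow_nonneg hd _
  rcases lt_or_ge ‖x - y‖ r with h | h
  · have h1 := hloc x hx x ⟨mem_ball_self hr, hx⟩ y
      ⟨by rw [mem_ball_iff_norm, norm_sub_rev]; exact h, hy⟩
    have : 0 ≤ 2 * N / r ^ α * ‖x - y‖ ^ α := by positivity
    calc ‖g x - g y‖ ≤ H * ‖x - y‖ ^ α := h1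
      _ ≤ (H + 2 * N / r ^ α) * ‖x - y‖ ^ α := by rw [add_mul]; linarith
  · have h1 : r ^ α ≤ ‖x - y‖ ^ α := Real.rpow_le_rpow hr.le h hα0
    have h2 : 2 * N ≤ 2 * N / r ^ α * ‖x - y‖ ^ α := by
      rw [div_mul_eq_mul_div, le_div_iff₀ hrα]
      nlinarith
    have : 0 ≤ H * ‖x - y‖ ^ α := by positivity
    calc ‖g x - g y‖ ≤ ‖g x‖ + ‖g y‖ := norm_sub_le _ _
      _ ≤ 2 * N := by linarith [hs x hx, hs y hy]
      _ ≤ (H + 2 * N / r ^ α) * ‖x - y‖ ^ α := by rw [add_mul]; linarith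

/-- from balls of radius `r` to the whole space. -/
theorem HolB.of_balls {r H N : ℝ} (hr : 0 < r) (hα0 : 0 ≤ α) (hH : 0 ≤ H)
    (hloc : ∀ x₀ : E, HolB α (ball x₀ r) g H) (hs : SupB univ g N) :
    HolB α univ g (H + 2 * N / r ^ α) :=
  HolB.of_balls_in hr hα0 hH (fun x _ => (hloc x).subset inter_subset_left) hs

/-- product with a cutoff vanishing outside `S'`: only bounds of `g` on `S'` are needed. -/
theorem HolB.cutoff_smul {ζ : E → ℝ} {Z A H : ℝ} (hζ0 : ∀ x, x ∉ S' → ζ x = 0)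
    (hζ1 : SupB univ ζ 1) (hζh : HolB α univ ζ Z) (hg0 : SupB S' g A) (hg1 : HolB α S' g H)
    (hH : 0 ≤ H) (hA : 0 ≤ A) (hZ : 0 ≤ Z) :
    HolB α univ (fun x => ζ x • g x) (H + Z * A) := by
  intro x _ y _
  have hr : 0 ≤ ‖x - y‖ ^ α := Real.rpow_nonneg (norm_nonneg _) _
  simp only
  by_cases hx : x ∈ S' <;> by_cases hy : y ∈ S'
  · have := HolB.smul (S := S') (hζ1.subset (subset_univ _)) (hζh.subset (subset_univ _)) hg0 hg1
      x hx y hy
    simpa [one_mul] using this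
  · rw [hζ0 y hy, zero_smul, sub_zero, norm_smul]
    have h1 := hζh x (mem_univ _) y (mem_univ _)
    rw [hζ0 y hy, sub_zero] at h1
    calc ‖ζ x‖ * ‖g x‖ ≤ (Z * ‖x - y‖ ^ α) * A :=
          mul_le_mul h1 (hg0 x hx) (norm_nonneg _) (by positivity)
      _ ≤ (H + Z * A) * ‖x - y‖ ^ α := by nlinarith [mul_nonneg hH hr]
  · rw [hζ0 x hx, zero_smul, zero_sub, norm_neg, norm_smul]
    have h1 := hζh x (mem_univ _) y (mem_univ _)
    rw [hζ0 x hx, zero_sub, norm_neg] at h1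
    calc ‖ζ y‖ * ‖g y‖ ≤ (Z * ‖x - y‖ ^ α) * A :=
          mul_le_mul h1 (hg0 y hy) (norm_nonneg _) (by positivity)
      _ ≤ (H + Z * A) * ‖x - y‖ ^ α := by nlinarith [mul_nonneg hH hr]
  · rw [hζ0 x hx, hζ0 y hy, zero_smul, zero_smul, sub_zero, norm_zero]
    positivity

theorem SupB.cutoff_smul {ζ : E → ℝ} {A : ℝ} (hζ0 : ∀ x, x ∉ S' → ζ x = 0)
    (hζ1 : SupB univ ζ 1) (hg0 : SupB S' g A) (hA : 0 ≤ A) :
    SupB univ (fun x => ζ x • g x) A := by
  intro x _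
  simp only
  by_cases hx : x ∈ S'
  · rw [norm_smul]
    calc ‖ζ x‖ * ‖g x‖ ≤ 1 * A := mul_le_mul (hζ1 x (mem_univ _)) (hg0 x hx) (norm_nonneg _) zero_le_one
      _ = A := one_mul _
  · rw [hζ0 x hx, zero_smul, norm_zero]; exact hA

end SupHol

/-- **absorption lemma**: a monotone, closed predicate on constants which improves `K ↦ θ K + A`. -/
theorem absorb (Q : ℝ → Prop) (hmono : ∀ K K', K ≤ K' → Q K → Q K')
    (hclosed : ∀ K, (∀ ε > 0, Q (K + ε)) → Q K) (hlow : ∀ K, Q K → 0 ≤ K) {θ A : ℝ} (hθ0 : 0 ≤ θ)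
    (hθ1 : θ < 1) (hstep : ∀ K, Q K → Q (θ * K + A)) (hex : ∃ K, Q K) : Q (A / (1 - θ)) := by
  set Ks := sInf {K | Q K} with hKs
  have hbdd : BddBelow {K | Q K} := ⟨0, fun K hK => hlow K hK⟩
  have hQs : Q Ks := by
    refine hclosed Ks fun ε hε => ?_
    obtain ⟨K, hK, hlt⟩ := exists_lt_of_csInf_lt hex (show sInf {K | Q K} < Ks + ε by linarith)
    exact hmono K _ hlt.le hK
  have h1 : Ks ≤ θ * Ks + A := csInf_le hbdd (hstep Ks hQs)
  have h2 : Ks ≤ A / (1 - θ) := by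
    rw [le_div_iff₀ (by linarith)]
    nlinarith
  exact hmono _ _ h2 hQs


section Y

variable {I I' : Set ℝ} {S S' : Set E} {f f₁ f₂ : ℝ → E → F} {K K' K₁ K₂ α : ℝ}

theorem YB.mono (h : YB α I S f K) (hK : K ≤ K') : YB α I S f K' :=
  ⟨h.cont, fun t ht => (h.sup t ht).mono hK, fun t ht => (h.hol t ht).mono hK⟩

theorem YB.subset (h : YB α I S f K) (hI : I' ⊆ I) (hS : S' ⊆ S) : YB α I' S' f K :=
  ⟨h.cont.mono (prod_mono hI hS), fun t ht => (h.sup t (hI ht)).subset hS,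
    fun t ht => (h.hol t (hI ht)).subset hS⟩

theorem YB.add (h₁ : YB α I S f₁ K₁) (h₂ : YB α I S f₂ K₂) :
    YB α I S (fun t x => f₁ t x + f₂ t x) (K₁ + K₂) :=
  ⟨h₁.cont.add h₂.cont, fun t ht => (h₁.sup t ht).add (h₂.sup t ht),
    fun t ht => (h₁.hol t ht).add (h₂.hol t ht)⟩

theorem YB.sub (h₁ : YB α I S f₁ K₁) (h₂ : YB α I S f₂ K₂) :
    YB α I S (fun t x => f₁ t x - f₂ t x) (K₁ + K₂) :=
  ⟨h₁.cont.sub h₂.cont, fun t ht => (h₁.sup t ht).sub (h₂.sup t ht),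
    fun t ht => (h₁.hol t ht).sub (h₂.hol t ht)⟩

theorem YB.neg (h : YB α I S f K) : YB α I S (fun t x => - f t x) K :=
  ⟨h.cont.neg, fun t ht => (h.sup t ht).neg, fun t ht => (h.hol t ht).neg⟩

theorem YB.const_smul (c : ℝ) (h : YB α I S f K) : YB α I S (fun t x => c • f t x) (|c| * K) :=
  ⟨h.cont.const_smul c, fun t ht => (h.sup t ht).const_smul c, fun t ht => (h.hol t ht).const_smul c⟩

theorem YB.congr {f' : ℝ → E → F} (h : YB α I S f K) (he : ∀ t ∈ I, ∀ x ∈ S, f' t x = f t x) :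
    YB α I S f' K := by
  refine ⟨h.cont.congr fun q hq => he q.1 hq.1 q.2 hq.2, fun t ht x hx => ?_, fun t ht x hx y hy => ?_⟩
  · rw [he t ht x hx]; exact h.sup t ht x hx
  · rw [he t ht x hx, he t ht y hy]; exact h.hol t ht x hx y hy

/-- `|A v|_Y ≤ 2 |A|_Y |v|_Y`. -/
theorem YB.clm_apply {A : ℝ → E → F →L[ℝ] G} {v : ℝ → E → F} {a b : ℝ} (hA : YB α I S A a)
    (hv : YB α I S v b) (ha : 0 ≤ a) (hb : 0 ≤ b) : YB α I S (fun t x => A t x (v t x)) (2 * a * b) := by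
  refine ⟨hA.cont.clm_apply hv.cont, fun t ht => ?_, fun t ht => ?_⟩
  · exact ((hA.sup t ht).clm_apply (hv.sup t ht) ha).mono (by nlinarith [mul_nonneg ha hb])
  · exact (HolB.clm_apply (hA.sup t ht) (hA.hol t ht) (hv.sup t ht) (hv.hol t ht)).mono
      (le_of_eq (by ring))

theorem shift_prod_cont (t₀ : ℝ) : Continuous (fun q : ℝ × E => ((t₀ + q.1, q.2) : ℝ × E)) := by
  fun_prop

theorem shift_prod_maps (t₀ : ℝ) (I : Set ℝ) (S : Set E) :
    MapsTo (fun q : ℝ × E => ((t₀ + q.1, q.2) : ℝ × E)) ({t | t₀ + t ∈ I} ×ˢ S) (I ×ˢ S) :=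
  fun q hq => ⟨hq.1, hq.2⟩

theorem YB.shift {t₀ : ℝ} (h : YB α I S f K) :
    YB α {t | t₀ + t ∈ I} S (shiftT t₀ f) K :=
  ⟨h.cont.comp (shift_prod_cont t₀).continuousOn (shift_prod_maps t₀ I S),
    fun t ht => h.sup _ ht, fun t ht => h.hol _ ht⟩

/-- extension in time by clamping: `f (clamp t)`. -/
theorem YB.clamp {T : ℝ} (hT : 0 ≤ T) (h : YB α (Icc 0 T) S f K) :
    YB α univ S (fun t => f (max 0 (min t T))) K := by
  have hm : ∀ t : ℝ, max 0 (min t T) ∈ Icc 0 T := fun t =>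
    ⟨le_max_left _ _, max_le hT (min_le_right _ _)⟩
  have hc : Continuous (fun q : ℝ × E => ((max 0 (min q.1 T), q.2) : ℝ × E)) := by fun_prop
  exact ⟨h.cont.comp hc.continuousOn (fun q hq => ⟨hm _, hq.2⟩), fun t _ => h.sup _ (hm t),
    fun t _ => h.hol _ (hm t)⟩

/-- a time independent function. -/
theorem YB.static {g : E → F} (hc : ContinuousOn g S) (h0 : SupB S g K) (h1 : HolB α S g K) :
    YB α I S (fun _ => g) K :=
  ⟨hc.comp continuous_snd.continuousOn (fun q hq => hq.2), fun _ _ => h0, fun _ _ => h1⟩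

end Y

section Jets

variable {I I' : Set ℝ} {S S' : Set E} {u ut v vt : ℝ → E → ℝ} {K K' K₁ K₂ α : ℝ}

theorem norm_jet_le_iff {t : ℝ} {x : E} :
    ‖jet u t x‖ ≤ K ↔ |u t x| ≤ K ∧ ‖D1 u t x‖ ≤ K ∧ ‖D2 u t x‖ ≤ K := by
  simp only [jet, Prod.norm_def, max_le_iff, Real.norm_eq_abs]

theorem norm_topJ (B : Bil E) : ‖topJ B‖ = ‖B‖ := by
  simp [topJ, Prod.norm_def]

theorem cd2_differentiableAt {g : E → ℝ} (hS : IsOpen S) {x : E} (hx : x ∈ S)
    (hg : ContDiffOn ℝ 2 g S) : DifferentiableAt ℝ g x :=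
  (hg.contDiffAt (hS.mem_nhds hx)).differentiableAt (by norm_num)

theorem cd2_fderiv_differentiableAt {g : E → ℝ} (hS : IsOpen S) {x : E} (hx : x ∈ S)
    (hg : ContDiffOn ℝ 2 g S) : DifferentiableAt ℝ (fderiv ℝ g) x :=
  ((hg.contDiffAt (hS.mem_nhds hx)).fderiv_right (m := 1) (by norm_num)).differentiableAt (by norm_num)

theorem D1_lin (a b : ℝ) (hS : IsOpen S) {t : ℝ} {x : E} (hx : x ∈ S) (hu : ContDiffOn ℝ 2 (u t) S)
    (hv : ContDiffOn ℝ 2 (v t) S) :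
    D1 (fun t x => a * u t x + b * v t x) t x = a • D1 u t x + b • D1 v t x :=
  (((cd2_differentiableAt hS hx hu).hasFDerivAt.const_mul a).add
    ((cd2_differentiableAt hS hx hv).hasFDerivAt.const_mul b)).fderiv

theorem D2_lin (a b : ℝ) (hS : IsOpen S) {t : ℝ} {x : E} (hx : x ∈ S) (hu : ContDiffOn ℝ 2 (u t) S)
    (hv : ContDiffOn ℝ 2 (v t) S) :
    D2 (fun t x => a * u t x + b * v t x) t x = a • D2 u t x + b • D2 v t x := by
  have h1 : fderiv ℝ (fun x => a * u t x + b * v t x)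
      =ᶠ[𝓝 x] fun y => a • fderiv ℝ (u t) y + b • fderiv ℝ (v t) y := by
    filter_upwards [hS.mem_nhds hx] with y hy
    exact D1_lin a b hS hy hu hv
  have h2 : HasFDerivAt (fun y => a • fderiv ℝ (u t) y + b • fderiv ℝ (v t) y)
      (a • D2 u t x + b • D2 v t x) x :=
    ((cd2_fderiv_differentiableAt hS hx hu).hasFDerivAt.const_smul a).add
      ((cd2_fderiv_differentiableAt hS hx hv).hasFDerivAt.const_smul b)
  exact h1.fderiv_eq.trans h2.fderiv

theorem jet_lin (a b : ℝ) (hS : IsOpen S) {t : ℝ} {x : E} (hx : x ∈ S) (hu : ContDiffOn ℝ 2 (u t) S)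
    (hv : ContDiffOn ℝ 2 (v t) S) :
    jet (fun t x => a * u t x + b * v t x) t x = a • jet u t x + b • jet v t x := by
  simp only [jet, D1_lin a b hS hx hu hv, D2_lin a b hS hx hu hv, Prod.smul_mk, Prod.mk_add_mk,
    smul_eq_mul]

theorem jet_add (hS : IsOpen S) {t : ℝ} {x : E} (hx : x ∈ S) (hu : ContDiffOn ℝ 2 (u t) S)
    (hv : ContDiffOn ℝ 2 (v t) S) :
    jet (fun t x => u t x + v t x) t x = jet u t x + jet v t x := by
  have := jet_lin 1 1 hS hx hu hv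
  simpa using this

theorem jet_sub (hS : IsOpen S) {t : ℝ} {x : E} (hx : x ∈ S) (hu : ContDiffOn ℝ 2 (u t) S)
    (hv : ContDiffOn ℝ 2 (v t) S) :
    jet (fun t x => u t x - v t x) t x = jet u t x - jet v t x := by
  have := jet_lin 1 (-1) hS hx hu hv
  simpa [sub_eq_add_neg] using this

theorem jet_smul (c : ℝ) (hS : IsOpen S) {t : ℝ} {x : E} (hx : x ∈ S) (hu : ContDiffOn ℝ 2 (u t) S) :
    jet (fun t x => c * u t x) t x = c • jet u t x := by
  have := jet_lin c 0 hS hx hu hu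
  simpa using this

/-- jets only depend on the germ. -/
theorem jet_congr (hS : IsOpen S) {t : ℝ} {x : E} (hx : x ∈ S) (h : ∀ y ∈ S, u t y = v t y) :
    jet u t x = jet v t x := by
  have h1 : u t =ᶠ[𝓝 x] v t := by
    filter_upwards [hS.mem_nhds hx] with y hy using h y hy
  simp only [jet, D1, D2, h x hx, h1.fderiv_eq, h1.fderiv.fderiv_eq]

theorem Lop_add (P : Op E) (hS : IsOpen S) {t : ℝ} {x : E} (hx : x ∈ S) (hu : ContDiffOn ℝ 2 (u t) S)
    (hv : ContDiffOn ℝ 2 (v t) S) :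
    Lop P (fun t x => u t x + v t x) (fun t x => ut t x + vt t x) t x
      = Lop P u ut t x + Lop P v vt t x := by
  simp only [Lop, jet_add hS hx hu hv, map_add]; ring

theorem Lop_sub (P : Op E) (hS : IsOpen S) {t : ℝ} {x : E} (hx : x ∈ S) (hu : ContDiffOn ℝ 2 (u t) S)
    (hv : ContDiffOn ℝ 2 (v t) S) :
    Lop P (fun t x => u t x - v t x) (fun t x => ut t x - vt t x) t x
      = Lop P u ut t x - Lop P v vt t x := by
  simp only [Lop, jet_sub hS hx hu hv, map_sub]; ring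

theorem Lop_smul (P : Op E) (c : ℝ) (hS : IsOpen S) {t : ℝ} {x : E} (hx : x ∈ S)
    (hu : ContDiffOn ℝ 2 (u t) S) :
    Lop P (fun t x => c * u t x) (fun t x => c * ut t x) t x = c * Lop P u ut t x := by
  simp only [Lop, jet_smul c hS hx hu, map_smul, smul_eq_mul]; ring

theorem C21.lin (a b : ℝ) (hS : IsOpen S) (hu : C21 I S u ut) (hv : C21 I S v vt) :
    C21 I S (fun t x => a * u t x + b * v t x) (fun t x => a * ut t x + b * vt t x) := by
  refine ⟨fun t ht => (contDiffOn_const.mul (hu.c2 t ht)).add (contDiffOn_const.mul (hv.c2 t ht)),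
    fun t ht x hx => ((hu.dt t ht x hx).const_mul a).add ((hv.dt t ht x hx).const_mul b),
    (continuousOn_const.mul hu.cont0).add (continuousOn_const.mul hv.cont0), ?_, ?_,
    (continuousOn_const.mul hu.contt).add (continuousOn_const.mul hv.contt)⟩
  · exact ((hu.cont1.const_smul a).add (hv.cont1.const_smul b)).congr fun q hq =>
      D1_lin a b hS hq.2 (hu.c2 _ hq.1) (hv.c2 _ hq.1)
  · exact ((hu.cont2.const_smul a).add (hv.cont2.const_smul b)).congr fun q hq =>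
      D2_lin a b hS hq.2 (hu.c2 _ hq.1) (hv.c2 _ hq.1)

theorem C21.add (hS : IsOpen S) (hu : C21 I S u ut) (hv : C21 I S v vt) :
    C21 I S (fun t x => u t x + v t x) (fun t x => ut t x + vt t x) := by
  have := C21.lin 1 1 hS hu hv
  simpa using this

theorem C21.sub (hS : IsOpen S) (hu : C21 I S u ut) (hv : C21 I S v vt) :
    C21 I S (fun t x => u t x - v t x) (fun t x => ut t x - vt t x) := by
  have := C21.lin 1 (-1) hS hu hv
  simpa [sub_eq_add_neg] using this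

theorem C21.const_mul (c : ℝ) (hS : IsOpen S) (hu : C21 I S u ut) :
    C21 I S (fun t x => c * u t x) (fun t x => c * ut t x) := by
  have := C21.lin c 0 hS hu hu
  simpa using this

theorem C21.subset (hu : C21 I S u ut) (hI : I' ⊆ I) (hS : S' ⊆ S) : C21 I' S' u ut :=
  ⟨fun t ht => (hu.c2 t (hI ht)).mono hS, fun t ht x hx => (hu.dt t (hI ht) x (hS hx)).mono hI,
    hu.cont0.mono (prod_mono hI hS), hu.cont1.mono (prod_mono hI hS), hu.cont2.mono (prod_mono hI hS),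
    hu.contt.mono (prod_mono hI hS)⟩

/-- only the values on `I × S` matter (`S` open). -/
theorem C21.congr {u' ut' : ℝ → E → ℝ} (hS : IsOpen S) (hu : C21 I S u ut)
    (h : ∀ t ∈ I, ∀ x ∈ S, u' t x = u t x) (ht : ∀ t ∈ I, ∀ x ∈ S, ut' t x = ut t x) :
    C21 I S u' ut' := by
  have hj : ∀ t ∈ I, ∀ x ∈ S, jet u' t x = jet u t x := fun t ht' x hx => jet_congr hS hx (h t ht')
  refine ⟨fun t ht' => (hu.c2 t ht').congr (h t ht'), fun t ht' x hx => ?_,
    hu.cont0.congr fun q hq => h _ hq.1 _ hq.2, hu.cont1.congr fun q hq => ?_,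
    hu.cont2.congr fun q hq => ?_, hu.contt.congr fun q hq => ht _ hq.1 _ hq.2⟩
  · rw [ht t ht' x hx]
    exact (hu.dt t ht' x hx).congr (fun s hs => h s hs x hx) (h t ht' x hx)
  · exact congrArg (fun J : Jet E => J.2.1) (hj _ hq.1 _ hq.2)
  · exact congrArg (fun J : Jet E => J.2.2) (hj _ hq.1 _ hq.2)

theorem C21.shift {t₀ : ℝ} (hu : C21 I S u ut) :
    C21 {t | t₀ + t ∈ I} S (shiftT t₀ u) (shiftT t₀ ut) := by
  have hc := (shift_prod_cont (E := E) t₀).continuousOn (s := {t | t₀ + t ∈ I} ×ˢ S)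
  have hm := shift_prod_maps t₀ I S
  refine ⟨fun t ht => hu.c2 _ ht, fun t ht x hx => ?_, hu.cont0.comp hc hm, hu.cont1.comp hc hm,
    hu.cont2.comp hc hm, hu.contt.comp hc hm⟩
  have h1 : HasDerivWithinAt (fun s : ℝ => t₀ + s) 1 {t | t₀ + t ∈ I} t :=
    ((hasDerivAt_id t).const_add t₀).hasDerivWithinAt
  have h2 := (hu.dt (t₀ + t) ht x hx).scomp t h1 (fun s hs => hs)
  simpa [shiftT, Function.comp_def] using h2

/-- a time independent function. -/
theorem C21.static {g : E → ℝ} (hS : IsOpen S) (hg : ContDiffOn ℝ 2 g S) :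
    C21 I S (fun _ => g) (fun _ _ => 0) := by
  have hsnd : ContinuousOn (fun q : ℝ × E => q.2) (I ×ˢ S) := continuous_snd.continuousOn
  have hm : MapsTo (fun q : ℝ × E => q.2) (I ×ˢ S) S := fun q hq => hq.2
  refine ⟨fun _ _ => hg, fun t _ x _ => hasDerivWithinAt_const _ _ _, hg.continuousOn.comp hsnd hm,
    ?_, ?_, continuousOn_const⟩
  · exact (hg.continuousOn_fderiv_of_isOpen hS (by norm_num)).comp hsnd hm
  · exact ((hg.fderiv_of_isOpen hS (m := 1) (by norm_num)).continuousOn_fderiv_of_isOpen hS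
      (by norm_num)).comp hsnd hm

theorem jet_of_time (ψ : ℝ → ℝ) (t : ℝ) (x : E) : jet (fun t (_ : E) => ψ t) t x = (ψ t, 0, 0) := by
  have h1 : fderiv ℝ (fun _ : E => ψ t) = fun _ => 0 := by
    funext y; simp
  simp only [jet, D1, D2, h1]
  simp

/-- a function of time only. -/
theorem C21.of_time {ψ ψ' : ℝ → ℝ} (hψ : ∀ t ∈ I, HasDerivWithinAt ψ (ψ' t) I t)
    (hc : ContinuousOn ψ' I) : C21 I S (fun t _ => ψ t) (fun t _ => ψ' t) := by
  have hfst : ContinuousOn (fun q : ℝ × E => q.1) (I ×ˢ S) := continuous_fst.continuousOn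
  have hm : MapsTo (fun q : ℝ × E => q.1) (I ×ˢ S) I := fun q hq => hq.1
  have hψc : ContinuousOn ψ I := fun t ht => (hψ t ht).continuousWithinAt
  refine ⟨fun _ _ => contDiffOn_const, fun t ht x _ => hψ t ht, hψc.comp hfst hm, ?_, ?_,
    hc.comp hfst hm⟩
  · refine continuousOn_const.congr (f := fun _ => (0 : E →L[ℝ] ℝ)) fun q _ => ?_
    exact congrArg (fun J : Jet E => J.2.1) (jet_of_time ψ q.1 q.2)
  · refine continuousOn_const.congr (f := fun _ => (0 : Bil E)) fun q _ => ?_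
    exact congrArg (fun J : Jet E => J.2.2) (jet_of_time ψ q.1 q.2)

theorem jet_shift (t₀ t : ℝ) (x : E) : jet (shiftT t₀ u) t x = jet u (t₀ + t) x := rfl

theorem jet_continuousOn (hu : C21 I S u ut) :
    ContinuousOn (fun q : ℝ × E => jet u q.1 q.2) (I ×ˢ S) :=
  hu.cont0.prodMk (hu.cont1.prodMk hu.cont2)

theorem XB.mono (h : XB α I S u ut K) (hK : K ≤ K') : XB α I S u ut K' :=
  ⟨fun t ht => (h.b0 t ht).mono hK, fun t ht => (h.b1 t ht).mono hK, fun t ht => (h.b2 t ht).mono hK,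
    fun t ht => (h.bt t ht).mono hK, fun t ht => (h.h2 t ht).mono hK, fun t ht => (h.ht t ht).mono hK⟩

theorem XB.subset (h : XB α I S u ut K) (hI : I' ⊆ I) (hS : S' ⊆ S) : XB α I' S' u ut K :=
  ⟨fun t ht => (h.b0 t (hI ht)).subset hS, fun t ht => (h.b1 t (hI ht)).subset hS,
    fun t ht => (h.b2 t (hI ht)).subset hS, fun t ht => (h.bt t (hI ht)).subset hS,
    fun t ht => (h.h2 t (hI ht)).subset hS, fun t ht => (h.ht t (hI ht)).subset hS⟩

/-- `XB` is pointwise in time. -/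
theorem XB.union (h : XB α I S u ut K) (h' : XB α I' S u ut K) : XB α (I ∪ I') S u ut K :=
  ⟨fun t ht => ht.elim (h.b0 t) (h'.b0 t), fun t ht => ht.elim (h.b1 t) (h'.b1 t),
    fun t ht => ht.elim (h.b2 t) (h'.b2 t), fun t ht => ht.elim (h.bt t) (h'.bt t),
    fun t ht => ht.elim (h.h2 t) (h'.h2 t), fun t ht => ht.elim (h.ht t) (h'.ht t)⟩

theorem XB.of_forall_pos (h : ∀ ε > 0, XB α I S u ut (K + ε)) : XB α I S u ut K :=
  ⟨fun t ht => SupB.of_forall_pos fun ε hε => (h ε hε).b0 t ht,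
    fun t ht => SupB.of_forall_pos fun ε hε => (h ε hε).b1 t ht,
    fun t ht => SupB.of_forall_pos fun ε hε => (h ε hε).b2 t ht,
    fun t ht => SupB.of_forall_pos fun ε hε => (h ε hε).bt t ht,
    fun t ht => HolB.of_forall_pos fun ε hε => (h ε hε).h2 t ht,
    fun t ht => HolB.of_forall_pos fun ε hε => (h ε hε).ht t ht⟩

theorem XB.nonneg (h : XB α I S u ut K) (hI : I.Nonempty) (hS : S.Nonempty) : 0 ≤ K := by
  obtain ⟨t, ht⟩ := hI
  obtain ⟨x, hx⟩ := hS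
  exact (norm_nonneg _).trans (h.b0 t ht x hx)

theorem XB.lin (a b : ℝ) (hS : IsOpen S) (hu : C21 I S u ut) (hv : C21 I S v vt)
    (h₁ : XB α I S u ut K₁) (h₂ : XB α I S v vt K₂) :
    XB α I S (fun t x => a * u t x + b * v t x) (fun t x => a * ut t x + b * vt t x)
      (|a| * K₁ + |b| * K₂) := by
  refine ⟨fun t ht => ((h₁.b0 t ht).const_smul a).add ((h₂.b0 t ht).const_smul b), fun t ht x hx => ?_,
    fun t ht x hx => ?_, fun t ht => ((h₁.bt t ht).const_smul a).add ((h₂.bt t ht).const_smul b),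
    fun t ht x hx y hy => ?_, fun t ht => ((h₁.ht t ht).const_smul a).add ((h₂.ht t ht).const_smul b)⟩
  · rw [D1_lin a b hS hx (hu.c2 t ht) (hv.c2 t ht)]
    exact ((h₁.b1 t ht).const_smul a).add ((h₂.b1 t ht).const_smul b) x hx
  · rw [D2_lin a b hS hx (hu.c2 t ht) (hv.c2 t ht)]
    exact ((h₁.b2 t ht).const_smul a).add ((h₂.b2 t ht).const_smul b) x hx
  · rw [D2_lin a b hS hx (hu.c2 t ht) (hv.c2 t ht), D2_lin a b hS hy (hu.c2 t ht) (hv.c2 t ht)]
    exact ((h₁.h2 t ht).const_smul a).add ((h₂.h2 t ht).const_smul b) x hx y hy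

theorem XB.add (hS : IsOpen S) (hu : C21 I S u ut) (hv : C21 I S v vt) (h₁ : XB α I S u ut K₁)
    (h₂ : XB α I S v vt K₂) :
    XB α I S (fun t x => u t x + v t x) (fun t x => ut t x + vt t x) (K₁ + K₂) := by
  have := XB.lin 1 1 hS hu hv h₁ h₂
  simpa using this

theorem XB.sub (hS : IsOpen S) (hu : C21 I S u ut) (hv : C21 I S v vt) (h₁ : XB α I S u ut K₁)
    (h₂ : XB α I S v vt K₂) :
    XB α I S (fun t x => u t x - v t x) (fun t x => ut t x - vt t x) (K₁ + K₂) := by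
  have := XB.lin 1 (-1) hS hu hv h₁ h₂
  simpa [sub_eq_add_neg] using this

theorem XB.const_mul (c : ℝ) (hS : IsOpen S) (hu : C21 I S u ut) (h : XB α I S u ut K) :
    XB α I S (fun t x => c * u t x) (fun t x => c * ut t x) (|c| * K) := by
  have := XB.lin c 0 hS hu hu h h
  simpa using this

theorem XB.congr {u' ut' : ℝ → E → ℝ} (hS : IsOpen S) (hu : XB α I S u ut K)
    (h : ∀ t ∈ I, ∀ x ∈ S, u' t x = u t x) (ht : ∀ t ∈ I, ∀ x ∈ S, ut' t x = ut t x) :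
    XB α I S u' ut' K := by
  have hj : ∀ t ∈ I, ∀ x ∈ S, jet u' t x = jet u t x := fun t ht' x hx => jet_congr hS hx (h t ht')
  have h1 : ∀ t ∈ I, ∀ x ∈ S, D1 u' t x = D1 u t x := fun t ht' x hx =>
    congrArg (fun J : Jet E => J.2.1) (hj t ht' x hx)
  have h2 : ∀ t ∈ I, ∀ x ∈ S, D2 u' t x = D2 u t x := fun t ht' x hx =>
    congrArg (fun J : Jet E => J.2.2) (hj t ht' x hx)
  refine ⟨fun t ht' x hx => ?_, fun t ht' x hx => ?_, fun t ht' x hx => ?_, fun t ht' x hx => ?_,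
    fun t ht' x hx y hy => ?_, fun t ht' x hx y hy => ?_⟩
  · rw [h t ht' x hx]; exact hu.b0 t ht' x hx
  · rw [h1 t ht' x hx]; exact hu.b1 t ht' x hx
  · rw [h2 t ht' x hx]; exact hu.b2 t ht' x hx
  · rw [ht t ht' x hx]; exact hu.bt t ht' x hx
  · rw [h2 t ht' x hx, h2 t ht' y hy]; exact hu.h2 t ht' x hx y hy
  · rw [ht t ht' x hx, ht t ht' y hy]; exact hu.ht t ht' x hx y hy

theorem XB.shift {t₀ : ℝ} (h : XB α I S u ut K) :
    XB α {t | t₀ + t ∈ I} S (shiftT t₀ u) (shiftT t₀ ut) K :=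
  ⟨fun t ht => h.b0 _ ht, fun t ht => h.b1 _ ht, fun t ht => h.b2 _ ht, fun t ht => h.bt _ ht,
    fun t ht => h.h2 _ ht, fun t ht => h.ht _ ht⟩

theorem XB.static {g : E → ℝ} (hg : C2aB α S g K) (hK : 0 ≤ K) :
    XB α I S (fun _ => g) (fun _ _ => 0) K :=
  ⟨fun _ _ => hg.b0, fun _ _ => hg.b1, fun _ _ => hg.b2, fun _ _ x _ => by simpa using hK,
    fun _ _ => hg.h2, fun _ _ => (HolB.const (0 : ℝ)).mono hK⟩

/-- a time slice of `X` is in `C^{2+α}`. -/
theorem XB.slice (hu : C21 I S u ut) (h : XB α I S u ut K) {t : ℝ} (ht : t ∈ I) :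
    C2aB α S (u t) K :=
  ⟨hu.c2 t ht, h.b0 t ht, h.b1 t ht, h.b2 t ht, h.h2 t ht⟩

theorem XB.jet_sup (h : XB α I S u ut K) : ∀ t ∈ I, SupB S (jet u t) K :=
  fun t ht x hx => norm_jet_le_iff.mpr ⟨h.b0 t ht x hx, h.b1 t ht x hx, h.b2 t ht x hx⟩

/-- `[jet u(t)]_α ≤ 3N + H` from `|jet u(t)| ≤ N`, `[D²u(t)]_α ≤ H` on a convex open set. -/
theorem jet_hol_of_sup (hα0 : 0 < α) (hα1 : α ≤ 1) (hS : IsOpen S) (hc : Convex ℝ S) {t N H : ℝ}
    (hu : ContDiffOn ℝ 2 (u t) S) (hN : SupB S (jet u t) N) (hH : HolB α S (D2 u t) H)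
    (hH0 : 0 ≤ H) : HolB α S (jet u t) (3 * N + H) := by
  intro x hx y hy
  have hN0 : 0 ≤ N := (norm_nonneg _).trans (hN x hx)
  have hr : 0 ≤ ‖x - y‖ ^ α := Real.rpow_nonneg (norm_nonneg _) _
  have hb0 : SupB S (u t) N := fun z hz => (norm_jet_le_iff.mp (hN z hz)).1
  have hb1 : SupB S (fderiv ℝ (u t)) N := fun z hz => (norm_jet_le_iff.mp (hN z hz)).2.1
  have hb2 : SupB S (fderiv ℝ (fderiv ℝ (u t))) N := fun z hz => (norm_jet_le_iff.mp (hN z hz)).2.2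
  have hd0 : DifferentiableOn ℝ (u t) S := hu.differentiableOn (by norm_num)
  have hd1 : DifferentiableOn ℝ (fderiv ℝ (u t)) S :=
    (hu.fderiv_of_isOpen hS (m := 1) (by norm_num)).differentiableOn (by norm_num)
  have h0 := HolB.of_lip hα0 hα1 hb0 (lip_of_fderiv hS hc hd0 hb1) hN0 x hx y hy
  have h1 := HolB.of_lip hα0 hα1 hb1 (lip_of_fderiv hS hc hd1 hb2) hN0 x hx y hy
  have h2 := hH x hx y hy
  have e : jet u t x - jet u t y = (u t x - u t y, D1 u t x - D1 u t y, D2 u t x - D2 u t y) := rfl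
  rw [e, Prod.norm_def, Prod.norm_def]
  refine max_le ?_ (max_le ?_ ?_)
  · refine h0.trans ?_
    nlinarith [mul_nonneg hH0 hr]
  · refine le_trans h1 ?_
    nlinarith [mul_nonneg hH0 hr]
  · refine le_trans h2 ?_
    nlinarith [mul_nonneg hN0 hr]

/-- `[jet u(t)]_α ≤ 3K` on a convex open set. -/
theorem XB.jet_hol (hα0 : 0 < α) (hα1 : α ≤ 1) (hS : IsOpen S) (hc : Convex ℝ S) (hu : C21 I S u ut)
    (h : XB α I S u ut K) : ∀ t ∈ I, HolB α S (jet u t) (3 * K) := by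
  intro t ht x hx y hy
  have hN0 : 0 ≤ K := (norm_nonneg _).trans (h.b0 t ht x hx)
  have hr : 0 ≤ ‖x - y‖ ^ α := Real.rpow_nonneg (norm_nonneg _) _
  have hd0 : DifferentiableOn ℝ (u t) S := (hu.c2 t ht).differentiableOn (by norm_num)
  have hd1 : DifferentiableOn ℝ (fderiv ℝ (u t)) S :=
    ((hu.c2 t ht).fderiv_of_isOpen hS (m := 1) (by norm_num)).differentiableOn (by norm_num)
  have h0 := HolB.of_lip hα0 hα1 (h.b0 t ht) (lip_of_fderiv hS hc hd0 (h.b1 t ht)) hN0 x hx y hy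
  have h1 := HolB.of_lip hα0 hα1 (h.b1 t ht) (lip_of_fderiv hS hc hd1 (h.b2 t ht)) hN0 x hx y hy
  have h2 := h.h2 t ht x hx y hy
  have e : jet u t x - jet u t y = (u t x - u t y, D1 u t x - D1 u t y, D2 u t x - D2 u t y) := rfl
  rw [e, Prod.norm_def, Prod.norm_def]
  refine max_le ?_ (max_le ?_ ?_)
  · exact h0.trans (le_of_eq (by ring))
  · exact le_trans h1 (le_of_eq (by ring))
  · refine le_trans h2 ?_
    nlinarith [mul_nonneg hN0 hr]

/-- `jet u ∈ Y` with norm `≤ 3K`. -/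
theorem XB.jet_YB (hα0 : 0 < α) (hα1 : α ≤ 1) (hS : IsOpen S) (hc : Convex ℝ S) (hu : C21 I S u ut)
    (h : XB α I S u ut K) (hK : 0 ≤ K) : YB α I S (jet u) (3 * K) :=
  ⟨jet_continuousOn hu, fun t ht => (h.jet_sup t ht).mono (by linarith),
    h.jet_hol hα0 hα1 hS hc hu⟩

/-- `L : X → Y` is bounded: `|L u|_Y ≤ (1 + 6M) |u|_X`. -/
theorem YB_Lop {P : Op E} {M : ℝ} (hα0 : 0 < α) (hα1 : α ≤ 1) (hS : IsOpen S) (hc : Convex ℝ S)
    (hP : YB α I S P M) (hM : 0 ≤ M) (hu : C21 I S u ut) (h : XB α I S u ut K) (hK : 0 ≤ K) :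
    YB α I S (Lop P u ut) ((1 + 6 * M) * K) := by
  have h1 : YB α I S ut K := ⟨hu.contt, h.bt, h.ht⟩
  have h2 := hP.clm_apply (h.jet_YB hα0 hα1 hS hc hu hK) hM (by linarith)
  exact (h1.sub h2).mono (le_of_eq (by ring))

/-- `P (jet g) ∈ Y` for a time independent `g ∈ C^{2+α}`. -/
theorem YB_static_jet {P : Op E} {M : ℝ} {g : E → ℝ} (hα0 : 0 < α) (hα1 : α ≤ 1) (hS : IsOpen S)
    (hc : Convex ℝ S) (hP : YB α I S P M) (hM : 0 ≤ M) (hg : C2aB α S g K) (hK : 0 ≤ K) :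
    YB α I S (fun t x => P t x (jet (fun _ => g) t x)) (6 * M * K) := by
  have h2 := hP.clm_apply ((XB.static (I := I) hg hK).jet_YB hα0 hα1 hS hc (C21.static hS hg.c2) hK)
    hM (by linarith)
  exact h2.mono (le_of_eq (by ring))

theorem C2aB.mono {g : E → ℝ} (h : C2aB α S g K) (hK : K ≤ K') : C2aB α S g K' :=
  ⟨h.c2, h.b0.mono hK, h.b1.mono hK, h.b2.mono hK, h.h2.mono hK⟩

theorem C2aB.subset {g : E → ℝ} (h : C2aB α S g K) (hS : S' ⊆ S) : C2aB α S' g K :=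
  ⟨h.c2.mono hS, h.b0.subset hS, h.b1.subset hS, h.b2.subset hS, h.h2.subset hS⟩

theorem Adm.subset {P : Op E} {γ lam M : ℝ} (h : Adm P α γ lam M I S) (hI : I' ⊆ I) (hS : S' ⊆ S) :
    Adm P α γ lam M I' S' :=
  ⟨fun t ht x hx => h.ell t (hI ht) x (hS hx), h.coef.subset hI hS,
    fun t ht s hs x hx => h.time t (hI ht) s (hI hs) x (hS hx)⟩

theorem Adm.shift {P : Op E} {γ lam M t₀ : ℝ} (h : Adm P α γ lam M I S) :
    Adm (shiftT t₀ P) α γ lam M {t | t₀ + t ∈ I} S := by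
  refine ⟨fun t ht x hx => h.ell _ ht x hx, h.coef.shift, fun t ht s hs x hx B => ?_⟩
  have := h.time _ ht _ hs x hx B
  rwa [add_sub_add_left_eq_sub] at this

theorem Adm.bdd {P : Op E} {γ lam M : ℝ} (hlam : 0 ≤ lam) (h : Adm P α γ lam M I S) : Bdd P M I S :=
  ⟨fun t ht x hx ξ => (by positivity : 0 ≤ lam * ‖ξ‖ ^ 2).trans (h.ell t ht x hx ξ),
    fun t ht x hx => h.coef.sup t ht x hx⟩

theorem Lop_shift (P : Op E) (t₀ t : ℝ) (x : E) :
    Lop (shiftT t₀ P) (shiftT t₀ u) (shiftT t₀ ut) t x = Lop P u ut (t₀ + t) x := rfl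

end Jets

end Claimed.Agent.R316.B8
end

/- ===== packed: Claimed.Agent.R316.B8.ConvT ===== -/
section
/-!
# B8-CONVT: the operators `Tk κ r φ x = ∫ φ(x - r z) κ(z) dz` for a Schwartz kernel `κ`

LEAF (proofs only).  `κ : 𝓢(E, G)` (vector valued), `φ : E → ℝ` bounded continuous, `r > 0` the scale.
All derivative bounds of the heat semigroup follow from these lemmas with `κ = D^j (Gaussian)`.

Facts from Mathlib: `SchwartzMap.integrable`, `SchwartzMap.integrable_pow_mul`, `SchwartzMap.decay`,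
`SchwartzMap.one_add_le_sup_seminorm_apply`, `SchwartzMap.fderivCLM_apply`, `SchwartzMap.hasFDerivAt`,
`integrable_one_add_norm`, `hasFDerivAt_integral_of_dominated_of_fderiv_le`,
`hasDerivAt_integral_of_dominated_loc_of_deriv_le`, `continuous_of_dominated`,
`MeasureTheory.Measure.integral_comp_smul`, `integral_sub_left_eq_self`, `norm_integral_le_of_norm_le`.

Recipes.
* `integrable_mom`: `‖z‖^β ≤ 1 + ‖z‖^k` for a natural `k ≥ β`; `integrable_pow_mul` with `0` and `k`.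
* `Tk_eq_conv`: substitution `z = r⁻¹ (x - y)`.
* `hasFDerivAt_Tk`: differentiate `x ↦ ∫ φ y • κ (r⁻¹ • (x - y)) dy`.  For `‖x - x₁‖ ≤ r`:
  `‖Dκ (r⁻¹(x-y))‖ ≤ C_N (1 + ‖r⁻¹(x-y)‖)^{-N} ≤ C_N 2^N (1 + ‖r⁻¹(x₁-y)‖)^{-N}` because `1 + a ≤ 2 (1 + b)` when `|a - b| ≤ 1`;
  `N = finrank + 1`; integrable in `y` by `integrable_one_add_norm` + affine substitution.
* `integral_fderiv_schwartz`: `Tk κ 1 1 x = ∫ κ` is constant in `x`; its derivative `Tk (Dκ) 1 1 x = ∫ Dκ` vanishes.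
* `norm_Tk_le_hol`: `Tk κ r φ x = ∫ (φ(x - r z) - φ x) • κ z` since `∫ κ = 0`.
* `hasDerivAt_Tk_r`: `∂_ρ [ρ^{-m} κ(w/ρ)] = - ρ^{-1} ρ^{-m} κ'(w/ρ)`; for `ρ ∈ (r/2, 2r)`:
  `‖ρ^{-1-m} κ'(w/ρ)‖ ≤ (r/2)^{-1-m} C_N (1 + ‖w‖/(2r))^{-N}`.
-/

set_option autoImplicit false
set_option maxSynthPendingDepth 3
set_option linter.unusedSectionVars false

open scoped Topology ContDiff SchwartzMap
open Set Filter Metric Module MeasureTheory

namespace Claimed.Agent.R316.B8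

variable {E : Type*} [NormedAddCommGroup E] [InnerProductSpace ℝ E] [FiniteDimensional ℝ E]
  [MeasurableSpace E] [BorelSpace E]
variable {G : Type*} [NormedAddCommGroup G] [NormedSpace ℝ G] [CompleteSpace G]

/-- `Tk κ r φ x = ∫ φ(x - r z) κ(z) dz`. -/
noncomputable def Tk (κ : 𝓢(E, G)) (r : ℝ) (φ : E → ℝ) (x : E) : G := ∫ z, φ (x - r • z) • κ z

/-- the `β`-th absolute moment of the kernel. -/
noncomputable def mom (β : ℝ) (κ : 𝓢(E, G)) : ℝ := ∫ z, ‖z‖ ^ β * ‖κ z‖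

variable {κ : 𝓢(E, G)} {φ : E → ℝ} {K H α r : ℝ} {x : E}

theorem integrable_mom {β : ℝ} (hβ : 0 ≤ β) (κ : 𝓢(E, G)) : Integrable (fun z => ‖z‖ ^ β * ‖κ z‖) := by
  obtain ⟨k, hk⟩ := exists_nat_ge β
  have h0 := κ.integrable_pow_mul volume 0
  have h1 := κ.integrable_pow_mul volume k
  refine (h0.add h1).mono' ?_ (Eventually.of_forall fun z => ?_)
  · exact ((continuous_norm.rpow_const (fun _ => Or.inr hβ)).mul κ.continuous.norm).aestronglyMeasurable
  · have hz : 0 ≤ ‖z‖ := norm_nonneg z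
    have hr : 0 ≤ ‖z‖ ^ β := Real.rpow_nonneg hz _
    rw [Real.norm_of_nonneg (mul_nonneg hr (norm_nonneg _))]
    have h2 : ‖z‖ ^ β ≤ ‖z‖ ^ 0 + ‖z‖ ^ k := by
      rcases le_total ‖z‖ 1 with h | h
      · have := Real.rpow_le_one hz h hβ
        have h3 : 0 ≤ ‖z‖ ^ k := by positivity
        simp only [pow_zero]; linarith
      · have := Real.rpow_le_rpow_of_exponent_le h hk
        rw [Real.rpow_natCast] at this
        simp only [pow_zero]; linarith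
    calc ‖z‖ ^ β * ‖κ z‖ ≤ (‖z‖ ^ 0 + ‖z‖ ^ k) * ‖κ z‖ := by gcongr
      _ = _ := by simp only [Pi.add_apply]; ring

theorem mom_nonneg (β : ℝ) (κ : 𝓢(E, G)) : 0 ≤ mom β κ :=
  integral_nonneg fun z => mul_nonneg (Real.rpow_nonneg (norm_nonneg _) _) (norm_nonneg _)

theorem mom_zero (κ : 𝓢(E, G)) : mom 0 κ = ∫ z, ‖κ z‖ := by
  simp [mom]

theorem continuous_Tk_integrand (κ : 𝓢(E, G)) (r : ℝ) (x : E) (hc : Continuous φ) :
    Continuous (fun z => φ (x - r • z) • κ z) :=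
  (hc.comp (continuous_const.sub (continuous_const.smul continuous_id))).smul κ.continuous

theorem integrable_Tk (κ : 𝓢(E, G)) (r : ℝ) (x : E) (hc : Continuous φ) (hb : SupB univ φ K) :
    Integrable (fun z => φ (x - r • z) • κ z) := by
  refine (κ.integrable.norm.const_mul K).mono' (continuous_Tk_integrand κ r x hc).aestronglyMeasurable
    (Eventually.of_forall fun z => ?_)
  rw [norm_smul]
  exact mul_le_mul_of_nonneg_right (hb _ (mem_univ _)) (norm_nonneg _)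

/-- T1. -/
theorem norm_Tk_le (κ : 𝓢(E, G)) (r : ℝ) (x : E) (hb : SupB univ φ K) :
    ‖Tk κ r φ x‖ ≤ K * mom 0 κ := by
  rw [mom_zero, ← integral_const_mul]
  refine norm_integral_le_of_norm_le (κ.integrable.norm.const_mul K) (Eventually.of_forall fun z => ?_)
  rw [norm_smul]
  exact mul_le_mul_of_nonneg_right (hb _ (mem_univ _)) (norm_nonneg _)

/-- general kernels: distance to `(∫ κ) φ(x)`. -/
theorem norm_Tk_sub_le_hol (κ : 𝓢(E, G)) (hα : 0 ≤ α) (hr : 0 ≤ r) (hc : Continuous φ)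
    (hb : SupB univ φ K) (hh : HolB α univ φ H) (x : E) :
    ‖Tk κ r φ x - φ x • ∫ z, κ z‖ ≤ H * r ^ α * mom α κ := by
  have h1 : Tk κ r φ x - φ x • ∫ z, κ z = ∫ z, (φ (x - r • z) - φ x) • κ z := by
    have hi : Integrable (fun z => φ x • κ z) := κ.integrable.smul (φ x)
    rw [Tk, ← integral_smul, ← integral_sub (integrable_Tk κ r x hc hb) hi]
    congr 1
    funext z
    rw [sub_smul]
  rw [h1, mom, ← integral_const_mul]
  refine norm_integral_le_of_norm_le ((integrable_mom hα κ).const_mul _)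
    (Eventually.of_forall fun z => ?_)
  rw [norm_smul]
  have h2 := hh (x - r • z) (mem_univ _) x (mem_univ _)
  have h3 : ‖x - r • z - x‖ ^ α = r ^ α * ‖z‖ ^ α := by
    have : x - r • z - x = -(r • z) := by abel
    rw [this, norm_neg, norm_smul, Real.norm_of_nonneg hr, Real.mul_rpow hr (norm_nonneg _)]
  rw [h3] at h2
  calc ‖φ (x - r • z) - φ x‖ * ‖κ z‖ ≤ (H * (r ^ α * ‖z‖ ^ α)) * ‖κ z‖ := by gcongr
    _ = H * r ^ α * (‖z‖ ^ α * ‖κ z‖) := by ring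

/-- T2: kernels of mean zero gain a factor `r^α`. -/
theorem norm_Tk_le_hol (hκ : ∫ z, κ z = 0) (hα : 0 ≤ α) (hr : 0 ≤ r) (hc : Continuous φ)
    (hb : SupB univ φ K) (hh : HolB α univ φ H) (x : E) : ‖Tk κ r φ x‖ ≤ H * r ^ α * mom α κ := by
  have := norm_Tk_sub_le_hol κ hα hr hc hb hh x
  rwa [hκ, smul_zero, sub_zero] at this

/-- convolution form. -/
theorem Tk_eq_conv (κ : 𝓢(E, G)) (hr : 0 < r) (φ : E → ℝ) (x : E) :
    Tk κ r φ x = (r ^ finrank ℝ E)⁻¹ • ∫ y, φ y • κ (r⁻¹ • (x - y)) := by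
  have h1 := Measure.integral_comp_smul (volume : Measure E) (fun w => φ (x - w) • κ (r⁻¹ • w)) r
  have h2 : ∫ w, φ (x - w) • κ (r⁻¹ • w) = ∫ y, φ y • κ (r⁻¹ • (x - y)) := by
    rw [← integral_sub_left_eq_self (fun w => φ (x - w) • κ (r⁻¹ • w)) volume x]
    congr 1
    funext y
    rw [sub_sub_cancel]
  rw [h2, abs_of_pos (by positivity)] at h1
  rw [← h1, Tk]
  congr 1
  funext z
  rw [smul_smul, inv_mul_cancel₀ hr.ne', one_smul]

/-- T5: joint continuity in (parameter, scale, point). -/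
theorem continuous_Tk (κ : 𝓢(E, G)) {f : ℝ → E → ℝ} (hc : Continuous (fun q : ℝ × E => f q.1 q.2))
    (hb : ∀ t, SupB univ (f t) K) :
    Continuous (fun q : ℝ × ℝ × E => Tk κ q.2.1 (f q.1) q.2.2) := by
  unfold Tk
  refine continuous_of_dominated (bound := fun z => K * ‖κ z‖) (fun q => ?_) (fun q => ?_)
    (κ.integrable.norm.const_mul K) (Eventually.of_forall fun z => ?_)
  · have hcq : Continuous (f q.1) := hc.comp (continuous_const.prodMk continuous_id)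
    exact (continuous_Tk_integrand κ q.2.1 q.2.2 hcq).aestronglyMeasurable
  · refine Eventually.of_forall fun z => ?_
    rw [norm_smul]
    exact mul_le_mul_of_nonneg_right (hb _ _ (mem_univ _)) (norm_nonneg _)
  · have : Continuous (fun q : ℝ × ℝ × E => (q.1, q.2.2 - q.2.1 • z)) := by fun_prop
    exact (hc.comp this).smul continuous_const

/-- T6: Hölder seminorms are preserved. -/
theorem Tk_hol (κ : 𝓢(E, G)) (r : ℝ) (hc : Continuous φ) (hb : SupB univ φ K) (hh : HolB α univ φ H) :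
    HolB α univ (Tk κ r φ) (H * mom 0 κ) := by
  intro x _ y _
  rw [Tk, Tk, ← integral_sub (integrable_Tk κ r x hc hb) (integrable_Tk κ r y hc hb), mom_zero]
  have : H * (∫ z, ‖κ z‖) * ‖x - y‖ ^ α = ∫ z, (H * ‖x - y‖ ^ α) * ‖κ z‖ := by
    rw [integral_const_mul]; ring
  rw [this]
  refine norm_integral_le_of_norm_le (κ.integrable.norm.const_mul _) (Eventually.of_forall fun z => ?_)
  rw [← sub_smul, norm_smul]
  have h2 := hh (x - r • z) (mem_univ _) (y - r • z) (mem_univ _)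
  rw [sub_sub_sub_cancel_right] at h2
  gcongr

/-- post-composition with a continuous linear map. -/
theorem clm_Tk {G' : Type*} [NormedAddCommGroup G'] [NormedSpace ℝ G'] [CompleteSpace G']
    (L : G →L[ℝ] G') (κ : 𝓢(E, G)) (r : ℝ) (hc : Continuous φ) (hb : SupB univ φ K) (x : E) :
    L (Tk κ r φ x) = Tk (SchwartzMap.postcompCLM (𝕜 := ℝ) L κ) r φ x := by
  rw [Tk, Tk, ← L.integral_comp_comm (integrable_Tk κ r x hc hb)]
  congr 1
  funext z
  simp



theorem schwartz_le_maj (κ : 𝓢(E, G)) (N : ℕ) :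
    ∃ C : ℝ, 0 ≤ C ∧ ∀ w, ‖κ w‖ ≤ C * ((1 + ‖w‖) ^ N)⁻¹ := by
  refine ⟨2 ^ N * ((Finset.Iic (N, 0)).sup (fun m => SchwartzMap.seminorm ℝ m.1 m.2)) κ,
    by positivity, fun w => ?_⟩
  have h := SchwartzMap.one_add_le_sup_seminorm_apply (𝕜 := ℝ) (m := (N, 0)) (k := N) (n := 0)
    le_rfl le_rfl κ w
  rw [norm_iteratedFDeriv_zero] at h
  rw [← div_eq_mul_inv, le_div_iff₀ (by positivity), mul_comm]
  exact h

theorem integrable_maj : Integrable (fun w : E => ((1 + ‖w‖) ^ (finrank ℝ E + 1))⁻¹) := by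
  have h := integrable_one_add_norm (E := E) (μ := volume) (r := ((finrank ℝ E + 1 : ℕ) : ℝ))
    (by push_cast; linarith)
  refine h.congr (Eventually.of_forall fun w => ?_)
  simp only
  rw [Real.rpow_neg (by positivity), Real.rpow_natCast]

theorem integrable_maj_comp {ρ : ℝ} (hρ : 0 < ρ) (x : E) :
    Integrable (fun y : E => ((1 + ‖ρ⁻¹ • (x - y)‖) ^ (finrank ℝ E + 1))⁻¹) :=
  ((integrable_maj (E := E)).comp_smul (inv_ne_zero hρ.ne')).comp_sub_left x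

theorem maj_shift (N : ℕ) {w w₁ : E} (h : ‖w - w₁‖ ≤ 1) :
    ((1 + ‖w‖) ^ N)⁻¹ ≤ 2 ^ N * ((1 + ‖w₁‖) ^ N)⁻¹ := by
  have h1 : ‖w₁‖ ≤ ‖w‖ + 1 := by
    have := norm_sub_norm_le w₁ w
    rw [norm_sub_rev] at this
    linarith
  have h2 : (1 + ‖w₁‖) ^ N ≤ 2 ^ N * (1 + ‖w‖) ^ N := by
    rw [← mul_pow]
    exact pow_le_pow_left₀ (by positivity) (by linarith [norm_nonneg w]) N
  rw [← div_eq_mul_inv, le_div_iff₀ (by positivity), inv_mul_le_iff₀ (by positivity), mul_comm]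
  exact h2

theorem continuous_conv_integrand (κ : 𝓢(E, G)) (ρ : ℝ) (hc : Continuous φ) (x : E) :
    Continuous (fun y => φ y • κ (ρ • (x - y))) :=
  hc.smul (κ.continuous.comp (continuous_const.smul (continuous_const.sub continuous_id)))

theorem integrable_conv (κ : 𝓢(E, G)) (hr : 0 < r) (hc : Continuous φ) (hb : SupB univ φ K) (x : E) :
    Integrable (fun y => φ y • κ (r⁻¹ • (x - y))) := by
  have h1 : Integrable (fun y => κ (r⁻¹ • (x - y))) :=
    (κ.integrable.comp_smul (inv_ne_zero hr.ne')).comp_sub_left x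
  refine (h1.norm.const_mul K).mono' (continuous_conv_integrand κ _ hc x).aestronglyMeasurable
    (Eventually.of_forall fun z => ?_)
  rw [norm_smul]
  exact mul_le_mul_of_nonneg_right (hb _ (mem_univ _)) (norm_nonneg _)

/-- T3: differentiation in `x`. -/
theorem hasFDerivAt_Tk (κ : 𝓢(E, G)) (hr : 0 < r) (hc : Continuous φ) (hb : SupB univ φ K) (x : E) :
    HasFDerivAt (Tk κ r φ) (r⁻¹ • Tk (SchwartzMap.fderivCLM ℝ E G κ) r φ x) x := by
  set κ' := SchwartzMap.fderivCLM ℝ E G κ with hκ'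
  set N := finrank ℝ E + 1 with hN
  obtain ⟨C, hC0, hC⟩ := schwartz_le_maj κ' N
  have hK : 0 ≤ K := (norm_nonneg _).trans (hb x (mem_univ _))
  have hfun : Tk κ r φ = fun x => (r ^ finrank ℝ E)⁻¹ • ∫ y, φ y • κ (r⁻¹ • (x - y)) :=
    funext fun x => Tk_eq_conv κ hr φ x
  rw [hfun, Tk_eq_conv κ' hr φ x]
  have key : HasFDerivAt (fun x => ∫ y, φ y • κ (r⁻¹ • (x - y)))
      (∫ y, φ y • (r⁻¹ • κ' (r⁻¹ • (x - y)))) x := by
    refine hasFDerivAt_integral_of_dominated_of_fderiv_le (𝕜 := ℝ) (μ := (volume : Measure E))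
      (F := fun x y => φ y • κ (r⁻¹ • (x - y)))
      (F' := fun x y => φ y • (r⁻¹ • κ' (r⁻¹ • (x - y)))) (s := ball x r)
      (bound := fun y => K * (r⁻¹ * (C * (2 ^ N * ((1 + ‖r⁻¹ • (x - y)‖) ^ N)⁻¹))))
      (ball_mem_nhds x hr) ?_ ?_ ?_ ?_ ?_ ?_
    · exact Eventually.of_forall fun x' => (continuous_conv_integrand κ _ hc x').aestronglyMeasurable
    · exact integrable_conv κ hr hc hb x
    · have h1 : Continuous (fun y => κ' (r⁻¹ • (x - y))) := κ'.continuous.comp (by fun_prop)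
      exact (hc.smul (h1.const_smul r⁻¹)).aestronglyMeasurable
    · refine Eventually.of_forall fun y x' hx' => ?_
      rw [norm_smul, norm_smul, Real.norm_of_nonneg (inv_nonneg.mpr hr.le)]
      have h1 : ‖r⁻¹ • (x' - y) - r⁻¹ • (x - y)‖ ≤ 1 := by
        rw [← smul_sub, sub_sub_sub_cancel_right, norm_smul, Real.norm_of_nonneg (inv_nonneg.mpr hr.le),
          inv_mul_le_iff₀ hr, mul_one]
        exact (mem_ball_iff_norm.mp hx').le
      have h2 := (hC (r⁻¹ • (x' - y))).trans (mul_le_mul_of_nonneg_left (maj_shift N h1) hC0)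
      have h3 := hb y (mem_univ _)
      have : 0 ≤ r⁻¹ := inv_nonneg.mpr hr.le
      gcongr
    · exact ((((integrable_maj_comp hr x).const_mul _).const_mul _).const_mul _).const_mul _
    · refine Eventually.of_forall fun y x' _ => ?_
      have h1 : HasFDerivAt (fun x : E => r⁻¹ • (x - y)) (r⁻¹ • ContinuousLinearMap.id ℝ E) x' :=
        ((hasFDerivAt_id (𝕜 := ℝ) x').sub_const y).const_smul r⁻¹
      have h2 := ((κ.hasFDerivAt (r⁻¹ • (x' - y))).comp x' h1).const_smul (φ y)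
      refine h2.congr_fderiv ?_
      ext v
      simp [hκ']
  have h := key.const_smul ((r ^ finrank ℝ E)⁻¹)
  refine h.congr_fderiv ?_
  rw [smul_comm]
  congr 1
  rw [← integral_smul]
  congr 1
  funext y
  rw [smul_comm]

/-- T4. -/
theorem integral_fderiv_schwartz (κ : 𝓢(E, G)) : ∫ z, SchwartzMap.fderivCLM ℝ E G κ z = 0 := by
  have h1 : SupB univ (fun _ : E => (1 : ℝ)) 1 := fun _ _ => by simp
  have h := hasFDerivAt_Tk κ one_pos (φ := fun _ => 1) continuous_const h1 (0 : E)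
  have h2 : Tk κ 1 (fun _ : E => (1 : ℝ)) = fun _ => ∫ z, κ z := by
    funext x; simp [Tk]
  rw [h2] at h
  have h3 := h.unique (hasFDerivAt_const _ _)
  simpa [Tk] using h3

/-- T7: Lipschitz bound from T3 + T1/T2. -/
theorem Tk_lip_hol (κ : 𝓢(E, G)) (hα : 0 ≤ α) (hr : 0 < r) (hc : Continuous φ) (hb : SupB univ φ K)
    (hh : HolB α univ φ H) (x y : E) :
    ‖Tk κ r φ x - Tk κ r φ y‖
      ≤ r⁻¹ * (H * r ^ α * mom α (SchwartzMap.fderivCLM ℝ E G κ)) * ‖x - y‖ := by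
  refine Convex.norm_image_sub_le_of_norm_hasFDerivWithin_le (s := univ)
    (fun z _ => (hasFDerivAt_Tk κ hr hc hb z).hasFDerivWithinAt) (fun z _ => ?_) convex_univ
    (mem_univ y) (mem_univ x)
  rw [norm_smul, Real.norm_of_nonneg (inv_nonneg.mpr hr.le)]
  exact mul_le_mul_of_nonneg_left
    (norm_Tk_le_hol (integral_fderiv_schwartz κ) hα hr.le hc hb hh z) (inv_nonneg.mpr hr.le)

theorem hasDerivAt_scaled (κ κ' : 𝓢(E, G))
    (hκ : ∀ z, κ' z = (finrank ℝ E : ℝ) • κ z + fderiv ℝ κ z z) {ρ : ℝ} (hρ : 0 < ρ) (w : E) :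
    HasDerivAt (fun ρ : ℝ => (ρ ^ finrank ℝ E)⁻¹ • κ (ρ⁻¹ • w))
      (-(ρ⁻¹) • ((ρ ^ finrank ℝ E)⁻¹ • κ' (ρ⁻¹ • w))) ρ := by
  set m := finrank ℝ E with hm
  have ha : HasDerivAt (fun ρ : ℝ => (ρ ^ m)⁻¹) (-(ρ⁻¹) * (ρ ^ m)⁻¹ * m) ρ := by
    have h := (hasDerivAt_pow m ρ).inv (pow_ne_zero m hρ.ne')
    refine h.congr_deriv ?_
    rcases m with _ | k
    · simp
    · simp only [Nat.add_sub_cancel]
      field_simp
      ring
  have hb : HasDerivAt (fun ρ : ℝ => κ (ρ⁻¹ • w)) (fderiv ℝ κ (ρ⁻¹ • w) ((-(ρ ^ 2)⁻¹) • w)) ρ :=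
    (κ.hasFDerivAt (ρ⁻¹ • w)).comp_hasDerivAt ρ ((hasDerivAt_inv hρ.ne').smul_const w)
  have h := ha.smul hb
  refine h.congr_deriv ?_
  rw [hκ]
  have h1 : (-(ρ ^ 2)⁻¹) • w = (-(ρ⁻¹)) • (ρ⁻¹ • w) := by
    rw [smul_smul]; congr 1; field_simp
  rw [h1, map_smul]
  module

/-- T8: differentiation in the scale `r`; `κ' = m κ + Dκ(z) z`. -/
theorem hasDerivAt_Tk_r {κ κ' : 𝓢(E, G)}
    (hκ : ∀ z, κ' z = (finrank ℝ E : ℝ) • κ z + fderiv ℝ κ z z) (hr : 0 < r) (hc : Continuous φ)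
    (hb : SupB univ φ K) (x : E) :
    HasDerivAt (fun ρ => Tk κ ρ φ x) (-(r⁻¹) • Tk κ' r φ x) r := by
  set m := finrank ℝ E with hm
  set N := finrank ℝ E + 1 with hN
  obtain ⟨C, hC0, hC⟩ := schwartz_le_maj κ' N
  have hK : 0 ≤ K := (norm_nonneg _).trans (hb x (mem_univ _))
  have hs : Ioo (r / 2) (2 * r) ∈ 𝓝 r := Ioo_mem_nhds (by linarith) (by linarith)
  have key := hasDerivAt_integral_of_dominated_loc_of_deriv_le (μ := (volume : Measure E))
    (F := fun ρ y => φ y • ((ρ ^ m)⁻¹ • κ (ρ⁻¹ • (x - y))))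
    (F' := fun ρ y => φ y • (-(ρ⁻¹) • ((ρ ^ m)⁻¹ • κ' (ρ⁻¹ • (x - y)))))
    (x₀ := r) (s := Ioo (r / 2) (2 * r))
    (bound := fun y => K * ((r / 2)⁻¹ * (((r / 2) ^ m)⁻¹ *
      (C * ((1 + ‖(2 * r)⁻¹ • (x - y)‖) ^ N)⁻¹)))) hs ?_ ?_ ?_ ?_ ?_ ?_
  · have h := key.2
    rw [Tk_eq_conv κ' hr φ x]
    have h1 : (∫ y, φ y • (-(r⁻¹) • ((r ^ m)⁻¹ • κ' (r⁻¹ • (x - y)))))
        = -(r⁻¹) • ((r ^ m)⁻¹ • ∫ y, φ y • κ' (r⁻¹ • (x - y))) := by
      rw [← integral_smul, ← integral_smul]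
      congr 1
      funext y
      module
    rw [h1] at h
    refine h.congr_of_eventuallyEq ?_
    filter_upwards [Ioi_mem_nhds hr] with ρ hρ
    rw [Tk_eq_conv κ hρ φ x, ← integral_smul]
    congr 1
    funext y
    rw [smul_comm]
  · refine Eventually.of_forall fun ρ => ?_
    have h1 : Continuous (fun y => κ (ρ⁻¹ • (x - y))) := κ.continuous.comp (by fun_prop)
    exact (hc.smul (h1.const_smul ((ρ ^ m)⁻¹))).aestronglyMeasurable
  · have := (integrable_conv κ hr hc hb x).smul ((r ^ m)⁻¹)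
    refine this.congr (Eventually.of_forall fun y => ?_)
    simp only [Pi.smul_apply]
    rw [smul_comm]
  · have h1 : Continuous (fun y => κ' (r⁻¹ • (x - y))) := κ'.continuous.comp (by fun_prop)
    exact (hc.smul ((h1.const_smul ((r ^ m)⁻¹)).const_smul (-(r⁻¹)))).aestronglyMeasurable
  · refine Eventually.of_forall fun y ρ hρ => ?_
    have hρ0 : 0 < ρ := lt_trans (by linarith) hρ.1
    have hr2 : 0 < r / 2 := by linarith
    rw [norm_smul, norm_smul, norm_smul, norm_neg, Real.norm_of_nonneg (inv_nonneg.mpr hρ0.le),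
      Real.norm_of_nonneg (inv_nonneg.mpr (pow_nonneg hρ0.le m))]
    have h1 : ρ⁻¹ ≤ (r / 2)⁻¹ := inv_anti₀ hr2 hρ.1.le
    have h2 : (ρ ^ m)⁻¹ ≤ ((r / 2) ^ m)⁻¹ :=
      inv_anti₀ (pow_pos hr2 m) (pow_le_pow_left₀ hr2.le hρ.1.le m)
    have h3 : ‖(2 * r)⁻¹ • (x - y)‖ ≤ ‖ρ⁻¹ • (x - y)‖ := by
      rw [norm_smul, norm_smul, Real.norm_of_nonneg (inv_nonneg.mpr hρ0.le),
        Real.norm_of_nonneg (inv_nonneg.mpr (by linarith : (0 : ℝ) ≤ 2 * r))]
      exact mul_le_mul_of_nonneg_right (inv_anti₀ hρ0 hρ.2.le) (norm_nonneg _)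
    have h4 : ((1 + ‖ρ⁻¹ • (x - y)‖) ^ N)⁻¹ ≤ ((1 + ‖(2 * r)⁻¹ • (x - y)‖) ^ N)⁻¹ :=
      inv_anti₀ (by positivity) (pow_le_pow_left₀ (by positivity) (by linarith) N)
    have h5 := (hC (ρ⁻¹ • (x - y))).trans (mul_le_mul_of_nonneg_left h4 hC0)
    have h6 := hb y (mem_univ _)
    have h7 : 0 ≤ ρ⁻¹ := inv_nonneg.mpr hρ0.le
    have h8 : 0 ≤ (ρ ^ m)⁻¹ := inv_nonneg.mpr (pow_nonneg hρ0.le m)
    have h9 : 0 ≤ (r / 2)⁻¹ := inv_nonneg.mpr hr2.le
    gcongr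
  · exact ((((integrable_maj_comp (by linarith : (0 : ℝ) < 2 * r) x).const_mul _).const_mul _).const_mul
      _).const_mul _
  · refine Eventually.of_forall fun y ρ hρ => ?_
    have hρ0 : 0 < ρ := lt_trans (by linarith) hρ.1
    exact (hasDerivAt_scaled κ κ' hκ hρ0 (x - y)).const_smul (φ y)

end Claimed.Agent.R316.B8
end
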