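/- Packed by merge_tool.py (helper293): 2 modules of Claimed.Agent.R316 in one file, same declarations.
   Old modules, in this order: S9.Defs, S9.Jet -/
import Mathlib

/- ===== packed: Claimed.Agent.R316.S9.Defs ===== -/
section
/-!
# Row 316, Section 9 (polynomial models with nonuniform contraction): definitions and interface

Everything in `R316/S9/` is FRAMEWORK INDEPENDENT: the whole section is carried out on formal jets,
i.e. on tuples of polynomials `PMap n = Fin n → MvPolynomial (Fin n) ℂ`.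

* `S9Input n d`  : what Section 9 takes from Sections 6-8 (Prop. shrinking-charts, (9.1), and the
  end point rate order (9.9), which is a consequence of joint positivity), stated for the `d`-jets
  `F s u` of the chart transitions.
* `S9Output I h Cd` : Proposition 9.1 (polynomial models), with every `o(s_k)` made explicit as
  `C * sqrt (s k)`.
* the main theorem `s9_main` is in `R316/S9/Main.lean`.

Conventions: a polynomial map is a COLUMN of polynomials; `comp P Q = P ∘ Q`;
`plin P` is the Jacobian matrix at `0` (`plin (comp P Q) = plin P * plin Q`), norms are `ℓ¹` norms of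
coefficients.
-/

set_option autoImplicit false
open MvPolynomial
open scoped ComplexOrder

namespace Claimed.Agent.R316.S9

/-- polynomials in `n` variables. -/
abbrev MP (n : ℕ) := MvPolynomial (Fin n) ℂ

/-- polynomial self maps of `ℂ^n`. -/
abbrev PMap (n : ℕ) := Fin n → MP n

/-- square matrices. -/
abbrev Mat (n : ℕ) := Matrix (Fin n) (Fin n) ℂ

variable {n : ℕ}

/-- the identity map. -/
noncomputable def pid : PMap n := fun i => X i

/-- composition `P ∘ Q`. -/
noncomputable def comp (P Q : PMap n) : PMap n := fun i => bind₁ Q (P i)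

/-- truncation of a polynomial: the terms of total degree `≤ d`. -/
noncomputable def ptr (d : ℕ) (f : MP n) : MP n :=
  ∑ m ∈ Finset.range (d + 1), homogeneousComponent m f

/-- the `d`-jet of a polynomial map. -/
noncomputable def ptrunc (d : ℕ) (P : PMap n) : PMap n := fun i => ptr d (P i)

/-- `ℓ¹` norm of the coefficients. -/
noncomputable def n1 (f : MP n) : ℝ := ∑ m ∈ f.support, ‖coeff m f‖

/-- `ℓ¹` norm of the coefficients of a map. -/
noncomputable def nrm (P : PMap n) : ℝ := ∑ i, n1 (P i)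

/-- `ℓ¹` norm of the entries of a matrix. -/
noncomputable def mnorm (A : Mat n) : ℝ := ∑ i, ∑ j, ‖A i j‖

/-- linear part at the origin (Jacobian matrix at `0`). -/
noncomputable def plin (P : PMap n) : Mat n := fun i j => coeff (Finsupp.single j 1) (P i)

/-- the linear map of a matrix. -/
noncomputable def ofMat (A : Mat n) : PMap n := fun i => ∑ j, C (A i j) * X j

/-- the Jacobian matrix. -/
noncomputable def jmat (P : PMap n) : Matrix (Fin n) (Fin n) (MP n) := fun i j => pderiv j (P i)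

/-- the Jacobian determinant. -/
noncomputable def jdet (P : PMap n) : MP n := (jmat P).det

/-- the degree of a map. -/
noncomputable def pdeg (P : PMap n) : ℕ := Finset.univ.sup fun i => (P i).totalDegree

/-- the map fixes the origin. -/
def Fix0 (P : PMap n) : Prop := ∀ i, coeff 0 (P i) = 0

/-- evaluation. -/
noncomputable def peval (P : PMap n) (z : Fin n → ℂ) : Fin n → ℂ := fun i => eval z (P i)

/-- accumulated forward composition `G_{0,k} = G_{k-1} ∘ ⋯ ∘ G_0`. -/
noncomputable def Gacc (G : ℕ → PMap n) : ℕ → PMap n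
  | 0 => pid
  | k + 1 => comp (G k) (Gacc G k)

/-- real diagonal matrix. -/
noncomputable def rdiag (a : Fin n → ℝ) : Mat n := Matrix.diagonal fun i => ((a i : ℝ) : ℂ)

/-- Loewner order on matrices. -/
def LoewnerLE (A B : Mat n) : Prop := (B - A).PosSemidef

/-- **Input of Section 9.**  `F s u` is the `d`-jet at `0` of the chart transition `F_{s,u}`,
`q` the logarithmic speed of the volume clock, `Pm s` the matrix of `t Ric(h_t)` at `o`, at clock
`s`, in the unitary frame `dΦ_s(0)` (column convention `vᴴ (Pm s) v`). -/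
structure S9Input (n d : ℕ) where
  /-- first clock -/
  s0 : ℝ
  hs0 : 1 ≤ s0
  /-- the transition jets -/
  F : ℝ → ℝ → PMap n
  fix0 : ∀ s u, s0 ≤ s → s ≤ u → Fix0 (F s u)
  deg : ∀ s u, s0 ≤ s → s ≤ u → pdeg (F s u) ≤ d
  self : ∀ s, s0 ≤ s → F s s = pid
  cocycle : ∀ s u v, s0 ≤ s → s ≤ u → u ≤ v → ptrunc d (comp (F u v) (F s u)) = F s v
  /-- common chart exponent -/
  σ : ℝ
  hσ : 0 < σ
  /-- the constant of (8.x) `chart:transition-jets` -/
  C1 : ℝ
  hC1 : 1 ≤ C1
  bound : ∀ s u, s0 ≤ s → s ≤ u → nrm (F s u) ≤ C1 * min 1 (Real.exp (C1 * s - σ * u))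
  det : ∀ s u, s0 ≤ s → s ≤ u → ‖(plin (F s u)).det‖ = Real.exp (-(u - s) / 2)
  /-- logarithmic speed of the clock -/
  q : ℝ → ℝ
  q_mono : Monotone q
  c0 : ℝ
  hc0 : 0 < c0
  q_lb : ∀ x, c0 ≤ q x
  q_liminf : ∀ X : ℝ, ∃ x, X ≤ x ∧ q x ≤ 3 * x
  a0 : ℝ
  ha0 : 0 < a0
  ha0' : a0 < 1
  b0 : ℝ
  hb0 : 0 < b0
  hb0' : b0 ≤ 1
  /-- the rate form `t Ric` at the centre -/
  Pm : ℝ → Mat n
  Pm_lb : ∀ s, s0 ≤ s → LoewnerLE (((b0 * q (a0 * s) : ℝ) : ℂ) • (1 : Mat n)) (Pm s)
  Pm_ub : ∀ s, s0 ≤ s → LoewnerLE (Pm s) (((q s : ℝ) : ℂ) • (1 : Mat n))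
  /-- singular value decomposition of the centre derivative together with the end point rate
  order (9.9). -/
  svd : ∀ s u, s0 ≤ s → s < u → ∃ (W V : Mat n) (μ : Fin n → ℝ) (T : ℝ),
    W ∈ Matrix.unitaryGroup (Fin n) ℂ ∧ V ∈ Matrix.unitaryGroup (Fin n) ℂ ∧ Monotone μ ∧ 0 < T ∧
    plin (F s u) = V * rdiag (fun i => Real.exp (-(μ i * T) / 2)) * W.conjTranspose ∧
    LoewnerLE (W.conjTranspose * Pm s * W) (rdiag μ) ∧
    LoewnerLE (rdiag μ) (V.conjTranspose * Pm u * V)

/-- **Output of Section 9** = Proposition 9.1 (polynomial models) for the macro width `h`; the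
constant `Cd` is the coefficient of `Δ s_k` in (9.5), which must not depend on `h`. -/
structure S9Output {n d : ℕ} (I : S9Input n d) (h Cd : ℝ) where
  /-- the grid -/
  s : ℕ → ℝ
  /-- coordinate changes -/
  H : ℕ → PMap n
  /-- polynomial automorphisms -/
  G : ℕ → PMap n
  /-- their inverses -/
  Gi : ℕ → PMap n
  /-- the constant in all `o(s_k) = C sqrt (s_k)` -/
  C : ℝ
  /-- exponent of the polynomial bounds -/
  Cp : ℕ
  ch : ℝ
  /-- degree bound of the models -/
  Dd : ℕ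
  /-- forward degree constant -/
  D : ℝ
  hch : 0 < ch
  s_ge : ∀ k, I.s0 ≤ s k
  s_tendsto : Filter.Tendsto s Filter.atTop Filter.atTop
  step_lb : ∀ k, ch * Real.sqrt (s k) ≤ s (k + 1) - s k
  step_ub : ∀ k, s (k + 1) - s k ≤ (Real.exp h - 1) * s k
  fixH : ∀ k, Fix0 (H k)
  fixG : ∀ k, Fix0 (G k)
  fixGi : ∀ k, Fix0 (Gi k)
  conj : ∀ k, ptrunc d (comp (H (k + 1)) (I.F (s k) (s (k + 1)))) = ptrunc d (comp (G k) (H k))
  G_Gi : ∀ k, comp (G k) (Gi k) = pid
  Gi_G : ∀ k, comp (Gi k) (G k) = pid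
  degH : ∀ k, pdeg (H k) ≤ d
  degG : ∀ k, pdeg (G k) ≤ Dd
  degGi : ∀ k, pdeg (Gi k) ≤ Dd
  nrmH : ∀ k, nrm (H k) ≤ Real.exp (C * Real.sqrt (s k))
  linH : ∀ k, mnorm (plin (H k)) ≤ s k ^ Cp
  linHinv : ∀ k, ∃ B : Mat n, B * plin (H k) = 1 ∧ mnorm B ≤ s k ^ Cp
  nrmG : ∀ k, nrm (G k) + nrm (Gi k) ≤ Real.exp (Cd * (s (k + 1) - s k) + C * Real.sqrt (s k))
  linGi : ∀ k, mnorm (plin (Gi k)) ≤ s k ^ Cp * Real.exp ((s (k + 1) - s k) / 2)
  degacc : ∀ K : ℕ, ∃ k, K ≤ k ∧ (pdeg (Gacc G k) : ℝ) ≤ D * s k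

end Claimed.Agent.R316.S9
end

/- ===== packed: Claimed.Agent.R316.S9.Jet ===== -/
section
/-!
# Row 316, Section 9, package JET (1): algebra of jets
-/

set_option autoImplicit false
open MvPolynomial

namespace Claimed.Agent.R316.S9

variable {n : ℕ}

/-! ### composition -/

theorem comp_assoc (P Q R : PMap n) : comp (comp P Q) R = comp P (comp Q R) := by
  funext i
  simp only [comp]
  rw [bind₁_bind₁]
  rfl

@[simp] theorem pid_comp (P : PMap n) : comp pid P = P := by
  funext i; simp [comp, pid]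

@[simp] theorem comp_pid (P : PMap n) : comp P pid = P := by
  funext i
  simp only [comp]
  exact congrFun (congrArg DFunLike.coe (bind₁_X_left (R := ℂ) (σ := Fin n))) (P i)

theorem peval_comp (P Q : PMap n) (z : Fin n → ℂ) : peval (comp P Q) z = peval P (peval Q z) := by
  funext i
  simp only [peval, comp]
  have := aeval_bind₁ (R := ℂ) (S := ℂ) z Q (P i)
  simp only [aeval_eq_eval] at this
  exact this

/-! ### truncation -/

theorem coeff_ptr (d : ℕ) (f : MP n) (m : Fin n →₀ ℕ) :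
    coeff m (ptr d f) = if m.degree ≤ d then coeff m f else 0 := by
  classical
  simp only [ptr, coeff_sum, coeff_homogeneousComponent]
  rw [Finset.sum_ite_eq]
  simp

@[simp] theorem ptr_zero' (d : ℕ) : ptr d (0 : MP n) = 0 := by simp [ptr]

theorem ptr_add (d : ℕ) (f g : MP n) : ptr d (f + g) = ptr d f + ptr d g := by
  simp [ptr, Finset.sum_add_distrib]

theorem ptr_sub (d : ℕ) (f g : MP n) : ptr d (f - g) = ptr d f - ptr d g := by
  simp [ptr, Finset.sum_sub_distrib]

theorem ptr_neg (d : ℕ) (f : MP n) : ptr d (-f) = - ptr d f := by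
  simp [ptr]

theorem ptr_C_mul (d : ℕ) (c : ℂ) (f : MP n) : ptr d (C c * f) = C c * ptr d f := by
  simp [ptr, Finset.mul_sum]

theorem ptr_sum {ι : Type*} (d : ℕ) (s : Finset ι) (f : ι → MP n) :
    ptr d (∑ a ∈ s, f a) = ∑ a ∈ s, ptr d (f a) := by
  classical
  induction s using Finset.induction_on with
  | empty => simp
  | insert a s ha ih => rw [Finset.sum_insert ha, Finset.sum_insert ha, ptr_add, ih]

theorem ptr_ptr (a b : ℕ) (f : MP n) : ptr a (ptr b f) = ptr (min a b) f := by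
  ext m
  simp only [coeff_ptr]
  by_cases h1 : m.degree ≤ a <;> by_cases h2 : m.degree ≤ b <;> simp [h1, h2]

theorem ptr_eq_self {d : ℕ} {f : MP n} (h : f.totalDegree ≤ d) : ptr d f = f := by
  ext m
  rw [coeff_ptr]
  split_ifs with h1
  · rfl
  · symm
    apply coeff_eq_zero_of_totalDegree_lt
    have : (∑ i ∈ m.support, m i) = m.degree := rfl
    rw [this]; omega

theorem totalDegree_ptr_le (d : ℕ) (f : MP n) : (ptr d f).totalDegree ≤ d := by
  rw [totalDegree, Finset.sup_le_iff]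
  intro m hm
  rw [mem_support_iff, coeff_ptr] at hm
  by_contra h
  have h' : ¬ m.degree ≤ d := h
  simp [h'] at hm

/-- vanishing order at least `k`. -/
def OrdGe (k : ℕ) (f : MP n) : Prop := ∀ m : Fin n →₀ ℕ, m.degree < k → coeff m f = 0

theorem ptr_eq_zero_iff {d : ℕ} {f : MP n} : ptr d f = 0 ↔ OrdGe (d + 1) f := by
  constructor
  · intro h m hm
    have := congrArg (coeff m) h
    rw [coeff_ptr, if_pos (Nat.lt_succ_iff.mp hm)] at this
    simpa using this
  · intro h
    ext m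
    rw [coeff_ptr]
    split_ifs with h1
    · simpa using h m (Nat.lt_succ_iff.mpr h1)
    · simp

theorem ptr_eq_iff {d : ℕ} {f g : MP n} : ptr d f = ptr d g ↔ OrdGe (d + 1) (f - g) := by
  rw [← ptr_eq_zero_iff, ptr_sub, sub_eq_zero]

namespace OrdGe

theorem zero (k : ℕ) : OrdGe k (0 : MP n) := fun _ _ => by simp

theorem of_zero (f : MP n) : OrdGe 0 f := fun _ h => absurd h (Nat.not_lt_zero _)

theorem mono {k k' : ℕ} {f : MP n} (h : OrdGe k f) (hk : k' ≤ k) : OrdGe k' f :=
  fun m hm => h m (lt_of_lt_of_le hm hk)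

theorem add {k : ℕ} {f g : MP n} (hf : OrdGe k f) (hg : OrdGe k g) : OrdGe k (f + g) :=
  fun m hm => by rw [coeff_add, hf m hm, hg m hm, add_zero]

theorem neg {k : ℕ} {f : MP n} (hf : OrdGe k f) : OrdGe k (-f) :=
  fun m hm => by rw [coeff_neg, hf m hm, neg_zero]

theorem sub {k : ℕ} {f g : MP n} (hf : OrdGe k f) (hg : OrdGe k g) : OrdGe k (f - g) :=
  fun m hm => by rw [coeff_sub, hf m hm, hg m hm, sub_zero]

theorem sum {ι : Type*} {k : ℕ} {s : Finset ι} {f : ι → MP n} (h : ∀ a ∈ s, OrdGe k (f a)) :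
    OrdGe k (∑ a ∈ s, f a) := fun m hm => by
  rw [coeff_sum]; exact Finset.sum_eq_zero fun a ha => h a ha m hm

theorem mul {a b : ℕ} {f g : MP n} (hf : OrdGe a f) (hg : OrdGe b g) : OrdGe (a + b) (f * g) := by
  classical
  intro m hm
  rw [coeff_mul]
  apply Finset.sum_eq_zero
  rintro ⟨x, y⟩ hxy
  rw [Finset.HasAntidiagonal.mem_antidiagonal] at hxy
  simp only at hxy ⊢
  have hdeg : x.degree + y.degree = m.degree := by rw [← hxy, map_add]
  by_cases hx : x.degree < a
  · rw [hf x hx, zero_mul]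
  · rw [hg y (by omega), mul_zero]

theorem mul_right {k : ℕ} {f : MP n} (hf : OrdGe k f) (g : MP n) : OrdGe k (f * g) := by
  simpa using hf.mul (of_zero g)

theorem mul_left {k : ℕ} {f : MP n} (hf : OrdGe k f) (g : MP n) : OrdGe k (g * f) := by
  simpa using (of_zero g).mul hf

theorem pow {a : ℕ} {f : MP n} (hf : OrdGe a f) (r : ℕ) : OrdGe (a * r) (f ^ r) := by
  induction r with
  | zero => exact of_zero _
  | succ r ih => rw [pow_succ, Nat.mul_succ]; exact ih.mul hf

theorem prod {ι : Type*} {s : Finset ι} {a : ι → ℕ} {f : ι → MP n} (h : ∀ x ∈ s, OrdGe (a x) (f x)) :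
    OrdGe (∑ x ∈ s, a x) (∏ x ∈ s, f x) := by
  classical
  induction s using Finset.induction_on with
  | empty => exact of_zero _
  | insert x s hx ih =>
    rw [Finset.sum_insert hx, Finset.prod_insert hx]
    exact (h x (Finset.mem_insert_self _ _)).mul (ih fun y hy => h y (Finset.mem_insert_of_mem hy))

end OrdGe

theorem ordGe_one_iff {f : MP n} : OrdGe 1 f ↔ coeff 0 f = 0 := by
  constructor
  · intro h; exact h 0 (by simp)
  · intro h m hm
    have : m = 0 := by
      rw [Nat.lt_one_iff, Finsupp.degree_eq_zero_iff] at hm; exact hm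
    rw [this, h]

theorem bind₁_eq_sum (Q : PMap n) (f : MP n) :
    bind₁ Q f = ∑ m ∈ f.support, C (coeff m f) * ∏ i, Q i ^ m i := by
  rw [bind₁, aeval_def, eval₂_eq']
  rfl

theorem OrdGe.bind₁ {k : ℕ} {f : MP n} {Q : PMap n} (hQ : Fix0 Q) (hf : OrdGe k f) :
    OrdGe k (bind₁ Q f) := by
  rw [bind₁_eq_sum]
  apply OrdGe.sum
  intro m hm
  apply OrdGe.mul_left
  have h1 : OrdGe (∑ i, 1 * m i) (∏ i, Q i ^ m i) :=
    OrdGe.prod fun i _ => (ordGe_one_iff.mpr (hQ i)).pow (m i)
  apply h1.mono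
  by_contra hlt
  push Not at hlt
  have : m.degree < k := by
    have h2 : m.degree = ∑ i, m i := Finsupp.degree_eq_sum m
    simpa [h2] using hlt
  exact (mem_support_iff.mp hm) (hf m this)

theorem bind₁_sub_ordGe {k : ℕ} {Q Q' : PMap n} (h : ∀ i, OrdGe k (Q i - Q' i)) (f : MP n) :
    OrdGe k (bind₁ Q f - bind₁ Q' f) := by
  induction f using MvPolynomial.induction_on with
  | C a => simpa using OrdGe.zero k
  | add p q hp hq =>
    have : bind₁ Q (p + q) - bind₁ Q' (p + q) = (bind₁ Q p - bind₁ Q' p) + (bind₁ Q q - bind₁ Q' q) := by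
      simp only [map_add]; ring
    rw [this]; exact hp.add hq
  | mul_X p i hp =>
    have : bind₁ Q (p * X i) - bind₁ Q' (p * X i)
        = (bind₁ Q p - bind₁ Q' p) * Q i + bind₁ Q' p * (Q i - Q' i) := by
      simp only [map_mul, bind₁_X_right]; ring
    rw [this]; exact (hp.mul_right _).add ((h i).mul_left _)

/-! ### jets of maps -/

/-- equality of `d`-jets. -/
def JEq (d : ℕ) (P Q : PMap n) : Prop := ptrunc d P = ptrunc d Q

theorem jeq_iff {d : ℕ} {P Q : PMap n} : JEq d P Q ↔ ∀ i, OrdGe (d + 1) (P i - Q i) := by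
  simp only [JEq, funext_iff, ptrunc, ptr_eq_iff]

namespace JEq

theorem refl (d : ℕ) (P : PMap n) : JEq d P P := rfl
theorem symm {d : ℕ} {P Q : PMap n} (h : JEq d P Q) : JEq d Q P := Eq.symm h
theorem trans {d : ℕ} {P Q R : PMap n} (h : JEq d P Q) (h' : JEq d Q R) : JEq d P R := Eq.trans h h'

theorem mono {d d' : ℕ} {P Q : PMap n} (h : JEq d P Q) (hd : d' ≤ d) : JEq d' P Q :=
  jeq_iff.mpr fun i => (jeq_iff.mp h i).mono (by omega)

theorem comp_left {d : ℕ} {P P' : PMap n} (h : JEq d P P') {Q : PMap n} (hQ : Fix0 Q) :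
    JEq d (comp P Q) (comp P' Q) := by
  rw [jeq_iff] at h ⊢
  intro i
  have := (h i).bind₁ hQ
  simpa [comp] using this

theorem comp_right {d : ℕ} (P : PMap n) {Q Q' : PMap n} (h : JEq d Q Q') :
    JEq d (comp P Q) (comp P Q') := by
  rw [jeq_iff] at h ⊢
  intro i
  exact bind₁_sub_ordGe h (P i)

theorem comp {d : ℕ} {P P' Q Q' : PMap n} (h : JEq d P P') (h' : JEq d Q Q') (hQ : Fix0 Q) :
    JEq d (S9.comp P Q) (S9.comp P' Q') :=
  (h.comp_left hQ).trans (comp_right P' h')

end JEq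

theorem ptrunc_ptrunc (d : ℕ) (P : PMap n) : ptrunc d (ptrunc d P) = ptrunc d P := by
  funext i; simp [ptrunc, ptr_ptr]

theorem jeq_ptrunc (d : ℕ) (P : PMap n) : JEq d (ptrunc d P) P := ptrunc_ptrunc d P

theorem ptrunc_eq_self {d : ℕ} {P : PMap n} (h : pdeg P ≤ d) : ptrunc d P = P := by
  funext i
  exact ptr_eq_self (le_trans (Finset.le_sup (f := fun i => (P i).totalDegree) (Finset.mem_univ i)) h)

theorem pdeg_le_iff {P : PMap n} {d : ℕ} : pdeg P ≤ d ↔ ∀ i, (P i).totalDegree ≤ d := by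
  simp [pdeg, Finset.sup_le_iff]

theorem pdeg_ptrunc_le (d : ℕ) (P : PMap n) : pdeg (ptrunc d P) ≤ d :=
  pdeg_le_iff.mpr fun i => totalDegree_ptr_le d (P i)

theorem JEq.eq_of_deg {d : ℕ} {P Q : PMap n} (h : JEq d P Q) (hP : pdeg P ≤ d) (hQ : pdeg Q ≤ d) :
    P = Q := by
  have := h
  rwa [JEq, ptrunc_eq_self hP, ptrunc_eq_self hQ] at this

/-! ### fixing the origin -/

theorem fix0_pid : Fix0 (pid : PMap n) := fun i => by
  simp only [pid]
  rw [coeff_zero_X]

theorem Fix0.comp {P Q : PMap n} (hP : Fix0 P) (hQ : Fix0 Q) : Fix0 (comp P Q) := fun i =>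
  ordGe_one_iff.mp ((ordGe_one_iff.mpr (hP i)).bind₁ hQ)

theorem Fix0.ptrunc {P : PMap n} (hP : Fix0 P) (d : ℕ) : Fix0 (ptrunc d P) := fun i => by
  simp only [S9.ptrunc]
  rw [coeff_ptr]; simp [hP i]

theorem fix0_ofMat (A : Mat n) : Fix0 (ofMat A) := fun i => by
  simp only [ofMat, coeff_sum, coeff_C_mul, coeff_zero_X, mul_zero, Finset.sum_const_zero]

theorem JEq.fix0 {d : ℕ} {P Q : PMap n} (h : JEq d P Q) (hP : Fix0 P) : Fix0 Q := fun i => by
  have := (jeq_iff.mp h i) 0 (by simp)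
  rw [coeff_sub, hP i] at this
  simpa using this.symm

end Claimed.Agent.R316.S9
end
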