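/- Packed by merge_tool.py (helper293): 9 modules of Claimed.Agent.R316 in one file, same declarations.
   Old modules, in this order: B8.PerturbB, B8.PerturbC, B8.Global, B8.SmDefs, S9.Jet2, S9.Norm, S9.Jac, S9.Cpt, S9.AsmLem -/
import Claimed.Agent.R316.B8.PerturbA
import Claimed.Agent.R316.Pack001
import Claimed.Agent.R316.Pack025_2

/- ===== packed: Claimed.Agent.R316.B8.PerturbB ===== -/
section
/-!
# B8-PERTURB-B (THIS FILE: part (b) `short_step`): Schauder a priori estimate on a short time interval (freezing the coefficients)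

THREE LEAVES (one theorem each; each may use the previous ones and all imported files sorried).
Setting: `I = Icc 0 τ`, `τ ≤ 1`, `P` admissible on `I × univ` (`Adm P α γ lam M I univ`), `u` is `C21`, `u(0) = 0`, `f = Lop P u ut ∈ Y`, `|f|_Y ≤ F0`.
`N` bounds `|jet u|`, `H` bounds `[D²u(t)]_α`.

**(a) `frozen_rhs`.**  `ζ` cutoff with `Cut ζ x₀ r r Cc` (`= 1` on `closedBall x₀ r`, `0` outside `ball x₀ (2r)`), `𝔞₀ = topOf (P 0 x₀)`, `v = ζ u`.
By `Lop_cutoff` (for the operator `constOp 𝔞₀`) and `Lop_constOp`, pointwise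
`Lop (constOp 𝔞₀) v vt = ζ f + ζ g₂ + ζ g₃ - 𝔞₀ ((commJ ζ u).2.2)` where
`g₂ = P t x (topJ (D²u)) - P 0 x₀ (topJ (D²u))`, `g₃ = P t x (u, Du, 0)`   (`jet u = (u,Du,0) + topJ (D²u)`).
 * on `S' = ball x₀ (2r)`: `|(P t x - P 0 x₀)(topJ B)| ≤ (M ‖x-x₀‖^α + M t^γ) ‖B‖ ≤ θ₁ ‖B‖`, `θ₁ = M (2r)^α + M τ^γ` (`Adm.coef.hol`, `Adm.time`, `norm_topJ`);
   so `|g₂| ≤ θ₁ N`, `[g₂]_{α;S'} ≤ M N + θ₁ H`; `HolB.cutoff_smul` with `Z = 2Cc/r^α` gives `[ζ g₂]_α ≤ θ₁ H + (M + Z θ₁) N`.
 * `|g₃| ≤ M N`, `[g₃]_α ≤ M N + M 3N`; `[ζ g₃]_α ≤ (4 + Z) M N`.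
 * `ζ f`: `YB.cutoff_mul`.   * commutator: `commJ_YB` if `r ≤ 1` (in general redo the count), times `‖𝔞₀‖ ≤ M` (`norm_topOf_le`).
 * continuity: the left side is `Lop` of a `C21` function for a constant operator.
**(b) `short_step`.**  `C₀` from `const_apriori` (`Tm = 1`), `Cc` from `exists_cutoff`.  Choose `r ≤ 1` with `C₀ M (2r)^α ≤ 1/8`, `τ₀ ≤ 1` with `C₀ M τ₀^γ ≤ 1/8`,
`B` from (a).  `const_apriori` for `v = ζ u` (finite `XB` by `XB.cutoff_mul`, `C21.cutoff_mul`) + `XB.of_cutoff`: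
`[D²u(t)]_{α; ball x₀ r} ≤ C₀ (A F0 + θ₁ H + B N)`, `A = 1 + 2Cc/r^α`; `HolB.of_balls`: `[D²u(t)]_α ≤ C₀ (A F0 + θ₁ H + B N) + 2N/r^α`.
`N := 18 U/ρ² + 4 H ρ^α` (`interp_jet`), `U = exp M * F0` (`strip_sup_bound`, `K0 = 0`, `t ≤ 1`).  Choose `ρ ≤ 1` with `(C₀ B + 2/r^α) 4 ρ^α ≤ 1/4`.
**(c) `short_apriori`.**  `absorb` with `Q H = (0 ≤ H ∧ ∀ t ∈ I, HolB α univ (D2 u t) H)`, `θ = 1/2` (start: `H = K`): `[D²u]_α ≤ 2 C F0 =: H*`.
Then `N ≤ 18 exp M F0 + 4 H*` (`ρ = 1`), `u_t = f + P (jet u)`: `|u_t| ≤ F0 + M N`, `[u_t]_α ≤ F0 + M (3N + H*) + M N`.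
-/

set_option autoImplicit false
set_option maxSynthPendingDepth 3
set_option linter.unusedSectionVars false

open scoped Topology ContDiff
open Set Filter Metric Module

namespace Claimed.Agent.R316.B8

variable {E : Type*} [NormedAddCommGroup E] [InnerProductSpace ℝ E] [FiniteDimensional ℝ E]

/-- choice of a small radius. -/
theorem exists_small_rpow {a β ε : ℝ} (ha : 0 ≤ a) (hβ : 0 < β) (hε : 0 < ε) :
    ∃ r : ℝ, 0 < r ∧ r ≤ 1 ∧ a * r ^ β ≤ ε := by
  have hq : 0 < ε / (a + 1) := by positivity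
  refine ⟨min 1 ((ε / (a + 1)) ^ (1 / β)), lt_min one_pos (Real.rpow_pos_of_pos hq _),
    min_le_left _ _, ?_⟩
  have h1 : (min 1 ((ε / (a + 1)) ^ (1 / β))) ^ β ≤ ((ε / (a + 1)) ^ (1 / β)) ^ β :=
    Real.rpow_le_rpow (lt_min one_pos (Real.rpow_pos_of_pos hq _)).le (min_le_right _ _) hβ.le
  have h2 : ((ε / (a + 1)) ^ (1 / β)) ^ β = ε / (a + 1) := by
    rw [← Real.rpow_mul hq.le, one_div, inv_mul_cancel₀ hβ.ne', Real.rpow_one]
  rw [h2] at h1
  calc a * (min 1 ((ε / (a + 1)) ^ (1 / β))) ^ β ≤ a * (ε / (a + 1)) :=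
        mul_le_mul_of_nonneg_left h1 ha
    _ = ε * (a / (a + 1)) := by ring
    _ ≤ ε * 1 := by
        apply mul_le_mul_of_nonneg_left _ hε.le
        rw [div_le_one (by positivity)]
        linarith
    _ = ε := mul_one _

/-- sup bound on a time interval of length `≤ 1`, zero initial data. -/
theorem short_sup_bound {α γ lam M τ K F0 : ℝ} (hlam : 0 < lam) (hM : 0 ≤ M) (hτ1 : τ ≤ 1)
    {P : Op E} {u ut : ℝ → E → ℝ} (hP : Adm P α γ lam M (Icc 0 τ) univ)
    (hu : C21 (Icc 0 τ) univ u ut) (hX : XB α (Icc 0 τ) univ u ut K) (hu0 : ∀ x, u 0 x = 0)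
    (hf : YB α (Icc 0 τ) univ (Lop P u ut) F0) (hF0 : 0 ≤ F0) :
    ∀ t ∈ Icc 0 τ, SupB univ (u t) (Real.exp M * F0) := by
  intro t ht x _
  have := strip_sup_bound (K0 := 0) (F0 := F0) (hP.bdd hlam.le) hu
    ⟨K, fun t ht x => by simpa using hX.b0 t ht x (mem_univ _)⟩
    (fun t ht x => by simpa using hf.sup t ht x (mem_univ _))
    (fun x => by simp [hu0 x]) t ht x
  rw [Real.norm_eq_abs]
  refine this.trans ?_
  have ht1 : t ≤ 1 := ht.2.trans hτ1
  have h1 : Real.exp (M * t) ≤ Real.exp M := by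
    apply Real.exp_le_exp.mpr
    nlinarith [ht.1]
  have h2 : 0 + t * F0 ≤ F0 := by nlinarith [ht.1]
  have h3 : 0 ≤ 0 + t * F0 := by have := ht.1; positivity
  calc Real.exp (M * t) * (0 + t * F0) ≤ Real.exp M * (0 + t * F0) :=
        mul_le_mul_of_nonneg_right h1 h3
    _ ≤ Real.exp M * F0 := mul_le_mul_of_nonneg_left h2 (Real.exp_pos _).le

/-- (b) improvement of the Hölder constant of `D²u`. -/
theorem short_step {α γ lam M : ℝ} (hα0 : 0 < α) (hα1 : α < 1) (hγ : 0 < γ) (hlam : 0 < lam)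
    (hM : 0 ≤ M) :
    ∃ τ₀ C : ℝ, 0 < τ₀ ∧ τ₀ ≤ 1 ∧ 0 ≤ C ∧ ∀ (τ : ℝ) (P : Op E) (u ut : ℝ → E → ℝ) (K H F0 : ℝ),
      0 < τ → τ ≤ τ₀ → Adm P α γ lam M (Icc 0 τ) univ → C21 (Icc 0 τ) univ u ut →
      XB α (Icc 0 τ) univ u ut K → (∀ x, u 0 x = 0) → YB α (Icc 0 τ) univ (Lop P u ut) F0 →
      0 ≤ H → (∀ t ∈ Icc 0 τ, HolB α univ (D2 u t) H) →
      ∀ t ∈ Icc 0 τ, HolB α univ (D2 u t) (H / 2 + C * F0) := by
  obtain ⟨C₀, hC₀, Hc⟩ := const_apriori (E := E) (M := M) (Tm := 1) hα0 hα1 hlam one_pos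
  obtain ⟨Cc, hCc, Hcut⟩ := exists_cutoff (E := E)
  have hCc0 : 0 ≤ Cc := zero_le_one.trans hCc
  obtain ⟨r, hr, hr1, hrs⟩ := exists_small_rpow (a := C₀ * M * 2 ^ α) (β := α) (ε := 1 / 8)
    (by positivity) hα0 (by norm_num)
  obtain ⟨τ₀, hτ₀, hτ₀1, hτs⟩ := exists_small_rpow (a := C₀ * M) (β := γ) (ε := 1 / 8)
    (by positivity) hγ (by norm_num)
  obtain ⟨B, hB, Hrhs⟩ := frozen_rhs (E := E) hα0 hα1 hγ hM hr hr1 hCc
  have hrα : 0 < r ^ α := Real.rpow_pos_of_pos hr _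
  set A : ℝ := 1 + 2 * Cc / r ^ α with hA
  set D : ℝ := C₀ * B + 2 / r ^ α with hD
  have hA0 : 0 ≤ A := by positivity
  have hD0 : 0 ≤ D := by positivity
  obtain ⟨ρ, hρ, hρ1, hρs⟩ := exists_small_rpow (a := D * 4) (β := α) (ε := 1 / 4)
    (by positivity) hα0 (by norm_num)
  refine ⟨τ₀, C₀ * A + D * (18 * Real.exp M / ρ ^ 2), hτ₀, hτ₀1, by positivity, ?_⟩
  intro τ P u ut K H F0 hτ hττ hP hu hX hu0 hf hH0 hH t ht
  have hτ1 : τ ≤ 1 := hττ.trans hτ₀1
  have h0 : (0 : ℝ) ∈ Icc 0 τ := ⟨le_rfl, hτ.le⟩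
  have hF0 : 0 ≤ F0 := (norm_nonneg _).trans (hf.sup 0 h0 (0 : E) (mem_univ _))
  have hK0 : 0 ≤ K := hX.nonneg ⟨0, h0⟩ ⟨0, mem_univ _⟩
  have hsup := short_sup_bound hlam hM hτ1 hP hu hX hu0 hf hF0
  set N : ℝ := 18 * (Real.exp M * F0) / ρ ^ 2 + 4 * H * ρ ^ α with hN
  have hN0 : 0 ≤ N := by positivity
  have hjet : ∀ t ∈ Icc 0 τ, SupB univ (jet u t) N := fun t ht =>
    interp_jet (g := u t) hα0 (contDiffOn_univ.mp (hu.c2 t ht)) hρ hρ1 (hsup t ht) (hH t ht) hH0
  set θ₁ : ℝ := M * (2 * r) ^ α + M * τ ^ γ with hθ₁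
  have hθ₁0 : 0 ≤ θ₁ := by positivity
  have hloc : ∀ x₀ : E, HolB α (ball x₀ r) (D2 u t) (C₀ * (A * F0 + θ₁ * H + B * N)) := by
    intro x₀
    obtain ⟨ζ, hζ⟩ := Hcut x₀ r r hr le_rfl
    have hY := Hrhs τ P x₀ ζ u ut lam N H F0 hτ hτ1 hP hζ hu hjet hH0 hH hf
    have hv := hu.cutoff_mul hζ.smooth isOpen_univ
    have hXv := XB.cutoff_mul hζ hCc hr hr1 hα0 hα1.le isOpen_univ (subset_univ _) hu
      (hX.subset subset_rfl (subset_univ _)) hK0
    have hres := Hc (topOf (P 0 x₀)) τ _ _ _ _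
      (fun ξ => by rw [topOf_apply]; exact hP.ell 0 h0 x₀ (mem_univ _) ξ)
      ((norm_topOf_le _).trans (hP.coef.sup 0 h0 x₀ (mem_univ _))) hτ hτ1 hv hXv
      (fun x => by simp [hu0 x]) hY
    exact (XB.of_cutoff hζ hres).h2 t ht
  have hD2 : SupB univ (D2 u t) N := fun x hx => (norm_jet_le_iff.mp (hjet t ht x hx)).2.2
  have hglob := HolB.of_balls hr hα0.le (by positivity) hloc hD2
  refine hglob.mono ?_
  -- arithmetic
  have e2r : (2 * r) ^ α = 2 ^ α * r ^ α := Real.mul_rpow (by norm_num) hr.le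
  have a1 : C₀ * (M * (2 * r) ^ α) ≤ 1 / 8 := by
    rw [e2r]
    calc C₀ * (M * (2 ^ α * r ^ α)) = C₀ * M * 2 ^ α * r ^ α := by ring
      _ ≤ 1 / 8 := hrs
  have a2 : C₀ * (M * τ ^ γ) ≤ 1 / 8 := by
    have : τ ^ γ ≤ τ₀ ^ γ := Real.rpow_le_rpow hτ.le hττ hγ.le
    calc C₀ * (M * τ ^ γ) = C₀ * M * τ ^ γ := by ring
      _ ≤ C₀ * M * τ₀ ^ γ := mul_le_mul_of_nonneg_left this (by positivity)
      _ ≤ 1 / 8 := hτs
  have a3 : D * (4 * ρ ^ α) ≤ 1 / 4 := by
    calc D * (4 * ρ ^ α) = D * 4 * ρ ^ α := by ring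
      _ ≤ 1 / 4 := hρs
  have expand : C₀ * (A * F0 + θ₁ * H + B * N) + 2 * N / r ^ α
      = C₀ * A * F0 + C₀ * (M * (2 * r) ^ α) * H + C₀ * (M * τ ^ γ) * H
        + D * (18 * Real.exp M / ρ ^ 2) * F0 + D * (4 * ρ ^ α) * H := by
    rw [hθ₁, hN, hD]; ring
  rw [expand]
  have b1 := mul_le_mul_of_nonneg_right a1 hH0
  have b2 := mul_le_mul_of_nonneg_right a2 hH0
  have b3 := mul_le_mul_of_nonneg_right a3 hH0
  nlinarith

end Claimed.Agent.R316.B8
end

/- ===== packed: Claimed.Agent.R316.B8.PerturbC ===== -/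
section
/-!
# B8-PERTURB-C (THIS FILE: part (c) `short_apriori`): Schauder a priori estimate on a short time interval (freezing the coefficients)

THREE LEAVES (one theorem each; each may use the previous ones and all imported files sorried).
Setting: `I = Icc 0 τ`, `τ ≤ 1`, `P` admissible on `I × univ` (`Adm P α γ lam M I univ`), `u` is `C21`, `u(0) = 0`, `f = Lop P u ut ∈ Y`, `|f|_Y ≤ F0`.
`N` bounds `|jet u|`, `H` bounds `[D²u(t)]_α`.

**(a) `frozen_rhs`.**  `ζ` cutoff with `Cut ζ x₀ r r Cc` (`= 1` on `closedBall x₀ r`, `0` outside `ball x₀ (2r)`), `𝔞₀ = topOf (P 0 x₀)`, `v = ζ u`.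
By `Lop_cutoff` (for the operator `constOp 𝔞₀`) and `Lop_constOp`, pointwise
`Lop (constOp 𝔞₀) v vt = ζ f + ζ g₂ + ζ g₃ - 𝔞₀ ((commJ ζ u).2.2)` where
`g₂ = P t x (topJ (D²u)) - P 0 x₀ (topJ (D²u))`, `g₃ = P t x (u, Du, 0)`   (`jet u = (u,Du,0) + topJ (D²u)`).
 * on `S' = ball x₀ (2r)`: `|(P t x - P 0 x₀)(topJ B)| ≤ (M ‖x-x₀‖^α + M t^γ) ‖B‖ ≤ θ₁ ‖B‖`, `θ₁ = M (2r)^α + M τ^γ` (`Adm.coef.hol`, `Adm.time`, `norm_topJ`);
   so `|g₂| ≤ θ₁ N`, `[g₂]_{α;S'} ≤ M N + θ₁ H`; `HolB.cutoff_smul` with `Z = 2Cc/r^α` gives `[ζ g₂]_α ≤ θ₁ H + (M + Z θ₁) N`.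
 * `|g₃| ≤ M N`, `[g₃]_α ≤ M N + M 3N`; `[ζ g₃]_α ≤ (4 + Z) M N`.
 * `ζ f`: `YB.cutoff_mul`.   * commutator: `commJ_YB` if `r ≤ 1` (in general redo the count), times `‖𝔞₀‖ ≤ M` (`norm_topOf_le`).
 * continuity: the left side is `Lop` of a `C21` function for a constant operator.
**(b) `short_step`.**  `C₀` from `const_apriori` (`Tm = 1`), `Cc` from `exists_cutoff`.  Choose `r ≤ 1` with `C₀ M (2r)^α ≤ 1/8`, `τ₀ ≤ 1` with `C₀ M τ₀^γ ≤ 1/8`,
`B` from (a).  `const_apriori` for `v = ζ u` (finite `XB` by `XB.cutoff_mul`, `C21.cutoff_mul`) + `XB.of_cutoff`: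
`[D²u(t)]_{α; ball x₀ r} ≤ C₀ (A F0 + θ₁ H + B N)`, `A = 1 + 2Cc/r^α`; `HolB.of_balls`: `[D²u(t)]_α ≤ C₀ (A F0 + θ₁ H + B N) + 2N/r^α`.
`N := 18 U/ρ² + 4 H ρ^α` (`interp_jet`), `U = exp M * F0` (`strip_sup_bound`, `K0 = 0`, `t ≤ 1`).  Choose `ρ ≤ 1` with `(C₀ B + 2/r^α) 4 ρ^α ≤ 1/4`.
**(c) `short_apriori`.**  `absorb` with `Q H = (0 ≤ H ∧ ∀ t ∈ I, HolB α univ (D2 u t) H)`, `θ = 1/2` (start: `H = K`): `[D²u]_α ≤ 2 C F0 =: H*`.
Then `N ≤ 18 exp M F0 + 4 H*` (`ρ = 1`), `u_t = f + P (jet u)`: `|u_t| ≤ F0 + M N`, `[u_t]_α ≤ F0 + M (3N + H*) + M N`.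
-/

set_option autoImplicit false
set_option maxSynthPendingDepth 3
set_option linter.unusedSectionVars false

open scoped Topology ContDiff
open Set Filter Metric Module

namespace Claimed.Agent.R316.B8

variable {E : Type*} [NormedAddCommGroup E] [InnerProductSpace ℝ E] [FiniteDimensional ℝ E]

/-- (c) **short time Schauder estimate**, zero initial data. -/
theorem short_apriori {α γ lam M : ℝ} (hα0 : 0 < α) (hα1 : α < 1) (hγ : 0 < γ) (hlam : 0 < lam)
    (hM : 0 ≤ M) :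
    ∃ τ₀ C : ℝ, 0 < τ₀ ∧ τ₀ ≤ 1 ∧ 0 ≤ C ∧ ∀ (τ : ℝ) (P : Op E) (u ut : ℝ → E → ℝ) (K F0 : ℝ),
      0 < τ → τ ≤ τ₀ → Adm P α γ lam M (Icc 0 τ) univ → C21 (Icc 0 τ) univ u ut →
      XB α (Icc 0 τ) univ u ut K → (∀ x, u 0 x = 0) → YB α (Icc 0 τ) univ (Lop P u ut) F0 →
      XB α (Icc 0 τ) univ u ut (C * F0) := by
  obtain ⟨τ₀, C, hτ₀, hτ₀1, hC, Hs⟩ := short_step (E := E) hα0 hα1 hγ hlam hM
  set Nc : ℝ := 18 * Real.exp M + 8 * C with hNc
  have hNc0 : 0 ≤ Nc := by positivity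
  refine ⟨τ₀, 1 + M * (4 * Nc + 2 * C) + Nc + 2 * C, hτ₀, hτ₀1, by positivity, ?_⟩
  intro τ P u ut K F0 hτ hττ hP hu hX hu0 hf
  have h0 : (0 : ℝ) ∈ Icc 0 τ := ⟨le_rfl, hτ.le⟩
  have hF0 : 0 ≤ F0 := (norm_nonneg _).trans (hf.sup 0 h0 (0 : E) (mem_univ _))
  have hK0 : 0 ≤ K := hX.nonneg ⟨0, h0⟩ ⟨0, mem_univ _⟩
  -- absorption
  have habs := absorb (fun H => 0 ≤ H ∧ ∀ t ∈ Icc 0 τ, HolB α univ (D2 u t) H)
    (fun K K' hKK h => ⟨h.1.trans hKK, fun t ht => (h.2 t ht).mono hKK⟩)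
    (fun K h => ⟨le_of_forall_pos_le_add (fun ε hε => (h ε hε).1),
      fun t ht => HolB.of_forall_pos (fun ε hε => (h ε hε).2 t ht)⟩)
    (fun K h => h.1) (θ := 1 / 2) (A := C * F0) (by norm_num) (by norm_num)
    (fun H h => ⟨by have := h.1; positivity, fun t ht => by
      have := Hs τ P u ut K H F0 hτ hττ hP hu hX hu0 hf h.1 h.2 t ht
      have e : 1 / 2 * H + C * F0 = H / 2 + C * F0 := by ring
      rw [e]; exact this⟩)
    ⟨K, hK0, hX.h2⟩
  have eH : C * F0 / (1 - 1 / 2) = 2 * C * F0 := by ring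
  rw [eH] at habs
  obtain ⟨hH0, hH⟩ := habs
  -- sup bound
  have hsup : ∀ t ∈ Icc 0 τ, SupB univ (u t) (Real.exp M * F0) := by
    intro t ht x _
    have := strip_sup_bound (K0 := 0) (F0 := F0) (hP.bdd hlam.le) hu
      ⟨K, fun t ht x => by simpa using hX.b0 t ht x (mem_univ _)⟩
      (fun t ht x => by simpa using hf.sup t ht x (mem_univ _))
      (fun x => by simp [hu0 x]) t ht x
    rw [Real.norm_eq_abs]
    refine this.trans ?_
    have ht1 : t ≤ 1 := ht.2.trans (hττ.trans hτ₀1)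
    have h1 : Real.exp (M * t) ≤ Real.exp M := by
      apply Real.exp_le_exp.mpr
      nlinarith [ht.1]
    have h2 : 0 + t * F0 ≤ F0 := by nlinarith [ht.1]
    have h3 : 0 ≤ 0 + t * F0 := by have := ht.1; positivity
    calc Real.exp (M * t) * (0 + t * F0) ≤ Real.exp M * (0 + t * F0) :=
          mul_le_mul_of_nonneg_right h1 h3
      _ ≤ Real.exp M * F0 := mul_le_mul_of_nonneg_left h2 (Real.exp_pos _).le
  -- jets
  have hjet : ∀ t ∈ Icc 0 τ, SupB univ (jet u t) (Nc * F0) := by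
    intro t ht
    have := interp_jet (g := u t) (ρ := 1) hα0 (contDiffOn_univ.mp (hu.c2 t ht)) one_pos le_rfl
      (hsup t ht) (hH t ht) hH0
    have e : 18 * (Real.exp M * F0) / 1 ^ 2 + 4 * (2 * C * F0) * (1 : ℝ) ^ α = Nc * F0 := by
      rw [Real.one_rpow, hNc]; ring
    rw [e] at this
    exact this
  have hN0 : 0 ≤ Nc * F0 := by positivity
  have hjh : ∀ t ∈ Icc 0 τ, HolB α univ (jet u t) (3 * (Nc * F0) + 2 * C * F0) := fun t ht =>
    jet_hol_of_sup hα0 hα1.le isOpen_univ convex_univ (hu.c2 t ht) (hjet t ht) (hH t ht) hH0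
  have hut : ∀ t, ut t = fun x => Lop P u ut t x + P t x (jet u t x) := by
    intro t; funext x; simp [Lop]
  have hMN : 0 ≤ M * (Nc * F0) := by positivity
  have hMC : 0 ≤ M * (C * F0) := by positivity
  have hCF : 0 ≤ C * F0 := by positivity
  refine ⟨?_, ?_, ?_, ?_, ?_, ?_⟩
  · intro t ht x hx
    have := (norm_jet_le_iff.mp (hjet t ht x hx)).1
    rw [Real.norm_eq_abs]
    refine this.trans ?_
    nlinarith
  · intro t ht x hx
    have := (norm_jet_le_iff.mp (hjet t ht x hx)).2.1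
    refine this.trans ?_
    nlinarith
  · intro t ht x hx
    have := (norm_jet_le_iff.mp (hjet t ht x hx)).2.2
    refine this.trans ?_
    nlinarith
  · intro t ht
    rw [hut t]
    refine ((hf.sup t ht).add ((hP.coef.sup t ht).clm_apply (hjet t ht) hM)).mono ?_
    nlinarith
  · intro t ht
    refine (hH t ht).mono ?_
    nlinarith
  · intro t ht
    rw [hut t]
    refine ((hf.hol t ht).add (HolB.clm_apply (hP.coef.sup t ht) (hP.coef.hol t ht) (hjet t ht)
      (hjh t ht))).mono ?_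
    nlinarith

end Claimed.Agent.R316.B8
end

/- ===== packed: Claimed.Agent.R316.B8.Global ===== -/
section
/-!
# B8-GLOBAL (export E2): global Schauder estimate on `[0,T] × E`

LEAF (proofs only; uses `short_apriori` and `Basic.lean`, sorried ok).

Recipe.  `τ₀, C₁` from `short_apriori`.
* `short_apriori_init` (nonzero initial data, `T ≤ τ₀`): `g = u 0`, `v = u - g`, `vt = ut` (`C21.sub` with `C21.static`, `XB.sub` with `XB.static`; write `vt = ut - 0`
  and use `C21.congr`/`XB.congr`).  `Lop P v vt = Lop P u ut + P (jet g)` (`Lop_sub`; `Lop P (fun _ => g) 0 = - P (jet g)`), `|P (jet g)|_Y ≤ 6 M G0` (`YB_static_jet`).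
  So `XB v (C₁ (F0 + 6 M G0))` and `XB u (C₁ (F0 + 6 M G0) + G0)`.
* `schauder_steps`: induction on `n`: for `T ≤ (n+1) τ₀`, if `T ≤ n τ₀` use the induction hypothesis; otherwise `T₁ = n τ₀ < T`: the induction hypothesis on `Icc 0 T₁`
  (`Adm.subset`, `C21.subset`, `XB.subset`, `YB.subset`), `XB.slice` at `T₁`: `C2aB (u T₁) (C_n (F0+G0))`; apply `short_apriori_init` to
  `shiftT T₁ u`, `shiftT T₁ P` on `Icc 0 (T - T₁)` (`{t | T₁ + t ∈ Icc 0 T} ⊇ Icc 0 (T - T₁)`; `Lop_shift`); shift back (`XB.shift` with `-T₁`), `XB.union`,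
  `Icc 0 T₁ ∪ Icc T₁ T = Icc 0 T`.
* `schauder_global`: `n = ⌈Tm/τ₀⌉₊`.
-/

set_option autoImplicit false
set_option maxSynthPendingDepth 3
set_option linter.unusedSectionVars false

open scoped Topology ContDiff
open Set Filter Metric Module

namespace Claimed.Agent.R316.B8

variable {E : Type*} [NormedAddCommGroup E] [InnerProductSpace ℝ E] [FiniteDimensional ℝ E]

/-- short time estimate with initial data. -/
theorem short_apriori_init {α γ lam M : ℝ} (hα0 : 0 < α) (hα1 : α < 1) (hγ : 0 < γ) (hlam : 0 < lam)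
    (hM : 0 ≤ M) :
    ∃ τ₀ C : ℝ, 0 < τ₀ ∧ τ₀ ≤ 1 ∧ 0 ≤ C ∧ ∀ (τ : ℝ) (P : Op E) (u ut : ℝ → E → ℝ) (K F0 G0 : ℝ),
      0 < τ → τ ≤ τ₀ → Adm P α γ lam M (Icc 0 τ) univ → C21 (Icc 0 τ) univ u ut →
      XB α (Icc 0 τ) univ u ut K → YB α (Icc 0 τ) univ (Lop P u ut) F0 → C2aB α univ (u 0) G0 →
      XB α (Icc 0 τ) univ u ut (C * (F0 + G0)) := by
  obtain ⟨τ₀, C₁, hτ₀, hτ₀1, hC₁, H⟩ := short_apriori (E := E) hα0 hα1 hγ hlam hM
  refine ⟨τ₀, C₁ * (1 + 6 * M) + 1, hτ₀, hτ₀1, by positivity, ?_⟩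
  intro τ P u ut K F0 G0 hτ hττ hP hu hX hf hg
  have h0 : (0 : ℝ) ∈ Icc 0 τ := ⟨le_rfl, hτ.le⟩
  have hG0 : 0 ≤ G0 := (norm_nonneg _).trans (hg.b0 (0 : E) (mem_univ _))
  have hF0 : 0 ≤ F0 := (norm_nonneg _).trans (hf.sup 0 h0 (0 : E) (mem_univ _))
  have hstat : C21 (Icc 0 τ) univ (fun _ => u 0) (fun _ _ => 0) := C21.static isOpen_univ hg.c2
  have hXs : XB α (Icc 0 τ) univ (fun _ => u 0) (fun _ _ => 0) G0 := XB.static hg hG0
  have hv := hu.sub isOpen_univ hstat
  have hXv := XB.sub isOpen_univ hu hstat hX hXs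
  have hYg : YB α (Icc 0 τ) univ (fun t x => P t x (jet (fun _ => u 0) t x)) (6 * M * G0) :=
    YB_static_jet hα0 hα1.le isOpen_univ convex_univ hP.coef hM hg hG0
  have hYv : YB α (Icc 0 τ) univ
      (Lop P (fun t x => u t x - u 0 x) (fun t x => ut t x - 0)) (F0 + 6 * M * G0) := by
    refine (hf.add hYg).congr ?_
    intro t ht x hx
    have := Lop_sub (ut := ut) (v := fun _ => u 0) (vt := fun _ _ => (0 : ℝ)) P isOpen_univ hx
      (hu.c2 t ht) (hstat.c2 t ht)
    rw [this]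
    simp [Lop]
  have hres := H τ P _ _ (K + G0) (F0 + 6 * M * G0) hτ hττ hP hv hXv (by intro x; simp) hYv
  have hsum := XB.add isOpen_univ hv hstat hres hXs
  have hfin : XB α (Icc 0 τ) univ u ut (C₁ * (F0 + 6 * M * G0) + G0) :=
    hsum.congr isOpen_univ (by intro t _ x _; simp) (by intro t _ x _; simp)
  refine hfin.mono ?_
  have h1 : 0 ≤ C₁ * F0 * (6 * M) := by positivity
  have h2 : 0 ≤ C₁ * G0 := by positivity
  nlinarith

/-- **E2: global Schauder estimate** (constant uniform for `T ≤ Tm`). -/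
theorem schauder_global {α γ lam M Tm : ℝ} (hα0 : 0 < α) (hα1 : α < 1) (hγ : 0 < γ) (hlam : 0 < lam)
    (hM : 0 ≤ M) (hTm : 0 < Tm) :
    ∃ C : ℝ, 0 ≤ C ∧ ∀ (T : ℝ) (P : Op E) (u ut : ℝ → E → ℝ) (K F0 G0 : ℝ),
      0 < T → T ≤ Tm → Adm P α γ lam M (Icc 0 T) univ → C21 (Icc 0 T) univ u ut →
      XB α (Icc 0 T) univ u ut K → YB α (Icc 0 T) univ (Lop P u ut) F0 → C2aB α univ (u 0) G0 →
      XB α (Icc 0 T) univ u ut (C * (F0 + G0)) := by
  obtain ⟨τ₀, C₁, hτ₀, hτ₀1, hC₁, H⟩ := short_apriori_init (E := E) hα0 hα1 hγ hlam hM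
  -- induction over the number of time steps
  have steps : ∀ n : ℕ, ∃ C : ℝ, 0 ≤ C ∧ ∀ (T : ℝ) (P : Op E) (u ut : ℝ → E → ℝ) (K F0 G0 : ℝ),
      0 < T → T ≤ ((n : ℝ) + 1) * τ₀ → Adm P α γ lam M (Icc 0 T) univ → C21 (Icc 0 T) univ u ut →
      XB α (Icc 0 T) univ u ut K → YB α (Icc 0 T) univ (Lop P u ut) F0 → C2aB α univ (u 0) G0 →
      XB α (Icc 0 T) univ u ut (C * (F0 + G0)) := by
    intro n
    induction n with
    | zero =>
      refine ⟨C₁, hC₁, ?_⟩
      intro T P u ut K F0 G0 hT hTT hP hu hX hf hg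
      exact H T P u ut K F0 G0 hT (by simpa using hTT) hP hu hX hf hg
    | succ n ih =>
      obtain ⟨Cn, hCn, ihn⟩ := ih
      refine ⟨Cn + C₁ * (1 + Cn), by positivity, ?_⟩
      intro T P u ut K F0 G0 hT hTT hP hu hX hf hg
      have h0 : (0 : ℝ) ∈ Icc 0 T := ⟨le_rfl, hT.le⟩
      have hG0 : 0 ≤ G0 := (norm_nonneg _).trans (hg.b0 (0 : E) (mem_univ _))
      have hF0 : 0 ≤ F0 := (norm_nonneg _).trans (hf.sup 0 h0 (0 : E) (mem_univ _))
      by_cases hcase : T ≤ ((n : ℝ) + 1) * τ₀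
      · refine (ihn T P u ut K F0 G0 hT hcase hP hu hX hf hg).mono ?_
        have : 0 ≤ C₁ * (1 + Cn) * (F0 + G0) := by positivity
        nlinarith
      · push Not at hcase
        set T₁ : ℝ := ((n : ℝ) + 1) * τ₀ with hT₁
        have hT₁pos : 0 < T₁ := by positivity
        have hsub1 : Icc 0 T₁ ⊆ Icc 0 T := Icc_subset_Icc le_rfl hcase.le
        have hX1 : XB α (Icc 0 T₁) univ u ut (Cn * (F0 + G0)) :=
          ihn T₁ P u ut K F0 G0 hT₁pos le_rfl (hP.subset hsub1 subset_rfl)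
            (hu.subset hsub1 subset_rfl) (hX.subset hsub1 subset_rfl) (hf.subset hsub1 subset_rfl) hg
        have hslice : C2aB α univ (u T₁) (Cn * (F0 + G0)) :=
          hX1.slice (hu.subset hsub1 subset_rfl) ⟨hT₁pos.le, le_rfl⟩
        have hsub2 : Icc 0 (T - T₁) ⊆ {t | T₁ + t ∈ Icc 0 T} := by
          intro t ht
          exact ⟨by linarith [ht.1], by linarith [ht.2]⟩
        have hlen : T - T₁ ≤ τ₀ := by
          have : T ≤ ((n : ℝ) + 1) * τ₀ + τ₀ := by
            have := hTT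
            push_cast at this
            linarith
          linarith
        have hX2 : XB α (Icc 0 (T - T₁)) univ (shiftT T₁ u) (shiftT T₁ ut)
            (C₁ * (F0 + Cn * (F0 + G0))) := by
          refine H (T - T₁) (shiftT T₁ P) (shiftT T₁ u) (shiftT T₁ ut) K F0 (Cn * (F0 + G0))
            (by linarith) hlen ((hP.shift (t₀ := T₁)).subset hsub2 subset_rfl)
            ((hu.shift (t₀ := T₁)).subset hsub2 subset_rfl)
            ((hX.shift (t₀ := T₁)).subset hsub2 subset_rfl)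
            ((hf.shift (t₀ := T₁)).subset hsub2 subset_rfl) ?_
          simpa [shiftT] using hslice
        have hsub3 : Icc T₁ T ⊆ {t | -T₁ + t ∈ Icc 0 (T - T₁)} := by
          intro t ht
          exact ⟨by linarith [ht.1], by linarith [ht.2]⟩
        have hX3 : XB α (Icc T₁ T) univ u ut (C₁ * (F0 + Cn * (F0 + G0))) := by
          have := (hX2.shift (t₀ := -T₁)).subset hsub3 subset_rfl
          have e1 : shiftT (-T₁) (shiftT T₁ u) = u := by
            funext t; simp [shiftT]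
          have e2 : shiftT (-T₁) (shiftT T₁ ut) = ut := by
            funext t; simp [shiftT]
          rwa [e1, e2] at this
        have hb1 : Cn * (F0 + G0) ≤ (Cn + C₁ * (1 + Cn)) * (F0 + G0) := by
          have : 0 ≤ C₁ * (1 + Cn) * (F0 + G0) := by positivity
          nlinarith
        have hb2 : C₁ * (F0 + Cn * (F0 + G0)) ≤ (Cn + C₁ * (1 + Cn)) * (F0 + G0) := by
          have h1 : 0 ≤ Cn * (F0 + G0) := by positivity
          have h2 : 0 ≤ C₁ * G0 := by positivity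
          nlinarith
        have := (hX1.mono hb1).union (hX3.mono hb2)
        rwa [Icc_union_Icc_eq_Icc hT₁pos.le hcase.le] at this
  obtain ⟨C, hC, hn⟩ := steps ⌈Tm / τ₀⌉₊
  refine ⟨C, hC, ?_⟩
  intro T P u ut K F0 G0 hT hTT hP hu hX hf hg
  refine hn T P u ut K F0 G0 hT ?_ hP hu hX hf hg
  have h1 : Tm / τ₀ ≤ (⌈Tm / τ₀⌉₊ : ℝ) := Nat.le_ceil _
  have h2 : Tm ≤ (⌈Tm / τ₀⌉₊ : ℝ) * τ₀ := by
    rwa [div_le_iff₀ hτ₀] at h1
  nlinarith

end Claimed.Agent.R316.B8
end

/- ===== packed: Claimed.Agent.R316.B8.SmDefs ===== -/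
section
/-!
# B8, export E6 (smoothness of solutions): definitions

* `De e φ t x = D_x φ(t,x) e` : directional spatial derivative of an `F`-valued function (stays `F`-valued).
* `dq h e φ` : spatial difference quotient.
* `YL`, `XL` : local versions of `Y`, `X` on `Icc 0 T × S` (`S` open): bounds on every ball whose closed ball lies in `S`.
* `CS α T S n j φ` : `φ` and all its iterated directional spatial derivatives of order `≤ j` are of class `C^n` JOINTLY on `Icc 0 T ×ˢ S` and in `YL`.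
* `XS α T S j w wt` : `(w, wt)` and its iterated directional spatial derivatives of order `≤ j` are in `XL` (time derivative of `De e w` is `De e wt`).
* `TD T S j g gt` : `gt` is the time derivative of `g`, and the same for the iterated directional derivatives of order `≤ j`.

PLAN OF E6 (`Smooth.lean`):  only ONE PDE argument (`reg_step`, by difference quotients + the local Schauder estimate E4 + `dq_limit`); spatial regularity of all orders by induction
(`spatial_reg`); joint smoothness is then pure calculus: `u_t = f + P (jet u)` expresses time derivatives by spatial ones (`CS.up`, `joint_reg`).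
-/

set_option autoImplicit false
set_option maxSynthPendingDepth 3
set_option linter.unusedSectionVars false

open scoped Topology ContDiff
open Set Filter Metric

namespace Claimed.Agent.R316.B8

variable {E : Type*} [NormedAddCommGroup E] [NormedSpace ℝ E]
variable {F : Type*} [NormedAddCommGroup F] [NormedSpace ℝ F]

/-- directional spatial derivative. -/
noncomputable def De (e : E) (φ : ℝ → E → F) (t : ℝ) (x : E) : F := fderiv ℝ (φ t) x e

/-- spatial difference quotient. -/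
noncomputable def dq (h : ℝ) (e : E) (φ : ℝ → E → F) (t : ℝ) (x : E) : F :=
  h⁻¹ • (φ t (x + h • e) - φ t x)

/-- local `Y`. -/
def YL (α T : ℝ) (S : Set E) (φ : ℝ → E → F) : Prop :=
  ∀ (x₀ : E) (r : ℝ), closedBall x₀ r ⊆ S → ∃ K, YB α (Icc 0 T) (ball x₀ r) φ K

/-- local `X`. -/
def XL (α T : ℝ) (S : Set E) (u ut : ℝ → E → ℝ) : Prop :=
  C21 (Icc 0 T) S u ut ∧
    ∀ (x₀ : E) (r : ℝ), closedBall x₀ r ⊆ S → ∃ K, XB α (Icc 0 T) (ball x₀ r) u ut K

/-- jointly `C^n` and locally in `Y`. -/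
def CB (α T : ℝ) (S : Set E) (n : ℕ) (φ : ℝ → E → F) : Prop :=
  ContDiffOn ℝ n (fun q : ℝ × E => φ q.1 q.2) (Icc 0 T ×ˢ S) ∧ YL α T S φ

/-- `φ` and its directional spatial derivatives of order `≤ j` are jointly `C^n` and locally in `Y`. -/
def CS (α T : ℝ) (S : Set E) (n : ℕ) : ℕ → (ℝ → E → F) → Prop
  | 0, φ => CB α T S n φ
  | j + 1, φ => CB α T S n φ ∧ (∀ t ∈ Icc 0 T, DifferentiableOn ℝ (φ t) S) ∧
      ∀ e : E, CS α T S n j (De e φ)

/-- `(w, wt)` and its directional spatial derivatives of order `≤ j` are locally in `X`. -/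
def XS (α T : ℝ) (S : Set E) : ℕ → (ℝ → E → ℝ) → (ℝ → E → ℝ) → Prop
  | 0, w, wt => XL α T S w wt
  | j + 1, w, wt => XL α T S w wt ∧ (∀ t ∈ Icc 0 T, DifferentiableOn ℝ (wt t) S) ∧
      ∀ e : E, XS α T S j (De e w) (De e wt)

/-- `gt = ∂_t g`, together with the directional spatial derivatives of order `≤ j`. -/
def TD (T : ℝ) (S : Set E) : ℕ → (ℝ → E → F) → (ℝ → E → F) → Prop
  | 0, g, gt => ∀ t ∈ Icc 0 T, ∀ x ∈ S, HasDerivWithinAt (fun s => g s x) (gt t x) (Icc 0 T) t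
  | j + 1, g, gt => (∀ t ∈ Icc 0 T, ∀ x ∈ S, HasDerivWithinAt (fun s => g s x) (gt t x) (Icc 0 T) t) ∧
      ∀ e : E, TD T S j (De e g) (De e gt)

end Claimed.Agent.R316.B8
end

/- ===== packed: Claimed.Agent.R316.S9.Jet2 ===== -/
section
/-!
# Row 316, Section 9, package JET (2): linear parts, linear maps, degrees
-/

set_option autoImplicit false
open MvPolynomial

namespace Claimed.Agent.R316.S9

variable {n : ℕ}

theorem degree_eq_one_iff' (m : Fin n →₀ ℕ) : m.degree = 1 ↔ ∃ l, m = Finsupp.single l 1 := by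
  rw [← Finsupp.sum_eq_one_iff]; rfl

theorem coeff_single_X (j l : Fin n) :
    coeff (Finsupp.single j 1) (X l : MP n) = if j = l then 1 else 0 := by
  classical
  rw [coeff_X]
  by_cases h : j = l
  · subst h; simp
  · have : ¬ (Finsupp.single l 1 = Finsupp.single j 1) := by
      intro h'
      have := Finsupp.single_left_injective (one_ne_zero) h'
      exact h this.symm
    simp [h, this]

theorem ptr_one_eq (f : MP n) :
    ptr 1 f = C (coeff 0 f) + ∑ l, C (coeff (Finsupp.single l 1) f) * X l := by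
  classical
  ext m
  rw [coeff_ptr, coeff_add, coeff_sum, coeff_C]
  simp only [coeff_C_mul]
  rcases Nat.lt_or_ge 1 m.degree with h | h
  · have h0 : (0 : Fin n →₀ ℕ) ≠ m := by rintro rfl; simp at h
    rw [if_neg (by omega), if_neg h0]
    symm
    rw [zero_add]
    apply Finset.sum_eq_zero
    intro l _
    rw [coeff_X, if_neg, mul_zero]
    rintro rfl
    simp at h
  · rw [if_pos h]
    rcases Nat.lt_or_ge m.degree 1 with h1 | h1
    · have hm : m = 0 := by
        rw [Nat.lt_one_iff, Finsupp.degree_eq_zero_iff] at h1; exact h1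
      subst hm
      simp [coeff_zero_X]
    · obtain ⟨j, rfl⟩ := (degree_eq_one_iff' m).mp (le_antisymm h h1)
      have h0 : (0 : Fin n →₀ ℕ) ≠ Finsupp.single j 1 := by
        intro h'; have := congrArg Finsupp.degree h'; simp at this
      rw [if_neg h0, zero_add]
      simp only [coeff_single_X]
      simp

theorem plin_pid : plin (pid : PMap n) = 1 := by
  ext i j
  simp only [plin, pid, coeff_single_X, Matrix.one_apply]
  by_cases h : i = j
  · simp [h]
  · simp [h, Ne.symm h]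

theorem plin_ofMat (A : Mat n) : plin (ofMat A) = A := by
  ext i j
  simp only [plin, ofMat, coeff_sum, coeff_C_mul, coeff_single_X]
  simp

theorem plin_ptrunc {d : ℕ} (hd : 1 ≤ d) (P : PMap n) : plin (ptrunc d P) = plin P := by
  ext i j
  simp only [plin, ptrunc, coeff_ptr]
  simp [hd]

theorem JEq.plin {d : ℕ} (hd : 1 ≤ d) {P Q : PMap n} (h : JEq d P Q) : plin P = plin Q := by
  rw [← plin_ptrunc hd P, ← plin_ptrunc hd Q, h]

theorem comp_ofMat_apply (A : Mat n) (P : PMap n) (i : Fin n) :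
    comp (ofMat A) P i = ∑ j, C (A i j) * P j := by
  simp [comp, ofMat]

theorem plin_comp (P : PMap n) {Q : PMap n} (hQ : Fix0 Q) : plin (comp P Q) = plin P * plin Q := by
  ext i j
  have hr : OrdGe 2 (P i - ptr 1 (P i)) := by
    have : ptr 1 (P i) = ptr 1 (ptr 1 (P i)) := by rw [ptr_ptr]; simp
    exact ptr_eq_iff.mp this
  have h2 := (hr.bind₁ hQ) (Finsupp.single j 1) (by simp)
  rw [map_sub, coeff_sub, sub_eq_zero] at h2
  simp only [plin, comp, Matrix.mul_apply]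
  rw [h2, ptr_one_eq]
  simp only [map_add, map_sum, map_mul, bind₁_C_right, bind₁_X_right, coeff_add, coeff_sum,
    coeff_C_mul]
  rw [coeff_C, if_neg, zero_add]
  intro h'; have := congrArg Finsupp.degree h'; simp at this

theorem ofMat_one : ofMat (1 : Mat n) = pid := by
  classical
  funext i
  simp only [ofMat, pid, Matrix.one_apply]
  rw [Finset.sum_eq_single i]
  · simp
  · intro j _ hj; simp [Ne.symm hj]
  · simp

theorem ofMat_mul (A B : Mat n) : comp (ofMat A) (ofMat B) = ofMat (A * B) := by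
  funext i
  rw [comp_ofMat_apply]
  simp only [ofMat, Matrix.mul_apply, Finset.mul_sum, map_sum, Finset.sum_mul, map_mul]
  rw [Finset.sum_comm]
  refine Finset.sum_congr rfl fun j _ => Finset.sum_congr rfl fun l _ => by ring

theorem ofMat_comp_cancel {A B : Mat n} (h : A * B = 1) (P : PMap n) :
    comp (ofMat A) (comp (ofMat B) P) = P := by
  rw [← comp_assoc, ofMat_mul, h, ofMat_one, pid_comp]

/-! ### degrees -/

theorem totalDegree_le_pdeg (P : PMap n) (i : Fin n) : (P i).totalDegree ≤ pdeg P :=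
  Finset.le_sup (f := fun i => (P i).totalDegree) (Finset.mem_univ i)

theorem pdeg_pid_le : pdeg (pid : PMap n) ≤ 1 :=
  pdeg_le_iff.mpr fun i => by simp [pid]

theorem pdeg_ofMat_le (A : Mat n) : pdeg (ofMat A) ≤ 1 :=
  pdeg_le_iff.mpr fun i => by
    apply totalDegree_finsetSum_le
    intro j _
    refine (totalDegree_mul _ _).trans ?_
    simp

/-- weighted degree of a substitution. -/
theorem totalDegree_bind₁_le_of (Q : PMap n) (f : MP n) (B : ℕ)
    (h : ∀ m ∈ f.support, ∑ l, m l * (Q l).totalDegree ≤ B) : (bind₁ Q f).totalDegree ≤ B := by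
  rw [bind₁_eq_sum]
  apply totalDegree_finsetSum_le
  intro m hm
  refine (totalDegree_mul _ _).trans ?_
  rw [totalDegree_C, zero_add]
  refine (totalDegree_finsetProd _ _).trans ?_
  refine le_trans (Finset.sum_le_sum fun l _ => totalDegree_pow _ _) (h m hm)

theorem totalDegree_bind₁_le (Q : PMap n) (f : MP n) :
    (bind₁ Q f).totalDegree ≤ f.totalDegree * pdeg Q := by
  apply totalDegree_bind₁_le_of
  intro m hm
  calc ∑ l, m l * (Q l).totalDegree ≤ ∑ l, m l * pdeg Q :=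
        Finset.sum_le_sum fun l _ => Nat.mul_le_mul_left _ (totalDegree_le_pdeg Q l)
    _ = m.degree * pdeg Q := by rw [← Finset.sum_mul, Finsupp.degree_eq_sum]
    _ ≤ f.totalDegree * pdeg Q := Nat.mul_le_mul_right _ (le_totalDegree hm)

theorem pdeg_comp_le (P Q : PMap n) : pdeg (comp P Q) ≤ pdeg P * pdeg Q :=
  pdeg_le_iff.mpr fun i => (totalDegree_bind₁_le Q (P i)).trans
    (Nat.mul_le_mul_right _ (totalDegree_le_pdeg P i))

end Claimed.Agent.R316.S9
end

/- ===== packed: Claimed.Agent.R316.S9.Norm ===== -/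
section
/-!
# Row 316, Section 9, package JET (3): coefficient norms
-/

set_option autoImplicit false
open MvPolynomial

namespace Claimed.Agent.R316.S9

variable {n : ℕ}

theorem n1_nonneg (f : MP n) : 0 ≤ n1 f := Finset.sum_nonneg fun _ _ => norm_nonneg _

theorem nrm_nonneg (P : PMap n) : 0 ≤ nrm P := Finset.sum_nonneg fun _ _ => n1_nonneg _

theorem mnorm_nonneg (A : Mat n) : 0 ≤ mnorm A :=
  Finset.sum_nonneg fun _ _ => Finset.sum_nonneg fun _ _ => norm_nonneg _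

theorem n1_eq_sum_of_subset {f : MP n} {S : Finset (Fin n →₀ ℕ)} (h : f.support ⊆ S) :
    n1 f = ∑ m ∈ S, ‖coeff m f‖ := by
  apply Finset.sum_subset h
  intro m _ hm
  rw [notMem_support_iff.mp hm, norm_zero]

theorem norm_coeff_le_n1 (f : MP n) (m : Fin n →₀ ℕ) : ‖coeff m f‖ ≤ n1 f := by
  by_cases hm : m ∈ f.support
  · exact Finset.single_le_sum (f := fun m => ‖coeff m f‖) (fun _ _ => norm_nonneg _) hm
  · rw [notMem_support_iff.mp hm, norm_zero]; exact n1_nonneg f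

theorem n1_le_nrm (P : PMap n) (i : Fin n) : n1 (P i) ≤ nrm P :=
  Finset.single_le_sum (f := fun i => n1 (P i)) (fun _ _ => n1_nonneg _) (Finset.mem_univ i)

@[simp] theorem n1_zero : n1 (0 : MP n) = 0 := by simp [n1]

theorem n1_add_le (f g : MP n) : n1 (f + g) ≤ n1 f + n1 g := by
  classical
  have hS : (f + g).support ⊆ f.support ∪ g.support := support_add
  rw [n1_eq_sum_of_subset hS, n1_eq_sum_of_subset (f := f) Finset.subset_union_left,
    n1_eq_sum_of_subset (f := g) Finset.subset_union_right, ← Finset.sum_add_distrib]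
  exact Finset.sum_le_sum fun m _ => by rw [coeff_add]; exact norm_add_le _ _

theorem n1_neg (f : MP n) : n1 (-f) = n1 f := by
  simp [n1, support_neg]

theorem n1_sub_le (f g : MP n) : n1 (f - g) ≤ n1 f + n1 g := by
  rw [sub_eq_add_neg, ← n1_neg g]; exact n1_add_le _ _

theorem n1_sum_le {ι : Type*} (s : Finset ι) (f : ι → MP n) :
    n1 (∑ a ∈ s, f a) ≤ ∑ a ∈ s, n1 (f a) := by
  classical
  induction s using Finset.induction_on with
  | empty => simp
  | insert a s ha ih =>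
    rw [Finset.sum_insert ha, Finset.sum_insert ha]
    exact (n1_add_le _ _).trans (by linarith)

theorem n1_monomial (m : Fin n →₀ ℕ) (c : ℂ) : n1 (monomial m c) = ‖c‖ := by
  classical
  by_cases hc : c = 0
  · simp [hc]
  · rw [n1, support_monomial, if_neg hc, Finset.sum_singleton, coeff_monomial, if_pos rfl]

@[simp] theorem n1_C (c : ℂ) : n1 (C c : MP n) = ‖c‖ := n1_monomial 0 c

@[simp] theorem n1_one : n1 (1 : MP n) = 1 := by
  have := n1_C (n := n) 1
  simpa using this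

@[simp] theorem n1_X (i : Fin n) : n1 (X i : MP n) = 1 := by
  have := n1_monomial (n := n) (Finsupp.single i 1) 1
  simpa [X] using this

theorem n1_mul_le (f g : MP n) : n1 (f * g) ≤ n1 f * n1 g := by
  classical
  rw [MvPolynomial.mul_def]
  simp only [Finsupp.sum]
  refine (n1_sum_le _ _).trans ?_
  rw [n1, n1, Finset.sum_mul_sum]
  refine Finset.sum_le_sum fun a _ => ?_
  refine (n1_sum_le _ _).trans ?_
  refine Finset.sum_le_sum fun b _ => ?_
  rw [n1_monomial, norm_mul]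
  rfl

theorem n1_C_mul (c : ℂ) (f : MP n) : n1 (C c * f) = ‖c‖ * n1 f := by
  classical
  by_cases hc : c = 0
  · simp [hc]
  · have hs : (C c * f).support = f.support := by
      ext m; simp [mem_support_iff, coeff_C_mul, hc]
    rw [n1, hs, n1, Finset.mul_sum]
    exact Finset.sum_congr rfl fun m _ => by rw [coeff_C_mul, norm_mul]

theorem n1_pow_le (f : MP n) (r : ℕ) : n1 (f ^ r) ≤ n1 f ^ r := by
  induction r with
  | zero => simp
  | succ r ih =>
    rw [pow_succ, pow_succ]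
    exact (n1_mul_le _ _).trans (mul_le_mul_of_nonneg_right ih (n1_nonneg f))

theorem n1_prod_le {ι : Type*} (s : Finset ι) (f : ι → MP n) :
    n1 (∏ a ∈ s, f a) ≤ ∏ a ∈ s, n1 (f a) := by
  classical
  induction s using Finset.induction_on with
  | empty => simp
  | insert a s ha ih =>
    rw [Finset.prod_insert ha, Finset.prod_insert ha]
    exact (n1_mul_le _ _).trans (mul_le_mul_of_nonneg_left ih (n1_nonneg _))

theorem n1_ptr_le (d : ℕ) (f : MP n) : n1 (ptr d f) ≤ n1 f := by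
  classical
  have hS : (ptr d f).support ⊆ f.support := by
    intro m hm
    rw [mem_support_iff, coeff_ptr] at hm
    rw [mem_support_iff]
    intro h; apply hm; simp [h]
  rw [n1_eq_sum_of_subset hS]
  refine Finset.sum_le_sum fun m _ => ?_
  rw [coeff_ptr]; split_ifs
  · exact le_rfl
  · simp

theorem nrm_ptrunc_le (d : ℕ) (P : PMap n) : nrm (ptrunc d P) ≤ nrm P :=
  Finset.sum_le_sum fun i _ => n1_ptr_le d (P i)

theorem nrm_add_le (P Q : PMap n) : nrm (P + Q) ≤ nrm P + nrm Q := by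
  rw [nrm, nrm, nrm, ← Finset.sum_add_distrib]
  exact Finset.sum_le_sum fun i _ => n1_add_le _ _

theorem nrm_sub_le (P Q : PMap n) : nrm (P - Q) ≤ nrm P + nrm Q := by
  rw [nrm, nrm, nrm, ← Finset.sum_add_distrib]
  exact Finset.sum_le_sum fun i _ => n1_sub_le _ _

theorem nrm_pid : nrm (pid : PMap n) = n := by simp [nrm, pid]

/-- the basic term by term bound of a substitution. -/
theorem n1_bind₁_le_sum (Q : PMap n) (f : MP n) :
    n1 (bind₁ Q f) ≤ ∑ m ∈ f.support, ‖coeff m f‖ * ∏ i, n1 (Q i) ^ m i := by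
  rw [bind₁_eq_sum]
  refine (n1_sum_le _ _).trans (Finset.sum_le_sum fun m _ => ?_)
  rw [n1_C_mul]
  refine mul_le_mul_of_nonneg_left ?_ (norm_nonneg _)
  refine (n1_prod_le _ _).trans (Finset.prod_le_prod (fun _ _ => n1_nonneg _) fun i _ => n1_pow_le _ _)

theorem prod_pow_le_pow_degree {B : ℝ} (a : Fin n → ℝ) (ha : ∀ i, 0 ≤ a i) (haB : ∀ i, a i ≤ B)
    (m : Fin n →₀ ℕ) : ∏ i, a i ^ m i ≤ B ^ m.degree := by
  rw [Finsupp.degree_eq_sum, ← Finset.prod_pow_eq_pow_sum]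
  exact Finset.prod_le_prod (fun i _ => pow_nonneg (ha i) _)
    fun i _ => pow_le_pow_left₀ (ha i) (haB i) _

theorem n1_bind₁_le {B : ℝ} (hB : 1 ≤ B) {Q : PMap n} (hQ : ∀ i, n1 (Q i) ≤ B) (f : MP n) :
    n1 (bind₁ Q f) ≤ n1 f * B ^ f.totalDegree := by
  refine (n1_bind₁_le_sum Q f).trans ?_
  rw [n1, Finset.sum_mul]
  refine Finset.sum_le_sum fun m hm => mul_le_mul_of_nonneg_left ?_ (norm_nonneg _)
  refine (prod_pow_le_pow_degree _ (fun i => n1_nonneg _) hQ m).trans ?_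
  exact pow_le_pow_right₀ hB (le_totalDegree hm)

/-- small inner map, no constant term. -/
theorem n1_bind₁_le_small {B : ℝ} (hB0 : 0 ≤ B) (hB : B ≤ 1) {Q : PMap n} (hQ : ∀ i, n1 (Q i) ≤ B)
    {f : MP n} (hf : coeff 0 f = 0) : n1 (bind₁ Q f) ≤ n1 f * B := by
  refine (n1_bind₁_le_sum Q f).trans ?_
  rw [n1, Finset.sum_mul]
  refine Finset.sum_le_sum fun m hm => mul_le_mul_of_nonneg_left ?_ (norm_nonneg _)
  refine (prod_pow_le_pow_degree _ (fun i => n1_nonneg _) hQ m).trans ?_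
  have hm1 : 1 ≤ m.degree := by
    rw [Nat.one_le_iff_ne_zero, Ne, Finsupp.degree_eq_zero_iff]
    rintro rfl
    exact (mem_support_iff.mp hm) hf
  calc B ^ m.degree ≤ B ^ 1 := pow_le_pow_of_le_one hB0 hB hm1
    _ = B := pow_one B

theorem nrm_comp_le (P Q : PMap n) : nrm (comp P Q) ≤ nrm P * (max 1 (nrm Q)) ^ pdeg P := by
  rw [nrm, nrm, Finset.sum_mul]
  refine Finset.sum_le_sum fun i _ => ?_
  refine (n1_bind₁_le (le_max_left 1 (nrm Q)) (fun j => (n1_le_nrm Q j).trans (le_max_right _ _))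
    (P i)).trans ?_
  exact mul_le_mul_of_nonneg_left
    (pow_le_pow_right₀ (le_max_left _ _) (totalDegree_le_pdeg P i)) (n1_nonneg _)

theorem nrm_ofMat (A : Mat n) : nrm (ofMat A) ≤ mnorm A := by
  refine Finset.sum_le_sum fun i _ => ?_
  refine (n1_sum_le _ _).trans (Finset.sum_le_sum fun j _ => ?_)
  rw [n1_C_mul, n1_X, mul_one]

theorem mnorm_plin_le (P : PMap n) : mnorm (plin P) ≤ nrm P := by
  classical
  refine Finset.sum_le_sum fun i _ => ?_
  simp only [plin]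
  have hinj : Set.InjOn (fun j : Fin n => Finsupp.single j (1 : ℕ)) (Finset.univ : Finset (Fin n)) :=
    fun a _ b _ h => Finsupp.single_left_injective one_ne_zero h
  rw [← Finset.sum_image (f := fun m => ‖coeff m (P i)‖) hinj]
  rw [n1_eq_sum_of_subset (f := P i)
    (S := (P i).support ∪ Finset.univ.image fun j : Fin n => Finsupp.single j (1 : ℕ))
    Finset.subset_union_left]
  exact Finset.sum_le_sum_of_subset_of_nonneg Finset.subset_union_right fun _ _ _ => norm_nonneg _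

theorem norm_entry_le_mnorm (A : Mat n) (i j : Fin n) : ‖A i j‖ ≤ mnorm A :=
  (Finset.single_le_sum (f := fun j => ‖A i j‖) (fun _ _ => norm_nonneg _) (Finset.mem_univ j)).trans
    (Finset.single_le_sum (f := fun i => ∑ j, ‖A i j‖)
      (fun _ _ => Finset.sum_nonneg fun _ _ => norm_nonneg _) (Finset.mem_univ i))

theorem mnorm_add_le (A B : Mat n) : mnorm (A + B) ≤ mnorm A + mnorm B := by
  simp only [mnorm, ← Finset.sum_add_distrib]
  exact Finset.sum_le_sum fun i _ => Finset.sum_le_sum fun j _ => norm_add_le _ _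

theorem mnorm_mul_le (A B : Mat n) : mnorm (A * B) ≤ mnorm A * mnorm B := by
  simp only [mnorm, Matrix.mul_apply]
  calc ∑ i, ∑ j, ‖∑ l, A i l * B l j‖ ≤ ∑ i, ∑ j, ∑ l, ‖A i l‖ * ‖B l j‖ :=
        Finset.sum_le_sum fun i _ => Finset.sum_le_sum fun j _ =>
          (norm_sum_le _ _).trans (Finset.sum_le_sum fun l _ => norm_mul_le _ _)
    _ = ∑ i, ∑ l, ‖A i l‖ * ∑ j, ‖B l j‖ := by
        refine Finset.sum_congr rfl fun i _ => ?_
        rw [Finset.sum_comm]
        exact Finset.sum_congr rfl fun l _ => by rw [Finset.mul_sum]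
    _ ≤ ∑ i, ∑ l, ‖A i l‖ * ∑ l', ∑ j, ‖B l' j‖ := by
        refine Finset.sum_le_sum fun i _ => Finset.sum_le_sum fun l _ =>
          mul_le_mul_of_nonneg_left ?_ (norm_nonneg _)
        exact Finset.single_le_sum (f := fun l => ∑ j, ‖B l j‖)
          (fun _ _ => Finset.sum_nonneg fun _ _ => norm_nonneg _) (Finset.mem_univ l)
    _ = (∑ i, ∑ j, ‖A i j‖) * ∑ i, ∑ j, ‖B i j‖ := by
        rw [Finset.sum_mul]
        exact Finset.sum_congr rfl fun i _ => by rw [Finset.sum_mul]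

theorem mnorm_one_le : mnorm (1 : Mat n) ≤ n := by
  classical
  simp only [mnorm, Matrix.one_apply]
  calc ∑ i : Fin n, ∑ j : Fin n, ‖(if i = j then (1 : ℂ) else 0)‖ = ∑ i : Fin n, (1 : ℝ) := by
        refine Finset.sum_congr rfl fun i _ => ?_
        rw [Finset.sum_eq_single i]
        · simp
        · intro j _ hj; simp [Ne.symm hj]
        · simp
    _ ≤ n := by simp

/-- evaluation bound. -/
theorem norm_eval_le (f : MP n) (z : Fin n → ℂ) {B : ℝ} (hB : 1 ≤ B) (hz : ∀ i, ‖z i‖ ≤ B) :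
    ‖eval z f‖ ≤ n1 f * B ^ f.totalDegree := by
  rw [eval_eq', n1, Finset.sum_mul]
  refine (norm_sum_le _ _).trans (Finset.sum_le_sum fun m hm => ?_)
  rw [norm_mul]
  refine mul_le_mul_of_nonneg_left ?_ (norm_nonneg _)
  rw [norm_prod]
  simp only [norm_pow]
  refine (prod_pow_le_pow_degree _ (fun i => norm_nonneg _) hz m).trans ?_
  exact pow_le_pow_right₀ hB (le_totalDegree hm)

end Claimed.Agent.R316.S9
end

/- ===== packed: Claimed.Agent.R316.S9.Jac ===== -/
section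
/-!
# Row 316, Section 9, package JET (4): Jacobian determinants
-/

set_option autoImplicit false
open MvPolynomial

namespace Claimed.Agent.R316.S9

variable {n : ℕ}

/-- chain rule. -/
theorem pderiv_bind₁ (Q : PMap n) (f : MP n) (j : Fin n) :
    pderiv j (bind₁ Q f) = ∑ l, bind₁ Q (pderiv l f) * pderiv j (Q l) := by
  classical
  induction f using MvPolynomial.induction_on with
  | C a => simp
  | add p q hp hq =>
    simp only [map_add, hp, hq, add_mul, Finset.sum_add_distrib]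
  | mul_X p i hp =>
    simp only [map_mul, bind₁_X_right, pderiv_mul, hp, map_add, pderiv_X, add_mul,
      Finset.sum_add_distrib]
    congr 1
    · rw [Finset.sum_mul]
      exact Finset.sum_congr rfl fun l _ => by ring
    · rw [Finset.sum_eq_single i]
      · simp
      · intro l _ hl
        simp [Ne.symm hl]
      · simp

theorem jmat_comp (P Q : PMap n) :
    jmat (comp P Q) = (jmat P).map (bind₁ Q) * jmat Q := by
  refine Matrix.ext fun i j => ?_
  simp only [jmat, comp, Matrix.mul_apply, Matrix.map_apply]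
  exact pderiv_bind₁ Q (P i) j

theorem jdet_comp (P Q : PMap n) : jdet (comp P Q) = bind₁ Q (jdet P) * jdet Q := by
  simp only [jdet]
  rw [jmat_comp, Matrix.det_mul]
  congr 1
  exact (AlgHom.map_det (bind₁ Q) (jmat P)).symm

theorem jmat_ofMat (A : Mat n) : jmat (ofMat A) = A.map C := by
  classical
  ext i j
  simp only [jmat, ofMat, map_sum, pderiv_C_mul, pderiv_X, Matrix.map_apply]
  rw [Finset.sum_eq_single j]
  · simp
  · intro l _ hl; simp [hl]
  · simp

theorem jdet_ofMat (A : Mat n) : jdet (ofMat A) = C A.det := by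
  rw [jdet, jmat_ofMat]
  exact (RingHom.map_det (C : ℂ →+* MP n) A).symm

theorem jdet_pid : jdet (pid : PMap n) = 1 := by
  rw [← ofMat_one, jdet_ofMat]; simp

/-- the ideal of polynomials vanishing to order `k`. -/
def ordIdeal (n k : ℕ) : Ideal (MP n) where
  carrier := {f | OrdGe k f}
  add_mem' := fun ha hb => OrdGe.add ha hb
  zero_mem' := OrdGe.zero k
  smul_mem' := fun c _ hf => OrdGe.mul_left hf c

theorem mem_ordIdeal {k : ℕ} {f : MP n} : f ∈ ordIdeal n k ↔ OrdGe k f := Iff.rfl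

theorem det_sub_ordGe {k : ℕ} {A B : Matrix (Fin n) (Fin n) (MP n)}
    (h : ∀ i j, OrdGe k (A i j - B i j)) : OrdGe k (A.det - B.det) := by
  rw [← mem_ordIdeal, ← Ideal.Quotient.eq, RingHom.map_det, RingHom.map_det]
  congr 1
  ext i j
  simp only [RingHom.mapMatrix_apply, Matrix.map_apply]
  rw [Ideal.Quotient.eq]
  exact h i j

theorem OrdGe.pderiv {k : ℕ} {f : MP n} (h : OrdGe (k + 1) f) (j : Fin n) :
    OrdGe k (pderiv j f) := by
  intro m hm
  rw [coeff_pderiv, h _ (by rw [map_add, Finsupp.degree_single]; omega), zero_mul]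

theorem JEq.jdet {d : ℕ} {P Q : PMap n} (h : JEq (d + 1) P Q) : ptr d (jdet P) = ptr d (jdet Q) := by
  rw [ptr_eq_iff]
  apply det_sub_ordGe
  intro i j
  simp only [jmat, ← map_sub]
  exact (jeq_iff.mp h i).pderiv j

theorem n1_pderiv_le (f : MP n) (j : Fin n) : n1 (pderiv j f) ≤ f.totalDegree * n1 f := by
  classical
  conv_lhs => rw [f.as_sum, map_sum]
  refine (n1_sum_le _ _).trans ?_
  rw [n1, Finset.mul_sum]
  refine Finset.sum_le_sum fun m hm => ?_
  rw [pderiv_monomial, n1_monomial, norm_mul, mul_comm]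
  refine mul_le_mul_of_nonneg_right ?_ (norm_nonneg _)
  rw [Complex.norm_natCast]
  exact_mod_cast (Finsupp.le_degree j m).trans (le_totalDegree hm)

theorem n1_det_le (A : Matrix (Fin n) (Fin n) (MP n)) : n1 A.det ≤ ∏ i, ∑ j, n1 (A j i) := by
  classical
  rw [Matrix.det_apply, Finset.prod_univ_sum]
  refine (n1_sum_le _ _).trans ?_
  have h1 : ∀ σ : Equiv.Perm (Fin n),
      n1 (Equiv.Perm.sign σ • ∏ i, A (σ i) i) ≤ ∏ i, n1 (A (σ i) i) := by
    intro σ
    rcases Int.units_eq_one_or (Equiv.Perm.sign σ) with h | h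
    · rw [h, one_smul]; exact n1_prod_le _ _
    · rw [h, Units.neg_smul, one_smul, n1_neg]; exact n1_prod_le _ _
  refine (Finset.sum_le_sum fun σ _ => h1 σ).trans ?_
  have hinj : Function.Injective (fun σ : Equiv.Perm (Fin n) => (fun i => σ i : Fin n → Fin n)) :=
    fun a b h => Equiv.ext fun i => congrFun h i
  rw [← Finset.sum_image (s := Finset.univ) (g := fun σ : Equiv.Perm (Fin n) => (fun i => σ i : Fin n → Fin n))
    (f := fun p : Fin n → Fin n => ∏ i, n1 (A (p i) i)) (fun a _ b _ h => hinj h)]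
  apply Finset.sum_le_sum_of_subset_of_nonneg
  · intro p _; simp
  · intro p _ _; exact Finset.prod_nonneg fun _ _ => n1_nonneg _

theorem n1_jdet_le (P : PMap n) : n1 (jdet P) ≤ (pdeg P * nrm P) ^ n := by
  refine (n1_det_le _).trans ?_
  have : ∀ i : Fin n, ∑ j, n1 (jmat P j i) ≤ pdeg P * nrm P := by
    intro i
    rw [nrm, Finset.mul_sum]
    refine Finset.sum_le_sum fun j _ => ?_
    refine (n1_pderiv_le (P j) i).trans ?_
    exact mul_le_mul_of_nonneg_right (by exact_mod_cast totalDegree_le_pdeg P j) (n1_nonneg _)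
  calc ∏ i : Fin n, ∑ j, n1 (jmat P j i) ≤ ∏ _i : Fin n, ((pdeg P : ℝ) * nrm P) :=
        Finset.prod_le_prod (fun _ _ => Finset.sum_nonneg fun _ _ => n1_nonneg _) fun i _ => this i
    _ = (pdeg P * nrm P) ^ n := by simp

/-- the constant term of the Jacobian determinant is the determinant of the linear part. -/
theorem coeff_zero_jdet (P : PMap n) : coeff 0 (jdet P) = (plin P).det := by
  have h : (constantCoeff : MP n →+* ℂ) (jdet P) = ((jmat P).map constantCoeff).det := by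
    rw [jdet]; exact RingHom.map_det _ _
  rw [← constantCoeff_eq]
  rw [h]
  congr 1
  ext i j
  simp only [Matrix.map_apply, jmat, plin, constantCoeff_eq, coeff_pderiv]
  simp

end Claimed.Agent.R316.S9
end

/- ===== packed: Claimed.Agent.R316.S9.Cpt ===== -/
section
/-!
# Row 316, Section 9, package CPT: coefficientwise limits along an ultrafilter

All "diagonal subsequence / coefficientwise limit" arguments of Section 9 are done with ONE
ultrafilter `𝒰` on the set of horizons `K : ℕ` (`𝒰 = Filter.hyperfilter ℕ`): every bounded family of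
coefficients converges along `𝒰`, and all algebraic relations pass to the limit.
-/

set_option autoImplicit false
open MvPolynomial Filter Topology

namespace Claimed.Agent.R316.S9

variable {n : ℕ} {ι : Type*}

/-- coefficientwise convergence of polynomials. -/
def CT (𝓕 : Filter ι) (f : ι → MP n) (g : MP n) : Prop :=
  ∀ m, Tendsto (fun K => coeff m (f K)) 𝓕 (𝓝 (coeff m g))

/-- coefficientwise convergence of polynomial maps. -/
def CTm (𝓕 : Filter ι) (P : ι → PMap n) (Q : PMap n) : Prop := ∀ i, CT 𝓕 (fun K => P K i) (Q i)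

variable {𝓕 : Filter ι}

theorem CT.const (g : MP n) : CT 𝓕 (fun _ => g) g := fun _ => tendsto_const_nhds

theorem CT.congr' {f f' : ι → MP n} {g : MP n} (h : f =ᶠ[𝓕] f') (hf : CT 𝓕 f g) : CT 𝓕 f' g :=
  fun m => (hf m).congr' (h.mono fun _ hK => by rw [hK])

theorem CT.unique [𝓕.NeBot] {f : ι → MP n} {g g' : MP n} (h : CT 𝓕 f g) (h' : CT 𝓕 f g') : g = g' := by
  ext m; exact tendsto_nhds_unique (h m) (h' m)

theorem CT.add {f f' : ι → MP n} {g g' : MP n} (h : CT 𝓕 f g) (h' : CT 𝓕 f' g') :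
    CT 𝓕 (fun K => f K + f' K) (g + g') := fun m => by
  simp only [coeff_add]; exact (h m).add (h' m)

theorem CT.sub {f f' : ι → MP n} {g g' : MP n} (h : CT 𝓕 f g) (h' : CT 𝓕 f' g') :
    CT 𝓕 (fun K => f K - f' K) (g - g') := fun m => by
  simp only [coeff_sub]; exact (h m).sub (h' m)

theorem CT.mul {f f' : ι → MP n} {g g' : MP n} (h : CT 𝓕 f g) (h' : CT 𝓕 f' g') :
    CT 𝓕 (fun K => f K * f' K) (g * g') := fun m => by
  classical
  simp only [coeff_mul]
  exact tendsto_finsetSum _ fun x _ => (h x.1).mul (h' x.2)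

theorem CT.pow {f : ι → MP n} {g : MP n} (h : CT 𝓕 f g) (r : ℕ) :
    CT 𝓕 (fun K => f K ^ r) (g ^ r) := by
  induction r with
  | zero => simpa using CT.const (1 : MP n)
  | succ r ih => simpa only [pow_succ] using ih.mul h

theorem CT.sum {α : Type*} (s : Finset α) {f : α → ι → MP n} {g : α → MP n}
    (h : ∀ a ∈ s, CT 𝓕 (f a) (g a)) : CT 𝓕 (fun K => ∑ a ∈ s, f a K) (∑ a ∈ s, g a) := fun m => by
  simp only [coeff_sum]; exact tendsto_finsetSum _ fun a ha => h a ha m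

theorem CT.prod {α : Type*} (s : Finset α) {f : α → ι → MP n} {g : α → MP n}
    (h : ∀ a ∈ s, CT 𝓕 (f a) (g a)) : CT 𝓕 (fun K => ∏ a ∈ s, f a K) (∏ a ∈ s, g a) := by
  classical
  induction s using Finset.induction_on with
  | empty => simpa using CT.const (1 : MP n)
  | insert a s ha ih =>
    simp only [Finset.prod_insert ha]
    exact (h a (Finset.mem_insert_self _ _)).mul (ih fun b hb => h b (Finset.mem_insert_of_mem hb))

theorem CT.C {c : ι → ℂ} {c' : ℂ} (h : Tendsto c 𝓕 (𝓝 c')) :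
    CT 𝓕 (fun K => (MvPolynomial.C (c K) : MP n)) (MvPolynomial.C c') := fun m => by
  classical
  simp only [coeff_C]
  split_ifs
  · exact h
  · exact tendsto_const_nhds

theorem CT.ptr {f : ι → MP n} {g : MP n} (h : CT 𝓕 f g) (d : ℕ) :
    CT 𝓕 (fun K => ptr d (f K)) (ptr d g) := fun m => by
  simp only [coeff_ptr]
  split_ifs
  · exact h m
  · exact tendsto_const_nhds

theorem CT.pderiv {f : ι → MP n} {g : MP n} (h : CT 𝓕 f g) (j : Fin n) :
    CT 𝓕 (fun K => pderiv j (f K)) (pderiv j g) := fun m => by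
  simp only [coeff_pderiv]
  exact (h _).mul tendsto_const_nhds

/-- CPT-1: closedness of support conditions. -/
theorem CT.coeff_eq_zero [𝓕.NeBot] {f : ι → MP n} {g : MP n} (h : CT 𝓕 f g) (m : Fin n →₀ ℕ)
    (h0 : ∀ᶠ K in 𝓕, coeff m (f K) = 0) : coeff m g = 0 :=
  tendsto_nhds_unique (h m) (tendsto_const_nhds.congr' (h0.mono fun _ hK => hK.symm))

/-- CPT-2: degree bounds pass to the limit. -/
theorem CT.totalDegree_le [𝓕.NeBot] {f : ι → MP n} {g : MP n} (h : CT 𝓕 f g) {D : ℕ}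
    (hD : ∀ᶠ K in 𝓕, (f K).totalDegree ≤ D) : g.totalDegree ≤ D := by
  rw [totalDegree, Finset.sup_le_iff]
  intro m hm
  by_contra hc
  apply mem_support_iff.mp hm
  apply h.coeff_eq_zero m
  refine hD.mono fun K hK => ?_
  apply coeff_eq_zero_of_totalDegree_lt
  exact lt_of_le_of_lt hK (not_le.mp hc)

theorem sum_norm_coeff_le_n1 (S : Finset (Fin n →₀ ℕ)) (f : MP n) :
    ∑ m ∈ S, ‖coeff m f‖ ≤ n1 f := by
  classical
  rw [n1_eq_sum_of_subset (f := f) (S := f.support ∪ S) Finset.subset_union_left]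
  exact Finset.sum_le_sum_of_subset_of_nonneg Finset.subset_union_right fun _ _ _ => norm_nonneg _

/-- CPT-3: norm bounds pass to the limit. -/
theorem CT.n1_le [𝓕.NeBot] {f : ι → MP n} {g : MP n} (h : CT 𝓕 f g) {b : ℝ}
    (hb : ∀ᶠ K in 𝓕, n1 (f K) ≤ b) : n1 g ≤ b := by
  have h1 : Tendsto (fun K => ∑ m ∈ g.support, ‖coeff m (f K)‖) 𝓕 (𝓝 (n1 g)) :=
    tendsto_finsetSum _ fun m _ => (h m).norm
  exact le_of_tendsto h1 (hb.mono fun K hK => (sum_norm_coeff_le_n1 _ _).trans hK)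

theorem bind₁_eq_sum_of_subset (Q : PMap n) {f : MP n} {S : Finset (Fin n →₀ ℕ)}
    (hS : f.support ⊆ S) :
    MvPolynomial.bind₁ Q f = ∑ m ∈ S, MvPolynomial.C (coeff m f) * ∏ i, Q i ^ m i := by
  rw [bind₁_eq_sum]
  apply Finset.sum_subset hS
  intro m _ hm
  rw [notMem_support_iff.mp hm]; simp

/-- the exponents of degree at most `D`. -/
noncomputable def expsLE (n D : ℕ) : Finset (Fin n →₀ ℕ) := (Finsupp.finite_of_degree_le D).toFinset

theorem mem_expsLE {D : ℕ} {m : Fin n →₀ ℕ} : m ∈ expsLE n D ↔ m.degree ≤ D := by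
  simp [expsLE]

theorem support_subset_expsLE {f : MP n} {D : ℕ} (h : f.totalDegree ≤ D) :
    f.support ⊆ expsLE n D := fun _ hm => mem_expsLE.mpr ((le_totalDegree hm).trans h)

/-- CPT-4: substitution is continuous on families of bounded degree. -/
theorem CT.bind₁ [𝓕.NeBot] {f : ι → MP n} {g : MP n} {Q : ι → PMap n} {Q' : PMap n} (h : CT 𝓕 f g)
    (hQ : CTm 𝓕 Q Q') {D : ℕ} (hD : ∀ᶠ K in 𝓕, (f K).totalDegree ≤ D) :
    CT 𝓕 (fun K => MvPolynomial.bind₁ (Q K) (f K)) (MvPolynomial.bind₁ Q' g) := by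
  rw [bind₁_eq_sum_of_subset Q' (support_subset_expsLE (h.totalDegree_le hD))]
  have h1 : CT 𝓕 (fun K => ∑ m ∈ expsLE n D, MvPolynomial.C (coeff m (f K)) * ∏ i, Q K i ^ m i)
      (∑ m ∈ expsLE n D, MvPolynomial.C (coeff m g) * ∏ i, Q' i ^ m i) :=
    CT.sum _ fun m _ => (CT.C (h m)).mul (CT.prod _ fun i _ => (hQ i).pow (m i))
  refine h1.congr' (hD.mono fun K hK => ?_)
  exact (bind₁_eq_sum_of_subset (Q K) (support_subset_expsLE hK)).symm

/-- CPT-5: determinants. -/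
theorem CT.det {A : ι → Matrix (Fin n) (Fin n) (MP n)} {A' : Matrix (Fin n) (Fin n) (MP n)}
    (h : ∀ i j, CT 𝓕 (fun K => A K i j) (A' i j)) : CT 𝓕 (fun K => (A K).det) A'.det := by
  simp only [Matrix.det_apply]
  refine CT.sum _ fun σ _ => ?_
  have h1 : CT 𝓕 (fun K => ∏ i, A K (σ i) i) (∏ i, A' (σ i) i) := CT.prod _ fun i _ => h (σ i) i
  rcases Int.units_eq_one_or (Equiv.Perm.sign σ) with hs | hs
  · simpa only [hs, one_smul] using h1
  · have h2 := (CT.const (𝓕 := 𝓕) (0 : MP n)).sub h1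
    simpa only [hs, Units.neg_smul, one_smul, zero_sub] using h2

/-- CPT-6: existence of limits along an ultrafilter. -/
theorem exists_CT (𝒰 : Ultrafilter ι) (f : ι → MP n) (D : ℕ) (b : ℝ)
    (hD : ∀ᶠ K in (𝒰 : Filter ι), (f K).totalDegree ≤ D) (hb : ∀ᶠ K in (𝒰 : Filter ι), n1 (f K) ≤ b) :
    ∃ g : MP n, CT (𝒰 : Filter ι) f g := by
  classical
  have h1 : ∀ m : Fin n →₀ ℕ, ∃ c : ℂ, Tendsto (fun K => coeff m (f K)) (𝒰 : Filter ι) (𝓝 c) := by
    intro m
    have hc : IsCompact (Metric.closedBall (0 : ℂ) b) := isCompact_closedBall 0 b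
    obtain ⟨c, -, hc'⟩ := hc.ultrafilter_le_nhds (𝒰.map fun K => coeff m (f K)) (by
      rw [Filter.le_principal_iff]
      show _ ∈ Filter.map _ (𝒰 : Filter ι)
      rw [Filter.mem_map]
      refine hb.mono fun K hK => ?_
      simp only [Metric.mem_closedBall, dist_zero_right]
      exact (norm_coeff_le_n1 _ _).trans hK)
    exact ⟨c, hc'⟩
  choose c hc using h1
  refine ⟨∑ m ∈ expsLE n D, monomial m (c m), fun m => ?_⟩
  rw [coeff_sum]
  simp only [coeff_monomial]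
  rw [Finset.sum_ite_eq']
  split_ifs with hm
  · exact hc m
  · refine tendsto_const_nhds.congr' (hD.mono fun K hK => ?_)
    symm
    apply coeff_eq_zero_of_totalDegree_lt
    rw [mem_expsLE] at hm
    exact lt_of_le_of_lt hK (not_le.mp hm)

/-! ### maps -/

theorem CTm.comp [𝓕.NeBot] {P Q : ι → PMap n} {P' Q' : PMap n} (hP : CTm 𝓕 P P') (hQ : CTm 𝓕 Q Q')
    {D : ℕ} (hD : ∀ᶠ K in 𝓕, pdeg (P K) ≤ D) : CTm 𝓕 (fun K => comp (P K) (Q K)) (comp P' Q') :=
  fun i => (hP i).bind₁ hQ (hD.mono fun K hK => (totalDegree_le_pdeg (P K) i).trans hK)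

theorem CTm.ptrunc {P : ι → PMap n} {P' : PMap n} (hP : CTm 𝓕 P P') (d : ℕ) :
    CTm 𝓕 (fun K => ptrunc d (P K)) (ptrunc d P') := fun i => (hP i).ptr d

theorem CTm.jdet {P : ι → PMap n} {P' : PMap n} (hP : CTm 𝓕 P P') :
    CT 𝓕 (fun K => jdet (P K)) (jdet P') :=
  CT.det fun i j => (hP i).pderiv j

theorem CTm.unique [𝓕.NeBot] {P : ι → PMap n} {Q Q' : PMap n} (h : CTm 𝓕 P Q) (h' : CTm 𝓕 P Q') :
    Q = Q' := funext fun i => (h i).unique (h' i)

theorem CTm.const (P : PMap n) : CTm 𝓕 (fun _ => P) P := fun i => CT.const (P i)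

theorem CTm.congr' {P P' : ι → PMap n} {Q : PMap n} (h : P =ᶠ[𝓕] P') (hP : CTm 𝓕 P Q) : CTm 𝓕 P' Q :=
  fun i => (hP i).congr' (h.mono fun _ hK => by rw [hK])

/-- CPT-7 -/
theorem CTm.nrm_le [𝓕.NeBot] {P : ι → PMap n} {Q : PMap n} (h : CTm 𝓕 P Q) {b : ℝ}
    (hb : ∀ᶠ K in 𝓕, nrm (P K) ≤ b) : nrm Q ≤ b := by
  have h1 : Tendsto (fun K => ∑ i, ∑ m ∈ (Q i).support, ‖coeff m (P K i)‖) 𝓕 (𝓝 (nrm Q)) :=
    tendsto_finsetSum _ fun i _ => tendsto_finsetSum _ fun m _ => (h i m).norm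
  refine le_of_tendsto h1 (hb.mono fun K hK => le_trans ?_ hK)
  exact Finset.sum_le_sum fun i _ => sum_norm_coeff_le_n1 _ _

theorem CTm.pdeg_le [𝓕.NeBot] {P : ι → PMap n} {Q : PMap n} (h : CTm 𝓕 P Q) {D : ℕ}
    (hD : ∀ᶠ K in 𝓕, pdeg (P K) ≤ D) : pdeg Q ≤ D :=
  pdeg_le_iff.mpr fun i => (h i).totalDegree_le
    (hD.mono fun K hK => (totalDegree_le_pdeg (P K) i).trans hK)

theorem CTm.fix0 [𝓕.NeBot] {P : ι → PMap n} {Q : PMap n} (h : CTm 𝓕 P Q)
    (h0 : ∀ᶠ K in 𝓕, Fix0 (P K)) : Fix0 Q :=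
  fun i => (h i).coeff_eq_zero 0 (h0.mono fun _ hK => hK i)

theorem exists_CTm (𝒰 : Ultrafilter ι) (P : ι → PMap n) (D : ℕ) (b : ℝ)
    (hD : ∀ᶠ K in (𝒰 : Filter ι), pdeg (P K) ≤ D) (hb : ∀ᶠ K in (𝒰 : Filter ι), nrm (P K) ≤ b) :
    ∃ Q : PMap n, CTm (𝒰 : Filter ι) P Q := by
  have : ∀ i, ∃ g : MP n, CT (𝒰 : Filter ι) (fun K => P K i) g := fun i =>
    exists_CT 𝒰 _ D b (hD.mono fun K hK => (totalDegree_le_pdeg (P K) i).trans hK)
      (hb.mono fun K hK => (n1_le_nrm (P K) i).trans hK)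
  choose g hg using this
  exact ⟨g, hg⟩

/-- CPT-8: limits of bounded matrices. -/
theorem exists_lim_mat (𝒰 : Ultrafilter ι) (A : ι → Mat n) (b : ℝ)
    (hb : ∀ᶠ K in (𝒰 : Filter ι), mnorm (A K) ≤ b) :
    ∃ A' : Mat n, Tendsto A (𝒰 : Filter ι) (𝓝 A') := by
  have h1 : ∀ i j, ∃ c : ℂ, Tendsto (fun K => A K i j) (𝒰 : Filter ι) (𝓝 c) := by
    intro i j
    have hc : IsCompact (Metric.closedBall (0 : ℂ) b) := isCompact_closedBall 0 b
    obtain ⟨c, -, hc'⟩ := hc.ultrafilter_le_nhds (𝒰.map fun K => A K i j) (by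
      rw [Filter.le_principal_iff]
      show _ ∈ Filter.map _ (𝒰 : Filter ι)
      rw [Filter.mem_map]
      refine hb.mono fun K hK => ?_
      simp only [Metric.mem_closedBall, dist_zero_right]
      exact (norm_entry_le_mnorm _ _ _).trans hK)
    exact ⟨c, hc'⟩
  choose c hc using h1
  exact ⟨Matrix.of c, tendsto_pi_nhds.mpr fun i => tendsto_pi_nhds.mpr fun j => hc i j⟩

/-- CPT-9 -/
theorem mnorm_le_of_tendsto [𝓕.NeBot] {A : ι → Mat n} {A' : Mat n} (h : Tendsto A 𝓕 (𝓝 A')) {b : ℝ}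
    (hb : ∀ᶠ K in 𝓕, mnorm (A K) ≤ b) : mnorm A' ≤ b := by
  have h1 : Tendsto (fun K => mnorm (A K)) 𝓕 (𝓝 (mnorm A')) :=
    tendsto_finsetSum _ fun i _ => tendsto_finsetSum _ fun j _ =>
      (((continuous_id.matrix_elem i j).tendsto A').comp h).norm
  exact le_of_tendsto h1 hb

/-- CPT-10 -/
theorem CTm.ofMat {A : ι → Mat n} {A' : Mat n} (h : Tendsto A 𝓕 (𝓝 A')) :
    CTm 𝓕 (fun K => ofMat (A K)) (ofMat A') := fun i =>
  CT.sum _ fun j _ => (CT.C (((continuous_id.matrix_elem i j).tendsto A').comp h)).mul (CT.const _)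

end Claimed.Agent.R316.S9
end

/- ===== packed: Claimed.Agent.R316.S9.AsmLem ===== -/
section
/-!
# Row 316, Section 9, package ASM: lemmas for the abstract assembly
(power bounds, congruences of truncations, the two conjugacy computations, volume computations)
-/

set_option autoImplicit false
open MvPolynomial

namespace Claimed.Agent.R316.S9

variable {n : ℕ}

/-! ### power bounds -/

theorem nrm_comp_le_pow {y : ℝ} (hy : 1 ≤ y) {a b D : ℕ} {P Q : PMap n} (hP : nrm P ≤ y ^ a)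
    (hQ : nrm Q ≤ y ^ b) (hdeg : pdeg P ≤ D) : nrm (comp P Q) ≤ y ^ (a + b * D) := by
  have h1 : max 1 (nrm Q) ≤ y ^ b := max_le (one_le_pow₀ hy) hQ
  calc nrm (comp P Q) ≤ nrm P * (max 1 (nrm Q)) ^ pdeg P := nrm_comp_le P Q
    _ ≤ y ^ a * (y ^ b) ^ D := by
        apply mul_le_mul hP _ (by positivity) (by positivity)
        calc (max 1 (nrm Q)) ^ pdeg P ≤ (y ^ b) ^ pdeg P :=
              pow_le_pow_left₀ (by positivity) h1 _
          _ ≤ (y ^ b) ^ D := pow_le_pow_right₀ (one_le_pow₀ hy) hdeg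
    _ = y ^ (a + b * D) := by rw [← pow_mul, ← pow_add]

theorem nrm_ofMat_le_pow {y : ℝ} {A : Mat n} (h : mnorm A ≤ y) : nrm (ofMat A) ≤ y ^ 1 := by
  rw [pow_one]; exact (nrm_ofMat A).trans h

theorem add_le_pow_succ {x a b : ℝ} (hx : 2 ≤ x) {p : ℕ} (ha : a ≤ x ^ p) (hb : b ≤ x ^ p) :
    a + b ≤ x ^ (p + 1) := by
  have h0 : 0 ≤ x ^ p := by positivity
  calc a + b ≤ 2 * x ^ p := by linarith
    _ ≤ x * x ^ p := mul_le_mul_of_nonneg_right hx h0
    _ = x ^ (p + 1) := by ring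

theorem le_pow_of_le_pow {x a : ℝ} (hx : 1 ≤ x) {p q : ℕ} (ha : a ≤ x ^ p) (hpq : p ≤ q) :
    a ≤ x ^ q := ha.trans (pow_le_pow_right₀ hx hpq)

/-! ### congruences of truncations -/

theorem ptr_mul_congr {e : ℕ} {a a' b b' : MP n} (ha : ptr e a = ptr e a') (hb : ptr e b = ptr e b') :
    ptr e (a * b) = ptr e (a' * b') := by
  rw [ptr_eq_iff] at ha hb ⊢
  have : a * b - a' * b' = (a - a') * b + a' * (b - b') := by ring
  rw [this]
  exact (ha.mul_right _).add (hb.mul_left _)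

theorem ptr_bind₁_congr {e : ℕ} {f f' : MP n} (hf : ptr e f = ptr e f') {Z : PMap n} (hZ : Fix0 Z) :
    ptr e (bind₁ Z f) = ptr e (bind₁ Z f') := by
  rw [ptr_eq_iff] at hf ⊢
  rw [← map_sub]
  exact hf.bind₁ hZ

theorem ptr_C (e : ℕ) (c : ℂ) : ptr e (C c : MP n) = C c :=
  ptr_eq_self (by simp)

theorem ptr_one (e : ℕ) : ptr e (1 : MP n) = 1 := by
  have := ptr_C (n := n) e 1
  simpa using this

/-! ### the conjugacy computations -/

theorem conj_regular {d : ℕ} {F A Ai A' h h' g Fh : PMap n} {Lam Lami Lame Lam' J Ji : Mat n}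
    (hF : Fix0 F) (hA : Fix0 A)
    (hAiA : JEq d (comp Ai A) pid) (hLL : Lami * Lam = 1) (hJL : J * Lame = Lam') (hJJ : J * Ji = 1)
    (hFh : Fh = ptrunc d (comp (ofMat Lame) (comp A' (comp F (comp Ai (ofMat Lami))))))
    (hrel : JEq d (comp g h) (comp (ofMat Ji) (comp h' (comp (ofMat J) Fh)))) :
    JEq d (comp (ptrunc d (comp h' (comp (ofMat Lam') A'))) F)
      (comp (comp (ofMat J) g) (ptrunc d (comp h (comp (ofMat Lam) A)))) := by
  have hLA : Fix0 (comp (ofMat Lam) A) := (fix0_ofMat Lam).comp hA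
  -- left hand side
  have hL : JEq d (comp (ptrunc d (comp h' (comp (ofMat Lam') A'))) F)
      (comp h' (comp (ofMat Lam') (comp A' F))) := by
    have := (jeq_ptrunc d (comp h' (comp (ofMat Lam') A'))).comp_left hF
    simpa only [comp_assoc] using this
  -- right hand side
  have hR1 : JEq d (comp (comp (ofMat J) g) (ptrunc d (comp h (comp (ofMat Lam) A))))
      (comp (ofMat J) (comp (comp g h) (comp (ofMat Lam) A))) := by
    have := JEq.comp_right (comp (ofMat J) g) (jeq_ptrunc d (comp h (comp (ofMat Lam) A)))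
    simpa only [comp_assoc] using this
  have hR2 : JEq d (comp (ofMat J) (comp (comp g h) (comp (ofMat Lam) A)))
      (comp (ofMat J) (comp (comp (ofMat Ji) (comp h' (comp (ofMat J) Fh))) (comp (ofMat Lam) A))) :=
    JEq.comp_right _ (hrel.comp_left hLA)
  have hR3 : comp (ofMat J) (comp (comp (ofMat Ji) (comp h' (comp (ofMat J) Fh))) (comp (ofMat Lam) A))
      = comp h' (comp (ofMat J) (comp Fh (comp (ofMat Lam) A))) := by
    simp only [comp_assoc]
    rw [ofMat_comp_cancel hJJ]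
  have hR4 : JEq d (comp h' (comp (ofMat J) (comp Fh (comp (ofMat Lam) A))))
      (comp h' (comp (ofMat J) (comp (comp (ofMat Lame) (comp A' (comp F (comp Ai (ofMat Lami)))))
        (comp (ofMat Lam) A)))) := by
    apply JEq.comp_right
    apply JEq.comp_right
    rw [hFh]
    exact (jeq_ptrunc d _).comp_left hLA
  have hR5 : comp h' (comp (ofMat J) (comp (comp (ofMat Lame) (comp A' (comp F (comp Ai (ofMat Lami)))))
        (comp (ofMat Lam) A))) = comp h' (comp (ofMat Lam') (comp A' (comp F (comp Ai A)))) := by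
    simp only [comp_assoc]
    rw [ofMat_comp_cancel hLL, ← comp_assoc (ofMat J) (ofMat Lame), ofMat_mul, hJL]
  have hR6 : JEq d (comp h' (comp (ofMat Lam') (comp A' (comp F (comp Ai A)))))
      (comp h' (comp (ofMat Lam') (comp A' F))) := by
    have : JEq d (comp F (comp Ai A)) (comp F pid) := JEq.comp_right _ hAiA
    rw [comp_pid] at this
    exact JEq.comp_right _ (JEq.comp_right _ (JEq.comp_right _ this))
  refine hL.trans (JEq.symm ?_)
  refine hR1.trans (hR2.trans ?_)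
  rw [hR3]
  refine hR4.trans ?_
  rw [hR5]
  exact hR6

theorem conj_bad {d : ℕ} {F A Ai A' h' G : PMap n} {Lam' : Mat n}
    (hF : Fix0 F) (hA : Fix0 A) (hAiA : JEq d (comp Ai A) pid)
    (hG : ptrunc d G = ptrunc d (comp h' (comp (ofMat Lam') (comp A' (comp F Ai))))) :
    JEq d (comp (ptrunc d (comp h' (comp (ofMat Lam') A'))) F)
      (comp G (ptrunc d (comp pid (comp (ofMat 1) A)))) := by
  have hL : JEq d (comp (ptrunc d (comp h' (comp (ofMat Lam') A'))) F)
      (comp h' (comp (ofMat Lam') (comp A' F))) := by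
    have := (jeq_ptrunc d (comp h' (comp (ofMat Lam') A'))).comp_left hF
    simpa only [comp_assoc] using this
  have hR1 : JEq d (comp G (ptrunc d (comp pid (comp (ofMat 1) A)))) (comp G A) := by
    have := JEq.comp_right G (jeq_ptrunc d (comp pid (comp (ofMat 1) A)))
    simpa only [pid_comp, ofMat_one] using this
  have hR2 : JEq d (comp G A) (comp (comp h' (comp (ofMat Lam') (comp A' (comp F Ai)))) A) :=
    JEq.comp_left hG hA
  have hR3 : JEq d (comp (comp h' (comp (ofMat Lam') (comp A' (comp F Ai)))) A)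
      (comp h' (comp (ofMat Lam') (comp A' F))) := by
    simp only [comp_assoc]
    have : JEq d (comp F (comp Ai A)) (comp F pid) := JEq.comp_right _ hAiA
    rw [comp_pid] at this
    exact JEq.comp_right _ (JEq.comp_right _ (JEq.comp_right _ this))
  exact hL.trans ((hR1.trans (hR2.trans hR3)).symm)

/-! ### volume computations -/

theorem jdet_ofMat_comp (L : Mat n) (Y : PMap n) : jdet (comp (ofMat L) Y) = C L.det * jdet Y := by
  rw [jdet_comp, jdet_ofMat, bind₁_C_right]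

theorem jdet_comp_ofMat (Y : PMap n) (L : Mat n) :
    jdet (comp Y (ofMat L)) = bind₁ (ofMat L) (jdet Y) * C L.det := by
  rw [jdet_comp, jdet_ofMat]

/-- volume of the transition of a bad step in the corrected coordinates. -/
theorem vol_bad {d : ℕ} (hd : 1 ≤ d) {Y h' : PMap n} {Lam' : Mat n} {δ : ℂ} (hY : Fix0 Y)
    (hvol : ptr (d - 1) (jdet Y) = C δ) (hvol' : ptr (d - 1) (jdet h') = 1) :
    ptr (d - 1) (jdet (ptrunc d (comp h' (comp (ofMat Lam') Y)))) = C (Lam'.det * δ) := by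
  have h1 : ptr (d - 1) (jdet (ptrunc d (comp h' (comp (ofMat Lam') Y))))
      = ptr (d - 1) (jdet (comp h' (comp (ofMat Lam') Y))) := by
    apply JEq.jdet
    have : d - 1 + 1 = d := by omega
    rw [this]
    exact jeq_ptrunc d _
  rw [h1, jdet_comp, jdet_ofMat_comp]
  have hZ : Fix0 (comp (ofMat Lam') Y) := (fix0_ofMat _).comp hY
  have h2 : ptr (d - 1) (bind₁ (comp (ofMat Lam') Y) (jdet h')) = ptr (d - 1) 1 := by
    have := ptr_bind₁_congr (f := jdet h') (f' := 1) (by rw [hvol', ptr_one]) hZ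
    simpa using this
  have h3 : ptr (d - 1) (C Lam'.det * jdet Y) = ptr (d - 1) (C Lam'.det * C δ) := by
    rw [ptr_C_mul, ptr_C_mul, hvol, ptr_C]
  rw [ptr_mul_congr h2 h3, one_mul, ← C_mul, ptr_C]

/-- volume of the transition of a regular step in the primary coordinates. -/
theorem vol_regular {d : ℕ} (hd : 1 ≤ d) {Y : PMap n} {Le Li : Mat n} {δ : ℂ}
    (hvol : ptr (d - 1) (jdet Y) = C δ) :
    ptr (d - 1) (jdet (ptrunc d (comp (ofMat Le) (comp Y (ofMat Li))))) = C (Le.det * δ * Li.det) := by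
  have h1 : ptr (d - 1) (jdet (ptrunc d (comp (ofMat Le) (comp Y (ofMat Li)))))
      = ptr (d - 1) (jdet (comp (ofMat Le) (comp Y (ofMat Li)))) := by
    apply JEq.jdet
    have : d - 1 + 1 = d := by omega
    rw [this]
    exact jeq_ptrunc d _
  rw [h1, jdet_ofMat_comp, jdet_comp_ofMat, ptr_C_mul]
  have h2 : ptr (d - 1) (bind₁ (ofMat Li) (jdet Y)) = ptr (d - 1) (C δ) := by
    have := ptr_bind₁_congr (f := jdet Y) (f' := C δ) (by rw [hvol, ptr_C]) (fix0_ofMat Li)
    simpa using this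
  rw [ptr_mul_congr h2 (rfl : ptr (d - 1) (C Li.det) = _), ← C_mul, ptr_C, ← C_mul, mul_assoc]

end Claimed.Agent.R316.S9
end
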