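/- Packed by merge_tool.py (helper293): 6 modules of Claimed.Agent.R316 in one file, same declarations.
   Old modules, in this order: B8.Continuity, B8.Local, Base.Geod.Defs, B6E.Wirt, B6E.MollWeak, B4.Defs -/
import Claimed.Agent.R316.B8.Complete
import Claimed.Agent.R316.B8.LocalStep
import Claimed.Agent.R316.Base.RGeo.Defs
import Claimed.Agent.R316.CW.Levi
import Claimed.Prelude.Def_0500
import Claimed.Agent.R316.Pack028
import Claimed.Agent.R316.Pack007
import Claimed.Agent.R316.Pack014_2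

/- ===== packed: Claimed.Agent.R316.B8.Continuity ===== -/
section
/-!
# B8-CONTINUITY (export E3): solvability of the Cauchy problem by the method of continuity

LEAF (proofs only; uses `schauder_global`, `heat_solve`, `X_complete`, `homot_adm`, `Lop_homot_sub`, `Basic.lean`; all sorried ok).

Recipe.  `m = finrank ℝ E`, `lam' = min 1 lam`, `M' = M + m`; `C*` from `schauder_global` for `(α, γ, lam', M', Tm = T)`.
* `solv_heat`: `heat_solve` (`Tm = T`).
* `solv_step`: `η = 1 / (12 C* M' + 1)`.  Let `|σ' - σ| ≤ η`, `L_σ = Lop (homot P σ)`.  For `w ∈ X` with `XB w K`: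
  `R w := fun t x => (σ' - σ) * (P t x (jet w t x) - ofTop trB (jet w t x))` satisfies `YB (R w) (|σ'-σ| 6 M' K)`
  (`YB.clm_apply` for `A = P - ofTop trB`, `|A|_Y ≤ M + m`, and `XB.jet_YB`).
  Recursion (`Nat.rec` on the subtype of triples `(w, wt, K)` with `C21`, `XB … K`, `w 0 = 0`; choose with `Classical.choose`):
  `L_σ w₀ = f`, `L_σ w_{k+1} = R w_k`.  By `schauder_global` (`G0 = 0`: `C2aB α univ 0 0`-type lemma for `w 0 = 0`, use `funext`): `XB w₀ (C* F0)`,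
  `XB w_{k+1} (C* |σ'-σ| 6 M' K_k) ≤ K_k / 2`.  `X_complete` with `A = C* F0`: `u = ∑ w_k`; `X_complete_Lop`:
  `L_σ u = f + ∑ R w_k = f + R u` (linearity + `HasSum` of jets, `HasSum.mul_left`, uniqueness of sums), and `L_σ u - L_σ' u = R u` (`Lop_homot_sub`), so `L_σ' u = f`.
  `u 0 x = ∑ w_k 0 x = 0` (first component of the jet sum).
* `solv_adm`: `σ_j = min 1 (j η)`, induction on `j`, `homot_zero`, `homot_one`, `j ≥ 1/η`.
* `cauchy_solve`: `v` solves `L v = f + P (jet g)` with zero data (`YB_static_jet`), `u = v + g`.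
-/

set_option autoImplicit false
set_option maxSynthPendingDepth 3
set_option linter.unusedSectionVars false

open scoped Topology ContDiff
open Set Filter Metric Module

namespace Claimed.Agent.R316.B8

variable {E : Type*} [NormedAddCommGroup E] [InnerProductSpace ℝ E] [FiniteDimensional ℝ E]

/-- solvability in `X` with zero initial data for every right hand side in `Y`. -/
def Solv (α T : ℝ) (P : Op E) : Prop :=
  ∀ (f : ℝ → E → ℝ) (F0 : ℝ), YB α (Icc 0 T) univ f F0 →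
    ∃ u ut : ℝ → E → ℝ, C21 (Icc 0 T) univ u ut ∧ (∃ K, XB α (Icc 0 T) univ u ut K) ∧
      (∀ x, u 0 x = 0) ∧ ∀ t ∈ Icc 0 T, ∀ x, Lop P u ut t x = f t x

theorem solv_heat {α T : ℝ} (hα0 : 0 < α) (hα1 : α < 1) (hT : 0 < T) :
    Solv α T (heatOp : Op E) := by
  obtain ⟨C, hC, H⟩ := heat_solve (E := E) hα0 hα1 hT
  intro f F0 hf
  obtain ⟨u, ut, h1, h2, h3, h4⟩ := H T f F0 hT le_rfl hf
  exact ⟨u, ut, h1, ⟨_, h2⟩, h3, h4⟩

/-- the zero function is in `C^{2+α}` with norm `0`. -/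
theorem C2aB_zero (α : ℝ) : C2aB α (univ : Set E) (fun _ => (0 : ℝ)) 0 := by
  have e1 : fderiv ℝ (fun _ : E => (0 : ℝ)) = fun _ => 0 := by funext x; simp
  have e2 : fderiv ℝ (fderiv ℝ (fun _ : E => (0 : ℝ))) = fun _ => 0 := by
    rw [e1]; funext x; simp
  refine ⟨contDiffOn_const, ?_, ?_, ?_, ?_⟩
  · intro x _; simp
  · rw [e1]; intro x _; simp
  · rw [e2]; intro x _; simp
  · rw [e2]; intro x _ y _; simp

/-- the perturbation term of the method of continuity is bounded `X → Y`. -/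
theorem YB_homot_rest {α γ lam M T K c : ℝ} (hα0 : 0 < α) (hα1 : α < 1) (hM : 0 ≤ M) {P : Op E}
    (hP : Adm P α γ lam M (Icc 0 T) univ) {w wt : ℝ → E → ℝ} (hw : C21 (Icc 0 T) univ w wt)
    (hX : XB α (Icc 0 T) univ w wt K) (hK : 0 ≤ K) :
    YB α (Icc 0 T) univ (fun t x => c * (P t x (jet w t x) - ofTop trB (jet w t x)))
      (|c| * (6 * (M + finrank ℝ E) * K)) := by
  have hA : YB α (Icc 0 T) univ (fun t x => P t x - (heatOp : Op E) t x) (M + finrank ℝ E) :=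
    hP.coef.sub (heatOp_adm (α := α) (γ := γ) (Icc 0 T) univ).coef
  have hJ := hX.jet_YB hα0 hα1.le isOpen_univ convex_univ hw hK
  have h1 := (hA.clm_apply hJ (by positivity) (by positivity)).const_smul c
  have e : |c| * (2 * (M + finrank ℝ E) * (3 * K)) = |c| * (6 * (M + finrank ℝ E) * K) := by ring
  rw [e] at h1
  refine h1.congr ?_
  intro t _ x _
  simp [heatOp, constOp]

theorem solv_step {α γ lam M T : ℝ} (hα0 : 0 < α) (hα1 : α < 1) (hγ : 0 < γ) (hlam : 0 < lam)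
    (hM : 0 ≤ M) (hT : 0 < T) :
    ∃ η : ℝ, 0 < η ∧ ∀ (P : Op E), Adm P α γ lam M (Icc 0 T) univ →
      ∀ σ ∈ Icc (0 : ℝ) 1, ∀ σ' ∈ Icc (0 : ℝ) 1, |σ' - σ| ≤ η →
        Solv α T (homot P σ) → Solv α T (homot P σ') := by
  set M' : ℝ := M + finrank ℝ E with hM'
  have hM'0 : 0 ≤ M' := by positivity
  obtain ⟨Cs, hCs, HS⟩ := schauder_global (E := E) (lam := min 1 lam) (M := M') (Tm := T) hα0 hα1 hγ
    (lt_min one_pos hlam) hM'0 hT
  refine ⟨1 / (12 * Cs * M' + 1), by positivity, ?_⟩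
  intro P hP σ hσ σ' hσ' hd hsolv f F0 hf
  have h0T : (0 : ℝ) ∈ Icc 0 T := ⟨le_rfl, hT.le⟩
  have hF0 : 0 ≤ F0 := (norm_nonneg _).trans (hf.sup 0 h0T (0 : E) (mem_univ _))
  have hPσ : Adm (homot P σ) α γ (min 1 lam) M' (Icc 0 T) univ := homot_adm hM hP hσ
  set c : ℝ := σ' - σ with hc
  have hsmall : Cs * (|c| * (6 * M')) ≤ 1 / 2 := by
    have h1 : |c| * (12 * Cs * M' + 1) ≤ 1 := by
      have := mul_le_mul_of_nonneg_right hd (by positivity : (0 : ℝ) ≤ 12 * Cs * M' + 1)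
      rwa [one_div, inv_mul_cancel₀ (by positivity)] at this
    have h2 : 0 ≤ |c| := abs_nonneg _
    nlinarith
  -- solutions of `L_σ w = φ`, zero data, with the Schauder bound
  have solve : ∀ (φ : ℝ → E → ℝ) (Φ : ℝ), YB α (Icc 0 T) univ φ Φ →
      ∃ w wt : ℝ → E → ℝ, C21 (Icc 0 T) univ w wt ∧ XB α (Icc 0 T) univ w wt (Cs * Φ) ∧
        (∀ x, w 0 x = 0) ∧ ∀ t ∈ Icc 0 T, ∀ x, Lop (homot P σ) w wt t x = φ t x := by
    intro φ Φ hφ
    obtain ⟨w, wt, hw, ⟨K, hK⟩, hw0, hL⟩ := hsolv φ Φ hφ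
    refine ⟨w, wt, hw, ?_, hw0, hL⟩
    have hz : w 0 = fun _ => 0 := funext hw0
    have := HS T (homot P σ) w wt K Φ 0 hT le_rfl hPσ hw hK
      (hφ.congr (fun t ht x _ => hL t ht x)) (by rw [hz]; exact C2aB_zero α)
    simpa using this
  -- the recursion
  let Sol := {p : (ℝ → E → ℝ) × (ℝ → E → ℝ) × ℝ // C21 (Icc 0 T) univ p.1 p.2.1 ∧
    XB α (Icc 0 T) univ p.1 p.2.1 p.2.2 ∧ 0 ≤ p.2.2 ∧ ∀ x, p.1 0 x = 0}
  have next : ∀ p : Sol, ∃ q : Sol,
      (∀ t ∈ Icc 0 T, ∀ x, Lop (homot P σ) q.1.1 q.1.2.1 t x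
        = c * (P t x (jet p.1.1 t x) - ofTop trB (jet p.1.1 t x))) ∧ q.1.2.2 = p.1.2.2 / 2 := by
    rintro ⟨⟨w, wt, K⟩, hw, hX, hK, hw0⟩
    obtain ⟨v, vt, hv, hXv, hv0, hL⟩ := solve _ _ (YB_homot_rest (c := c) hα0 hα1 hM hP hw hX hK)
    refine ⟨⟨⟨v, vt, K / 2⟩, hv, hXv.mono ?_, by positivity, hv0⟩, hL, rfl⟩
    have := mul_le_mul_of_nonneg_right hsmall hK
    calc Cs * (|c| * (6 * (M + finrank ℝ E) * K)) = Cs * (|c| * (6 * M')) * K := by
          rw [hM']; ring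
      _ ≤ 1 / 2 * K := this
      _ = K / 2 := by ring
  choose nxt hnxt using next
  obtain ⟨w₀, wt₀, hw₀, hX₀, hw₀0, hL₀⟩ := solve f F0 hf
  let p₀ : Sol := ⟨⟨w₀, wt₀, Cs * F0⟩, hw₀, hX₀, by positivity, hw₀0⟩
  let seq : ℕ → Sol := fun k => Nat.rec p₀ (fun _ p => nxt p) k
  have hseq_succ : ∀ k, seq (k + 1) = nxt (seq k) := fun k => rfl
  have hKk : ∀ k, (seq k).1.2.2 = Cs * F0 * (1 / 2) ^ k := by
    intro k
    induction k with
    | zero => simp [seq, p₀]
    | succ k ih =>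
      rw [hseq_succ, (hnxt (seq k)).2, ih, pow_succ]; ring
  obtain ⟨u, ut, hu, hXu, hj, ht⟩ := X_complete (α := α) (A := Cs * F0) hT
    (w := fun k => (seq k).1.1) (wt := fun k => (seq k).1.2.1) (fun k => (seq k).2.1)
    (fun k => by rw [← hKk k]; exact (seq k).2.2.1)
  refine ⟨u, ut, hu, ⟨_, hXu⟩, ?_, ?_⟩
  · intro x
    have h1 := (hj 0 h0T x).mapL (ContinuousLinearMap.fst ℝ ℝ ((E →L[ℝ] ℝ) × Bil E))
    have h2 : (fun k => (ContinuousLinearMap.fst ℝ ℝ ((E →L[ℝ] ℝ) × Bil E))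
        (jet (seq k).1.1 0 x)) = fun _ => 0 := by
      funext k
      exact (seq k).2.2.2.2 x
    rw [h2] at h1
    exact h1.unique hasSum_zero
  · intro t htt x
    have hsum := X_complete_Lop (homot P σ) (hj t htt x) (ht t htt x)
    -- the sum of the perturbation terms
    have hR : HasSum (fun k => c * (P t x (jet (seq k).1.1 t x) - ofTop trB (jet (seq k).1.1 t x)))
        (c * (P t x (jet u t x) - ofTop trB (jet u t x))) :=
      (((hj t htt x).mapL (P t x)).sub ((hj t htt x).mapL (ofTop trB))).mul_left c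
    have hshift : HasSum (fun k => Lop (homot P σ) (seq (k + 1)).1.1 (seq (k + 1)).1.2.1 t x)
        (c * (P t x (jet u t x) - ofTop trB (jet u t x))) := by
      have e : (fun k => Lop (homot P σ) (seq (k + 1)).1.1 (seq (k + 1)).1.2.1 t x)
          = fun k => c * (P t x (jet (seq k).1.1 t x) - ofTop trB (jet (seq k).1.1 t x)) := by
        funext k
        exact (hnxt (seq k)).1 t htt x
      rw [e]; exact hR
    have h2 := (hasSum_nat_add_iff
      (f := fun k => Lop (homot P σ) (seq k).1.1 (seq k).1.2.1 t x) 1).mp hshift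
    have h3 := hsum.unique h2
    have h5 : Lop (homot P σ) (seq 0).1.1 (seq 0).1.2.1 t x = f t x := hL₀ t htt x
    simp only [Finset.range_one, Finset.sum_singleton] at h3
    rw [h5] at h3
    have h4 := Lop_homot_sub P σ σ' u ut t x
    linarith

theorem solv_adm {α γ lam M T : ℝ} (hα0 : 0 < α) (hα1 : α < 1) (hγ : 0 < γ) (hlam : 0 < lam)
    (hM : 0 ≤ M) (hT : 0 < T) {P : Op E} (hP : Adm P α γ lam M (Icc 0 T) univ) : Solv α T P := by
  obtain ⟨η, hη, H⟩ := solv_step (E := E) hα0 hα1 hγ hlam hM hT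
  have key : ∀ j : ℕ, Solv α T (homot P (min 1 ((j : ℝ) * η))) := by
    intro j
    induction j with
    | zero =>
      have : min (1 : ℝ) (((0 : ℕ) : ℝ) * η) = 0 := by simp
      rw [this, homot_zero]
      exact solv_heat hα0 hα1 hT
    | succ j ih =>
      have hj : 0 ≤ (j : ℝ) * η := by positivity
      have hj' : ((j + 1 : ℕ) : ℝ) * η = (j : ℝ) * η + η := by push_cast; ring
      refine H P hP (min 1 ((j : ℝ) * η)) ⟨le_min zero_le_one hj, min_le_left _ _⟩
        (min 1 (((j + 1 : ℕ) : ℝ) * η)) ⟨le_min zero_le_one (by positivity), min_le_left _ _⟩ ?_ ih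
      rw [hj', abs_le]
      constructor
      · have : min 1 ((j : ℝ) * η) ≤ min 1 ((j : ℝ) * η + η) :=
          min_le_min le_rfl (by linarith)
        linarith
      · rcases le_total 1 ((j : ℝ) * η) with h | h
        · rw [min_eq_left h, min_eq_left (by linarith)]; linarith
        · rw [min_eq_right h]
          have := min_le_right (1 : ℝ) ((j : ℝ) * η + η)
          linarith
  have h1 := key ⌈1 / η⌉₊
  have h2 : (1 : ℝ) ≤ (⌈1 / η⌉₊ : ℝ) * η := by
    have := Nat.le_ceil (1 / η)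
    rwa [div_le_iff₀ hη] at this
  rw [min_eq_left h2, homot_one] at h1
  exact h1

/-- **E3: the Cauchy problem is solvable in `X`.** (The bound follows from `schauder_global`, uniqueness from
`strip_unique`.) -/
theorem cauchy_solve {α γ lam M T : ℝ} (hα0 : 0 < α) (hα1 : α < 1) (hγ : 0 < γ) (hlam : 0 < lam)
    (hM : 0 ≤ M) (hT : 0 < T) {P : Op E} (hP : Adm P α γ lam M (Icc 0 T) univ) {f : ℝ → E → ℝ}
    {g : E → ℝ} {F0 G0 : ℝ} (hf : YB α (Icc 0 T) univ f F0) (hg : C2aB α univ g G0) :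
    ∃ u ut : ℝ → E → ℝ, C21 (Icc 0 T) univ u ut ∧ (∃ K, XB α (Icc 0 T) univ u ut K) ∧
      (∀ x, u 0 x = g x) ∧ ∀ t ∈ Icc 0 T, ∀ x, Lop P u ut t x = f t x := by
  have hG0 : 0 ≤ G0 := (norm_nonneg _).trans (hg.b0 (0 : E) (mem_univ _))
  have hYg : YB α (Icc 0 T) univ (fun t x => P t x (jet (fun _ => g) t x)) (6 * M * G0) :=
    YB_static_jet hα0 hα1.le isOpen_univ convex_univ hP.coef hM hg hG0
  obtain ⟨v, vt, hv, ⟨K, hK⟩, hv0, hL⟩ := solv_adm hα0 hα1 hγ hlam hM hT hP _ _ (hf.add hYg)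
  have hstat : C21 (Icc 0 T) univ (fun _ => g) (fun _ _ => 0) := C21.static isOpen_univ hg.c2
  have hXs : XB α (Icc 0 T) univ (fun _ => g) (fun _ _ => 0) G0 := XB.static hg hG0
  refine ⟨_, _, hv.add isOpen_univ hstat, ⟨_, XB.add isOpen_univ hv hstat hK hXs⟩, ?_, ?_⟩
  · intro x; simp [hv0 x]
  · intro t ht x
    have := Lop_add (ut := vt) (v := fun _ => g) (vt := fun _ _ => (0 : ℝ)) P isOpen_univ
      (mem_univ x) (hv.c2 t ht) (hstat.c2 t ht)
    rw [this, hL t ht x]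
    simp [Lop]

/-- E2 + E3 packaged: existence with the bound. -/
theorem cauchy_solve_bound {α γ lam M Tm : ℝ} (hα0 : 0 < α) (hα1 : α < 1) (hγ : 0 < γ)
    (hlam : 0 < lam) (hM : 0 ≤ M) (hTm : 0 < Tm) :
    ∃ C : ℝ, 0 ≤ C ∧ ∀ (T : ℝ) (P : Op E) (f : ℝ → E → ℝ) (g : E → ℝ) (F0 G0 : ℝ), 0 < T → T ≤ Tm →
      Adm P α γ lam M (Icc 0 T) univ → YB α (Icc 0 T) univ f F0 → C2aB α univ g G0 →
      ∃ u ut : ℝ → E → ℝ, C21 (Icc 0 T) univ u ut ∧ XB α (Icc 0 T) univ u ut (C * (F0 + G0)) ∧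
        (∀ x, u 0 x = g x) ∧ ∀ t ∈ Icc 0 T, ∀ x, Lop P u ut t x = f t x := by
  obtain ⟨C, hC, HS⟩ := schauder_global (E := E) (lam := lam) (M := M) (Tm := Tm) hα0 hα1 hγ hlam hM
    hTm
  refine ⟨C, hC, ?_⟩
  intro T P f g F0 G0 hT hTT hP hf hg
  obtain ⟨u, ut, hu, ⟨K, hK⟩, hu0, hL⟩ := cauchy_solve hα0 hα1 hγ hlam hM hT hP hf hg
  refine ⟨u, ut, hu, ?_, hu0, hL⟩
  have hz : u 0 = g := funext hu0
  exact HS T P u ut K F0 G0 hT hTT hP hu hK (hf.congr (fun t ht x _ => hL t ht x))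
    (by rw [hz]; exact hg)

end Claimed.Agent.R316.B8
end

/- ===== packed: Claimed.Agent.R316.B8.Local ===== -/
section
/-!
# B8-LOCAL (THIS FILE: `schauder_local`), export E4: local Schauder estimate on `[0,T] × ball x₀ R → [0,T] × ball x₀ (R/2)`, up to `t = 0`

THREE LEAVES: `extend_adm` (`LocalExt.lean`), `local_step` (`LocalStep.lean`), `schauder_local` (`Local.lean`).
All imported files may be used sorried.  `0 < R ≤ 1`.

**`extend_adm`.**  `η` with `Cut η x₀ (3R/4) (R/8) Cc` (`exists_cutoff`), `P' t x = η x • P t x + (1 - η x) • ofTop trB`.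
`ell`: convex combination (`trB_sqB`, `ofTop_topJ`); outside `ball x₀ (7R/8)` it is the heat operator.  `coef`: `|P'| ≤ M + m`; `[η P]_α ≤ M + Z M` (`HolB.cutoff_smul`, `S' = ball x₀ (7R/8)`),
`[(1-η) tr]_α ≤ Z m`, `Z = 2Cc/(R/8)^α`; continuity on `I ×ˢ univ`: cover by `ball x₀ R` and `(closedBall x₀ (7R/8))ᶜ`.  `time`: factor `η ≤ 1`.
**`local_step`.**  `M'`, `P'` from `extend_adm`; `Cg` from `schauder_global` for `(α, γ, min 1 lam, M', Tm)`; `Cc` from `exists_cutoff`.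
Given `R/2 ≤ r < s ≤ 3R/4`, `ρ = (s - r)/3` (`ρ ≤ r`, `ρ ≤ 1`), `ζ` with `Cut ζ x₀ r ρ Cc`, `v = ζ u`, `vt = ζ ut` (`C21.cutoff_extend`, `Kc = closedBall x₀ (r+ρ) ⊆ ball x₀ R`).
 * `Lop P' v vt t x = ζ x * f t x - P' t x (commJ ζ u t x)` for ALL `x` (inside `ball x₀ (3R/4)`: `Lop_cutoff` and `P' = P`; outside `closedBall x₀ (r+ρ)`: both sides vanish,
   `jet_cutoff_eq_zero`, `Cut.deriv_eq_zero`).
 * `|ζ f|_Y ≤ (1 + 2Cc/ρ^α) F0` (`YB.cutoff_mul`), `|P' (commJ)|_Y ≤ 2 M' 40 Cc ρ^{-2-α} N'` (`YB.clm_apply`, `commJ_YB`), `|ζ u(0)|_{2+α} ≤ 40 Cc ρ^{-2-α} G0` (`C2aB.cutoff_mul`).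
 * `N' = 18 U0/ρ'² + 4 K ρ'^α` bounds `jet u` on `ball x₀ (r+ρ)` for every `ρ' ≤ ρ` (`interp_jet_ball`, `r + ρ + 2ρ' ≤ s`).
 * `schauder_global` (finite norm by `XB.cutoff_mul`), `XB.of_cutoff`: `XB (ball x₀ r) u (Cg [(1 + 2Cc/ρ^α) F0 + 80 M' Cc ρ^{-2-α} N' + 40 Cc ρ^{-2-α} G0])`.
 * choose `ρ'^α = ρ^{2+α} / D`, `D = 640 Cg M' Cc + 1`: the `K` term is `≤ K/2`, and `1/ρ'² = (D/ρ^{2+α})^{2/α}`.  `κ = (2+α)(1+2/α)`; `ρ ≤ 1` so every negative power of `ρ` is `≤ ρ^{-κ} = 3^κ (s-r)^{-κ}`.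
**`schauder_local`.**  `iter_lemma` with `Q r K = XB α (Icc 0 T) (ball x₀ r) u ut K`, `r0 = R/2`, `r1 = 3R/4`, `A = C (F0+G0+U0)` (`XB.mono`, `XB.of_forall_pos`, `XB.subset`).
-/

set_option autoImplicit false
set_option maxSynthPendingDepth 3
set_option linter.unusedSectionVars false

open scoped Topology ContDiff
open Set Filter Metric Module

namespace Claimed.Agent.R316.B8

variable {E : Type*} [NormedAddCommGroup E] [InnerProductSpace ℝ E] [FiniteDimensional ℝ E]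

/-- **E4: local Schauder estimate up to `t = 0`.** -/
theorem schauder_local {α γ lam M Tm R : ℝ} (hα0 : 0 < α) (hα1 : α < 1) (hγ : 0 < γ) (hlam : 0 < lam)
    (hM : 0 ≤ M) (hTm : 0 < Tm) (hR : 0 < R) (hR1 : R ≤ 1) :
    ∃ C : ℝ, 0 ≤ C ∧ ∀ (T : ℝ) (x₀ : E) (P : Op E) (u ut : ℝ → E → ℝ) (F0 G0 U0 : ℝ),
      0 < T → T ≤ Tm → Adm P α γ lam M (Icc 0 T) (ball x₀ R) → C21 (Icc 0 T) (ball x₀ R) u ut →
      (∀ r < R, ∃ K, XB α (Icc 0 T) (ball x₀ r) u ut K) →
      YB α (Icc 0 T) (ball x₀ R) (Lop P u ut) F0 → C2aB α (ball x₀ R) (u 0) G0 →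
      (∀ t ∈ Icc 0 T, SupB (ball x₀ R) (u t) U0) →
      XB α (Icc 0 T) (ball x₀ (R / 2)) u ut (C * (F0 + G0 + U0)) := by
  obtain ⟨C, κ, hC, hκ, hstep⟩ := local_step (E := E) hα0 hα1 hγ hlam hM hTm hR hR1
  obtain ⟨Ci, hCi, hit⟩ := iter_lemma hκ
  refine ⟨Ci * C / (R / 4) ^ κ, by positivity, ?_⟩
  intro T x₀ P u ut F0 G0 U0 hT hTT hP hu hfin hf hg hU
  have h0T : (0 : ℝ) ∈ Icc 0 T := ⟨le_rfl, hT.le⟩
  have hx₀ : x₀ ∈ ball x₀ R := mem_ball_self hR
  have hF0 : 0 ≤ F0 := (norm_nonneg _).trans (hf.sup 0 h0T x₀ hx₀)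
  have hG0 : 0 ≤ G0 := (norm_nonneg _).trans (hg.b0 x₀ hx₀)
  have hU0 : 0 ≤ U0 := (norm_nonneg _).trans (hU 0 h0T x₀ hx₀)
  have key := hit (fun r K => XB α (Icc 0 T) (ball x₀ r) u ut K) (R / 2) (3 * R / 4)
    (C * (F0 + G0 + U0)) (by linarith) (by positivity)
    (fun r K K' hK h => h.mono hK) (fun r K h => XB.of_forall_pos h)
    (fun r s K hrs h => h.subset subset_rfl (ball_subset_ball hrs))
    (fun r s K hr hrs hs h => hstep T x₀ P u ut F0 G0 U0 hT hTT hP hu hf hg hU r s K hr hrs hs h)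
    (hfin _ (by linarith))
  have e1 : 3 * R / 4 - R / 2 = R / 4 := by ring
  have e2 : Ci * C / (R / 4) ^ κ * (F0 + G0 + U0)
      = Ci * (C * (F0 + G0 + U0)) / (3 * R / 4 - R / 2) ^ κ := by
    rw [e1]; ring
  rw [e2]
  exact key

end Claimed.Agent.R316.B8
end

/- ===== packed: Claimed.Agent.R316.Base.Geod.Defs ===== -/
section
/-!
# Row 316 base layer: ambient form of the Kaehler tensors along curves; support functions (DEFINITIONS)

Owner: helper97.  Tangent vectors are ambient vectors `a ∈ T_x M ⊆ V`; every tensor is evaluated through the chosen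
parametrisation `𝓜.pΦ x` (the `_param` lemmas of the Api files give the value in any parametrisation).
-/

set_option autoImplicit false
open scoped ContDiff ComplexOrder Topology

namespace Claimed.Agent.R316

variable {V : Type} [NormedAddCommGroup V] [NormedSpace ℝ V]
variable {ι : Type} [Fintype ι] [DecidableEq ι]

/-- the complex structure on ambient tangent vectors. -/
noncomputable def ambJ (𝓜 : CMfd V ι) (x a : V) : V :=
  fderiv ℝ (𝓜.pΦ x) (𝓜.co x) (Complex.I • coVec (𝓜.pΦ x) (𝓜.co x) a)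

/-- differential of a function on an ambient tangent vector. -/
noncomputable def ambD (𝓜 : CMfd V ι) (u : V → ℝ) (x a : V) : ℝ :=
  fderiv ℝ (u ∘ 𝓜.pΦ x) (𝓜.co x) (coVec (𝓜.pΦ x) (𝓜.co x) a)

/-- the bisectional curvature numerator `R(a, \bar a, b, \bar b)` of ambient tangent vectors. -/
noncomputable def ambBisec (𝓜 : CMfd V ι) (h : HFam V ι) (x a b : V) : ℝ :=
  bisec h (𝓜.pΦ x) (𝓜.co x) (coVec (𝓜.pΦ x) (𝓜.co x) a) (coVec (𝓜.pΦ x) (𝓜.co x) b)

/-- `E` is a smooth parallel ambient tangent field along the curve `γ` on the interval `I`. -/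
def IsParallelAlong (𝓜 : CMfd V ι) (h : HFam V ι) (γ E : ℝ → V) (I : Set ℝ) : Prop :=
  ContDiffOn ℝ ∞ E I ∧ (∀ t ∈ I, E t ∈ 𝓜.tangent (γ t)) ∧
  ∀ (Φ : CE ι → V) (U : Set (CE ι)), 𝓜.IsHol Φ U → ∀ (c : ℝ → CE ι) (I' : Set ℝ), I' ⊆ I →
    IsOpen I' → (∀ t ∈ I', c t ∈ U ∧ Φ (c t) = γ t) →
      (kgeo h Φ U).IsParallel c (fun t => coVec Φ (c t) (E t)) I'

/-- `s` is a smooth upper support function of `f` at `x`. -/
structure UpperSupp (𝓜 : CMfd V ι) (f s : V → ℝ) (x : V) : Prop where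
  smooth : 𝓜.Smooth s
  le : ∀ᶠ y in 𝓝[𝓜.carrier] x, f y ≤ s y
  eq : s x = f x

/-- `s` is a smooth lower support function of `f` at `x`. -/
structure LowerSupp (𝓜 : CMfd V ι) (f s : V → ℝ) (x : V) : Prop where
  smooth : 𝓜.Smooth s
  le : ∀ᶠ y in 𝓝[𝓜.carrier] x, s y ≤ f y
  eq : s x = f x

end Claimed.Agent.R316
end

/- ===== packed: Claimed.Agent.R316.B6E.Wirt ===== -/
section
set_option autoImplicit false

/-!
# Row 316, package B6E: Hörmander's `L²` theorem for `∂̄` on Euclidean balls of `ℂ^ι`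

Sub-captain: helper262.  DEFINITIONS.

## Conventions
* A `(0,1)`-form is a family of components `g : ι → CE ι → ℂ` (COMPONENT FIRST), `g = ∑ g_j d\bar z_j`.
* `levi φ z j k = ∂²φ/∂\bar z_j∂z_k`, `qf A v = vᴴ A v`; so `qf (levi φ z) (fun j => F j z)`
  is Hörmander's `∑ φ_{j \bar k} F_j \bar F_k`.
* Whenever a test function is a factor of the integrand we integrate over the WHOLE space
  (`∫ z, …`, the integrand vanishes off `Ω`; this is Mathlib's convention in
  `IsOpen.ae_eq_zero_of_integral_contDiff_smul_eq_zero`).  Norms are `∫ z in Ω, …`.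
* `conj = starRingEnd ℂ`.

## Route (no unbounded operators, no weak compactness, no elliptic theory)
The central notion is the DUAL ESTIMATE `DualEst Ω g W C`:
`|∫ ∑ g_j Φ_j|² ≤ C ∫ |∑ ∂̄_j Φ_j|² W` for all test forms `Φ` on `Ω` (think `W = e^{φ}`).
1. `BKH.lean`      Bochner–Kodaira–Hörmander inequality for test forms (two integrations by parts).
2. `Weights.lean`  explicit radial weights `q, ψ` and cutoffs `η_ν` on a ball (three-weight trick).
3. `BasicEst.lean` (1)+(2) ⇒ basic estimate for test forms `F`.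
4. `MollWeak.lean`, `Density.lean`  test forms are dense in the graph norm (cutoff + mollifier; the
   principal parts have constant coefficients, so no Friedrichs lemma).
5. `Hilbert.lean`, `Dual.lean`  projection onto the weakly closed forms ⇒ `DualEst` on the ball `B(r)`
   with weight `e^{p-2ψ}`.
6. `Ball.lean`     `r' < r < R`, `ε → 0` ⇒ `DualEst (B R) g e^{φ} (∫ H e^{-φ})`; limits of weights by
   dominated convergence.
7. `Riesz.lean`    `DualEst` ⇒ weak solution `u` with `∫ |u|²/W ≤ C` (Riesz in unweighted `L²`).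
8. `Param.lean`, `Regular.lean`  a weak solution with smooth right side is smooth (first order parametrix
   obtained from `d/ds (ρ_s * w)`; no fundamental solution, no Sobolev spaces).
9. `Main.lean`     the theorems for the users.  `Pole.lean`: integrability against a pole kills the 1-jet.
-/

section SecDefs
open scoped ContDiff ComplexOrder ComplexConjugate Topology
open MeasureTheory

namespace Claimed.Agent.R316.B6E

variable {ι : Type} [Fintype ι]

/-- complex valued test function on the (open) set `Ω`. -/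
structure IsTest (Ω : Set (CE ι)) (w : CE ι → ℂ) : Prop where
  smooth : ContDiff ℝ ∞ w
  compact : HasCompactSupport w
  supp : tsupport w ⊆ Ω

/-- test `(0,1)`-form (or test vector field): all components are test functions. -/
def IsTestForm (Ω : Set (CE ι)) (F : ι → CE ι → ℂ) : Prop := ∀ j, IsTest Ω (F j)

/-- coercion of a real function. -/
noncomputable def cx (p : CE ι → ℝ) : CE ι → ℂ := fun z => ((p z : ℝ) : ℂ)

/-- `f ∈ L²(Ω, e^{-p} dλ)`. -/
structure L2w (Ω : Set (CE ι)) (p : CE ι → ℝ) (f : CE ι → ℂ) : Prop where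
  meas : AEStronglyMeasurable f (volume.restrict Ω)
  int : IntegrableOn (fun z => ‖f z‖ ^ 2 * Real.exp (-p z)) Ω

variable [DecidableEq ι]

/-- `δ_j w = e^{p} ∂_j (e^{-p} w) = ∂_j w - (∂_j p) w`. -/
noncomputable def dl (p : CE ι → ℝ) (j : ι) (w : CE ι → ℂ) (z : CE ι) : ℂ :=
  dz j w z - grad10 p z j * w z

/-- the formal adjoint of `∂̄ : L²(e^{-(p-2ψ)}) → L²(e^{-(p-ψ)})`:
`T^* F = - e^{-ψ} ∑_j (∂_j F_j - ∂_j(p-ψ) F_j)`. -/
noncomputable def Tst (p ψ : CE ι → ℝ) (F : ι → CE ι → ℂ) (z : CE ι) : ℂ :=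
  - ((Real.exp (-ψ z) : ℝ) : ℂ) * ∑ j, dl (fun y => p y - ψ y) j (F j) z

/-- `|∂̄F|² = ∑_{j<k} |∂̄_j F_k - ∂̄_k F_j|²`. -/
noncomputable def curlSq (F : ι → CE ι → ℂ) (z : CE ι) : ℝ :=
  (1 / 2) * ∑ j, ∑ k, ‖dzb j (F k) z - dzb k (F j) z‖ ^ 2

/-- `∂̄u = g` on `Ω` in the weak sense. -/
def WeakDbar (Ω : Set (CE ι)) (u : CE ι → ℂ) (g : ι → CE ι → ℂ) : Prop :=
  ∀ w, IsTest Ω w → ∀ j, ∫ z, u z * dzb j w z = - ∫ z, g j z * w z

/-- `∂̄f = 0` on `Ω` in the weak sense. -/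
def WeakClosed (Ω : Set (CE ι)) (f : ι → CE ι → ℂ) : Prop :=
  ∀ w, IsTest Ω w → ∀ j k, ∫ z, (f k z * dzb j w z - f j z * dzb k w z) = 0

/-- `T^* f = v` in the weak sense: `⟨∂̄u, f⟩_{p-ψ} = ⟨u, v⟩_{p-2ψ}` for all test functions `u`. -/
def WeakAdj (Ω : Set (CE ι)) (p ψ : CE ι → ℝ) (f : ι → CE ι → ℂ) (v : CE ι → ℂ) : Prop :=
  ∀ u, IsTest Ω u →
    ∫ z, (∑ j, dzb j u z * conj (f j z)) * ((Real.exp (-(p z - ψ z)) : ℝ) : ℂ)
      = ∫ z, u z * conj (v z) * ((Real.exp (-(p z - 2 * ψ z)) : ℝ) : ℂ)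

/-- the dual estimate (equivalent to: `∂̄u = g` has a solution with `∫_Ω |u|²/W ≤ C`). -/
def DualEst (Ω : Set (CE ι)) (g : ι → CE ι → ℂ) (W : CE ι → ℝ) (C : ℝ) : Prop :=
  ∀ Φ : ι → CE ι → ℂ, IsTestForm Ω Φ →
    ‖∫ z, ∑ j, g j z * Φ j z‖ ^ 2 ≤ C * ∫ z, ‖∑ j, dzb j (Φ j) z‖ ^ 2 * W z

/-- cutoff functions adapted to the auxiliary weight `ψ`: `|∂η_ν|² ≤ e^{ψ}`. -/
structure IsCutoffSeq (Ω : Set (CE ι)) (ψ : CE ι → ℝ) (η : ℕ → CE ι → ℝ) : Prop where
  test : ∀ ν, IsTest Ω (cx (η ν))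
  nonneg : ∀ ν z, 0 ≤ η ν z
  le_one : ∀ ν z, η ν z ≤ 1
  eventually_one : ∀ z ∈ Ω, ∀ᶠ ν in Filter.atTop, η ν =ᶠ[𝓝 z] fun _ => 1
  grad_le : ∀ ν, ∀ z ∈ Ω, ∑ j, ‖grad10 (η ν) z j‖ ^ 2 ≤ Real.exp (ψ z)

end Claimed.Agent.R316.B6E

end SecDefs

/-!
# Row 316, B6E-WirtA: test functions (closure properties, cutoffs, integrability)
-/

section SecWirtA
open scoped ContDiff ComplexOrder ComplexConjugate Topology Manifold
open MeasureTheory Filter

namespace Claimed.Agent.R316.B6E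

variable {ι : Type} [Fintype ι]

/-! ### test functions -/

section test

variable {Ω Ω' : Set (CE ι)} {w w' : CE ι → ℂ}

theorem IsTest.zero : IsTest Ω (fun _ : CE ι => (0 : ℂ)) :=
  ⟨contDiff_const, HasCompactSupport.zero, by
    have : tsupport (fun _ : CE ι => (0 : ℂ)) = ∅ := by
      rw [tsupport_eq_empty_iff]; rfl
    rw [this]; exact Set.empty_subset _⟩

theorem IsTest.mono (h : Ω ⊆ Ω') (hw : IsTest Ω w) : IsTest Ω' w :=
  ⟨hw.smooth, hw.compact, hw.supp.trans h⟩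

theorem IsTest.add (hw : IsTest Ω w) (hw' : IsTest Ω w') : IsTest Ω (fun z => w z + w' z) :=
  ⟨hw.smooth.add hw'.smooth, hw.compact.add hw'.compact,
    (tsupport_add w w').trans (Set.union_subset hw.supp hw'.supp)⟩

theorem IsTest.neg (hw : IsTest Ω w) : IsTest Ω (fun z => - w z) :=
  ⟨hw.smooth.neg, hw.compact.neg, by
    have : tsupport (fun z => - w z) = tsupport w := by
      unfold tsupport
      congr 1
      ext z
      simp
    rw [this]; exact hw.supp⟩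

theorem IsTest.sub (hw : IsTest Ω w) (hw' : IsTest Ω w') : IsTest Ω (fun z => w z - w' z) := by
  simpa [sub_eq_add_neg] using hw.add hw'.neg

/-- a test function times a function which is smooth on `Ω` only. -/
theorem IsTest.mul_contDiffOn (hΩ : IsOpen Ω) (hw : IsTest Ω w) {a : CE ι → ℂ}
    (ha : ContDiffOn ℝ ∞ a Ω) : IsTest Ω (fun z => w z * a z) := by
  refine ⟨?_, hw.compact.mul_right, (tsupport_mul_subset_left (f := w) (g := a)).trans hw.supp⟩
  rw [contDiff_iff_contDiffAt]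
  intro z
  by_cases hz : z ∈ tsupport w
  · exact hw.smooth.contDiffAt.mul (ha.contDiffAt (hΩ.mem_nhds (hw.supp hz)))
  · have h0 : (fun z => w z * a z) =ᶠ[𝓝 z] fun _ => 0 := by
      have : (tsupport w)ᶜ ∈ 𝓝 z := (isClosed_tsupport w).isOpen_compl.mem_nhds hz
      filter_upwards [this] with y hy
      rw [image_eq_zero_of_notMem_tsupport hy, zero_mul]
    exact contDiffAt_const.congr_of_eventuallyEq h0

theorem IsTest.const_mul (c : ℂ) (hw : IsTest Ω w) : IsTest Ω (fun z => c * w z) :=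
  ⟨contDiff_const.mul hw.smooth, hw.compact.mul_left,
    (tsupport_mul_subset_right (f := fun _ => c) (g := w)).trans hw.supp⟩

theorem IsTest.sum {α : Type} (s : Finset α) {W : α → CE ι → ℂ} (h : ∀ a ∈ s, IsTest Ω (W a)) :
    IsTest Ω (fun z => ∑ a ∈ s, W a z) := by
  classical
  induction s using Finset.induction_on with
  | empty => simpa using IsTest.zero
  | insert a s ha ih =>
    simp only [Finset.sum_insert ha]
    exact (h a (Finset.mem_insert_self a s)).add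
      (ih fun b hb => h b (Finset.mem_insert_of_mem hb))

theorem IsTest.conj (hw : IsTest Ω w) : IsTest Ω (fun z => conj (w z)) := by
  refine ⟨?_, ?_, ?_⟩
  · exact Complex.conjCLE.contDiff.comp hw.smooth
  · exact hw.compact.comp_left (g := fun x : ℂ => conj x) (map_zero _)
  · have : tsupport (fun z => conj (w z)) = tsupport w := by
      unfold tsupport
      congr 1
      ext z
      simp
    rw [this]; exact hw.supp

theorem IsTest.mul (hw : IsTest Ω w) (hw' : IsTest Ω w') : IsTest Ω (fun z => w z * w' z) :=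
  ⟨hw.smooth.mul hw'.smooth, hw.compact.mul_right,
    (tsupport_mul_subset_left (f := w) (g := w')).trans hw.supp⟩

theorem IsTest.continuous (hw : IsTest Ω w) : Continuous w := hw.smooth.continuous

theorem IsTest.differentiable (hw : IsTest Ω w) : Differentiable ℝ w :=
  hw.smooth.differentiable (by simp)

theorem IsTest.integrable (hw : IsTest Ω w) : Integrable w :=
  hw.continuous.integrable_of_hasCompactSupport hw.compact

theorem IsTest.eq_zero_of_notMem (hw : IsTest Ω w) {z : CE ι} (hz : z ∉ Ω) : w z = 0 :=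
  image_eq_zero_of_notMem_tsupport fun h => hz (hw.supp h)

theorem contDiffOn_cx {p : CE ι → ℝ} (hp : ContDiffOn ℝ ∞ p Ω) : ContDiffOn ℝ ∞ (cx p) Ω :=
  Complex.ofRealCLM.contDiff.comp_contDiffOn hp

theorem contDiff_cx {p : CE ι → ℝ} (hp : ContDiff ℝ ∞ p) : ContDiff ℝ ∞ (cx p) :=
  Complex.ofRealCLM.contDiff.comp hp

theorem contDiffOn_cx_exp {p : CE ι → ℝ} (hp : ContDiffOn ℝ ∞ p Ω) :
    ContDiffOn ℝ ∞ (fun z => ((Real.exp (p z) : ℝ) : ℂ)) Ω :=
  Complex.ofRealCLM.contDiff.comp_contDiffOn hp.exp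

/-- there is a test function equal to `1` near a given compact subset (values in `[0,1]`). -/
theorem exists_isTest_eq_one (hΩ : IsOpen Ω) {K : Set (CE ι)} (hK : IsCompact K) (hKΩ : K ⊆ Ω) :
    ∃ θ : CE ι → ℝ, IsTest Ω (cx θ) ∧ (∀ z, 0 ≤ θ z ∧ θ z ≤ 1) ∧ ∀ᶠ z in 𝓝ˢ K, θ z = 1 := by
  obtain ⟨K', hK', hKK', hK'Ω⟩ := exists_compact_between hK hΩ hKΩ
  obtain ⟨f, h1, h0, h01⟩ := exists_contMDiffMap_one_nhds_of_subset_interior
    (n := (⊤ : ℕ∞)) 𝓘(ℝ, CE ι) hK.isClosed hKK'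
  have hsupp : tsupport (cx f) ⊆ K' := by
    refine closure_minimal ?_ hK'.isClosed
    intro z hz
    by_contra hzK
    exact hz (by simp [cx, h0 z hzK])
  refine ⟨f, ⟨contDiff_cx (contMDiff_iff_contDiff.1 f.contMDiff), ?_, hsupp.trans hK'Ω⟩,
    fun z => h01 z, h1⟩
  exact hK'.of_isClosed_subset (isClosed_tsupport _) hsupp

/-- a function which is continuous on `Ω` and vanishes off a compact subset of `Ω` is integrable. -/
theorem integrable_of_continuousOn_of_compact {E : Type} [NormedAddCommGroup E]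
    (hΩ : IsOpen Ω) {K : Set (CE ι)} (hK : IsCompact K) (hKΩ : K ⊆ Ω) {G : CE ι → E}
    (hG : ContinuousOn G Ω) (h0 : ∀ z, z ∉ K → G z = 0) : Integrable G := by
  have h1 : IntegrableOn G K := (hG.mono hKΩ).integrableOn_compact hK
  exact (integrableOn_iff_integrable_of_support_subset (fun z hz => by
    by_contra hzK
    exact hz (h0 z hzK))).1 h1

/-- test function times locally integrable function. -/
theorem IsTest.integrable_mul_left (hΩ : IsOpen Ω) (hw : IsTest Ω w) {u : CE ι → ℂ}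
    (hu : LocallyIntegrableOn u Ω) : Integrable (fun z => u z * w z) := by
  have h1 : IntegrableOn u (tsupport w) := hu.integrableOn_compact_subset hw.supp hw.compact
  have h2 : IntegrableOn (fun z => u z * w z) (tsupport w) := by
    obtain ⟨C, hC⟩ := hw.continuous.bounded_above_of_compact_support hw.compact
    exact h1.mul_bdd (c := C) hw.continuous.aestronglyMeasurable
      (Eventually.of_forall hC)
  exact (integrableOn_iff_integrable_of_support_subset (fun z hz => by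
    by_contra hzK
    exact hz (by simp [image_eq_zero_of_notMem_tsupport hzK]))).1 h2

/-- replace a function that is smooth on `Ω` by a globally smooth one, near a compact set. -/
theorem exists_contDiff_eq_near (hΩ : IsOpen Ω) {K : Set (CE ι)} (hK : IsCompact K) (hKΩ : K ⊆ Ω)
    {a : CE ι → ℂ} (ha : ContDiffOn ℝ ∞ a Ω) :
    ∃ a' : CE ι → ℂ, IsTest Ω a' ∧ ∀ᶠ z in 𝓝ˢ K, a' z = a z := by
  obtain ⟨θ, hθ, -, h1⟩ := exists_isTest_eq_one hΩ hK hKΩ
  refine ⟨fun z => cx θ z * a z, hθ.mul_contDiffOn hΩ ha, ?_⟩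
  filter_upwards [h1] with z hz
  simp [cx, hz]

theorem exists_contDiff_eq_near_real (hΩ : IsOpen Ω) {K : Set (CE ι)} (hK : IsCompact K)
    (hKΩ : K ⊆ Ω) {a : CE ι → ℝ} (ha : ContDiffOn ℝ ∞ a Ω) :
    ∃ a' : CE ι → ℝ, ContDiff ℝ ∞ a' ∧ HasCompactSupport a' ∧ tsupport a' ⊆ Ω ∧
      ∀ᶠ z in 𝓝ˢ K, a' z = a z := by
  obtain ⟨b, hb, h1⟩ := exists_contDiff_eq_near hΩ hK hKΩ (contDiffOn_cx ha)
  have hsub : tsupport (fun z => (b z).re) ⊆ tsupport b := by
    refine closure_mono ?_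
    intro z hz
    intro h0
    exact hz (by simp [h0])
  refine ⟨fun z => (b z).re, Complex.reCLM.contDiff.comp hb.smooth, ?_, hsub.trans hb.supp, ?_⟩
  · exact hb.compact.comp_left (g := Complex.re) Complex.zero_re
  · filter_upwards [h1] with z hz
    simp [hz, cx]

end test

end Claimed.Agent.R316.B6E

end SecWirtA

/-!
# Row 316, B6E-WirtB: integration by parts, weak = classical, formal adjoint
-/

section SecWirtB
set_option linter.unusedSectionVars false
open scoped ContDiff ComplexOrder ComplexConjugate Topology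
open MeasureTheory Filter

namespace Claimed.Agent.R316.B6E

variable {ι : Type} [Fintype ι]

variable [DecidableEq ι]

section ibp

variable {Ω : Set (CE ι)} {w : CE ι → ℂ} {j k : ι}

theorem IsTest.dz (hw : IsTest Ω w) : IsTest Ω (dz j w) :=
  ⟨contDiff_dz hw.smooth, hasCompactSupport_dz hw.compact, tsupport_dz_subset.trans hw.supp⟩

theorem IsTest.dzb (hw : IsTest Ω w) : IsTest Ω (dzb j w) :=
  ⟨contDiff_dzb hw.smooth, hasCompactSupport_dzb hw.compact, tsupport_dzb_subset.trans hw.supp⟩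

theorem integrable_fderiv_test (hw : IsTest Ω w) (e : CE ι) :
    Integrable (fun z => fderiv ℝ w z e) := by
  have hc : Continuous (fun z => fderiv ℝ w z e) :=
    (hw.smooth.continuous_fderiv (by simp)).clm_apply continuous_const
  exact hc.integrable_of_hasCompactSupport (hw.compact.fderiv_apply (𝕜 := ℝ) e)

theorem integral_fderiv_test (hw : IsTest Ω w) (e : CE ι) : ∫ z, fderiv ℝ w z e = 0 := by
  have h := integral_mul_fderiv_eq_neg_fderiv_mul_of_integrable (μ := (volume : Measure (CE ι)))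
    (f := fun _ : CE ι => (1 : ℂ)) (g := w) (v := e)
    (by simp) (by simpa using integrable_fderiv_test hw e) (by simpa using hw.integrable)
    (fun x _ => differentiableAt_const _) (fun x _ => hw.differentiable x)
  simpa using h

theorem integral_dz_eq_zero (hw : IsTest Ω w) : ∫ z, dz j w z = 0 := by
  unfold Claimed.Agent.R316.dz
  rw [integral_const_mul, integral_sub (integrable_fderiv_test hw _)
    ((integrable_fderiv_test hw _).const_mul _), integral_const_mul, integral_fderiv_test hw,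
    integral_fderiv_test hw]
  simp

theorem integral_dzb_eq_zero (hw : IsTest Ω w) : ∫ z, dzb j w z = 0 := by
  unfold Claimed.Agent.R316.dzb
  rw [integral_const_mul, integral_add (integrable_fderiv_test hw _)
    ((integrable_fderiv_test hw _).const_mul _), integral_const_mul, integral_fderiv_test hw,
    integral_fderiv_test hw]
  simp

theorem dz_mul_of_test (hΩ : IsOpen Ω) (hw : IsTest Ω w) {a : CE ι → ℂ}
    (ha : ContDiffOn ℝ ∞ a Ω) (z : CE ι) :
    dz j (fun y => w y * a y) z = dz j w z * a z + w z * dz j a z := by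
  by_cases hz : z ∈ tsupport w
  · exact dz_mul (hw.differentiable z)
      ((ha.contDiffAt (hΩ.mem_nhds (hw.supp hz))).differentiableAt (by simp))
  · rw [dz_eq_zero_of_notMem_tsupport hz, image_eq_zero_of_notMem_tsupport hz,
      dz_eq_zero_of_notMem_tsupport
        (fun h => hz (tsupport_mul_subset_left (f := w) (g := a) h))]
    simp

theorem dzb_mul_of_test (hΩ : IsOpen Ω) (hw : IsTest Ω w) {a : CE ι → ℂ}
    (ha : ContDiffOn ℝ ∞ a Ω) (z : CE ι) :
    dzb j (fun y => w y * a y) z = dzb j w z * a z + w z * dzb j a z := by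
  by_cases hz : z ∈ tsupport w
  · exact dzb_mul (hw.differentiable z)
      ((ha.contDiffAt (hΩ.mem_nhds (hw.supp hz))).differentiableAt (by simp))
  · rw [dzb_eq_zero_of_notMem_tsupport hz, image_eq_zero_of_notMem_tsupport hz,
      dzb_eq_zero_of_notMem_tsupport
        (fun h => hz (tsupport_mul_subset_left (f := w) (g := a) h))]
    simp

theorem integral_dz_mul (hΩ : IsOpen Ω) (hw : IsTest Ω w) {a : CE ι → ℂ}
    (ha : ContDiffOn ℝ ∞ a Ω) : ∫ z, dz j w z * a z = - ∫ z, w z * dz j a z := by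
  have h0 := integral_dz_eq_zero (j := j) (hw.mul_contDiffOn hΩ ha)
  simp only [dz_mul_of_test hΩ hw ha] at h0
  rw [integral_add ((hw.dz (j := j)).mul_contDiffOn hΩ ha).integrable
    (hw.mul_contDiffOn hΩ (contDiffOn_dz hΩ ha)).integrable] at h0
  exact eq_neg_of_add_eq_zero_left h0

theorem integral_dzb_mul (hΩ : IsOpen Ω) (hw : IsTest Ω w) {a : CE ι → ℂ}
    (ha : ContDiffOn ℝ ∞ a Ω) : ∫ z, dzb j w z * a z = - ∫ z, w z * dzb j a z := by
  have h0 := integral_dzb_eq_zero (j := j) (hw.mul_contDiffOn hΩ ha)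
  simp only [dzb_mul_of_test hΩ hw ha] at h0
  rw [integral_add ((hw.dzb (j := j)).mul_contDiffOn hΩ ha).integrable
    (hw.mul_contDiffOn hΩ (contDiffOn_dzb hΩ ha)).integrable] at h0
  exact eq_neg_of_add_eq_zero_left h0


theorem dz_exp_neg {p : CE ι → ℝ} {z : CE ι} (hp : DifferentiableAt ℝ p z) :
    dz j (fun y => ((Real.exp (-p y) : ℝ) : ℂ)) z
      = - ((Real.exp (-p z) : ℝ) : ℂ) * grad10 p z j := by
  rw [dz_exp_real (fun y => -p y) hp.neg]
  have : dz j (fun w => (((-p w : ℝ)) : ℂ)) z = - grad10 p z j := by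
    simp only [Complex.ofReal_neg]
    rw [dz_neg]; rfl
  rw [this]; ring

theorem dz_exp_pos {p : CE ι → ℝ} {z : CE ι} (hp : DifferentiableAt ℝ p z) :
    dz j (fun y => ((Real.exp (p y) : ℝ) : ℂ)) z
      = ((Real.exp (p z) : ℝ) : ℂ) * grad10 p z j := by
  rw [dz_exp_real p hp]; rfl

/-- weighted form: `⟨δ_j a, b⟩_p = - ⟨a, ∂̄_j b⟩_p`. -/
theorem integral_dl_mul_conj (hΩ : IsOpen Ω) {p : CE ι → ℝ} (hp : ContDiffOn ℝ ∞ p Ω)
    {a b : CE ι → ℂ} (ha : IsTest Ω a) (hb : IsTest Ω b) :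
    ∫ z, dl p j a z * conj (b z) * ((Real.exp (-p z) : ℝ) : ℂ)
      = - ∫ z, a z * conj (dzb j b z) * ((Real.exp (-p z) : ℝ) : ℂ) := by
  have hE : ContDiffOn ℝ ∞ (fun z => ((Real.exp (-p z) : ℝ) : ℂ)) Ω := contDiffOn_cx_exp hp.neg
  have hbE : ContDiffOn ℝ ∞ (fun z => conj (b z) * ((Real.exp (-p z) : ℝ) : ℂ)) Ω :=
    hb.conj.smooth.contDiffOn.mul hE
  have h1 := integral_dz_mul (j := j) hΩ ha hbE
  have hT1 : Integrable (fun z => dz j a z * (conj (b z) * ((Real.exp (-p z) : ℝ) : ℂ))) :=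
    ((ha.dz (j := j)).mul_contDiffOn hΩ hbE).integrable
  have hT2 : Integrable (fun z => a z * (conj (dzb j b z) * ((Real.exp (-p z) : ℝ) : ℂ))) :=
    (ha.mul_contDiffOn hΩ ((hb.dzb (j := j)).conj.smooth.contDiffOn.mul hE)).integrable
  have hT3 : Integrable (fun z => a z * (conj (b z) * ((Real.exp (-p z) : ℝ) : ℂ)
      * grad10 p z j)) :=
    (ha.mul_contDiffOn hΩ (hbE.mul (contDiffOn_grad10 hΩ hp))).integrable
  have h2 : ∀ z, a z * dz j (fun y => conj (b y) * ((Real.exp (-p y) : ℝ) : ℂ)) z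
      = a z * (conj (dzb j b z) * ((Real.exp (-p z) : ℝ) : ℂ))
        - a z * (conj (b z) * ((Real.exp (-p z) : ℝ) : ℂ) * grad10 p z j) := by
    intro z
    by_cases hz : z ∈ Ω
    · have hpz : DifferentiableAt ℝ p z :=
        (hp.contDiffAt (hΩ.mem_nhds hz)).differentiableAt (by simp)
      rw [dz_mul (hb.conj.differentiable z)
        ((hE.contDiffAt (hΩ.mem_nhds hz)).differentiableAt (by simp)), dz_conj, dz_exp_neg hpz]
      ring
    · rw [ha.eq_zero_of_notMem hz]; simp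
  simp only [h2] at h1
  rw [integral_sub hT2 hT3] at h1
  have h3 : ∀ z, dl p j a z * conj (b z) * ((Real.exp (-p z) : ℝ) : ℂ)
      = dz j a z * (conj (b z) * ((Real.exp (-p z) : ℝ) : ℂ))
        - a z * (conj (b z) * ((Real.exp (-p z) : ℝ) : ℂ) * grad10 p z j) := by
    intro z; unfold dl; ring
  simp only [h3]
  rw [integral_sub hT1 hT3, h1]
  have h4 : ∀ z, a z * conj (dzb j b z) * ((Real.exp (-p z) : ℝ) : ℂ)
      = a z * (conj (dzb j b z) * ((Real.exp (-p z) : ℝ) : ℂ)) := fun z => by ring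
  simp only [h4]
  ring

/-- the commutator `[δ_j, ∂̄_k] = ∂_j ∂̄_k p`. -/
theorem dl_dzb_comm {p : CE ι → ℝ} {z : CE ι} (hp : ContDiffAt ℝ 2 p z)
    (hw : ContDiffAt ℝ 2 w z) :
    dl p j (dzb k w) z - dzb k (dl p j w) z = levi p z k j * w z := by
  have hpc : ContDiffAt ℝ 2 (fun y => ((p y : ℝ) : ℂ)) z :=
    Complex.ofRealCLM.contDiff.contDiffAt.comp z hp
  have h1 : DifferentiableAt ℝ (dz j w) z :=
    (contDiffAt_dz (m := 1) hw (by norm_num)).differentiableAt (by simp)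
  have h2 : DifferentiableAt ℝ (fun y => grad10 p y j) z :=
    (contDiffAt_dz (m := 1) hpc (by norm_num)).differentiableAt (by simp)
  have h3 : DifferentiableAt ℝ w z := hw.differentiableAt (by simp)
  have h4 : dzb k (dl p j w) z
      = dzb k (dz j w) z - (levi p z k j * w z + grad10 p z j * dzb k w z) := by
    have : dl p j w = fun y => dz j w y - grad10 p y j * w y := rfl
    have h23 : DifferentiableAt ℝ (fun y => grad10 p y j * w y) z := h2.mul h3
    rw [this, dzb_sub h1 h23, dzb_mul h2 h3]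
    rfl
  rw [h4]
  unfold dl
  rw [dz_dzb_comm hw]
  ring

/-- a classically closed smooth form is weakly closed. -/
theorem weakClosed_of_closed (hΩ : IsOpen Ω) {g : ι → CE ι → ℂ}
    (hg : ∀ j, ContDiffOn ℝ ∞ (g j) Ω)
    (h : ∀ z ∈ Ω, ∀ j k, dzb j (g k) z = dzb k (g j) z) : WeakClosed Ω g := by
  intro w hw j k
  have h1 := integral_dzb_mul (j := j) hΩ hw (hg k)
  have h2 := integral_dzb_mul (j := k) hΩ hw (hg j)
  have e : ∀ z, g k z * dzb j w z - g j z * dzb k w z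
      = dzb j w z * g k z - dzb k w z * g j z := fun z => by ring
  simp only [e]
  rw [integral_sub ((hw.dzb (j := j)).mul_contDiffOn hΩ (hg k)).integrable
    ((hw.dzb (j := k)).mul_contDiffOn hΩ (hg j)).integrable, h1, h2]
  have h3 : ∀ z, w z * dzb j (g k) z = w z * dzb k (g j) z := by
    intro z
    by_cases hz : z ∈ Ω
    · rw [h z hz j k]
    · rw [hw.eq_zero_of_notMem hz]; simp
  simp only [h3]
  ring

/-- a classical solution is a weak solution. -/
theorem weakDbar_of_dzb (hΩ : IsOpen Ω) {u : CE ι → ℂ} (hu : ContDiffOn ℝ ∞ u Ω) :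
    WeakDbar Ω u (fun j => dzb j u) := by
  intro w hw j
  have h1 := integral_dzb_mul (j := j) hΩ hw hu
  simp only [mul_comm (u _) _, mul_comm (dzb j u _) _]
  exact h1

/-- `∂̄` of a test function is weakly closed. -/
theorem weakClosed_dzb (hw : IsTest Ω w) : WeakClosed Ω (fun j => dzb j w) := by
  have h : WeakClosed (Set.univ : Set (CE ι)) (fun j => dzb j w) :=
    weakClosed_of_closed isOpen_univ (fun j => (contDiff_dzb hw.smooth).contDiffOn)
      (fun z _ j k => dzb_dzb_comm (hw.smooth.contDiffAt.of_le (by norm_cast)))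
  intro w' hw' j k
  exact h w' (hw'.mono (Set.subset_univ _)) j k

theorem isTest_dl' (hΩ : IsOpen Ω) {p : CE ι → ℝ} (hp : ContDiffOn ℝ ∞ p Ω) (hw : IsTest Ω w)
    (j : ι) : IsTest Ω (dl p j w) := by
  have : dl p j w = fun z => dz j w z - w z * grad10 p z j := by
    funext z; unfold dl; ring
  rw [this]
  exact (hw.dz (j := j)).sub (hw.mul_contDiffOn hΩ (contDiffOn_grad10 hΩ hp))

/-- `T^*` of a test form is continuous on `Ω` and vanishes off the supports: a test function. -/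
theorem isTest_Tst (hΩ : IsOpen Ω) {p ψ : CE ι → ℝ} (hp : ContDiffOn ℝ ∞ p Ω)
    (hψ : ContDiffOn ℝ ∞ ψ Ω) {F : ι → CE ι → ℂ} (hF : IsTestForm Ω F) :
    IsTest Ω (Tst p ψ F) := by
  have : Tst p ψ F = fun z => (∑ j, dl (fun y => p y - ψ y) j (F j) z)
      * (- ((Real.exp (-ψ z) : ℝ) : ℂ)) := by
    funext z; unfold Tst; ring
  rw [this]
  exact (IsTest.sum Finset.univ fun j _ => isTest_dl' hΩ (hp.sub hψ) (hF j) j).mul_contDiffOn hΩ
    (contDiffOn_cx_exp hψ.neg).neg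

/-- the formal adjoint is the weak adjoint on test forms. -/
theorem weakAdj_test (hΩ : IsOpen Ω) {p ψ : CE ι → ℝ} (hp : ContDiffOn ℝ ∞ p Ω)
    (hψ : ContDiffOn ℝ ∞ ψ Ω) {F : ι → CE ι → ℂ} (hF : IsTestForm Ω F) :
    WeakAdj Ω p ψ F (Tst p ψ F) := by
  intro u hu
  have hp2 : ContDiffOn ℝ ∞ (fun y => p y - ψ y) Ω := hp.sub hψ
  have hE : ContDiffOn ℝ ∞ (fun z => ((Real.exp (-(p z - ψ z)) : ℝ) : ℂ)) Ω :=
    contDiffOn_cx_exp hp2.neg
  have key : ∀ j, ∫ z, dzb j u z * conj (F j z) * ((Real.exp (-(p z - ψ z)) : ℝ) : ℂ)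
      = - ∫ z, u z * conj (dl (fun y => p y - ψ y) j (F j) z)
          * ((Real.exp (-(p z - ψ z)) : ℝ) : ℂ) := by
    intro j
    have h := integral_dl_mul_conj (j := j) hΩ hp2 (hF j) hu
    have h' := congrArg conj h
    rw [← integral_conj, map_neg, ← integral_conj] at h'
    simp only [map_mul, Complex.conj_conj, Complex.conj_ofReal] at h'
    have e1 : ∀ z, dzb j u z * conj (F j z) * ((Real.exp (-(p z - ψ z)) : ℝ) : ℂ)
        = conj (F j z) * dzb j u z * ((Real.exp (-(p z - ψ z)) : ℝ) : ℂ) := fun z => by ring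
    have e2 : ∀ z, u z * conj (dl (fun y => p y - ψ y) j (F j) z)
          * ((Real.exp (-(p z - ψ z)) : ℝ) : ℂ)
        = conj (dl (fun y => p y - ψ y) j (F j) z) * u z
          * ((Real.exp (-(p z - ψ z)) : ℝ) : ℂ) := fun z => by ring
    simp only [e1, e2]
    rw [h', neg_neg]
  have hI1 : ∀ j, Integrable (fun z => dzb j u z * conj (F j z)
      * ((Real.exp (-(p z - ψ z)) : ℝ) : ℂ)) := fun j =>
    (((hu.dzb (j := j)).mul (hF j).conj).mul_contDiffOn hΩ hE).integrable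
  have hI2 : ∀ j, Integrable (fun z => u z * conj (dl (fun y => p y - ψ y) j (F j) z)
      * ((Real.exp (-(p z - ψ z)) : ℝ) : ℂ)) := fun j =>
    ((hu.mul (isTest_dl' hΩ hp2 (hF j) j).conj).mul_contDiffOn hΩ hE).integrable
  have L : ∀ z, (∑ j, dzb j u z * conj (F j z)) * ((Real.exp (-(p z - ψ z)) : ℝ) : ℂ)
      = ∑ j, dzb j u z * conj (F j z) * ((Real.exp (-(p z - ψ z)) : ℝ) : ℂ) := fun z => by
    rw [Finset.sum_mul]
  have R : ∀ z, u z * conj (Tst p ψ F z) * ((Real.exp (-(p z - 2 * ψ z)) : ℝ) : ℂ)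
      = - ∑ j, (u z * conj (dl (fun y => p y - ψ y) j (F j) z)
          * ((Real.exp (-(p z - ψ z)) : ℝ) : ℂ)) := fun z => by
    have hexp : ((Real.exp (-(p z - ψ z)) : ℝ) : ℂ)
        = ((Real.exp (-ψ z) : ℝ) : ℂ) * ((Real.exp (-(p z - 2 * ψ z)) : ℝ) : ℂ) := by
      rw [← Complex.ofReal_mul, ← Real.exp_add]; congr 2; ring
    unfold Tst
    rw [hexp]
    simp only [map_mul, map_neg, map_sum, Complex.conj_ofReal]
    rw [← Finset.sum_mul, ← Finset.mul_sum]
    ring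
  simp only [L, R]
  rw [integral_finsetSum _ fun j _ => hI1 j, integral_neg, integral_finsetSum _ fun j _ => hI2 j,
    ← Finset.sum_neg_distrib]
  exact Finset.sum_congr rfl fun j _ => key j

/-- dictionary between `F` and `Φ_j = \bar F_j e^{-(p-ψ)}`:
`\overline{T^*F} e^{-(p-2ψ)} = - ∑ ∂̄_j Φ_j`. -/
theorem Tst_of_dual (hΩ : IsOpen Ω) {p ψ : CE ι → ℝ} (hp : ContDiffOn ℝ ∞ p Ω)
    (hψ : ContDiffOn ℝ ∞ ψ Ω) {Φ : ι → CE ι → ℂ} (hΦ : IsTestForm Ω Φ) {z : CE ι} (hz : z ∈ Ω) :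
    Tst p ψ (fun j y => conj (Φ j y) * ((Real.exp (p y - ψ y) : ℝ) : ℂ)) z
      = - ((Real.exp (p z - 2 * ψ z) : ℝ) : ℂ) * conj (∑ j, dzb j (Φ j) z) := by
  have hp2 : DifferentiableAt ℝ (fun y => p y - ψ y) z :=
    ((hp.sub hψ).contDiffAt (hΩ.mem_nhds hz)).differentiableAt (by simp)
  have hE : DifferentiableAt ℝ (fun y => ((Real.exp (p y - ψ y) : ℝ) : ℂ)) z :=
    ((contDiffOn_cx_exp (hp.sub hψ)).contDiffAt (hΩ.mem_nhds hz)).differentiableAt (by simp)
  have h1 : ∀ j, dl (fun y => p y - ψ y) j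
      (fun y => conj (Φ j y) * ((Real.exp (p y - ψ y) : ℝ) : ℂ)) z
      = conj (dzb j (Φ j) z) * ((Real.exp (p z - ψ z) : ℝ) : ℂ) := by
    intro j
    unfold dl
    rw [dz_mul ((hΦ j).conj.differentiable z) hE, dz_conj,
      dz_exp_pos (p := fun y => p y - ψ y) hp2]
    ring
  unfold Tst
  simp only [h1]
  have hexp : ((Real.exp (p z - 2 * ψ z) : ℝ) : ℂ)
      = ((Real.exp (-ψ z) : ℝ) : ℂ) * ((Real.exp (p z - ψ z) : ℝ) : ℂ) := by
    rw [← Complex.ofReal_mul, ← Real.exp_add]; congr 2; ring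
  rw [hexp, map_sum, ← Finset.sum_mul]
  ring

end ibp

end Claimed.Agent.R316.B6E

end SecWirtB

/-!
# Row 316, B6E-WirtC: Levi matrices and the quadratic form `qf` (pointwise algebra/calculus)

The Levi calculus is taken from `CW/Levi.lean` (CW-2, helper16); the statements are repeated here under the names used in
the package B6E.  The algebra of `qf` is proved here.
-/

section SecWirtC
set_option linter.unusedSectionVars false
open scoped ContDiff ComplexOrder ComplexConjugate Topology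
open MeasureTheory Filter

namespace Claimed.Agent.R316.B6E

variable {ι : Type} [Fintype ι] [DecidableEq ι]

/-! ### Levi matrices and quadratic forms -/

section levi

variable {z : CE ι} {j k : ι}

theorem levi_add {p q : CE ι → ℝ} (hp : ContDiffAt ℝ 2 p z) (hq : ContDiffAt ℝ 2 q z) :
    levi (fun y => p y + q y) z = levi p z + levi q z :=
  Claimed.Agent.R316.levi_add hp hq

theorem levi_congr {p q : CE ι → ℝ} (h : p =ᶠ[𝓝 z] q) : levi p z = levi q z :=
  Claimed.Agent.R316.levi_congr h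

theorem grad10_congr {p q : CE ι → ℝ} (h : p =ᶠ[𝓝 z] q) : grad10 p z = grad10 q z :=
  Claimed.Agent.R316.grad10_congr h

theorem grad10_add {p q : CE ι → ℝ} (hp : DifferentiableAt ℝ p z) (hq : DifferentiableAt ℝ q z) :
    grad10 (fun y => p y + q y) z = grad10 p z + grad10 q z :=
  Claimed.Agent.R316.grad10_add hp hq

theorem grad10_sub {p q : CE ι → ℝ} (hp : DifferentiableAt ℝ p z) (hq : DifferentiableAt ℝ q z) :
    grad10 (fun y => p y - q y) z = grad10 p z - grad10 q z :=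
  Claimed.Agent.R316.grad10_sub hp hq

theorem levi_comp_real (χ : ℝ → ℝ) (s : CE ι → ℝ) (hχ : ContDiffAt ℝ 2 χ (s z))
    (hs : ContDiffAt ℝ 2 s z) :
    levi (fun y => χ (s y)) z j k
      = ((deriv χ (s z) : ℝ) : ℂ) * levi s z j k
        + ((deriv (deriv χ) (s z) : ℝ) : ℂ) * (conj (grad10 s z j) * grad10 s z k) :=
  Claimed.Agent.R316.levi_comp_real χ hχ hs

theorem levi_normSq : levi (fun y : CE ι => ‖y‖ ^ 2) z = 1 :=
  Claimed.Agent.R316.levi_normSq

theorem levi_isHermitian {p : CE ι → ℝ} (hp : ContDiffAt ℝ 2 p z) : (levi p z).IsHermitian :=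
  Claimed.Agent.R316.levi_isHermitian hp

theorem qf_add (A B : Matrix ι ι ℂ) (v : ι → ℂ) : qf (A + B) v = qf A v + qf B v := by
  simp [qf, Matrix.add_mulVec, dotProduct_add]

theorem qf_sub (A B : Matrix ι ι ℂ) (v : ι → ℂ) : qf (A - B) v = qf A v - qf B v := by
  simp [qf, Matrix.sub_mulVec, dotProduct_sub]

theorem qf_smul_real (c : ℝ) (A : Matrix ι ι ℂ) (v : ι → ℂ) :
    qf (((c : ℝ) : ℂ) • A) v = c * qf A v := by
  simp [qf, Matrix.smul_mulVec, dotProduct_smul]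

theorem qf_one (v : ι → ℂ) : qf (1 : Matrix ι ι ℂ) v = ∑ j, ‖v j‖ ^ 2 := by
  simp only [qf, Matrix.one_mulVec, dotProduct, Pi.star_apply, Complex.re_sum]
  refine Finset.sum_congr rfl fun j _ => ?_
  rw [Complex.star_def, ← Complex.normSq_eq_conj_mul_self, Complex.ofReal_re,
    Complex.normSq_eq_norm_sq]

theorem qf_eq_sum (A : Matrix ι ι ℂ) (v : ι → ℂ) :
    qf A v = (∑ j, ∑ k, conj (v j) * A j k * v k).re := by
  simp only [qf, dotProduct, Matrix.mulVec, Pi.star_apply, Complex.star_def, Finset.mul_sum,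
    mul_assoc]

/-- rank one form `(\bar a_j a_k)`. -/
theorem qf_rankOne (a v : ι → ℂ) :
    qf (Matrix.of fun j k => conj (a j) * a k) v = ‖∑ k, a k * v k‖ ^ 2 := by
  rw [qf_eq_sum]
  simp only [Matrix.of_apply]
  have h : ∑ j, ∑ k, conj (v j) * (conj (a j) * a k) * v k
      = conj (∑ k, a k * v k) * ∑ k, a k * v k := by
    rw [map_sum, Finset.sum_mul_sum]
    refine Finset.sum_congr rfl fun j _ => Finset.sum_congr rfl fun k _ => ?_
    rw [map_mul]
    ring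
  rw [h, ← Complex.normSq_eq_conj_mul_self, Complex.ofReal_re, Complex.normSq_eq_norm_sq]

theorem qf_nonneg {A : Matrix ι ι ℂ} (hA : A.PosSemidef) (v : ι → ℂ) : 0 ≤ qf A v := by
  have := hA.re_dotProduct_nonneg v
  simpa [qf] using this

theorem qf_zero_vec (A : Matrix ι ι ℂ) : qf A (fun _ => 0) = 0 := by
  rw [qf_eq_sum]
  simp

/-- for a Hermitian matrix the full sum is real. -/
theorem qf_ofReal {A : Matrix ι ι ℂ} (hA : A.IsHermitian) (v : ι → ℂ) :
    ((qf A v : ℝ) : ℂ) = ∑ j, ∑ k, conj (v j) * A j k * v k := by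
  rw [qf_eq_sum]
  set S := ∑ j, ∑ k, conj (v j) * A j k * v k with hS
  have hconj : conj S = S := by
    rw [hS, map_sum]
    simp only [map_sum, map_mul, Complex.conj_conj]
    rw [Finset.sum_comm]
    refine Finset.sum_congr rfl fun j _ => Finset.sum_congr rfl fun k _ => ?_
    have : conj (A k j) = A j k := by
      have := congrFun (congrFun hA j) k
      simpa [Matrix.conjTranspose_apply] using this
    rw [this]
    ring
  exact (Complex.conj_eq_iff_real.1 hconj).elim fun r hr => by rw [hr, Complex.ofReal_re]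

end levi

end Claimed.Agent.R316.B6E

end SecWirtC
end

/- ===== packed: Claimed.Agent.R316.B6E.MollWeak ===== -/
section
/-!
# Row 316, B6E-MollWeak: mollification of compactly supported `L²` forms with `L²` weak divergence and curl

`f_j, d, h_{jk} ∈ L²(ℂ^ι)` vanish off the compact set `K ⊆ Ω`, and weakly on `Ω`
`∑ ∂_j f_j = d`, `∂̄_j f_k - ∂̄_k f_j = h_{jk}`.  Then `F^ν_j = wsMol (ν+ν₀) (f_j)` (file `Moll.lean`) are test forms
on `Ω`, supported in a fixed compact `K' ⊆ Ω`, with `F^ν_j → f_j`, `∑ ∂_j F^ν_j = wsMol d → d`,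
`∂̄_j F^ν_k - ∂̄_k F^ν_j = wsMol h_{jk} → h_{jk}` in `L²`.

Plan.
1. The weak identities hold for ALL smooth compactly supported `w` on `ℂ^ι` (multiply `w` by `θ` from
   `exists_isTest_eq_one`; `f, d, h` vanish off `K` and `θ = 1` near `K`).
2. `fderiv ℝ (wsMol k f) x e = ∫ y, fderiv ℝ (wsRho k) (x - y) e • f y`
   (`HasCompactSupport.hasFDerivAt_convolution_left`), i.e. `dz j (wsMol k f) x = ∫ f(y) (dz j ρ_k)(x-y) dy`
   `= - ∫ f(y) dz j (y ↦ ρ_k(x-y)) dy` (`dz_comp_const_sub`); apply 1. with `w(y) = ρ_k(x-y)`.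
3. `wsMol_tendsto_eLpNorm` (`p = 2`) and the dictionary `∫ ‖g‖² = (eLpNorm g 2)²` for `MemLp g 2`.
4. supports: `wsMol_support_subset`; `K' = cthickening δ K ⊆ Ω` for small `δ` (`IsCompact.exists_cthickening_subset_open`).
-/

set_option autoImplicit false
set_option linter.unusedSectionVars false
open scoped ContDiff ComplexOrder ComplexConjugate Topology Convolution
open MeasureTheory Filter

namespace Claimed.Agent.R316.B6E

/-- `∫ ‖g‖² = (eLpNorm g 2)²`. -/
theorem integral_sq_eq_eLpNorm {α : Type} [MeasurableSpace α] {μ : Measure α} {F : Type}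
    [NormedAddCommGroup F] {g : α → F} (hg : MemLp g 2 μ) :
    ∫ x, ‖g x‖ ^ 2 ∂μ = (eLpNorm g 2 μ).toReal ^ 2 := by
  have h0 : 0 ≤ ∫ x, ‖g x‖ ^ 2 ∂μ := integral_nonneg fun x => by positivity
  rw [hg.eLpNorm_eq_integral_rpow_norm (by norm_num) (by norm_num)]
  simp only [ENNReal.toReal_ofNat, Real.rpow_ofNat]
  rw [ENNReal.toReal_ofReal (by positivity), ← Real.rpow_natCast, ← Real.rpow_mul h0]
  norm_num

/-- dictionary `L²`-norm / integral. -/
theorem tendsto_integral_sq_of_eLpNorm {α : Type} [MeasurableSpace α] {μ : Measure α}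
    {G : ℕ → α → ℂ} (hG : ∀ ν, MemLp (G ν) 2 μ)
    (h : Tendsto (fun ν => eLpNorm (G ν) 2 μ) atTop (𝓝 0)) :
    Tendsto (fun ν => ∫ x, ‖G ν x‖ ^ 2 ∂μ) atTop (𝓝 0) := by
  simp only [integral_sq_eq_eLpNorm (hG _)]
  have h1 : Tendsto (fun ν => (eLpNorm (G ν) 2 μ).toReal) atTop (𝓝 0) := by
    have := (ENNReal.tendsto_toReal (a := 0) (by simp)).comp h
    simpa [Function.comp_def] using this
  simpa using h1.pow 2

section general

variable {E : Type} [NormedAddCommGroup E] [InnerProductSpace ℝ E] [FiniteDimensional ℝ E]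
  [MeasurableSpace E] [BorelSpace E]
variable {F : Type} [NormedAddCommGroup F] [NormedSpace ℝ F] [CompleteSpace F]

theorem wsMol_fderiv_apply (k : ℕ) {u : E → F} (hu : LocallyIntegrable u volume) (x v : E) :
    fderiv ℝ (wsMol k u) x v = ∫ y, fderiv ℝ (wsRho k) (x - y) v • u y := by
  have e : wsMol k u = u ⋆[(ContinuousLinearMap.lsmul ℝ ℝ).flip, volume] (wsRho k : E → ℝ) := by
    unfold wsMol
    rw [convolution_flip]
  have hρ1 : ContDiff ℝ 1 (wsRho k : E → ℝ) := (wsRho_contDiff k).of_le (by simp)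
  have h1 := (wsRho_hasCompactSupport (E := E) k).hasFDerivAt_convolution_right
    ((ContinuousLinearMap.lsmul ℝ ℝ).flip) hu hρ1 x
  rw [e, h1.fderiv, convolution_precompR_apply _ hu ((wsRho_hasCompactSupport k).fderiv ℝ)
    (hρ1.continuous_fderiv (by simp)) x v, convolution_def]
  refine integral_congr_ae (Eventually.of_forall fun y => ?_)
  simp

theorem integrable_fderiv_wsRho_smul (k : ℕ) {u : E → F} (hu : LocallyIntegrable u volume)
    (x v : E) : Integrable (fun y => fderiv ℝ (wsRho k) (x - y) v • u y) volume := by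
  have hρ1 : ContDiff ℝ 1 (wsRho k : E → ℝ) := (wsRho_contDiff k).of_le (by simp)
  have hc : Continuous (fun y : E => fderiv ℝ (wsRho k) (x - y) v) :=
    ((hρ1.continuous_fderiv (by simp)).comp (continuous_const.sub continuous_id)).clm_apply
      continuous_const
  have hs : HasCompactSupport (fun y : E => fderiv ℝ (wsRho k) (x - y) v) := by
    have h1 : HasCompactSupport (fun z : E => fderiv ℝ (wsRho k) z v) :=
      (wsRho_hasCompactSupport (E := E) k).fderiv_apply (𝕜 := ℝ) v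
    exact h1.comp_homeomorph (Homeomorph.subLeft x)
  exact hu.integrable_smul_left_of_hasCompactSupport hc hs

theorem wsMol_support_subset' (k : ℕ) {f : E → F} {K : Set E} (h0 : ∀ z, z ∉ K → f z = 0) :
    Function.support (wsMol k f) ⊆ Metric.cthickening (1 / ((k : ℝ) + 1)) K := by
  intro x hx
  by_contra hx'
  apply hx
  apply wsMol_eq_zero_of
  intro y hy
  by_contra hy'
  apply hx'
  have h1 : y ∈ K := by
    by_contra h; exact hy' (h0 y h)
  refine Metric.mem_cthickening_of_dist_le x y _ _ h1 ?_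
  rw [dist_comm]
  exact (Metric.mem_ball.1 hy).le

end general

variable {ι : Type} [Fintype ι] [DecidableEq ι]

/-- the test function `y ↦ ρ_k(x - y)`. -/
noncomputable def rhoAt (k : ℕ) (x : CE ι) : CE ι → ℂ := fun y => ((wsRho k (x - y) : ℝ) : ℂ)

theorem rhoAt_contDiff (k : ℕ) (x : CE ι) : ContDiff ℝ ∞ (rhoAt k x) :=
  Complex.ofRealCLM.contDiff.comp ((wsRho_contDiff k).comp (contDiff_const.sub contDiff_id))

theorem rhoAt_hasCompactSupport (k : ℕ) (x : CE ι) : HasCompactSupport (rhoAt k x) := by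
  have h1 := (wsRho_hasCompactSupport (E := CE ι) k).comp_homeomorph (Homeomorph.subLeft x)
  exact h1.comp_left (g := fun t : ℝ => (t : ℂ)) (by simp)

theorem fderiv_rhoAt (k : ℕ) (x y v : CE ι) :
    fderiv ℝ (rhoAt k x) y v = - ((fderiv ℝ (wsRho k) (x - y) v : ℝ) : ℂ) := by
  have h1 : HasFDerivAt (wsRho k : CE ι → ℝ) (fderiv ℝ (wsRho k) (x - y)) (x - y) :=
    ((wsRho_contDiff k).differentiable (by simp)).differentiableAt.hasFDerivAt
  have h2 : HasFDerivAt (fun y : CE ι => x - y) (-(ContinuousLinearMap.id ℝ (CE ι))) y :=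
    (hasFDerivAt_id y).const_sub x
  have h3 := Complex.ofRealCLM.hasFDerivAt.comp y (h1.comp y h2)
  have : rhoAt k x = (Complex.ofRealCLM : ℝ → ℂ) ∘ ((wsRho k : CE ι → ℝ) ∘ fun y => x - y) := rfl
  rw [this, h3.fderiv]
  simp

theorem dz_wsMol (k : ℕ) {f : CE ι → ℂ} (hf : LocallyIntegrable f volume) (j : ι) (x : CE ι) :
    dz j (wsMol k f) x = - ∫ y, f y * dz j (rhoAt k x) y := by
  unfold Claimed.Agent.R316.dz
  simp only [fderiv_rhoAt, wsMol_fderiv_apply k hf]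
  have i1 := integrable_fderiv_wsRho_smul k hf x (eb j)
  have i2 := integrable_fderiv_wsRho_smul k hf x (Complex.I • eb j)
  have e : ∀ y, f y * (1 / 2 * (-((fderiv ℝ (wsRho k) (x - y) (eb j) : ℝ) : ℂ)
      - Complex.I * -((fderiv ℝ (wsRho k) (x - y) (Complex.I • eb j) : ℝ) : ℂ)))
      = - ((1 / 2 : ℂ) * (fderiv ℝ (wsRho k) (x - y) (eb j) • f y
        - Complex.I * (fderiv ℝ (wsRho k) (x - y) (Complex.I • eb j) • f y))) := by
    intro y
    simp only [Complex.real_smul]; ring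
  simp only [e]
  rw [integral_neg, neg_neg, integral_const_mul, integral_sub i1 (i2.const_mul _),
    integral_const_mul]

theorem dzb_wsMol (k : ℕ) {f : CE ι → ℂ} (hf : LocallyIntegrable f volume) (j : ι) (x : CE ι) :
    dzb j (wsMol k f) x = - ∫ y, f y * dzb j (rhoAt k x) y := by
  unfold Claimed.Agent.R316.dzb
  simp only [fderiv_rhoAt, wsMol_fderiv_apply k hf]
  have i1 := integrable_fderiv_wsRho_smul k hf x (eb j)
  have i2 := integrable_fderiv_wsRho_smul k hf x (Complex.I • eb j)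
  have e : ∀ y, f y * (1 / 2 * (-((fderiv ℝ (wsRho k) (x - y) (eb j) : ℝ) : ℂ)
      + Complex.I * -((fderiv ℝ (wsRho k) (x - y) (Complex.I • eb j) : ℝ) : ℂ)))
      = - ((1 / 2 : ℂ) * (fderiv ℝ (wsRho k) (x - y) (eb j) • f y
        + Complex.I * (fderiv ℝ (wsRho k) (x - y) (Complex.I • eb j) • f y))) := by
    intro y
    simp only [Complex.real_smul]; ring
  simp only [e]
  rw [integral_neg, neg_neg, integral_const_mul, integral_add i1 (i2.const_mul _),
    integral_const_mul]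

theorem wsMol_eq_integral_rhoAt (k : ℕ) (d : CE ι → ℂ) (x : CE ι) :
    wsMol k d x = ∫ y, d y * rhoAt k x y := by
  rw [wsMol_eq]
  refine integral_congr_ae (Eventually.of_forall fun y => ?_)
  simp only [rhoAt, Complex.real_smul]; ring


theorem rhoAt_isTest (k : ℕ) (x : CE ι) : IsTest (Set.univ : Set (CE ι)) (rhoAt k x) :=
  ⟨rhoAt_contDiff k x, rhoAt_hasCompactSupport k x, Set.subset_univ _⟩

theorem tendsto_wsMol_sq {f : CE ι → ℂ} (hf : MemLp f 2 volume) (ν0 : ℕ) :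
    Tendsto (fun ν : ℕ => ∫ z, ‖wsMol (ν + ν0) f z - f z‖ ^ 2) atTop (𝓝 0) := by
  refine tendsto_integral_sq_of_eLpNorm (G := fun ν z => wsMol (ν + ν0) f z - f z)
    (fun ν => (wsMol_memLp _ (by norm_num) (by norm_num) hf).sub hf) ?_
  exact (wsMol_tendsto_eLpNorm (p := 2) (by norm_num) (by norm_num) hf).comp
    (tendsto_add_atTop_nat ν0)

/-- **mollification step of the density lemma**. -/
theorem moll_approx {Ω : Set (CE ι)} (hΩ : IsOpen Ω) {K : Set (CE ι)} (hK : IsCompact K)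
    (hKΩ : K ⊆ Ω) {f : ι → CE ι → ℂ} {d : CE ι → ℂ} {h : ι → ι → CE ι → ℂ}
    (hf : ∀ j, MemLp (f j) 2 volume) (hd : MemLp d 2 volume) (hh : ∀ j k, MemLp (h j k) 2 volume)
    (hf0 : ∀ j z, z ∉ K → f j z = 0) (hd0 : ∀ z, z ∉ K → d z = 0)
    (hh0 : ∀ j k z, z ∉ K → h j k z = 0)
    (hdiv : ∀ w, IsTest Ω w → ∫ z, ∑ j, f j z * dz j w z = - ∫ z, d z * w z)
    (hcurl : ∀ w, IsTest Ω w → ∀ j k,
      ∫ z, (f k z * dzb j w z - f j z * dzb k w z) = - ∫ z, h j k z * w z) :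
    ∃ (K' : Set (CE ι)) (F : ℕ → ι → CE ι → ℂ), IsCompact K' ∧ K' ⊆ Ω ∧
      (∀ ν, IsTestForm Ω (F ν)) ∧ (∀ ν j, tsupport (F ν j) ⊆ K') ∧ K ⊆ K' ∧
      (∀ j, Tendsto (fun ν => ∫ z, ‖F ν j z - f j z‖ ^ 2) atTop (𝓝 0)) ∧
      Tendsto (fun ν => ∫ z, ‖∑ j, dz j (F ν j) z - d z‖ ^ 2) atTop (𝓝 0) ∧
      (∀ j k, Tendsto (fun ν => ∫ z, ‖dzb j (F ν k) z - dzb k (F ν j) z - h j k z‖ ^ 2)
        atTop (𝓝 0)) := by
  obtain ⟨δ, hδ, hδΩ⟩ := hK.exists_cthickening_subset_open hΩ hKΩ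
  obtain ⟨ν0, hν0⟩ := exists_nat_one_div_lt hδ
  have hle : ∀ ν : ℕ, 1 / (((ν + ν0 : ℕ) : ℝ) + 1) ≤ δ := by
    intro ν
    refine le_trans ?_ hν0.le
    apply one_div_le_one_div_of_le (by positivity)
    push_cast
    have : (0:ℝ) ≤ ν := Nat.cast_nonneg ν
    linarith
  have hfl : ∀ j, LocallyIntegrable (f j) volume := fun j => (hf j).locallyIntegrable (by norm_num)
  have hfl' : ∀ j, LocallyIntegrableOn (f j) Set.univ volume := fun j =>
    locallyIntegrableOn_univ.2 (hfl j)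
  obtain ⟨θ, hθ, -, hθ1⟩ := exists_isTest_eq_one hΩ hK hKΩ
  -- near `K` the function `θ w` is `w`
  have hnear : ∀ (w : CE ι → ℂ) (z : CE ι), z ∈ K → (fun y => cx θ y * w y) =ᶠ[𝓝 z] w := by
    intro w z hz
    have h1 : ∀ᶠ y in 𝓝 z, θ y = 1 := hθ1.filter_mono (nhds_le_nhdsSet hz)
    filter_upwards [h1] with y hy
    simp [cx, hy]
  have ext_div : ∀ w : CE ι → ℂ, ContDiff ℝ ∞ w →
      ∫ z, ∑ j, f j z * dz j w z = - ∫ z, d z * w z := by
    intro w hw
    have h1 := hdiv _ (hθ.mul_contDiffOn hΩ hw.contDiffOn)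
    have e1 : ∀ z, ∑ j, f j z * dz j (fun y => cx θ y * w y) z = ∑ j, f j z * dz j w z := by
      intro z
      refine Finset.sum_congr rfl fun j _ => ?_
      by_cases hz : z ∈ K
      · rw [dz_congr (hnear w z hz)]
      · rw [hf0 j z hz]; simp
    have e2 : ∀ z, d z * (cx θ z * w z) = d z * w z := by
      intro z
      by_cases hz : z ∈ K
      · have h3 : cx θ z * w z = w z := (hnear w z hz).self_of_nhds
        rw [h3]
      · rw [hd0 z hz]; simp
    simpa only [e1, e2] using h1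
  have ext_curl : ∀ w : CE ι → ℂ, ContDiff ℝ ∞ w → ∀ j k,
      ∫ z, (f k z * dzb j w z - f j z * dzb k w z) = - ∫ z, h j k z * w z := by
    intro w hw j k
    have h1 := hcurl _ (hθ.mul_contDiffOn hΩ hw.contDiffOn) j k
    have e1 : ∀ z, f k z * dzb j (fun y => cx θ y * w y) z - f j z * dzb k (fun y => cx θ y * w y) z
        = f k z * dzb j w z - f j z * dzb k w z := by
      intro z
      by_cases hz : z ∈ K
      · rw [dzb_congr (hnear w z hz), dzb_congr (hnear w z hz)]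
      · rw [hf0 j z hz, hf0 k z hz]; simp
    have e2 : ∀ z, h j k z * (cx θ z * w z) = h j k z * w z := by
      intro z
      by_cases hz : z ∈ K
      · have h3 : cx θ z * w z = w z := (hnear w z hz).self_of_nhds
        rw [h3]
      · rw [hh0 j k z hz]; simp
    simpa only [e1, e2] using h1
  -- the mollified identities
  have mdiv : ∀ (k : ℕ) (x : CE ι), ∑ j, dz j (wsMol k (f j)) x = wsMol k d x := by
    intro k x
    simp only [dz_wsMol k (hfl _)]
    rw [Finset.sum_neg_distrib, ← integral_finsetSum _ fun j _ =>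
      ((rhoAt_isTest k x).dz (j := j)).integrable_mul_left isOpen_univ (hfl' j),
      ext_div _ (rhoAt_contDiff k x), neg_neg, wsMol_eq_integral_rhoAt]
  have mcurl : ∀ (k : ℕ) (x : CE ι) (a b : ι),
      dzb a (wsMol k (f b)) x - dzb b (wsMol k (f a)) x = wsMol k (h a b) x := by
    intro k x a b
    have h1 := ext_curl _ (rhoAt_contDiff k x) a b
    rw [integral_sub (((rhoAt_isTest k x).dzb (j := a)).integrable_mul_left isOpen_univ (hfl' b))
        (((rhoAt_isTest k x).dzb (j := b)).integrable_mul_left isOpen_univ (hfl' a))] at h1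
    rw [dzb_wsMol k (hfl _), dzb_wsMol k (hfl _), wsMol_eq_integral_rhoAt]
    linear_combination -h1
  have hsupp : ∀ ν j, tsupport (wsMol (ν + ν0) (f j)) ⊆ Metric.cthickening δ K := by
    intro ν j
    refine closure_minimal ?_ Metric.isClosed_cthickening
    exact (wsMol_support_subset' _ (hf0 j)).trans (Metric.cthickening_mono (hle ν) K)
  refine ⟨Metric.cthickening δ K, fun ν j => wsMol (ν + ν0) (f j), hK.cthickening, hδΩ,
    fun ν j => ⟨wsMol_contDiff _ (hfl j), ?_, (hsupp ν j).trans hδΩ⟩, hsupp,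
    Metric.self_subset_cthickening K, fun j => tendsto_wsMol_sq (hf j) ν0, ?_, fun j k => ?_⟩
  · exact hK.cthickening.of_isClosed_subset (isClosed_tsupport _) (hsupp ν j)
  · simp only [mdiv]
    exact tendsto_wsMol_sq hd ν0
  · simp only [mcurl]
    exact tendsto_wsMol_sq (hh j k) ν0

end Claimed.Agent.R316.B6E
end

/- ===== packed: Claimed.Agent.R316.B4.Defs ===== -/
section
set_option autoImplicit false

/-!
# Row 316, package B4: Newlander–Nirenberg (holomorphic charts of the embedded Kähler manifold)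

Sub-captain: helper262.  DEFINITIONS of the analytic core ("B6E with variable coefficients").

## Files (merged 14 Oct 11:00Z; every former file `X.lean` is now `section SecX` of one of these; leaf names `B4-X` refer to these sections)
* `B4/Defs.lean`: Defs, GeoDefs
* `B4/Frame.lean`: FrameA, FrameC, LeviF
* `B4/FrameInt.lean`: FrameB, BallLimit, Riesz
* `B4/BKH.lean`: BKH, BasicEst
* `B4/Fried.lean`: FriedA, FriedB, MollF
* `B4/Density.lean`: DensityCompact, DensityCutoff, Density, DualFn, Dual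
* `B4/Weights.lean`: Weights1D, WeightsF
* `B4/Struct.lean`: NormSqF, Struct, PoleInt
* `B4/H1.lean`: RegDefs, Garding, H1
* `B4/Regular.lean`: WeakEq, Regular
* `B4/Core.lean`: Ball, Core
* `B4/Alg.lean`: AlgCayley, AlgComm, AlgFrame
* `B4/Geo.lean`: GeoParam, GeoKahler, GeoCx, GeoInv
* `B4/GeoGraph.lean`: GeoGraph, GeoPull
* `B4/Api.lean`: Local, Api
The flat theory `R316/B6E/Main.lean` (Hörmander on balls) is the case `a = 0` of this package (dictionary: section `Flat` there).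

## The route (Hörmander, *Complex analysis in several variables*, Sec. 5.2 and 5.7, in the dual-estimate style of `R316/B6E`)
* Geometry (`B4/Geo*`): graph coordinates `Ψ` of `M` at `p`; the pulled back almost complex structure `Ĵ` on a ball of `ℂ^ι`
  is smooth, `Ĵ² = -1`, `Ĵ(0) = i`, `dĴ(0) = 0`, Nijenhuis tensor `0` (from the `∇J = 0` clause of `Def_0500`).
* Algebra (`B4/Alg*`): NORMALISED FRAME of `T^{0,1}_Ĵ`: `Z̄_j = ∂̄_j + ∑_k a_{jk} ∂_k`, `a = O(|z|²)`.
  Integrability ⇔ the frame COMMUTES ⇔ `Z̄_j a_{kl} = Z̄_k a_{jl}`.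
* Analysis (this file and the rest of `B4/`): `L²` theory of `T u = (Z̄_j u)_j`, `S f = (Z̄_j f_k - Z̄_k f_j)` for LEBESGUE measure and the
  frame declared orthonormal.  `Z_j = \overline{Z̄_j} = ∂_j + ∑ \bar a_{jk} ∂̄_k`, `σ_j = div Z_j = ∑_k ∂̄_k \bar a_{jk}`,
  `δ_j w = Z_j w - (Z_j p) w + σ_j w` (so `∫ Z̄_j u \bar v e^{-p} = - ∫ u \overline{δ_j v} e^{-p}`),
  `[Z_j, Z̄_k] = ∑_l α_{jkl} Z_l + β_{jkl} Z̄_l`, Levi matrix of `p` w.r.t. the frame
  `Z̄_k Z_j p + ∑_l α_{jkl} Z_l p`.  BKH inequality with an error `C ∫ |F|² e^{-p}`, `C` independent of the weight.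
  Three weights on a ball, density (cutoff + mollifier + FRIEDRICHS' lemma), projection, Riesz as in `B6E`.
* The solution: `g_j = Z̄_j z_l = a_{jl} = O(|z|²)`, weight `(n+1) log |z|² + A |z|²` (limit of `(n+1) log(|z|²+ε) + A|z|²`):
  `Z̄ u = g`, `∫ |u|² |z|^{-2n-2} < ∞` ⇒ `u(0) = 0`, `du(0) = 0`; `w_l = z_l - u_l` is `Ĵ`-holomorphic, `dw(0) = id`; inverse function theorem.
* Regularity: `u ∈ L²_loc`, `Z̄ u` smooth ⇒ `u ∈ H¹_loc` (Friedrichs + Gårding) ⇒ smooth by `Lib/Sob` (`smooth_of_weakSol`) applied to `∑ Z_j Z̄_j`.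

## Conventions
As in `B6E/Wirt.lean`: forms are families `g : ι → CE ι → ℂ` (component first), integrals containing a test function are over the whole space,
`conj = starRingEnd ℂ`, column convention for matrices (`qf A v = vᴴ A v`).
The coefficients `a j k : CE ι → ℂ` are GLOBALLY smooth (cut off far away); commutation etc. only hold on `Ω`.
Weak identities are written with the TRANSPOSED operators `Zbt`, `Zft` (`∫ (Z̄_j u) w = ∫ u (Z̄_j^t w)`), without signs.
-/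

section SecDefs
open scoped ContDiff ComplexOrder ComplexConjugate Topology
open MeasureTheory
open Claimed.Agent.R316.B6E (IsTest IsTestForm cx L2w)

namespace Claimed.Agent.R316.B4

variable {ι : Type} [Fintype ι] [DecidableEq ι]

/-- `Z̄_j u = ∂̄_j u + ∑_k a_{jk} ∂_k u`. -/
noncomputable def Zb (a : ι → ι → CE ι → ℂ) (j : ι) (u : CE ι → ℂ) (z : CE ι) : ℂ :=
  dzb j u z + ∑ k, a j k z * dz k u z

/-- `Z_j u = ∂_j u + ∑_k \bar a_{jk} ∂̄_k u`. -/
noncomputable def Zf (a : ι → ι → CE ι → ℂ) (j : ι) (u : CE ι → ℂ) (z : CE ι) : ℂ :=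
  dz j u z + ∑ k, conj (a j k z) * dzb k u z

/-- `σ_j = div Z_j = ∑_k ∂̄_k \bar a_{jk}`  (so `div Z̄_j = \bar σ_j`). -/
noncomputable def sg (a : ι → ι → CE ι → ℂ) (j : ι) (z : CE ι) : ℂ :=
  ∑ k, dzb k (fun y => conj (a j k y)) z

/-- transpose of `Z̄_j`: `∫ (Z̄_j u) w = ∫ u (Z̄_j^t w)`. -/
noncomputable def Zbt (a : ι → ι → CE ι → ℂ) (j : ι) (w : CE ι → ℂ) (z : CE ι) : ℂ :=
  - (Zb a j w z + conj (sg a j z) * w z)

/-- transpose of `Z_j`. -/
noncomputable def Zft (a : ι → ι → CE ι → ℂ) (j : ι) (w : CE ι → ℂ) (z : CE ι) : ℂ :=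
  - (Zf a j w z + sg a j z * w z)

/-- `(Z_j p)_j` for a real function `p` (replaces `grad10`). -/
noncomputable def gradF (a : ι → ι → CE ι → ℂ) (p : CE ι → ℝ) (z : CE ι) : ι → ℂ :=
  fun j => Zf a j (cx p) z

/-- `δ_j w = Z_j w - (Z_j p) w + σ_j w`. -/
noncomputable def dlF (a : ι → ι → CE ι → ℂ) (p : CE ι → ℝ) (j : ι) (w : CE ι → ℂ) (z : CE ι) : ℂ :=
  Zf a j w z - gradF a p z j * w z + sg a j z * w z

/-- formal adjoint of `T : L²(e^{-(p-2ψ)}) → L²(e^{-(p-ψ)})`: `T^*F = - e^{-ψ} ∑_j δ_j^{(p-ψ)} F_j`. -/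
noncomputable def TstF (a : ι → ι → CE ι → ℂ) (p ψ : CE ι → ℝ) (F : ι → CE ι → ℂ) (z : CE ι) : ℂ :=
  - ((Real.exp (-ψ z) : ℝ) : ℂ) * ∑ j, dlF a (fun y => p y - ψ y) j (F j) z

/-- `|S F|² = ∑_{j<k} |Z̄_j F_k - Z̄_k F_j|²`. -/
noncomputable def curlSqF (a : ι → ι → CE ι → ℂ) (F : ι → CE ι → ℂ) (z : CE ι) : ℝ :=
  (1 / 2) * ∑ j, ∑ k, ‖Zb a j (F k) z - Zb a k (F j) z‖ ^ 2

/-- Levi matrix of `p` with respect to the frame, column convention:
entry `(k, j)` is `Z̄_k Z_j p + ∑_l α_{jkl} Z_l p`; `qf (leviF a α p z) F = Re ∑ (…)_{jk} F_j \bar F_k`.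
For `a = 0`, `α = 0` this is `levi p z`. -/
noncomputable def leviF (a : ι → ι → CE ι → ℂ) (α : ι → ι → ι → CE ι → ℂ) (p : CE ι → ℝ) (z : CE ι) :
    Matrix ι ι ℂ :=
  Matrix.of fun k j => Zb a k (fun y => gradF a p y j) z + ∑ l, α j k l z * gradF a p z l

/-- zero order error coefficient of the BKH identity:
`γ_{jk} = - Z̄_k σ_j - ∑_l α_{jkl} σ_l - ∑_l Z_l α_{jkl}`. -/
noncomputable def gam (a : ι → ι → CE ι → ℂ) (α : ι → ι → ι → CE ι → ℂ) (j k : ι) (z : CE ι) : ℂ :=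
  - Zb a k (sg a j) z - ∑ l, α j k l z * sg a l z - ∑ l, Zf a l (α j k l) z

/-- **commuting normalised frame on `Ω` with structure functions**:
`[Z̄_j, Z̄_k] = 0`, `[Z_j, Z̄_k] = ∑_l α_{jkl} Z_l + β_{jkl} Z̄_l` (written for the coefficients of `∂_l`, `∂̄_l`). -/
structure IsFrame (Ω : Set (CE ι)) (a : ι → ι → CE ι → ℂ) (α β : ι → ι → ι → CE ι → ℂ) : Prop where
  smooth : ∀ j k, ContDiff ℝ ∞ (a j k)
  smoothα : ∀ j k l, ContDiffOn ℝ ∞ (α j k l) Ω
  smoothβ : ∀ j k l, ContDiffOn ℝ ∞ (β j k l) Ω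
  comm : ∀ z ∈ Ω, ∀ j k l, Zb a j (a k l) z = Zb a k (a j l) z
  str1 : ∀ z ∈ Ω, ∀ j k l, Zf a j (a k l) z = α j k l z + ∑ m, β j k m z * a m l z
  str2 : ∀ z ∈ Ω, ∀ j k l,
    - Zb a k (fun y => conj (a j l y)) z = ∑ m, α j k m z * conj (a m l z) + β j k l z

/-- bounds of the error coefficients on `Ω`. -/
structure FrameBd (Ω : Set (CE ι)) (a : ι → ι → CE ι → ℂ) (α β : ι → ι → ι → CE ι → ℂ) (M : ℝ) : Prop where
  α_le : ∀ z ∈ Ω, ∀ j k l, ‖α j k l z‖ ≤ M
  β_le : ∀ z ∈ Ω, ∀ j k l, ‖β j k l z‖ ≤ M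
  γ_le : ∀ z ∈ Ω, ∀ j k, ‖gam a α j k z‖ ≤ M

/-- `Z̄ u = g` on `Ω` in the weak sense. -/
def WeakZb (Ω : Set (CE ι)) (a : ι → ι → CE ι → ℂ) (u : CE ι → ℂ) (g : ι → CE ι → ℂ) : Prop :=
  ∀ w, IsTest Ω w → ∀ j, ∫ z, u z * Zbt a j w z = ∫ z, g j z * w z

/-- `Z̄_j f_k - Z̄_k f_j = h_{jk}` on `Ω` in the weak sense. -/
def WeakCurlF (Ω : Set (CE ι)) (a : ι → ι → CE ι → ℂ) (f : ι → CE ι → ℂ) (h : ι → ι → CE ι → ℂ) : Prop :=
  ∀ w, IsTest Ω w → ∀ j k,
    ∫ z, (f k z * Zbt a j w z - f j z * Zbt a k w z) = ∫ z, h j k z * w z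

/-- `S f = 0` on `Ω` in the weak sense. -/
def WeakClosedF (Ω : Set (CE ι)) (a : ι → ι → CE ι → ℂ) (f : ι → CE ι → ℂ) : Prop :=
  ∀ w, IsTest Ω w → ∀ j k, ∫ z, (f k z * Zbt a j w z - f j z * Zbt a k w z) = 0

/-- `T^* f = v` in the weak sense: `⟨T u, f⟩_{p-ψ} = ⟨u, v⟩_{p-2ψ}` for all test functions `u`. -/
def WeakAdjF (Ω : Set (CE ι)) (a : ι → ι → CE ι → ℂ) (p ψ : CE ι → ℝ) (f : ι → CE ι → ℂ)
    (v : CE ι → ℂ) : Prop :=
  ∀ u, IsTest Ω u →
    ∫ z, (∑ j, Zb a j u z * conj (f j z)) * ((Real.exp (-(p z - ψ z)) : ℝ) : ℂ)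
      = ∫ z, u z * conj (v z) * ((Real.exp (-(p z - 2 * ψ z)) : ℝ) : ℂ)

/-- the dual estimate (equivalent to: `Z̄ u = g` has a solution with `∫_Ω |u|²/W ≤ C`). -/
def DualEstF (Ω : Set (CE ι)) (a : ι → ι → CE ι → ℂ) (g : ι → CE ι → ℂ) (W : CE ι → ℝ) (C : ℝ) : Prop :=
  ∀ Φ : ι → CE ι → ℂ, IsTestForm Ω Φ →
    ‖∫ z, ∑ j, g j z * Φ j z‖ ^ 2 ≤ C * ∫ z, ‖∑ j, Zbt a j (Φ j) z‖ ^ 2 * W z

/-- cutoff functions adapted to the auxiliary weight `ψ`: `∑ |Z_j η_ν|² ≤ e^{ψ}`. -/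
structure IsCutoffSeqF (Ω : Set (CE ι)) (a : ι → ι → CE ι → ℂ) (ψ : CE ι → ℝ) (η : ℕ → CE ι → ℝ) : Prop where
  test : ∀ ν, IsTest Ω (cx (η ν))
  nonneg : ∀ ν z, 0 ≤ η ν z
  le_one : ∀ ν z, η ν z ≤ 1
  eventually_one : ∀ z ∈ Ω, ∀ᶠ ν in Filter.atTop, η ν =ᶠ[𝓝 z] fun _ => 1
  grad_le : ∀ ν, ∀ z ∈ Ω, ∑ j, ‖gradF a (η ν) z j‖ ^ 2 ≤ Real.exp (ψ z)

end Claimed.Agent.R316.B4

end SecDefs

/-!
# Row 316, B4-GeoDefs: definitions of the geometric part of Newlander–Nirenberg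

* `reCE n`: a fixed real linear isometry `ℂⁿ = CE (Fin n) ≃ EuclideanSpace ℝ (Fin (2n))` (also for the bridge BP-BR).
* `IsJHol J Φ U`: `dΦ(i v) = J dΦ(v)` on `U`.
* `pullJ Λ J Ψ z = Λ ∘ J(Ψ z) ∘ dΨ_z`: the pulled back almost complex structure in graph coordinates (`Λ ∘ dΨ_z = id`).
* `IsACS r Ĵ`: integrable almost complex structure on `ball 0 r ⊆ ℂ^ι`, normalised at `0` to second order.
-/

section SecGeoDefs
open scoped ContDiff ComplexOrder ComplexConjugate Topology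

namespace Claimed.Agent.R316.B4

theorem finrank_real_CE (n : ℕ) : Module.finrank ℝ (CE (Fin n)) = 2 * n := by
  rw [finrank_real_of_complex]
  simp

/-- a fixed real linear isometry `ℂⁿ ≃ ℝ^{2n}`. -/
noncomputable def reCE (n : ℕ) : CE (Fin n) ≃ₗᵢ[ℝ] EuclideanSpace ℝ (Fin (2 * n)) :=
  ((stdOrthonormalBasis ℝ (CE (Fin n))).reindex (finCongr (finrank_real_CE n))).repr

variable {V : Type} [NormedAddCommGroup V] [NormedSpace ℝ V]
variable {ι : Type} [Fintype ι]

/-- `Φ` is `J`-holomorphic on `U`: `dΦ(i v) = J dΦ(v)`. -/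
def IsJHol (J : V → V →L[ℝ] V) (Φ : CE ι → V) (U : Set (CE ι)) : Prop :=
  ∀ z ∈ U, ∀ v : CE ι, fderiv ℝ Φ z (Complex.I • v) = J (Φ z) (fderiv ℝ Φ z v)

/-- the almost complex structure pulled back by `Ψ` with the help of a fixed left inverse `Λ` of `dΨ`. -/
noncomputable def pullJ (Λ : V →L[ℝ] CE ι) (J : V → V →L[ℝ] V) (Ψ : CE ι → V) (z : CE ι) :
    CE ι →L[ℝ] CE ι :=
  Λ.comp ((J (Ψ z)).comp (fderiv ℝ Ψ z))

/-- smooth integrable almost complex structure on `ball 0 r`, with `Ĵ(0) = i`, `dĴ(0) = 0`.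
`nij` is the vanishing of the Nijenhuis tensor on constant vector fields:
`(∂_{Ĵv} Ĵ) w - (∂_{Ĵw} Ĵ) v = Ĵ ((∂_v Ĵ) w - (∂_w Ĵ) v)`. -/
structure IsACS (r : ℝ) (Jh : CE ι → CE ι →L[ℝ] CE ι) : Prop where
  smooth : ContDiffOn ℝ ∞ Jh (Metric.ball 0 r)
  sq : ∀ z ∈ Metric.ball (0 : CE ι) r, ∀ v, Jh z (Jh z v) = - v
  zero : ∀ v, Jh 0 v = Complex.I • v
  dzero : fderiv ℝ Jh 0 = 0
  nij : ∀ z ∈ Metric.ball (0 : CE ι) r, ∀ v w,
    fderiv ℝ Jh z (Jh z v) w - fderiv ℝ Jh z (Jh z w) v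
      = Jh z (fderiv ℝ Jh z v w - fderiv ℝ Jh z w v)

end Claimed.Agent.R316.B4

end SecGeoDefs
end
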