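/- Packed by merge_tool.py (helper293): 3 modules of Claimed.Agent.R316 in one file, same declarations.
   Old modules, in this order: Core.Psh, CW.LeviSub, Top.S7 -/
import Claimed.Agent.R316.CW.Levi
import Claimed.Agent.R316.Pack007
import Claimed.Agent.R316.Pack015

/- ===== packed: Claimed.Agent.R316.Core.Psh ===== -/
section
/-!
# Row 316 core: real valued plurisubharmonic functions, local biholomorphisms, matrix order

Owner: helper84.  DEFINITIONS only.

* `PshOn U v`: `v : ℂ^ι → ℝ` is upper semicontinuous on `U` and satisfies the sub-mean value inequality on every closed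
  disc `{z + ζ w : |ζ| ≤ 1} ⊆ U`, in the form "for every continuous majorant `φ` of `v` on the circle, `v z ≤` average of `φ`"
  (equivalent to the usual inequality because a usc function is a decreasing limit of continuous ones; this form avoids the junk value
  of the Bochner integral of a non-integrable function).  The value `-∞` is NOT allowed: use `max v (-A)`.
* `CMfd.IsPshOn Ω v`: the same in every holomorphic parametrisation, over the points of `Ω` (`Ω ⊆ V` open).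
* `IsLocBihol 𝓜 Φ B`: `Φ : B → M` is a holomorphic local biholomorphism (possibly not injective): locally a holomorphic parametrisation.
* `leM A B`: Loewner order of matrices.
-/

set_option autoImplicit false
open scoped ContDiff ComplexOrder

namespace Claimed.Agent.R316

section

variable {ι : Type} [Fintype ι]

/-- real valued plurisubharmonic function on (an open set) `U ⊆ ℂ^ι`. -/
def PshOn (U : Set (CE ι)) (v : CE ι → ℝ) : Prop :=
  UpperSemicontinuousOn v U ∧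
  ∀ z w : CE ι, (∀ ζ : ℂ, ‖ζ‖ ≤ 1 → z + ζ • w ∈ U) →
    ∀ φ : ℝ → ℝ, Continuous φ →
      (∀ θ : ℝ, v (z + Complex.exp ((θ : ℂ) * Complex.I) • w) ≤ φ θ) →
      v z ≤ (2 * Real.pi)⁻¹ * ∫ θ in (0 : ℝ)..(2 * Real.pi), φ θ

/-- Loewner order of square matrices. -/
def leM (A B : Matrix ι ι ℂ) : Prop := (B - A).PosSemidef

variable [DecidableEq ι]

/-- the real multiple `c I` of the identity matrix. -/
def cI (c : ℝ) : Matrix ι ι ℂ := ((c : ℝ) : ℂ) • (1 : Matrix ι ι ℂ)

end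

section

variable {V : Type} [NormedAddCommGroup V] [NormedSpace ℝ V]
variable {ι : Type} [Fintype ι]

/-- real valued plurisubharmonic function on `𝓜.carrier ∩ Ω`. -/
def CMfd.IsPshOn (𝓜 : CMfd V ι) (Ω : Set V) (v : V → ℝ) : Prop :=
  ∀ (Φ : CE ι → V) (U : Set (CE ι)), 𝓜.IsHol Φ U → PshOn (U ∩ Φ ⁻¹' Ω) (v ∘ Φ)

/-- holomorphic local biholomorphism `Φ : B → M` (an "immersed chart"). -/
def IsLocBihol (𝓜 : CMfd V ι) (Φ : CE ι → V) (B : Set (CE ι)) : Prop :=
  IsOpen B ∧ ∀ z ∈ B, ∃ U : Set (CE ι), U ⊆ B ∧ z ∈ U ∧ 𝓜.IsHol Φ U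

/-- holomorphic map from `𝓜.carrier ∩ Ω` to `ℂ^κ`. -/
def CMfd.HolTo {κ : Type} [Fintype κ] (𝓜 : CMfd V ι) (Ω : Set V) (f : V → CE κ) : Prop :=
  ∀ (Φ : CE ι → V) (U : Set (CE ι)), 𝓜.IsHol Φ U → DifferentiableOn ℂ (f ∘ Φ) (U ∩ Φ ⁻¹' Ω)

end

end Claimed.Agent.R316
end

/- ===== packed: Claimed.Agent.R316.CW.LeviSub ===== -/
section
/-!
# Row 316, CW-2b: `levi ≥ 0` ⟹ sub-mean value inequality on affine discs (`PshOn`), and converse

Route for `submean_of_laplacian_nonneg` (no Green formula): `M r = (2π)⁻¹ ∫ g (r e^{iθ}) dθ`,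
`N r = r M' r = (2π)⁻¹ ∫ Dg(r e^{iθ})(r e^{iθ}) dθ`; since
`∫ d/dθ [Dg(r e^{iθ})(i r e^{iθ})] dθ = 0` one gets `r N' r = (2π)⁻¹ ∫ r² Δg(r e^{iθ}) dθ ≥ 0`,
`N 0 = 0`, so `N ≥ 0`, `M' ≥ 0` on `(0,1]`, `M 1 ≥ M 0 = g 0`.

Owner: helper16.
-/

set_option autoImplicit false
set_option linter.unusedSectionVars false
open scoped ContDiff ComplexOrder ComplexConjugate Topology
open MeasureTheory

namespace Claimed.Agent.R316

/-- differentiation under the integral sign for jointly continuous data. -/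
theorem ls_hasDerivAt_integral {F F' : ℝ → ℝ → ℝ} {a b : ℝ}
    (hF : Continuous (Function.uncurry F)) (hF' : Continuous (Function.uncurry F'))
    (hd : ∀ r θ, HasDerivAt (fun x => F x θ) (F' r θ) r) (r : ℝ) :
    HasDerivAt (fun x => ∫ θ in a..b, F x θ) (∫ θ in a..b, F' r θ) r := by
  have hK : IsCompact (Metric.closedBall r 1 ×ˢ Set.uIcc a b) :=
    (isCompact_closedBall r 1).prod isCompact_uIcc
  obtain ⟨C, hC⟩ := hK.exists_bound_of_continuousOn hF'.continuousOn
  have hcF : ∀ x, Continuous (F x) := fun x => hF.comp (by fun_prop : Continuous fun θ => (x, θ))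
  have hcF' : ∀ x, Continuous (F' x) := fun x => hF'.comp (by fun_prop : Continuous fun θ => (x, θ))
  refine (intervalIntegral.hasDerivAt_integral_of_dominated_loc_of_deriv_le
    (F := F) (F' := F') (bound := fun _ => C) (s := Metric.closedBall r 1)
    (Metric.closedBall_mem_nhds r one_pos) ?_ ?_ ?_ ?_ ?_ ?_).2
  · exact Filter.Eventually.of_forall fun x => (hcF x).aestronglyMeasurable
  · exact (hcF r).intervalIntegrable _ _
  · exact (hcF' r).aestronglyMeasurable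
  · refine Filter.Eventually.of_forall fun θ hθ x hx => ?_
    exact hC (x, θ) ⟨hx, Set.uIoc_subset_uIcc hθ⟩
  · exact intervalIntegrable_const
  · exact Filter.Eventually.of_forall fun θ _ x _ => hd x θ

/-- the unit circle. -/
noncomputable def lsE (θ : ℝ) : ℂ := Complex.exp ((θ : ℂ) * Complex.I)

theorem lsE_continuous : Continuous lsE := by
  unfold lsE
  fun_prop

theorem lsE_norm (θ : ℝ) : ‖lsE θ‖ = 1 := Complex.norm_exp_ofReal_mul_I θ

theorem lsE_hasDerivAt (θ : ℝ) : HasDerivAt lsE (Complex.I * lsE θ) θ := by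
  have h1 : HasDerivAt (fun t : ℝ => (t : ℂ) * Complex.I) Complex.I θ := by
    simpa using (Complex.ofRealCLM.hasDerivAt (x := θ)).mul_const Complex.I
  have h2 := h1.cexp
  unfold lsE
  rw [mul_comm]
  exact h2

theorem lsE_zero : lsE 0 = 1 := by simp [lsE]

theorem lsE_two_pi : lsE (2 * Real.pi) = 1 := by
  unfold lsE
  push_cast
  exact Complex.exp_two_pi_mul_I

/-- rotation invariance of the trace of a real bilinear form on `ℂ`. -/
theorem ls_bilin (B : ℂ →L[ℝ] ℂ →L[ℝ] ℝ) (ζ : ℂ) :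
    B ζ ζ + B (Complex.I * ζ) (Complex.I * ζ) = ‖ζ‖ ^ 2 * (B 1 1 + B Complex.I Complex.I) := by
  have h1 : ζ = ζ.re • (1 : ℂ) + ζ.im • Complex.I := by
    apply Complex.ext <;> simp
  have h2 : Complex.I * ζ = (-ζ.im) • (1 : ℂ) + ζ.re • Complex.I := by
    apply Complex.ext <;> simp
  have h3 : ‖ζ‖ ^ 2 = ζ.re ^ 2 + ζ.im ^ 2 := by
    rw [Complex.sq_norm, Complex.normSq_apply]; ring
  have key : ∀ x y : ℝ, B (x • (1 : ℂ) + y • Complex.I) (x • (1 : ℂ) + y • Complex.I)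
      + B ((-y) • (1 : ℂ) + x • Complex.I) ((-y) • (1 : ℂ) + x • Complex.I)
      = (x ^ 2 + y ^ 2) * (B 1 1 + B Complex.I Complex.I) := by
    intro x y
    simp only [map_add, map_smul, _root_.add_apply, _root_.smul_apply, smul_eq_mul]
    ring
  have h4 := key ζ.re ζ.im
  rw [← h1, ← h2, ← h3] at h4
  exact h4

theorem ls_laplacian_eq (g : ℂ → ℝ) (ζ : ℂ) :
    Laplacian.laplacian g ζ = fderiv ℝ (fderiv ℝ g) ζ 1 1
      + fderiv ℝ (fderiv ℝ g) ζ Complex.I Complex.I := by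
  rw [InnerProductSpace.laplacian_eq_iteratedFDeriv_complexPlane]
  simp only [iteratedFDeriv_two_apply, Matrix.cons_val_zero, Matrix.cons_val_one]

/-- the sub-mean value inequality for globally `C²` functions. -/
theorem ls_submean_global {g : ℂ → ℝ} (hg : ContDiff ℝ 2 g)
    (hΔ : ∀ ζ ∈ Metric.closedBall (0 : ℂ) 1, 0 ≤ Laplacian.laplacian g ζ) :
    g 0 ≤ (2 * Real.pi)⁻¹ * ∫ θ in (0 : ℝ)..(2 * Real.pi), g (lsE θ) := by
  set D : ℂ → ℂ →L[ℝ] ℝ := fderiv ℝ g with hD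
  set H : ℂ → ℂ →L[ℝ] ℂ →L[ℝ] ℝ := fderiv ℝ D with hH
  have hD1 : ContDiff ℝ 1 D := hg.fderiv_right (m := 1) (by norm_num)
  have hgd : ∀ ζ, HasFDerivAt g (D ζ) ζ := fun ζ =>
    (hg.differentiable (by norm_num) ζ).hasFDerivAt
  have hDd : ∀ ζ, HasFDerivAt D (H ζ) ζ := fun ζ =>
    (hD1.differentiable (by norm_num) ζ).hasFDerivAt
  have hgc : Continuous g := hg.continuous
  have hDc : Continuous D := hD1.continuous
  have hHc : Continuous H := hD1.continuous_fderiv (by norm_num)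
  have hEc := lsE_continuous
  -- curves
  have hray : ∀ (θ r : ℝ), HasDerivAt (fun x : ℝ => x • lsE θ) (lsE θ) r := fun θ r => by
    simpa using (hasDerivAt_id r).smul_const (lsE θ)
  have hcirc : ∀ (r θ : ℝ), HasDerivAt (fun t : ℝ => r • lsE t) (r • (Complex.I * lsE θ)) θ :=
    fun r θ => (lsE_hasDerivAt θ).const_smul r
  -- the four integrands
  set F0 : ℝ → ℝ → ℝ := fun r θ => g (r • lsE θ) with hF0
  set F1 : ℝ → ℝ → ℝ := fun r θ => D (r • lsE θ) (lsE θ) with hF1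
  set F2 : ℝ → ℝ → ℝ := fun r θ => D (r • lsE θ) (r • lsE θ) with hF2
  set F3 : ℝ → ℝ → ℝ := fun r θ => H (r • lsE θ) (lsE θ) (r • lsE θ) + D (r • lsE θ) (lsE θ)
    with hF3
  have hpt : Continuous fun p : ℝ × ℝ => p.1 • lsE p.2 :=
    continuous_fst.smul (hEc.comp continuous_snd)
  have hE2 : Continuous fun p : ℝ × ℝ => lsE p.2 := hEc.comp continuous_snd
  have hc0 : Continuous (Function.uncurry F0) := hgc.comp hpt
  have hc1 : Continuous (Function.uncurry F1) := (hDc.comp hpt).clm_apply hE2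
  have hc2 : Continuous (Function.uncurry F2) := (hDc.comp hpt).clm_apply hpt
  have hc3 : Continuous (Function.uncurry F3) :=
    (((hHc.comp hpt).clm_apply hE2).clm_apply hpt).add ((hDc.comp hpt).clm_apply hE2)
  have hd01 : ∀ r θ, HasDerivAt (fun x => F0 x θ) (F1 r θ) r := fun r θ =>
    (hgd (r • lsE θ)).comp_hasDerivAt r (hray θ r)
  have hd23 : ∀ r θ, HasDerivAt (fun x => F2 x θ) (F3 r θ) r := fun r θ => by
    have h1 : HasDerivAt (fun x : ℝ => D (x • lsE θ)) (H (r • lsE θ) (lsE θ)) r :=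
      (hDd (r • lsE θ)).comp_hasDerivAt r (hray θ r)
    exact h1.clm_apply (hray θ r)
  set M : ℝ → ℝ := fun r => ∫ θ in (0 : ℝ)..(2 * Real.pi), F0 r θ with hM
  set N : ℝ → ℝ := fun r => ∫ θ in (0 : ℝ)..(2 * Real.pi), F2 r θ with hN
  have hMd : ∀ r, HasDerivAt M (∫ θ in (0 : ℝ)..(2 * Real.pi), F1 r θ) r :=
    ls_hasDerivAt_integral hc0 hc1 hd01
  have hNd : ∀ r, HasDerivAt N (∫ θ in (0 : ℝ)..(2 * Real.pi), F3 r θ) r :=
    ls_hasDerivAt_integral hc2 hc3 hd23
  have hsec : ∀ {F : ℝ → ℝ → ℝ}, Continuous (Function.uncurry F) → ∀ r, Continuous (F r) :=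
    fun {F} hF r => hF.comp (by fun_prop : Continuous fun θ => (r, θ))
  -- `r M' = N`
  have hMN : ∀ r, r * ∫ θ in (0 : ℝ)..(2 * Real.pi), F1 r θ = N r := by
    intro r
    rw [← intervalIntegral.integral_const_mul]
    refine intervalIntegral.integral_congr fun θ _ => ?_
    simp only [hF1, hF2, map_smul, smul_eq_mul]
  -- `r N' = r² ∫ Δ g`
  have hLc : Continuous fun ζ => Laplacian.laplacian g ζ := by
    have : (fun ζ => Laplacian.laplacian g ζ) = fun ζ => H ζ 1 1 + H ζ Complex.I Complex.I := by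
      funext ζ; exact ls_laplacian_eq g ζ
    rw [this]
    exact ((hHc.clm_apply continuous_const).clm_apply continuous_const).add
      ((hHc.clm_apply continuous_const).clm_apply continuous_const)
  have hNL : ∀ r, r * ∫ θ in (0 : ℝ)..(2 * Real.pi), F3 r θ
      = r ^ 2 * ∫ θ in (0 : ℝ)..(2 * Real.pi), Laplacian.laplacian g (r • lsE θ) := by
    intro r
    -- angular derivative
    set q : ℝ → ℝ := fun θ => D (r • lsE θ) (Complex.I * (r • lsE θ)) with hq
    set q' : ℝ → ℝ := fun θ => H (r • lsE θ) (Complex.I * (r • lsE θ)) (Complex.I * (r • lsE θ))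
      - D (r • lsE θ) (r • lsE θ) with hq'
    have hptr : Continuous fun θ : ℝ => r • lsE θ := hEc.const_smul r
    have hIptr : Continuous fun θ : ℝ => Complex.I * (r • lsE θ) := continuous_const.mul hptr
    have hq'c : Continuous q' :=
      (((hHc.comp hptr).clm_apply hIptr).clm_apply hIptr).sub ((hDc.comp hptr).clm_apply hptr)
    have hqd : ∀ θ, HasDerivAt q (q' θ) θ := by
      intro θ
      have e1 : r • (Complex.I * lsE θ) = Complex.I * (r • lsE θ) := by
        rw [mul_smul_comm]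
      have h1 : HasDerivAt (fun t : ℝ => D (r • lsE t)) (H (r • lsE θ) (Complex.I * (r • lsE θ))) θ := by
        have := (hDd (r • lsE θ)).comp_hasDerivAt θ (hcirc r θ)
        rwa [e1] at this
      have h2 : HasDerivAt (fun t : ℝ => Complex.I * (r • lsE t)) (-(r • lsE θ)) θ := by
        have := (hcirc r θ).const_mul Complex.I
        have e2 : Complex.I * r • (Complex.I * lsE θ) = -(r • lsE θ) := by
          rw [e1, ← mul_assoc, Complex.I_mul_I]; ring
        rwa [e2] at this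
      have h3 := h1.clm_apply h2
      have e3 : q' θ = H (r • lsE θ) (Complex.I * (r • lsE θ)) (Complex.I * (r • lsE θ))
          + D (r • lsE θ) (-(r • lsE θ)) := by
        simp only [hq', map_neg]; ring
      rw [e3]
      exact h3
    have hint : ∫ θ in (0 : ℝ)..(2 * Real.pi), q' θ = 0 := by
      rw [intervalIntegral.integral_eq_sub_of_hasDerivAt (fun θ _ => hqd θ)
        (hq'c.intervalIntegrable _ _)]
      simp only [hq, lsE_zero, lsE_two_pi, sub_self]
    have hLr : Continuous fun θ : ℝ => Laplacian.laplacian g (r • lsE θ) := hLc.comp hptr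
    have hpoint : ∀ θ, r * F3 r θ + q' θ = r ^ 2 * Laplacian.laplacian g (r • lsE θ) := by
      intro θ
      have h1 := ls_bilin (H (r • lsE θ)) (r • lsE θ)
      have h2 : ‖r • lsE θ‖ ^ 2 = r ^ 2 := by
        rw [norm_smul, lsE_norm, mul_one, Real.norm_eq_abs, sq_abs]
      rw [h2, ← ls_laplacian_eq] at h1
      rw [← h1]
      simp only [hF3, hq']
      have h3 : H (r • lsE θ) (r • lsE θ) (r • lsE θ) = r * H (r • lsE θ) (lsE θ) (r • lsE θ) := by
        conv_lhs => rw [map_smul (H (r • lsE θ)) r (lsE θ)]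
        rfl
      have h4 : D (r • lsE θ) (r • lsE θ) = r * D (r • lsE θ) (lsE θ) := by
        conv_lhs => rw [map_smul (D (r • lsE θ)) r (lsE θ)]
        rfl
      rw [h3, h4]
      ring
    calc r * ∫ θ in (0 : ℝ)..(2 * Real.pi), F3 r θ
        = (∫ θ in (0 : ℝ)..(2 * Real.pi), r * F3 r θ) + ∫ θ in (0 : ℝ)..(2 * Real.pi), q' θ := by
          rw [hint, add_zero, intervalIntegral.integral_const_mul]
      _ = ∫ θ in (0 : ℝ)..(2 * Real.pi), (r * F3 r θ + q' θ) := by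
          have hi1 : IntervalIntegrable (fun θ => r * F3 r θ) volume 0 (2 * Real.pi) :=
            (continuous_const.mul (hsec hc3 r)).intervalIntegrable _ _
          exact (intervalIntegral.integral_add hi1 (hq'c.intervalIntegrable _ _)).symm
      _ = ∫ θ in (0 : ℝ)..(2 * Real.pi), r ^ 2 * Laplacian.laplacian g (r • lsE θ) :=
          intervalIntegral.integral_congr fun θ _ => hpoint θ
      _ = r ^ 2 * ∫ θ in (0 : ℝ)..(2 * Real.pi), Laplacian.laplacian g (r • lsE θ) :=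
          intervalIntegral.integral_const_mul _ _
  have hpi : (0 : ℝ) ≤ 2 * Real.pi := by positivity
  -- `N` is nondecreasing on `[0,1]`
  have hNmono : MonotoneOn N (Set.Icc 0 1) := by
    refine monotoneOn_of_deriv_nonneg (convex_Icc 0 1)
      (fun r _ => (hNd r).continuousAt.continuousWithinAt)
      (fun r _ => (hNd r).differentiableAt.differentiableWithinAt) ?_
    intro r hr
    rw [interior_Icc] at hr
    rw [(hNd r).deriv]
    have h1 := hNL r
    have h2 : 0 ≤ ∫ θ in (0 : ℝ)..(2 * Real.pi), Laplacian.laplacian g (r • lsE θ) := by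
      refine intervalIntegral.integral_nonneg hpi fun θ _ => hΔ _ ?_
      rw [Metric.mem_closedBall, dist_zero_right, norm_smul, lsE_norm, mul_one, Real.norm_eq_abs,
        abs_of_pos hr.1]
      exact hr.2.le
    have h3 : ∫ θ in (0 : ℝ)..(2 * Real.pi), F3 r θ
        = r * ∫ θ in (0 : ℝ)..(2 * Real.pi), Laplacian.laplacian g (r • lsE θ) := by
      have hr0 : r ≠ 0 := hr.1.ne'
      apply mul_left_cancel₀ hr0
      rw [h1]; ring
    rw [h3]
    exact mul_nonneg hr.1.le h2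
  have hN0 : N 0 = 0 := by
    simp only [hN, hF2, zero_smul, map_zero, intervalIntegral.integral_zero]
  -- `M` is nondecreasing on `[0,1]`
  have hMmono : MonotoneOn M (Set.Icc 0 1) := by
    refine monotoneOn_of_deriv_nonneg (convex_Icc 0 1)
      (fun r _ => (hMd r).continuousAt.continuousWithinAt)
      (fun r _ => (hMd r).differentiableAt.differentiableWithinAt) ?_
    intro r hr
    rw [interior_Icc] at hr
    rw [(hMd r).deriv]
    have h1 : 0 ≤ N r := by
      have := hNmono (Set.left_mem_Icc.2 zero_le_one) ⟨hr.1.le, hr.2.le⟩ hr.1.le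
      rwa [hN0] at this
    rw [← hMN r] at h1
    exact nonneg_of_mul_nonneg_right h1 hr.1
  have hfin := hMmono (Set.left_mem_Icc.2 zero_le_one) (Set.right_mem_Icc.2 zero_le_one) zero_le_one
  have hM0 : M 0 = 2 * Real.pi * g 0 := by
    simp only [hM, hF0, zero_smul, intervalIntegral.integral_const, sub_zero, smul_eq_mul]
  have hM1 : M 1 = ∫ θ in (0 : ℝ)..(2 * Real.pi), g (lsE θ) := by
    simp only [hM, hF0, one_smul]
  rw [hM0, hM1] at hfin
  have hpos : (0 : ℝ) < 2 * Real.pi := by positivity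
  rw [inv_mul_eq_div, le_div_iff₀ hpos]
  linarith

/-- `C²` subharmonic functions on a neighbourhood of the closed unit disc. -/
theorem submean_of_laplacian_nonneg {g : ℂ → ℝ} {Ω : Set ℂ} (hΩ : IsOpen Ω)
    (hg : ContDiffOn ℝ 2 g Ω) (hsub : Metric.closedBall (0 : ℂ) 1 ⊆ Ω)
    (hΔ : ∀ ζ ∈ Ω, 0 ≤ Laplacian.laplacian g ζ) :
    g 0 ≤ (2 * Real.pi)⁻¹ *
      ∫ θ in (0 : ℝ)..(2 * Real.pi), g (Complex.exp ((θ : ℂ) * Complex.I)) := by
  obtain ⟨δ, hδ, hδΩ⟩ := (isCompact_closedBall (0 : ℂ) 1).exists_cthickening_subset_open hΩ hsub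
  rw [cthickening_closedBall hδ.le zero_le_one] at hδΩ
  let χ : ContDiffBump (0 : ℂ) :=
    { rIn := δ / 2 + 1
      rOut := δ + 1
      rIn_pos := by positivity
      rIn_lt_rOut := by linarith }
  set G : ℂ → ℝ := fun ζ => χ ζ * g ζ with hG
  have hGc : ContDiff ℝ 2 G := by
    rw [contDiff_iff_contDiffAt]
    intro ζ
    by_cases hζ : ζ ∈ Ω
    · exact χ.contDiffAt.mul (hg.contDiffAt (hΩ.mem_nhds hζ))
    · have h1 : ζ ∉ tsupport χ := by
        rw [χ.tsupport_eq]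
        exact fun h => hζ (hδΩ h)
      have h2 : (χ : ℂ → ℝ) =ᶠ[𝓝 ζ] 0 := notMem_tsupport_iff_eventuallyEq.1 h1
      have h3 : G =ᶠ[𝓝 ζ] fun _ => 0 := by
        filter_upwards [h2] with y hy
        simp [hG, hy]
      exact contDiffAt_const.congr_of_eventuallyEq h3
  have hin : ∀ ζ ∈ Metric.closedBall (0 : ℂ) 1, ζ ∈ Metric.ball (0 : ℂ) χ.rIn := by
    intro ζ hζ
    rw [Metric.mem_closedBall] at hζ
    rw [Metric.mem_ball]
    have : χ.rIn = δ / 2 + 1 := rfl
    rw [this]; linarith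
  have hev : ∀ ζ ∈ Metric.closedBall (0 : ℂ) 1, G =ᶠ[𝓝 ζ] g := by
    intro ζ hζ
    filter_upwards [χ.eventuallyEq_one_of_mem_ball (hin ζ hζ)] with y hy
    simp [hG, hy]
  have hΔG : ∀ ζ ∈ Metric.closedBall (0 : ℂ) 1, 0 ≤ Laplacian.laplacian G ζ := by
    intro ζ hζ
    rw [(InnerProductSpace.laplacian_congr_nhds (hev ζ hζ)).eq_of_nhds]
    exact hΔ ζ (hsub hζ)
  have h := ls_submean_global hGc hΔG
  have h0 : G 0 = g 0 := (hev 0 (Metric.mem_closedBall_self zero_le_one)).eq_of_nhds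
  have h1 : ∀ θ : ℝ, G (lsE θ) = g (lsE θ) := fun θ =>
    (hev _ (by rw [Metric.mem_closedBall, dist_zero_right, lsE_norm])).eq_of_nhds
  simp only [h0, h1] at h
  exact h

theorem ls_laplacian_comp_add (g : ℂ → ℝ) (a ζ : ℂ) :
    Laplacian.laplacian (fun η => g (η + a)) ζ = Laplacian.laplacian g (ζ + a) := by
  rw [ls_laplacian_eq, ls_laplacian_eq]
  have h1 : fderiv ℝ (fun η => g (η + a)) = fun x => fderiv ℝ g (x + a) := by
    funext x; exact fderiv_comp_add_right a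
  rw [h1, fderiv_comp_add_right]

variable {ι : Type} [Fintype ι] [DecidableEq ι]

/-- the Laplacian of the restriction to a complex line. -/
theorem ls_laplacian_line {f : CE ι → ℝ} (z w : CE ι) (ζ : ℂ)
    (hf : ContDiffAt ℝ 2 f (z + ζ • w)) :
    Laplacian.laplacian (fun η : ℂ => f (z + η • w)) ζ
      = 4 * qf (levi f (z + ζ • w)) (fun j => w j) := by
  rw [qf_levi_eq_laplacian hf w]
  have h1 : (fun η : ℂ => f (z + ζ • w + η • w)) = fun η : ℂ => (fun x : ℂ => f (z + x • w)) (η + ζ) := by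
    funext η
    simp only [add_smul]
    congr 1
    abel
  rw [h1, ls_laplacian_comp_add (fun x : ℂ => f (z + x • w)) ζ 0, zero_add]
  ring

/-- sub-mean value inequality on an affine disc; only positivity in the direction of the disc is
used. -/
theorem ls_submean_line {f : CE ι → ℝ} {U : Set (CE ι)} (hU : IsOpen U) (hf : ContDiffOn ℝ 2 f U)
    (z w : CE ι) (h : ∀ y ∈ U, 0 ≤ qf (levi f y) (fun j => w j))
    (hd : ∀ ζ : ℂ, ‖ζ‖ ≤ 1 → z + ζ • w ∈ U) :
    f z ≤ (2 * Real.pi)⁻¹ *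
      ∫ θ in (0 : ℝ)..(2 * Real.pi), f (z + Complex.exp ((θ : ℂ) * Complex.I) • w) := by
  have hA : ContDiff ℝ 2 (fun ζ : ℂ => z + ζ • w) :=
    contDiff_const.add (contDiff_id.smul contDiff_const)
  set Ω : Set ℂ := (fun ζ : ℂ => z + ζ • w) ⁻¹' U with hΩ
  have hΩo : IsOpen Ω := hU.preimage hA.continuous
  have hg : ContDiffOn ℝ 2 (fun ζ : ℂ => f (z + ζ • w)) Ω :=
    hf.comp hA.contDiffOn fun ζ hζ => hζ
  have hsub : Metric.closedBall (0 : ℂ) 1 ⊆ Ω := by
    intro ζ hζ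
    rw [Metric.mem_closedBall, dist_zero_right] at hζ
    exact hd ζ hζ
  have hΔ : ∀ ζ ∈ Ω, 0 ≤ Laplacian.laplacian (fun ζ : ℂ => f (z + ζ • w)) ζ := by
    intro ζ hζ
    rw [ls_laplacian_line z w ζ (hf.contDiffAt (hU.mem_nhds hζ))]
    have := h _ hζ
    positivity
  have := submean_of_laplacian_nonneg hΩo hg hsub hΔ
  simpa using this

theorem levi_submean {f : CE ι → ℝ} {U : Set (CE ι)} (hU : IsOpen U) (hf : ContDiffOn ℝ 2 f U)
    (h : ∀ z ∈ U, (levi f z).PosSemidef) (z w : CE ι)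
    (hd : ∀ ζ : ℂ, ‖ζ‖ ≤ 1 → z + ζ • w ∈ U) :
    f z ≤ (2 * Real.pi)⁻¹ *
      ∫ θ in (0 : ℝ)..(2 * Real.pi), f (z + Complex.exp ((θ : ℂ) * Complex.I) • w) :=
  ls_submean_line hU hf z w (fun y hy => (lv_posSemidef_iff_qf (h y hy).isHermitian).1 (h y hy) _) hd

/-- continuity of the restriction to a circle. -/
theorem ls_circle_continuous {f : CE ι → ℝ} {U : Set (CE ι)} (hf : ContinuousOn f U)
    (z w : CE ι) (hd : ∀ ζ : ℂ, ‖ζ‖ ≤ 1 → z + ζ • w ∈ U) :
    Continuous fun θ : ℝ => f (z + Complex.exp ((θ : ℂ) * Complex.I) • w) := by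
  refine hf.comp_continuous (by fun_prop) fun θ => hd _ ?_
  rw [Complex.norm_exp_ofReal_mul_I]

/-- `C²` with `levi ≥ 0` ⟹ plurisubharmonic. -/
theorem pshOn_of_levi {f : CE ι → ℝ} {U : Set (CE ι)} (hU : IsOpen U) (hf : ContDiffOn ℝ 2 f U)
    (h : ∀ z ∈ U, (levi f z).PosSemidef) : PshOn U f := by
  refine ⟨hf.continuousOn.upperSemicontinuousOn, ?_⟩
  intro z w hd φ hφ hle
  refine (levi_submean hU hf h z w hd).trans ?_
  have hpi : (0 : ℝ) ≤ 2 * Real.pi := by positivity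
  refine mul_le_mul_of_nonneg_left ?_ (by positivity)
  exact intervalIntegral.integral_mono_on hpi
    ((ls_circle_continuous hf.continuousOn z w hd).intervalIntegrable _ _)
    (hφ.intervalIntegrable _ _) fun θ _ => hle θ

theorem ls_qf_smul_vec (M : Matrix ι ι ℂ) (r : ℝ) (a : ι → ℂ) :
    qf M ((r : ℂ) • a) = r ^ 2 * qf M a := by
  unfold qf
  rw [Matrix.mulVec_smul, dotProduct_smul, star_smul, smul_dotProduct]
  simp only [smul_eq_mul, Complex.star_def, Complex.conj_ofReal]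
  rw [← mul_assoc, ← Complex.ofReal_mul, Complex.re_ofReal_mul]
  ring

theorem ls_qf_vec_zero (M : Matrix ι ι ℂ) : qf M 0 = 0 := by
  unfold qf
  simp

theorem ls_continuousAt_qf_levi {g : CE ι → ℝ} {z : CE ι} (hg : ContDiffAt ℝ 2 g z) (a : ι → ℂ) :
    ContinuousAt (fun y => qf (levi g y) a) z := by
  have h : (fun y => qf (levi g y) a)
      = fun y => Complex.reCLM (∑ j, ∑ k, conj (a j) * (levi g y j k * a k)) := by
    funext y
    unfold qf
    rw [lv_dot_eq]
    rfl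
  rw [h]
  refine Complex.reCLM.continuous.continuousAt.comp ?_
  refine tendsto_finsetSum _ fun j _ => tendsto_finsetSum _ fun k _ => ?_
  have h1 : ContinuousAt (fun y => levi g y j k) z :=
    (contDiffAt_levi (m := 0) hg (by norm_num)).continuousAt
  exact (continuousAt_const.mul (h1.mul continuousAt_const))

/-- viscosity property: a `C²` function touching a psh function from above has `levi ≥ 0`. -/
theorem levi_posSemidef_of_pshOn_touching {v g : CE ι → ℝ} {U : Set (CE ι)} (hU : IsOpen U)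
    (hv : PshOn U v) {z : CE ι} (hz : z ∈ U) (hg : ContDiffAt ℝ 2 g z)
    (hle : ∀ᶠ w in 𝓝 z, v w ≤ g w) (h0 : v z = g z) : (levi g z).PosSemidef := by
  rw [levi_posSemidef_iff hg]
  intro a
  by_contra hneg
  push Not at hneg
  set q₀ : ℝ := qf (levi g z) a with hq₀
  set A : CE ι := WithLp.toLp 2 a with hA
  have hAa : (fun j => A j) = a := rfl
  have ha0 : a ≠ 0 := by
    intro h
    rw [hq₀, h, ls_qf_vec_zero] at hneg
    exact lt_irrefl _ hneg
  have hA0 : A ≠ 0 := by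
    intro h
    apply ha0
    rw [← hAa, h]
    rfl
  have hAn : 0 < ‖A‖ := norm_pos_iff.2 hA0
  set n : ℝ := qf (1 : Matrix ι ι ℂ) a with hn
  have hn0 : 0 ≤ n := (lv_posSemidef_iff_qf Matrix.isHermitian_one).1 Matrix.PosSemidef.one a
  set c : ℝ := -q₀ / (2 * (n + 1)) with hc
  have hc0 : 0 < c := div_pos (by linarith) (by positivity)
  have hcn : c * n ≤ -q₀ / 2 := by
    rw [hc, div_mul_eq_mul_div, div_le_div_iff₀ (by positivity) (by norm_num)]
    nlinarith
  -- the neighbourhood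
  have hev : ∀ᶠ y in 𝓝 z, y ∈ U ∧ ContDiffAt ℝ 2 g y ∧ v y ≤ g y ∧ qf (levi g y) a < q₀ / 2 := by
    have h1 : ∀ᶠ y in 𝓝 z, qf (levi g y) a < q₀ / 2 :=
      (ls_continuousAt_qf_levi hg a).eventually_lt_const (by linarith)
    filter_upwards [hU.mem_nhds hz, hg.eventually (by simp), hle, h1] with y h2 h3 h4 h5
    exact ⟨h2, h3, h4, h5⟩
  obtain ⟨ρ, hρ, hball⟩ := Metric.eventually_nhds_iff_ball.1 hev
  set W : Set (CE ι) := Metric.ball z ρ with hW
  set r : ℝ := ρ / (2 * ‖A‖) with hr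
  have hr0 : 0 < r := div_pos hρ (by positivity)
  set w : CE ι := r • A with hw
  have hwn : ‖w‖ = ρ / 2 := by
    rw [hw, norm_smul, Real.norm_eq_abs, abs_of_pos hr0, hr]
    field_simp
  have hwa : (fun j => w j) = (r : ℂ) • a := by
    funext j
    simp [hw, hA]
  have hd : ∀ ζ : ℂ, ‖ζ‖ ≤ 1 → z + ζ • w ∈ W := by
    intro ζ hζ
    rw [hW, Metric.mem_ball, dist_eq_norm, add_sub_cancel_left, norm_smul, hwn]
    have : ‖ζ‖ * (ρ / 2) ≤ 1 * (ρ / 2) := by gcongr
    linarith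
  -- the comparison function
  set k : CE ι → ℝ := fun y => - g y - c * ‖y - z‖ ^ 2 with hk
  have hsq : ∀ y, ContDiffAt ℝ 2 (fun y : CE ι => ‖y - z‖ ^ 2) y := fun y =>
    ((contDiff_id.sub contDiff_const).norm_sq ℂ).contDiffAt
  have hkc : ContDiffOn ℝ 2 k W := fun y hy =>
    (((hball y hy).2.1.neg).sub (contDiffAt_const.mul (hsq y))).contDiffWithinAt
  have hkl : ∀ y ∈ W, 0 ≤ qf (levi k y) (fun j => w j) := by
    intro y hy
    obtain ⟨-, h2, -, h4⟩ := hball y hy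
    have e1 : levi k y = - levi g y - (c : ℂ) • (1 : Matrix ι ι ℂ) := by
      rw [hk, levi_sub h2.neg (contDiffAt_const.mul (hsq y)), levi_neg,
        levi_const_mul c (hsq y), levi_normSq_sub]
    rw [hwa, ls_qf_smul_vec, e1, lv_qf_sub, lv_qf_neg, lv_qf_smul]
    have : 0 ≤ - qf (levi g y) a - c * n := by linarith
    positivity
  have h1 := ls_submean_line Metric.isOpen_ball hkc z w hkl hd
  -- the circle function
  have hgW : ContinuousOn g W := fun y hy => (hball y hy).2.1.continuousAt.continuousWithinAt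
  set φ : ℝ → ℝ := fun θ => g (z + Complex.exp ((θ : ℂ) * Complex.I) • w) with hφ
  have hφc : Continuous φ := ls_circle_continuous hgW z w hd
  have hmem : ∀ θ : ℝ, z + Complex.exp ((θ : ℂ) * Complex.I) • w ∈ W := fun θ =>
    hd _ (by rw [Complex.norm_exp_ofReal_mul_I])
  have h2 : v z ≤ (2 * Real.pi)⁻¹ * ∫ θ in (0 : ℝ)..(2 * Real.pi), φ θ :=
    hv.2 z w (fun ζ hζ => (hball _ (hd ζ hζ)).1) φ hφc fun θ => (hball _ (hmem θ)).2.2.1
  have hkz : k z = - g z := by simp [hk]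
  have hkθ : ∀ θ : ℝ, k (z + Complex.exp ((θ : ℂ) * Complex.I) • w) = - φ θ - c * ‖w‖ ^ 2 := by
    intro θ
    simp only [hk, hφ, add_sub_cancel_left, norm_smul, Complex.norm_exp_ofReal_mul_I, one_mul]
  have hpos : (0 : ℝ) < 2 * Real.pi := by positivity
  have hint : ∫ θ in (0 : ℝ)..(2 * Real.pi), k (z + Complex.exp ((θ : ℂ) * Complex.I) • w)
      = - (∫ θ in (0 : ℝ)..(2 * Real.pi), φ θ) - 2 * Real.pi * (c * ‖w‖ ^ 2) := by
    simp only [hkθ]
    have hi1 : IntervalIntegrable (fun θ => - φ θ) volume 0 (2 * Real.pi) :=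
      hφc.neg.intervalIntegrable _ _
    have hi2 : IntervalIntegrable (fun _ : ℝ => c * ‖w‖ ^ 2) volume 0 (2 * Real.pi) :=
      intervalIntegrable_const
    rw [intervalIntegral.integral_sub hi1 hi2,
      intervalIntegral.integral_neg, intervalIntegral.integral_const]
    simp
  rw [hkz, hint] at h1
  have h3 : (2 * Real.pi)⁻¹ * (-(∫ θ in (0 : ℝ)..(2 * Real.pi), φ θ) - 2 * Real.pi * (c * ‖w‖ ^ 2))
      = - ((2 * Real.pi)⁻¹ * ∫ θ in (0 : ℝ)..(2 * Real.pi), φ θ) - c * ‖w‖ ^ 2 := by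
    field_simp
  rw [h3] at h1
  have h4 : 0 < c * ‖w‖ ^ 2 := by
    rw [hwn]; positivity
  linarith

theorem levi_posSemidef_of_pshOn {f : CE ι → ℝ} {U : Set (CE ι)} (hU : IsOpen U)
    (hf : ContDiffOn ℝ 2 f U) (h : PshOn U f) : ∀ z ∈ U, (levi f z).PosSemidef := fun _ hz =>
  levi_posSemidef_of_pshOn_touching hU h hz (hf.contDiffAt (hU.mem_nhds hz))
    (Filter.Eventually.of_forall fun _ => le_rfl) rfl

end Claimed.Agent.R316
end

/- ===== packed: Claimed.Agent.R316.Top.S7 ===== -/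
section
/-!
# Row 316, top level: Section 7 (`charts.tex`): Harnack inequalities, completeness, uniform charts, static distortion,
volume clock and Ricci windows, simple connectivity, psh Liouville

Owner: helper84.  Only definitions / statements (`structure … : Prop`, `def St… : Prop`), no `sorry`.
The conclusion of every numbered result is a `Prop`-valued structure over `D : FlowData 𝓜 g o`; the block "STATEMENTS" at the end lists,
for each result, the implication to be proved (= the hypotheses its proof may use).  The output of the whole section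
(Proposition 7.7 + the part of 7.4 used later + the rate order (8.3)) is the structure `ChartSystem` of `Top/S8.lean`.

Conventions: column convention of `Core/Basic.lean`; `A(X, \bar X) = qf A X`; `∂_X R = ∑_k X_k ∂R/∂z_k`; matrices of forms in a
parametrisation `Φ` at `z` are `h Φ z`.  "Unitary centre derivative for `h`" means `h Φ 0 = 1`.
-/

set_option autoImplicit false
open scoped ContDiff ComplexOrder Topology
open MeasureTheory Filter

namespace Claimed.Agent.R316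

variable {V : Type} [NormedAddCommGroup V] [NormedSpace ℝ V] [MeasurableSpace V] [BorelSpace V]
variable {n : ℕ}
variable {𝓜 : CMfd V (Fin n)} {g : HFam V (Fin n)} {o : V}

namespace FlowData

variable (D : FlowData 𝓜 g o)

/-- the Ricci form `A = Ric(h_t)`. -/
noncomputable def ric (t : ℝ) : HFam V (Fin n) := ricF (D.h t)

/-- `A_t`: entrywise time derivative of the Ricci matrix in fixed holomorphic coordinates. -/
noncomputable def ricDt (t : ℝ) : HFam V (Fin n) :=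
  fun Φ z j k => deriv (fun s => D.ric s Φ z j k) t

/-- **Proposition 7.1** (`prop:harnack-completeness`). -/
structure Harnack : Prop where
  /-- nonnegative bisectional curvature -/
  bisec : ∀ t : ℝ, 0 ≤ t → BisecNonneg 𝓜 (D.h t)
  /-- completeness at every time -/
  proper : ∀ t : ℝ, 0 ≤ t → IsProperMetric 𝓜 (D.h t)
  /-- positive Ricci form -/
  ric_pos : ∀ t : ℝ, 0 ≤ t → ∀ (Φ : CE (Fin n) → V) (U : Set (CE (Fin n))), 𝓜.IsHol Φ U →
    ∀ z ∈ U, (D.ric t Φ z).PosDef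
  /-- (7.1) matrix Harnack `A_t + A h⁻¹ A + A / t ≥ 0` -/
  matrix : ∀ t : ℝ, 0 < t → ∀ (Φ : CE (Fin n) → V) (U : Set (CE (Fin n))), 𝓜.IsHol Φ U → ∀ z ∈ U,
    (D.ricDt t Φ z + D.ric t Φ z * (D.h t Φ z)⁻¹ * D.ric t Φ z + ((t⁻¹ : ℝ) : ℂ) • D.ric t Φ z).PosSemidef
  /-- (7.2) scalar Harnack -/
  scalar : ∀ t : ℝ, 0 < t → ∀ (Φ : CE (Fin n) → V) (U : Set (CE (Fin n))), 𝓜.IsHol Φ U → ∀ z ∈ U,
    ∀ X : Fin n → ℂ,
      0 ≤ deriv (fun s => D.R s (Φ z)) t + D.R t (Φ z) / t
        + 2 * (∑ k, X k * dz k (fun w => ((D.R t (Φ w) : ℝ) : ℂ)) z).re + qf (D.ric t Φ z) X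
  /-- the metrics decrease -/
  mono : ∀ t t' : ℝ, 0 ≤ t → t ≤ t' → leF 𝓜 (D.h t') (D.h t)
  /-- basepoint bound -/
  R_o_le : ∃ C : ℝ, ∀ t : ℝ, 0 ≤ t → D.R t o ≤ C
  /-- (7.3) integrated Harnack -/
  integrated : ∃ C : ℝ, ∀ t t' : ℝ, 0 < t → t < t' → ∀ x ∈ 𝓜.carrier, ∀ y ∈ 𝓜.carrier,
    D.R t x ≤ D.R t' y * (t' / t) * Real.exp (C * hdist 𝓜 (D.h t) x y ^ 2 / (t' - t))
  /-- `t Ric ≥ a_K h_t` on compact sets for `t ≥ 1` -/
  ric_lower : ∀ K : Set V, IsCompact K → K ⊆ 𝓜.carrier → ∃ a : ℝ, 0 < a ∧ ∀ t : ℝ, 1 ≤ t →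
    leFOn 𝓜 K (smulF (fun _ => a / t) (D.h t)) (D.ric t)
  /-- power contraction on compact sets -/
  power : ∀ K : Set V, IsCompact K → K ⊆ 𝓜.carrier → ∃ C a : ℝ, 0 < a ∧ ∀ t : ℝ, 1 ≤ t →
    leFOn 𝓜 K (D.h t) (smulF (fun _ => C * t ^ (-a)) g)

/-- **Lemma 7.2, general (scale invariant) form** (`chart:local-charts`, last sentence of the statement made precise).
If, after rescaling by `lam`, the scalar curvature is `≤ Λ` on the moving balls of radius `ρ` about `p` during the two-sided time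
interval `|z| ≤ δ`, then there is an immersed holomorphic chart of a fixed radius, unitary at the central time, in which the
rescaled flow `G(z, w) = lam h_{t₀ + z/lam}(Φ w)` is uniformly equivalent to the Euclidean metric and has uniform space-time derivative
bounds of every order for `|z| ≤ δ/2`.  The constants depend only on `ρ, δ, Λ` (and the flow). -/
def UniformCharts : Prop :=
  ∀ ρ δ Λ : ℝ, 0 < ρ → 0 < δ → 0 < Λ → ∃ (r c C : ℝ) (Ck : ℕ → ℝ), 0 < r ∧ 0 < c ∧
    ∀ (t₀ lam : ℝ) (p : V), p ∈ 𝓜.carrier → 0 < lam → δ / lam < t₀ →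
      (∀ t ∈ Set.Icc (t₀ - δ / lam) (t₀ + δ / lam), ∀ x ∈ hball 𝓜 (D.h t) p (ρ / Real.sqrt lam),
        D.R t x ≤ Λ * lam) →
      ∃ Φ : CE (Fin n) → V, IsLocBihol 𝓜 Φ (Metric.ball 0 r) ∧ Φ 0 = p ∧
        ((lam : ℝ) : ℂ) • D.h t₀ Φ 0 = 1 ∧
        (∀ z ∈ Set.Icc (-(δ / 2)) (δ / 2), ∀ w ∈ Metric.ball (0 : CE (Fin n)) r,
          leM (cI c) (((lam : ℝ) : ℂ) • D.h (t₀ + z / lam) Φ w) ∧
          leM (((lam : ℝ) : ℂ) • D.h (t₀ + z / lam) Φ w) (cI C)) ∧
        (∀ (k : ℕ) (j l : Fin n), ∀ z ∈ Set.Icc (-(δ / 2)) (δ / 2), ∀ w ∈ Metric.ball (0 : CE (Fin n)) r,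
          ‖iteratedFDeriv ℝ k
            (fun p : ℝ × CE (Fin n) => ((lam : ℝ) : ℂ) * D.h (t₀ + p.1 / lam) Φ p.2 j l) (z, w)‖ ≤ Ck k)

/-- **Lemma 7.2, first assertion** (`chart:local-charts`): unitary charts of a fixed size at all points of a compact set and all
late times. -/
def LocalCharts : Prop :=
  ∀ K : Set V, IsCompact K → K ⊆ 𝓜.carrier → ∃ (r c C tK : ℝ) (Ck : ℕ → ℝ), 0 < r ∧ 0 < c ∧
    ∀ t : ℝ, tK ≤ t → ∀ p ∈ K,
      ∃ Φ : CE (Fin n) → V, IsLocBihol 𝓜 Φ (Metric.ball 0 r) ∧ Φ 0 = p ∧ D.h t Φ 0 = 1 ∧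
        (∀ w ∈ Metric.ball (0 : CE (Fin n)) r, leM (cI c) (D.h t Φ w) ∧ leM (D.h t Φ w) (cI C)) ∧
        (∀ (k : ℕ) (j l : Fin n), ∀ w ∈ Metric.ball (0 : CE (Fin n)) r,
          ‖iteratedFDeriv ℝ k (fun y : CE (Fin n) => D.h t Φ y j l) w‖ ≤ Ck k)

/-! ### The volume clock (7.8) -/

/-- the volume clock `s = ρ(o, t)` as a function of `t`. -/
def clk (t : ℝ) : ℝ := D.rho t o

/-- the time `t(s)` of the clock value `s` (inverse of `clk` on `[0, ∞)`). -/
noncomputable def tOf (s : ℝ) : ℝ := Function.invFunOn D.clk (Set.Ici 0) s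

/-- `q(s) = ds/dτ = t R(o, t)`. -/
noncomputable def q (s : ℝ) : ℝ := D.tOf s * D.R (D.tOf s) o

/-- the metric at clock `s`. -/
noncomputable def hs (s : ℝ) : HFam V (Fin n) := D.h (D.tOf s)

/-- **Proposition 7.4, first half** (`prop:ricci-windows`): estimates valid at every late clock. -/
structure ClockFacts : Prop where
  clk_strictMono : StrictMonoOn D.clk (Set.Ici 0)
  clk_tendsto : Tendsto D.clk atTop atTop
  q_mono : MonotoneOn D.q (Set.Ici 0)
  q_pos : ∀ s : ℝ, 0 < s → 0 < D.q s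
  /-- `q ≤ C e^τ` -/
  q_le : ∃ C : ℝ, ∀ s : ℝ, 0 ≤ s → D.q s ≤ C * D.tOf s
  /-- `liminf q / s ≤ 2`, in the form which the proof gives -/
  q_liminf : ∀ S : ℝ, ∃ s : ℝ, S ≤ s ∧ D.q s ≤ 2 * s
  /-- `ρ(x, t) / s → 1` uniformly on compact sets -/
  rho_ratio : ∀ K : Set V, IsCompact K → K ⊆ 𝓜.carrier → ∀ ε : ℝ, 0 < ε → ∃ s₁ : ℝ, ∀ s : ℝ, s₁ ≤ s →
    ∀ x ∈ K, |D.rho (D.tOf s) x / s - 1| ≤ ε
  /-- (7.10) metric decay -/
  decay : ∀ K : Set V, IsCompact K → K ⊆ 𝓜.carrier → ∃ cK s₁ : ℝ, 0 < cK ∧ ∀ s : ℝ, s₁ ≤ s →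
    leFOn 𝓜 K (smulF (fun _ => Real.exp (-(2 * s))) g) (D.hs s) ∧
    leFOn 𝓜 K (D.hs s) (smulF (fun _ => Real.exp (-(cK * s))) g)
  /-- (7.11) lower Ricci bound at `o` -/
  ric_lower : ∃ a0 b0 s₁ : ℝ, 0 < a0 ∧ a0 < 1 ∧ 0 < b0 ∧ ∀ s : ℝ, s₁ ≤ s →
    leFOn 𝓜 {o} (smulF (fun _ => b0 * D.q (a0 * s)) (D.hs s)) (smulF (fun _ => D.tOf s) (D.ric (D.tOf s)))

/-- **Proposition 7.4, second half**: the selected times `t_i` (with `R_i = R(o, t_i)`, `q_i = t_i R_i`).
`defect`: `(log q)'(s_i) = (R_t + R / t) / R² → 0`. -/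
def Windows : Prop :=
  ∃ (ti : ℕ → ℝ) (δ b : ℝ), 0 < δ ∧ 0 < b ∧ Tendsto ti atTop atTop ∧
    (∀ i, 0 < ti i ∧ 4 * δ < ti i * D.R (ti i) o) ∧
    (∀ ρ : ℝ, 0 < ρ → ∃ (Λ : ℝ) (i₀ : ℕ), ∀ i, i₀ ≤ i → ∀ z ∈ Set.Icc (-δ) δ,
      ∀ x ∈ hball 𝓜 (D.h (ti i + z / D.R (ti i) o)) o (ρ / Real.sqrt (D.R (ti i) o)),
        D.R (ti i + z / D.R (ti i) o) x ≤ Λ * D.R (ti i) o) ∧
    (∀ i, leFOn 𝓜 {o} (smulF (fun _ => b * D.R (ti i) o) (D.h (ti i))) (D.ric (ti i))) ∧
    Tendsto (fun i => (deriv (fun t => D.R t o) (ti i) + D.R (ti i) o / ti i) / D.R (ti i) o ^ 2) atTop (𝓝 0)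

end FlowData

/-- **Lemma 7.3** (`lem:static-distortion`): the greatest singular length of `dΦ(0)` (Euclidean → `g`) is bounded by a fixed power
of the least one.  `√(qf (g Φ 0) v)` is the `g`-length of `dΦ(0) v`. -/
def StaticDistortion (𝓜 : CMfd V (Fin n)) (g : HFam V (Fin n)) : Prop :=
  ∀ (r c : ℝ) (K : Set V), 0 < r → 0 < c → IsCompact K → K ⊆ 𝓜.carrier → ∃ C : ℝ, 0 < C ∧
    ∀ Φ : CE (Fin n) → V, IsLocBihol 𝓜 Φ (Metric.ball 0 r) → Φ 0 ∈ K →
      (∀ z ∈ Metric.ball (0 : CE (Fin n)) r, leM (cI c) (g Φ z)) →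
      ∀ v w : Fin n → ℂ, star v ⬝ᵥ v = 1 → star w ⬝ᵥ w = 1 →
        Real.sqrt (qf (g Φ 0) w) ≤ C * (1 + Real.sqrt (qf (g Φ 0) v)) ^ C

/-- **Proposition 7.5** (`prop:simple-connectivity`). -/
def SimplyConn (𝓜 : CMfd V (Fin n)) : Prop := SimplyConnectedSpace 𝓜.carrier

/-- **Lemma 7.6** (`chart:psh-liouville`), real valued form (apply it to `max v (-A)`). -/
def PshLiouville (𝓜 : CMfd V (Fin n)) : Prop :=
  ∀ v : V → ℝ, 𝓜.IsPshOn Set.univ v → (∃ C : ℝ, ∀ x ∈ 𝓜.carrier, v x ≤ C) →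
    ∃ c : ℝ, ∀ x ∈ 𝓜.carrier, v x = c

/-! ### STATEMENTS (what each package proves, with the hypotheses it may use) -/

section Statements

variable (D : FlowData 𝓜 g o)

/-- Proposition 7.1. -/
def St71 : Prop := InitialData 𝓜 g → o ∈ 𝓜.carrier → StJointPositivity D → D.Harnack

/-- Lemma 7.2 (general form). -/
def St72 : Prop := InitialData 𝓜 g → o ∈ 𝓜.carrier → D.Harnack → D.UniformCharts

/-- Lemma 7.2 (first assertion), from the general form and (7.3). -/
def St72a : Prop := InitialData 𝓜 g → o ∈ 𝓜.carrier → D.Harnack → D.UniformCharts → D.LocalCharts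

/-- Lemma 7.3 (only the initial metric). -/
def St73 (𝓜 : CMfd V (Fin n)) (g : HFam V (Fin n)) : Prop := InitialData 𝓜 g → StaticDistortion 𝓜 g

/-- Proposition 7.4, first half. -/
def St74a : Prop := InitialData 𝓜 g → o ∈ 𝓜.carrier → StJointPositivity D → D.Harnack → D.LocalCharts →
  StaticDistortion 𝓜 g → D.ClockFacts

/-- Proposition 7.4, second half. -/
def St74b : Prop := InitialData 𝓜 g → o ∈ 𝓜.carrier → D.Harnack → D.ClockFacts → D.Windows

/-- Proposition 7.5. -/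
def St75 : Prop := InitialData 𝓜 g → o ∈ 𝓜.carrier → D.Harnack → D.UniformCharts → D.ClockFacts → D.Windows →
  SimplyConn 𝓜

/-- Lemma 7.6 (only the initial metric). -/
def St76 (𝓜 : CMfd V (Fin n)) (g : HFam V (Fin n)) : Prop := InitialData 𝓜 g → PshLiouville 𝓜

end Statements

end Claimed.Agent.R316
end
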