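/- Packed by merge_tool.py (helper293): 3 modules of Claimed.Agent.R316 in one file, same declarations.
   Old modules, in this order: B8.Api, Base.RGeo.Api, Top.S8 -/
import Claimed.Agent.R316.B8.Bridge
import Claimed.Agent.R316.B8.SmDq
import Claimed.Agent.R316.Base.RGeo.Kahler
import Claimed.Agent.R316.Base.RGeo.Jac
import Claimed.Agent.R316.Pack015_2
import Claimed.Agent.R316.Pack016

/- ===== packed: Claimed.Agent.R316.B8.Api ===== -/
section
/-!
# B8 API (sub-captain helper263): `import Claimed.Agent.R316.B8.Api`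

Linear parabolic theory on `[0,T] × E`, `E` a finite dimensional real inner product space.  Definitions: `Defs.lean`.

| export | file | statements |
|---|---|---|
| E1 maximum principle | `MaxP.lean` | `touch`, `touch_op`, `strip_max`, `strip_sup_bound`, `strip_compare`, `strip_unique`, `strip_unique_dt` |
| E2 global Schauder | `Global.lean` | `schauder_global` (`short_apriori_init`) |
| E3 Cauchy problem | `Continuity.lean` | `cauchy_solve`, `cauchy_solve_bound` |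
| E4 local Schauder | `Local.lean` | `schauder_local` (`extend_adm`, `iter_lemma`) |
| E5 interpolation, time regularity | `Interp.lean` | `interp1`, `interp2`, `interp_jet`, `interp_jet_ball`, `XB.u_time`, `XB.D1_time`, `XB.D2_time`, `XB.jet_time`, `XB.D2_time_ball` |
| algebra of the classes | `Basic.lean`, `Cutoff.lean`, `CutProd.lean`, `Form.lean` | sums, products, cutoffs, `absorb`, `YB_Lop`, `exists_cutoff`, `exists_frame`, … |
| completeness | `Complete.lean` | `C21_tsum`, `X_complete`, `X_complete_Lop` |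
| smooth functions are in the classes | `Bridge.lean` | `C21_of_smooth`, `XB_of_smooth`, `YB_of_smooth`, `C2aB_of_smooth`, `Adm_of_smooth`, `exists_lam_of_pos` |
| heat equation | `HeatSolve.lean`, `Frozen.lean` | `heat_solve`, `heat_apriori`, `const_solve`, `const_apriori` |
| joint smoothness from partial derivatives | `Bridge.lean` | `hasFDerivWithinAt_of_partial`, `contDiffOn_succ_of_partial` |
| difference quotients (for the regularity theory in `B8M/Reg*`) | `SmDefs.lean`, `SmDq.lean` | `De`, `dq`; `dq_YB`, `dq_sub_De_le`, `dq_tendsto`, `jet_dq`, `C21.dq`, `XB.dq_finite`, `Lop_dq`, `dq_limit`, `De_jet` |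

EVERYTHING ABOVE IS SORRY-FREE.  (The linear `smooth => smooth` export E6 was dropped: it is a special case of `B8M/Reg*`.)
-/
end

/- ===== packed: Claimed.Agent.R316.Base.RGeo.Api ===== -/
section
/-!
# `BP-G1`: real Riemannian calculus in ONE chart: umbrella import

Architect: helper294.  `import Claimed.Agent.R316.Base.RGeo.Api` gives

* `Defs`   (helper97, frozen): `RGeo`, `IsRiem`, `nrm`, `covD`, `IsParallel`, `IsGeod`, `nabla`, `curv`, `secNum`, `length`, `energy`, `hess`, `pull`, `matGeo`, `kgeo`, ...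
* `Basic`  : `restr`, locality, Cauchy-Schwarz, compact bounds, `IsFrame`, `Γ_unique`, `ofMetric` (Koszul existence);
* `Cov`    : `covP` (covariant derivative along maps), product rule, torsion, curvature identity, symmetries, `ric`, Hessian calculus;
* `Pull`   : `IsIsom`, `IsRiem.pull`, `Γ_law`, naturality of everything;
* `Kahler` : `kgeo_isRiem`, transitions are `IsIsom`, `J` parallel, curvature bridge (`2 bisec`, `2 qf ricF`), bounds from `BK ≥ 0`, `levi` vs `hess`;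
* `Par`    : parallel transport, frames, elementary facts on geodesics;
* `Exp`    : `gfl`, `rexp`, `expDom`, geodesics = flow lines, uniqueness, Gauss lemma, uniformly normal neighbourhoods, calibration;
* `Jac`    : Jacobi fields, Rauch type bounds, bounds of `d rexp`.

The second variation of the energy is in `Base/SV/Var.lean` (`BP-G5`, helper154).
Every file that does arithmetic in `W →L[ℝ] W →L[ℝ] W →L[ℝ] _` needs `set_option maxSynthPendingDepth 3`.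
-/
end

/- ===== packed: Claimed.Agent.R316.Top.S8 ===== -/
section
/-!
# Row 316, top level: the interface Section 7 → Sections 8, 9 (`dynamics.tex`, `uniformization.tex`)

Owner: helper84.  Only definitions / statements, no `sorry`.

* `TransSystem n`: the part of Proposition 7.7 (`prop:shrinking-charts`), of Proposition 7.4 (`eq:dyn:rate-input`) and the rate order
  (8.3) (`eq:dyn:endpoint-rate-order`) which lives on `ℂⁿ`.  THIS IS THE ONLY INPUT OF SECTION 8 (`dynamics.tex`).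
* `ChartSystem 𝓜 g o`: a `TransSystem` together with the immersed charts `Φ_s`, the inverse branches `f_s` and the one metric
  comparison used in Section 9.  This is the only input of Section 9 besides `PolyModels`.
* `PMap n`, `PolyModels T d hw Cd`: Proposition 8.1 (`prop:polynomial-models`).
* `St77`, `St81`, `St9`: the three implications.

Clock: all objects are indexed by the volume clock `s ≥ s0`.  `τ s = log t(s)`, `q s = t R(o,t)`,
`Lam s` = matrix of `t Ric(h_t)` at `o` in the coordinates `Φ_s` (in which `h_{t(s)}(o) = 1`), column convention.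
With `L = jac (F s u) 0` one has: matrix of `h_{t(u)}(o)` in the coordinates `Φ_s` `= Lᴴ L`.
-/

set_option autoImplicit false
open scoped ContDiff ComplexOrder Topology
open MeasureTheory Filter

namespace Claimed.Agent.R316

/-! ### Polynomial maps of `ℂⁿ` -/

/-- polynomial self-map of `ℂⁿ`. -/
abbrev PMap (n : ℕ) := Fin n → MvPolynomial (Fin n) ℂ

namespace PMap

variable {n : ℕ}

/-- evaluation. -/
noncomputable def ev (P : PMap n) (z : CE (Fin n)) : CE (Fin n) :=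
  WithLp.toLp 2 fun i => MvPolynomial.eval (fun j => z j) (P i)

/-- degree. -/
def deg (P : PMap n) : ℕ := Finset.univ.sup fun i => (P i).totalDegree

/-- coefficient norm (`ℓ¹`). -/
noncomputable def cnorm (P : PMap n) : ℝ := ∑ i, ∑ m ∈ (P i).support, ‖(P i).coeff m‖

end PMap

/-- Transition germs of the shrinking charts with all their estimates: pure `ℂⁿ` data. -/
structure TransSystem (n : ℕ) where
  /-- radius of the common transition ball, common bound, first clock -/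
  r1 : ℝ
  Bst : ℝ
  s0 : ℝ
  /-- the common contraction exponent `σ` of (7.17) -/
  σ : ℝ
  /-- constants of (8.1): `q ≥ c0`, `λ_min ≥ b0 q(a0 s)` -/
  c0 : ℝ
  a0 : ℝ
  b0 : ℝ
  /-- constants of (7.19) -/
  cγ : ℝ
  γ0 : ℝ
  r1_pos : 0 < r1
  s0_ge : 1 ≤ s0
  σ_pos : 0 < σ
  c0_pos : 0 < c0
  a0_pos : 0 < a0
  a0_lt : a0 < 1
  b0_pos : 0 < b0
  cγ_pos : 0 < cγ
  γ0_pos : 0 < γ0
  /-- logarithmic time of the clock value `s` -/
  τ : ℝ → ℝ
  q : ℝ → ℝ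
  Lam : ℝ → Matrix (Fin n) (Fin n) ℂ
  τ_mono : StrictMonoOn τ (Set.Ici s0)
  q_mono : MonotoneOn q (Set.Ici 0)
  q_ge : ∀ s : ℝ, a0 * s0 ≤ s → c0 ≤ q s
  q_liminf : ∀ S : ℝ, ∃ s : ℝ, S ≤ s ∧ q s ≤ 2 * s
  Lam_herm : ∀ s : ℝ, s0 ≤ s → (Lam s).IsHermitian
  Lam_trace : ∀ s : ℝ, s0 ≤ s → (Lam s).trace = ((q s : ℝ) : ℂ)
  Lam_lower : ∀ s : ℝ, s0 ≤ s → leM (cI (b0 * q (a0 * s))) (Lam s)
  /-- the transition maps `F_{s,u} = Φ_u⁻¹ Φ_s`, `s0 ≤ s ≤ u` -/
  F : ℝ → ℝ → CE (Fin n) → CE (Fin n)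
  F_hol : ∀ s u : ℝ, s0 ≤ s → s ≤ u → DifferentiableOn ℂ (F s u) (Metric.ball 0 r1)
  F_bdd : ∀ s u : ℝ, s0 ≤ s → s ≤ u → ∀ z ∈ Metric.ball (0 : CE (Fin n)) r1, ‖F s u z‖ ≤ Bst
  F_zero : ∀ s u : ℝ, s0 ≤ s → s ≤ u → F s u 0 = 0
  F_nonsing : ∀ s u : ℝ, s0 ≤ s → s ≤ u → ∀ z ∈ Metric.ball (0 : CE (Fin n)) r1, (jac (F s u) z).det ≠ 0
  F_refl : ∀ s : ℝ, s0 ≤ s → Set.EqOn (F s s) id (Metric.ball 0 r1)
  /-- they compose as germs -/
  F_comp : ∀ s u w : ℝ, s0 ≤ s → s ≤ u → u ≤ w → ∀ᶠ z in 𝓝 (0 : CE (Fin n)), F s w z = F u w (F s u z)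
  /-- (7.16) -/
  F_norm : ∀ s u : ℝ, s0 ≤ s → s ≤ u → ‖fderiv ℂ (F s u) 0‖ ≤ 1
  F_det : ∀ s u : ℝ, s0 ≤ s → s ≤ u → ‖(jac (F s u) 0).det‖ = Real.exp (-((u - s) / 2))
  /-- (7.18) jets: the Taylor polynomial `J` of degree `≤ d` of `F_{s,u}` at `0` satisfies `|J| ≤ C_d min{1, e^{C_d s - σ u}}`
  (no iterated derivatives: `J` is characterised by `F_{s,u} - J = O(|z|^{d+1})`) -/
  F_jets : ∀ d : ℕ, ∃ Cd sd : ℝ, ∀ s u : ℝ, sd ≤ s → s ≤ u → ∃ J : PMap n, J.deg ≤ d ∧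
    J.cnorm ≤ Cd * min 1 (Real.exp (Cd * s - σ * u)) ∧
    (fun z => F s u z - J.ev z) =O[𝓝 0] fun z => ‖z‖ ^ (d + 1)
  /-- (7.19) small balls -/
  F_small : ∀ γ : ℝ, 0 < γ → γ ≤ γ0 → ∃ sγ : ℝ, ∀ s u : ℝ, sγ ≤ s → s ≤ u →
    ∀ z : CE (Fin n), ‖z‖ ≤ Real.exp (-(γ * s)) → ‖F s u z‖ ≤ Real.exp (-(cγ * γ * u))
  /-- (8.3) rate order, for EVERY singular value decomposition `F'_{s,u}(0) = W diag(e^{-μ_i T/2}) Vᴴ`, `T = τ u - τ s` -/
  rate_order : ∀ s u : ℝ, s0 ≤ s → s < u → ∀ (Vm Wm : Matrix (Fin n) (Fin n) ℂ) (μ : Fin n → ℝ),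
    Vm ∈ Matrix.unitaryGroup (Fin n) ℂ → Wm ∈ Matrix.unitaryGroup (Fin n) ℂ →
    jac (F s u) 0 =
      Wm * Matrix.diagonal (fun i => ((Real.exp (-(μ i * (τ u - τ s) / 2)) : ℝ) : ℂ)) * Vm.conjTranspose →
    leM (Lam s) (Vm * Matrix.diagonal (fun i => ((μ i : ℝ) : ℂ)) * Vm.conjTranspose) ∧
    leM (Wm * Matrix.diagonal (fun i => ((μ i : ℝ) : ℂ)) * Wm.conjTranspose) (Lam u)

variable {V : Type} [NormedAddCommGroup V] [NormedSpace ℝ V]
variable {n : ℕ}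

/-- **Proposition 7.7** (`prop:shrinking-charts`) + the consequences of Proposition 7.4 used in Sections 8 and 9. -/
structure ChartSystem (𝓜 : CMfd V (Fin n)) (g : HFam V (Fin n)) (o : V) extends TransSystem n where
  r0 : ℝ
  C0 : ℝ
  r1_lt : r1 < r0
  /-- the immersed charts -/
  Φ : ℝ → CE (Fin n) → V
  Φ_loc : ∀ s : ℝ, s0 ≤ s → IsLocBihol 𝓜 (Φ s) (Metric.ball 0 r0)
  Φ_zero : ∀ s : ℝ, s0 ≤ s → Φ s 0 = o
  F_maps : ∀ s u : ℝ, s0 ≤ s → s ≤ u → Set.MapsTo (F s u) (Metric.ball 0 r1) (Metric.ball 0 r0)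
  Φ_F : ∀ s u : ℝ, s0 ≤ s → s ≤ u → ∀ z ∈ Metric.ball (0 : CE (Fin n)) r1, Φ u (F s u z) = Φ s z
  /-- (7.10) + (7.15): `Φ_s^* g ≤ e^{2s} Φ_s^* h_{t(s)} ≤ C e^{2s}` over a compact set -/
  g_bound : ∀ K : Set V, IsCompact K → K ⊆ 𝓜.carrier → ∃ sK : ℝ, ∀ s : ℝ, sK ≤ s →
    ∀ z ∈ Metric.ball (0 : CE (Fin n)) r0, Φ s z ∈ K → leM (g (Φ s) z) (cI (C0 * Real.exp (2 * s)))
  /-- domains (open in `V`) of the inverse branches; they exhaust `M` -/
  Dom : ℝ → Set V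
  Dom_open : ∀ s : ℝ, IsOpen (Dom s)
  Dom_exh : ∀ K : Set V, IsCompact K → K ⊆ 𝓜.carrier → ∃ sK : ℝ, ∀ s : ℝ, sK ≤ s → K ⊆ Dom s
  /-- the coherent inverse branches -/
  f : ℝ → V → CE (Fin n)
  f_hol : ∀ s : ℝ, s0 ≤ s → 𝓜.HolTo (Dom s) (f s)
  f_maps : ∀ s : ℝ, s0 ≤ s → ∀ x ∈ 𝓜.carrier ∩ Dom s, f s x ∈ Metric.ball (0 : CE (Fin n)) r0
  Φ_f : ∀ s : ℝ, s0 ≤ s → ∀ x ∈ 𝓜.carrier ∩ Dom s, Φ s (f s x) = x
  o_mem : ∀ s : ℝ, s0 ≤ s → o ∈ Dom s
  f_o : ∀ s : ℝ, s0 ≤ s → f s o = 0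
  /-- `f_u = F_{s,u} ∘ f_s` on compact sets, eventually -/
  f_coh : ∀ K : Set V, IsCompact K → K ⊆ 𝓜.carrier → ∃ sK : ℝ, ∀ s u : ℝ, sK ≤ s → s ≤ u → ∀ x ∈ K,
    f s x ∈ Metric.ball (0 : CE (Fin n)) r1 ∧ f u x = F s u (f s x)
  /-- (7.17) the common exponent -/
  f_small : ∀ K : Set V, IsCompact K → K ⊆ 𝓜.carrier → ∃ sK : ℝ, ∀ s : ℝ, sK ≤ s → ∀ x ∈ K,
    ‖f s x‖ ≤ Real.exp (-(σ * s))

/-- **Proposition 8.1** (`prop:polynomial-models`) for jet order `d`, macro width `hw`; `Cd` is the constant of (8.6), which must not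
depend on `hw` (see `St81`). -/
structure PolyModels (T : TransSystem n) (d : ℕ) (hw Cd : ℝ) where
  /-- the grid -/
  s : ℕ → ℝ
  s_ge : ∀ k, T.s0 ≤ s k
  s_tendsto : Tendsto s atTop atTop
  ch : ℝ
  ch_pos : 0 < ch
  /-- (8.4) -/
  step_lower : ∀ k, ch * Real.sqrt (s k) ≤ s (k + 1) - s k
  step_upper : ∀ k, s (k + 1) - s k ≤ (Real.exp hw - 1) * s k
  /-- coordinate changes `H_k`, polynomial automorphisms `G_k` with inverses -/
  H : ℕ → PMap n
  G : ℕ → PMap n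
  Ginv : ℕ → PMap n
  H_zero : ∀ k, (H k).ev 0 = 0
  G_zero : ∀ k, (G k).ev 0 = 0
  G_left : ∀ k z, (Ginv k).ev ((G k).ev z) = z
  G_right : ∀ k z, (G k).ev ((Ginv k).ev z) = z
  /-- (8.5) jet conjugacy, in the form `H_{k+1} F_k - G_k H_k = O(|z|^{d+1})` -/
  jets : ∀ k, (fun z => (H (k + 1)).ev (T.F (s k) (s (k + 1)) z) - (G k).ev ((H k).ev z)) =O[𝓝 0]
    fun z => ‖z‖ ^ (d + 1)
  /-- bounded degrees -/
  Dg : ℕ
  deg_le : ∀ k, (H k).deg ≤ Dg ∧ (G k).deg ≤ Dg ∧ (Ginv k).deg ≤ Dg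
  /-- the `o(s_k)` -/
  η : ℕ → ℝ
  η_tendsto : Tendsto η atTop (𝓝 0)
  Cp : ℝ
  H_coeff : ∀ k, (H k).cnorm ≤ Real.exp (η k * s k)
  H_lin : ∀ k, ∀ v : CE (Fin n), ‖fderiv ℂ (H k).ev 0 v‖ ≤ s k ^ Cp * ‖v‖
  H_lin_inv : ∀ k, ∀ v : CE (Fin n), ‖v‖ ≤ s k ^ Cp * ‖fderiv ℂ (H k).ev 0 v‖
  /-- (8.6) -/
  G_coeff : ∀ k, (G k).cnorm + (Ginv k).cnorm ≤ Real.exp (Cd * (s (k + 1) - s k) + η k * s k)
  /-- (8.7) -/
  G_lin_inv : ∀ k, ∀ v : CE (Fin n), ‖v‖ ≤ s k ^ Cp * Real.exp ((s (k + 1) - s k) / 2) * ‖fderiv ℂ (G k).ev 0 v‖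
  /-- (8.8) forward degrees on an unbounded subsequence: `G_{0,k} = G_{k-1} ∘ ⋯ ∘ G_0` is a polynomial map of degree `≤ D s_k` -/
  Dfw : ℝ
  fw_deg : ∀ K : ℕ, ∃ k, K ≤ k ∧ ∃ P : PMap n, (P.deg : ℝ) ≤ Dfw * s k ∧
    ∀ z, P.ev z = (List.range k).foldl (fun y i => (G i).ev y) z

/-! ### STATEMENTS -/

/-- Proposition 8.1: `C_d` is chosen before the macro width. -/
def St81 (T : TransSystem n) : Prop :=
  0 < n → ∀ d : ℕ, 2 ≤ d → ∃ Cd : ℝ, ∀ hw : ℝ, 0 < hw → hw < 1 → Nonempty (PolyModels T d hw Cd)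

/-- Section 9 (Lemma 9.1, Proposition 9.2, proof of Theorem 1.1). -/
def St9 (𝓜 : CMfd V (Fin n)) (g : HFam V (Fin n)) (o : V) : Prop :=
  InitialData 𝓜 g → o ∈ 𝓜.carrier → ∀ S : ChartSystem 𝓜 g o, St81 S.toTransSystem →
    ∃ Ψ : V → CE (Fin n), IsBiholToCn 𝓜 Ψ

variable [MeasurableSpace V] [BorelSpace V]

/-- Proposition 7.7 (+ rate order (8.3), which uses joint positivity at `o`). -/
def St77 {𝓜 : CMfd V (Fin n)} {g : HFam V (Fin n)} {o : V} (D : FlowData 𝓜 g o) : Prop :=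
  InitialData 𝓜 g → o ∈ 𝓜.carrier → StJointPositivity D → D.Harnack → D.LocalCharts → D.ClockFacts →
    SimplyConn 𝓜 → PshLiouville 𝓜 → Nonempty (ChartSystem 𝓜 g o)

end Claimed.Agent.R316
end
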