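/- Packed by merge_tool.py (helper293): 5 modules of Claimed.Agent.R316 in one file, same declarations.
   Old modules, in this order: B8M.Defs, SCV.Basic, Base.ODE.Hol, Base.ODE.Api, B6E.Moll -/
import Claimed.Agent.R316.Base.ODE.Flow
import Claimed.Agent.R316.Base.ODE.Linear
import Claimed.Agent.R316.Base.ODE.Spray
import Mathlib
import Claimed.Agent.R316.Pack001
import Claimed.Agent.R316.Pack007

/- ===== packed: Claimed.Agent.R316.B8M.Defs ===== -/
section
/-!
# Row 316, package B8M (sub-captain helper111): parabolic theory on manifolds of bounded geometry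

No boundary, no Riemannian distance, no Sobolev spaces.  Everything is done in a UNIFORMLY LOCALLY FINITE ATLAS
`A : UAtlas V E` (`E` a finite dimensional real inner product space, `CE (Fin n)` in the applications) on top of the
whole space theory of package B8 (`R316/B8/`, helper263; same conventions: curried, time first, explicit time
derivative `ut`, norms are predicates with explicit constants, operators are fields of functionals on 2-jets).

* `A.X ⊆ V` the manifold; `A.Φ i : E → V` the charts, used on `ball 0 3`; the balls `ball 0 1` cover;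
  `A.tr i j = (Φ j)⁻¹ ∘ Φ i` on `A.dom i j`; all derivatives of the transitions are bounded (`A.Cτ k`);
  at most `A.N` charts meet a given one (`A.nb i`); `A.margin`: a point whose image lies in `closedBall 0 (5/2)` of
  chart `j` has a whole `μ`-neighbourhood (inside `ball 0 3`) in `A.dom i j`.
* functions on the manifold are functions on `V` (junk off `A.X`): `u : ℝ → V → ℝ`; `A.rep i u t z = u t (Φ i z)`.
* norms on the manifold = sup over ALL charts of the B8 predicates ON `ball 0 3`: `A.YM`, `A.XM`, `A.C21M`, `A.C2aM`.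
* a linear operator on the manifold is a family `P : A.ι → Op E` with `A.CompatL I P` (transformation law of 2-jets,
  `pullJ`), a nonlinear one a family `F : A.ι → ℝ → E → Jet E → ℝ` with `A.CompatN I δ F` (only for jets of norm `< δ`).
* `SmB Q g C`: `g` is smooth on `Q` and its `k`-th derivative (within `Q`) is bounded by `C k`.  Used on `ball 0 3 ⊆ E`,
  `I ×ˢ ball 0 3 ⊆ ℝ × E` and `I ×ˢ ball 0 3 ×ˢ ball 0 δ ⊆ ℝ × E × Jet E`.

PLAN OF THE PACKAGE (files of `R316/B8M/`):
`Atlas` (M1: `BddGeom ⇒ UAtlas`), `Trans` (M2: transfer of the classes between charts, push-forward of compactly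
supported functions, locally finite sums, partition of unity), `MaxP` (M3: maximum principle for bounded functions),
`Param`, `LinSolve` (M4, M5: parametrix, Neumann series, time stepping), `NLCalc`, `Short` (M6: short time existence for
fully nonlinear equations), `Reg*` (M7: local regularity, purely in a ball of `E`), `Cont` (M8: continuation),
`Quasi` (M9), `Export` (M10: statements on `CMfd`).
-/

set_option autoImplicit false
set_option maxSynthPendingDepth 3

open scoped Topology ContDiff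
open Set Filter Metric

namespace Claimed.Agent.R316.B8M

open Claimed.Agent.R316.B8

section Atlas

variable {V E : Type} [NormedAddCommGroup V] [NormedSpace ℝ V]
  [NormedAddCommGroup E] [NormedSpace ℝ E]

/-- the domain of the transition from chart `i` to chart `j`. -/
def domOf {ι : Type} (Φ : ι → E → V) (i j : ι) : Set E :=
  {z | z ∈ ball (0 : E) 3 ∧ Φ i z ∈ Φ j '' ball (0 : E) 3}

variable (V E) in
/-- a uniformly locally finite atlas with uniformly bounded transitions. -/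
structure UAtlas where
  /-- the manifold -/
  X : Set V
  /-- index set of the charts -/
  ι : Type
  /-- the charts (parametrisations), used on `ball 0 3` -/
  Φ : ι → E → V
  /-- the transitions `(Φ j)⁻¹ ∘ Φ i` -/
  tr : ι → ι → E → E
  /-- the neighbours of a chart -/
  nb : ι → Finset ι
  /-- overlap bound -/
  N : ℕ
  /-- margin -/
  μ : ℝ
  /-- bounds of the derivatives of the transitions -/
  Cτ : ℕ → ℝ
  maps : ∀ i, MapsTo (Φ i) (ball 0 3) X
  inj : ∀ i, InjOn (Φ i) (ball 0 3)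
  cont : ∀ i, ContinuousOn (Φ i) (ball 0 3)
  cover : ∀ x ∈ X, ∃ i, ∃ z ∈ ball (0 : E) 1, Φ i z = x
  tr_mem : ∀ i j, ∀ z ∈ domOf Φ i j, tr i j z ∈ ball (0 : E) 3
  tr_eq : ∀ i j, ∀ z ∈ domOf Φ i j, Φ j (tr i j z) = Φ i z
  dom_open : ∀ i j, IsOpen (domOf Φ i j)
  tr_smooth : ∀ i j, ContDiffOn ℝ ∞ (tr i j) (domOf Φ i j)
  tr_bound : ∀ i j k, ∀ z ∈ domOf Φ i j, ‖iteratedFDeriv ℝ k (tr i j) z‖ ≤ Cτ k
  nb_card : ∀ i, (nb i).card ≤ N
  mem_nb : ∀ i j, (domOf Φ i j).Nonempty → j ∈ nb i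
  μ_pos : 0 < μ
  margin : ∀ i j, ∀ z ∈ domOf Φ i j, ‖tr i j z‖ ≤ 5 / 2 → ∀ z' ∈ ball (0 : E) 3, ‖z' - z‖ < μ →
    z' ∈ domOf Φ i j

namespace UAtlas

variable (A : UAtlas V E)

/-- the domain of `A.tr i j`. -/
def dom (i j : A.ι) : Set E := domOf A.Φ i j

/-- representation of a (time dependent) function in the chart `i`. -/
def rep {G : Type*} (i : A.ι) (u : ℝ → V → G) : ℝ → E → G := fun t z => u t (A.Φ i z)

/-- representation of a time independent function in the chart `i`. -/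
def rep0 {G : Type*} (i : A.ι) (g : V → G) : E → G := fun z => g (A.Φ i z)

open Classical in
/-- push-forward of a function given in the chart `j` (meant to vanish outside `closedBall 0 (5/2)`), extended by `0`. -/
noncomputable def push (j : A.ι) (w : ℝ → E → ℝ) : ℝ → V → ℝ := fun t x =>
  if x ∈ A.Φ j '' ball (0 : E) 3 then w t (Function.invFunOn (A.Φ j) (ball (0 : E) 3) x) else 0

open Classical in
/-- the function on the manifold with the chart representations `g i` (meaningful if `A.Compat I g`): evaluate in a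
chosen chart with `x ∈ Φ i (ball 0 1)`. -/
noncomputable def glue {G : Type*} [Zero G] (g : A.ι → ℝ → E → G) : ℝ → V → G := fun t x =>
  if h : x ∈ A.X then g (A.cover x h).choose t (A.cover x h).choose_spec.choose else 0

/-- a family of chart functions is compatible (= comes from a function on the manifold). -/
def Compat {G : Type*} (I : Set ℝ) (g : A.ι → ℝ → E → G) : Prop :=
  ∀ i j, ∀ t ∈ I, ∀ z ∈ A.dom i j, g i t z = g j t (A.tr i j z)

/-! ### the classes on the manifold -/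

/-- `f ∈ Y(I × X)` with norm `≤ K`. -/
def YM (α : ℝ) (I : Set ℝ) (f : ℝ → V → ℝ) (K : ℝ) : Prop :=
  ∀ i, YB α I (ball (0 : E) 3) (A.rep i f) K

/-- `u ∈ C^{2,1}(I × X)` with time derivative `ut`. -/
def C21M (I : Set ℝ) (u ut : ℝ → V → ℝ) : Prop :=
  ∀ i, C21 I (ball (0 : E) 3) (A.rep i u) (A.rep i ut)

/-- `u ∈ X(I × X)` with norm `≤ K`. -/
def XM (α : ℝ) (I : Set ℝ) (u ut : ℝ → V → ℝ) (K : ℝ) : Prop :=
  ∀ i, XB α I (ball (0 : E) 3) (A.rep i u) (A.rep i ut) K

/-- `|g|_{2+α;X} ≤ K`. -/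
def C2aM (α : ℝ) (g : V → ℝ) (K : ℝ) : Prop :=
  ∀ i, C2aB α (ball (0 : E) 3) (A.rep0 i g) K

end UAtlas

/-! ### transformation of 2-jets -/

/-- the 2-jet of `w ∘ τ` at `z` in terms of the 2-jet `J` of `w` at `τ z`, `L = Dτ(z)`, `Q = D²τ(z)`:
`(a, p, H) ↦ (a, p ∘ L, H(L·,L·) + p(Q(·,·)))`. -/
noncomputable def pullJ (L : E →L[ℝ] E) (Q : E →L[ℝ] E →L[ℝ] E) (J : Jet E) : Jet E :=
  (J.1, J.2.1 ∘L L, J.2.2.bilinearComp L L + (ContinuousLinearMap.compL ℝ E E ℝ J.2.1) ∘L Q)

namespace UAtlas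

variable (A : UAtlas V E)

/-- pull back of a 2-jet at `A.tr i j z` (chart `j`) to a 2-jet at `z` (chart `i`). -/
noncomputable def pull (i j : A.ι) (z : E) (J : Jet E) : Jet E :=
  pullJ (fderiv ℝ (A.tr i j) z) (fderiv ℝ (fderiv ℝ (A.tr i j)) z) J

/-- the family `P i` of chart operators is a linear operator on the manifold. -/
def CompatL (I : Set ℝ) (P : A.ι → Op E) : Prop :=
  ∀ i j, ∀ t ∈ I, ∀ z ∈ A.dom i j, ∀ J : Jet E, P i t z (A.pull i j z J) = P j t (A.tr i j z) J

/-- the family `F i` of chart nonlinearities is a nonlinear operator on the manifold, as far as jets of norm `< δ` (in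
both charts) are concerned. -/
def CompatN (I : Set ℝ) (δ : ℝ) (F : A.ι → ℝ → E → Jet E → ℝ) : Prop :=
  ∀ i j, ∀ t ∈ I, ∀ z ∈ A.dom i j, ∀ J : Jet E, ‖J‖ < δ → ‖A.pull i j z J‖ < δ →
    F i t z (A.pull i j z J) = F j t (A.tr i j z) J

/-- `u_t - P(jet u) = f` on `I × X`. -/
def SolL (I : Set ℝ) (P : A.ι → Op E) (u ut f : ℝ → V → ℝ) : Prop :=
  ∀ i, ∀ t ∈ I, ∀ z ∈ ball (0 : E) 3, Lop (P i) (A.rep i u) (A.rep i ut) t z = A.rep i f t z

/-- `u_t = F(t, x, jet u)` on `I × X`. -/
def SolN (I : Set ℝ) (F : A.ι → ℝ → E → Jet E → ℝ) (u ut : ℝ → V → ℝ) : Prop :=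
  ∀ i, ∀ t ∈ I, ∀ z ∈ ball (0 : E) 3, A.rep i ut t z = F i t z (jet (A.rep i u) t z)

/-- all chart jets of `u` have norm `≤ ρ`. -/
def JetLe (I : Set ℝ) (u : ℝ → V → ℝ) (ρ : ℝ) : Prop :=
  ∀ i, ∀ t ∈ I, ∀ z ∈ ball (0 : E) 3, ‖jet (A.rep i u) t z‖ ≤ ρ

end UAtlas

end Atlas

/-! ### smooth functions with bounded derivatives -/

section Smooth

variable {W G : Type*} [NormedAddCommGroup W] [NormedSpace ℝ W] [NormedAddCommGroup G] [NormedSpace ℝ G]

/-- `g` is smooth on `Q` (one sided where `Q` has a boundary) and its `k`-th derivative is bounded by `C k`. -/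
structure SmB (Q : Set W) (g : W → G) (C : ℕ → ℝ) : Prop where
  smooth : ContDiffOn ℝ ∞ g Q
  bdd : ∀ k, ∀ q ∈ Q, ‖iteratedFDerivWithin ℝ k g Q q‖ ≤ C k

end Smooth

section SmoothM

variable {V E : Type} [NormedAddCommGroup V] [NormedSpace ℝ V]
  [NormedAddCommGroup E] [NormedSpace ℝ E]

namespace UAtlas

variable (A : UAtlas V E)

/-- smooth function on the manifold, all derivatives bounded in the charts of the atlas. -/
def SmM (g : V → ℝ) (C : ℕ → ℝ) : Prop := ∀ i, SmB (ball (0 : E) 3) (A.rep0 i g) C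

/-- smooth function on `I × X`, all space-time derivatives bounded in the charts of the atlas. -/
def SmST (I : Set ℝ) (u : ℝ → V → ℝ) (C : ℕ → ℝ) : Prop :=
  ∀ i, SmB (I ×ˢ ball (0 : E) 3) (fun q : ℝ × E => u q.1 (A.Φ i q.2)) C

/-- smooth linear operator on `I × X`, all derivatives of the coefficients bounded. -/
def SmL (I : Set ℝ) (P : A.ι → Op E) (C : ℕ → ℝ) : Prop :=
  ∀ i, SmB (I ×ˢ ball (0 : E) 3) (fun q : ℝ × E => P i q.1 q.2) C

/-- smooth nonlinear operator on the `δ`-tube around the zero jet, all derivatives bounded. -/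
def SmN (I : Set ℝ) (δ : ℝ) (F : A.ι → ℝ → E → Jet E → ℝ) (C : ℕ → ℝ) : Prop :=
  ∀ i, SmB (I ×ˢ ball (0 : E) 3 ×ˢ ball (0 : Jet E) δ)
    (fun q : ℝ × E × Jet E => F i q.1 q.2.1 q.2.2) C

/-- uniform parabolicity of a linear operator. -/
def EllL (I : Set ℝ) (lam : ℝ) (P : A.ι → Op E) : Prop :=
  ∀ i, ∀ t ∈ I, ∀ z ∈ ball (0 : E) 3, ∀ ξ : E →L[ℝ] ℝ, lam * ‖ξ‖ ^ 2 ≤ P i t z (topJ (sqB ξ))

/-- uniform parabolicity of a nonlinear operator on the `δ`-tube. -/
def EllN (I : Set ℝ) (δ lam : ℝ) (F : A.ι → ℝ → E → Jet E → ℝ) : Prop :=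
  ∀ i, ∀ t ∈ I, ∀ z ∈ ball (0 : E) 3, ∀ J ∈ ball (0 : Jet E) δ, ∀ ξ : E →L[ℝ] ℝ,
    lam * ‖ξ‖ ^ 2 ≤ fderiv ℝ (F i t z) J (topJ (sqB ξ))

/-- admissible linear operator in the Hölder setting. -/
def AdmM (I : Set ℝ) (α γ lam M : ℝ) (P : A.ι → Op E) : Prop :=
  ∀ i, Adm (P i) α γ lam M I (ball (0 : E) 3)

/-- bounded, degenerate elliptic (enough for the maximum principle). -/
def BddM (I : Set ℝ) (M : ℝ) (P : A.ι → Op E) : Prop :=
  ∀ i, Bdd (P i) M I (ball (0 : E) 3)

end UAtlas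

end SmoothM

end Claimed.Agent.R316.B8M
end

/- ===== packed: Claimed.Agent.R316.SCV.Basic ===== -/
section
/-!
# Row 316, SCV: holomorphic maps of several variables by restriction to complex lines

Owner: helper84 (statements).  Everything here is PAPER FREE.  `E`, `F` are finite dimensional complex normed spaces
(`CE ι`, `ℂ`, `E →L[ℂ] F`, ...).  "Holomorphic on `U`" is `DifferentiableOn ℂ f U`, `U` open.
Mathlib knows "holomorphic ⟹ analytic" only for functions of ONE variable; `CW/HolSmooth.lean` (helper16, sorry free) gives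
`hs_line_hasDerivAt`, `hs_norm_fderiv_le` (Cauchy estimate on closed balls), `hol_differentiableOn_fderiv`, `hol_contDiffOn`.

All proofs: restrict to the complex line `t ↦ c + t • v` and use the one variable theory of Mathlib
(`Complex.norm_deriv_le_of_forall_mem_sphere_norm_le`, removable singularities, maximum modulus
`Complex.norm_le_of_forall_mem_frontier_norm_le`, `AnalyticOnNhd.eqOn_of_preconnected_of_eventuallyEq`, ...).

Leaves: SCV-A (`scv_norm_fderiv_le`, `scv_lipschitz`, `scv_schwarz_pow`, `scv_schwarz`, `scv_schwarz_two`, `scv_norm_sub_lin_le`,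
`scv_norm_fderiv_sub_le`), SCV-B (`scv_eqOn_ball`, `scv_eqOn_of_preconnected`, `scv_differentiableOn_of_tendstoLocallyUniformlyOn`, `scv_differentiableOn_of_tendstoUniformlyOn`),
SCV-C (`scv_hasStrictFDerivAt`, `scv_image_mem_nhds`, `scv_isOpen_image`, `scv_exists_preimage`).
-/

set_option autoImplicit false
set_option linter.unusedSectionVars false
open scoped ContDiff ComplexOrder Topology
open Filter

namespace Claimed.Agent.R316

variable {E F : Type} [NormedAddCommGroup E] [NormedSpace ℂ E] [FiniteDimensional ℂ E]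
  [NormedAddCommGroup F] [NormedSpace ℂ F] [FiniteDimensional ℂ F]

/-! ### SCV-A: Cauchy and Schwarz -/

/-- Cauchy estimate on an OPEN ball. -/
theorem scv_norm_fderiv_le {f : E → F} {c : E} {r M : ℝ} (hr : 0 < r)
    (hf : DifferentiableOn ℂ f (Metric.ball c r)) (hM : ∀ z ∈ Metric.ball c r, ‖f z‖ ≤ M) :
    ‖fderiv ℂ f c‖ ≤ M / r := by
  have hM0 : 0 ≤ M := (norm_nonneg _).trans (hM c (Metric.mem_ball_self hr))
  have h1 : ∀ ρ : ℝ, 0 < ρ → ρ < r → ‖fderiv ℂ f c‖ * ρ ≤ M := by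
    intro ρ hρ hρr
    have hsub : Metric.closedBall c ρ ⊆ Metric.ball c r := Metric.closedBall_subset_ball hρr
    have := hs_norm_fderiv_le (τ := f) (w := c) hρ
      (fun y hy => (hf y (hsub hy)).differentiableAt (Metric.isOpen_ball.mem_nhds (hsub hy)))
      (fun y hy => hM y (hsub hy))
    rwa [le_div_iff₀ hρ] at this
  rw [le_div_iff₀ hr]
  have ht : Tendsto (fun ρ : ℝ => ‖fderiv ℂ f c‖ * ρ) (𝓝[<] r) (𝓝 (‖fderiv ℂ f c‖ * r)) :=
    ((continuous_const.mul continuous_id).tendsto r).mono_left nhdsWithin_le_nhds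
  refine le_of_tendsto ht ?_
  filter_upwards [Ioo_mem_nhdsLT hr] with ρ hρ
  exact h1 ρ hρ.1 hρ.2

/-- a bounded holomorphic map on `ball c r` is `M / (r - ρ)`-Lipschitz on `closedBall c ρ`, `ρ < r`. -/
theorem scv_lipschitz {f : E → F} {c : E} {r ρ M : ℝ} (hρ : ρ < r)
    (hf : DifferentiableOn ℂ f (Metric.ball c r)) (hM : ∀ z ∈ Metric.ball c r, ‖f z‖ ≤ M) :
    ∀ z ∈ Metric.closedBall c ρ, ∀ w ∈ Metric.closedBall c ρ, ‖f z - f w‖ ≤ M / (r - ρ) * ‖z - w‖ := by
  intro z hz w hw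
  have hsub : Metric.closedBall c ρ ⊆ Metric.ball c r := Metric.closedBall_subset_ball hρ
  have hd : ∀ y ∈ Metric.closedBall c ρ, DifferentiableAt ℂ f y := fun y hy =>
    (hf y (hsub hy)).differentiableAt (Metric.isOpen_ball.mem_nhds (hsub hy))
  have hb : ∀ y ∈ Metric.closedBall c ρ, ‖fderiv ℂ f y‖ ≤ M / (r - ρ) := by
    intro y hy
    have hs2 : Metric.ball y (r - ρ) ⊆ Metric.ball c r := by
      intro x hx
      rw [Metric.mem_ball] at hx ⊢
      rw [Metric.mem_closedBall] at hy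
      have := dist_triangle x y c
      linarith
    exact scv_norm_fderiv_le (by linarith) (hf.mono hs2) (fun x hx => hM x (hs2 hx))
  exact (convex_closedBall c ρ).norm_image_sub_le_of_norm_fderiv_le (𝕜 := ℂ) hd hb hw hz

/-- **Schwarz lemma of order `m`**: a holomorphic map bounded by `M` on `ball 0 r` which is `O(|z|^m)` at `0` satisfies
`|f z| ≤ M (|z|/r)^m`. -/
theorem scv_schwarz_pow {f : E → F} {r M : ℝ} {m : ℕ} (hr : 0 < r)
    (hf : DifferentiableOn ℂ f (Metric.ball 0 r)) (hM : ∀ z ∈ Metric.ball (0 : E) r, ‖f z‖ ≤ M)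
    (h0 : f =O[𝓝 0] fun z => ‖z‖ ^ m) :
    ∀ z ∈ Metric.ball (0 : E) r, ‖f z‖ ≤ M * (‖z‖ / r) ^ m := by
  intro z hz
  cases m with
  | zero => simpa using hM z hz
  | succ n =>
    have hf0 : f 0 = 0 := by
      obtain ⟨C, hC⟩ := h0.bound
      have := hC.self_of_nhds
      simpa using this
    have hmaps : Set.MapsTo f (Metric.ball 0 r) (Metric.closedBall (f 0) M) := by
      intro x hx
      rw [hf0, mem_closedBall_zero_iff]
      exact hM x hx
    have hlo : (f · - f 0) =o[𝓝 0] (fun w : E => ‖w - 0‖ ^ n) := by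
      simp only [hf0, sub_zero]
      exact h0.trans_isLittleO (Asymptotics.isLittleO_norm_pow_norm_pow (Nat.lt_succ_self n))
    have := Complex.dist_le_mul_div_pow_of_mapsTo_ball_of_isLittleO hf hmaps hlo hz
    simpa [hf0] using this

/-- order one. -/
theorem scv_schwarz {f : E → F} {r M : ℝ} (hr : 0 < r)
    (hf : DifferentiableOn ℂ f (Metric.ball 0 r)) (hM : ∀ z ∈ Metric.ball (0 : E) r, ‖f z‖ ≤ M)
    (h0 : f 0 = 0) : ∀ z ∈ Metric.ball (0 : E) r, ‖f z‖ ≤ M * (‖z‖ / r) := by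
  intro z hz
  have hmaps : Set.MapsTo f (Metric.ball 0 r) (Metric.closedBall (f 0) M) := by
    intro x hx
    rw [h0, mem_closedBall_zero_iff]
    exact hM x hx
  have := Complex.dist_le_div_mul_dist_of_mapsTo_ball hf hmaps hz
  rw [h0, dist_zero_right, dist_zero_right] at this
  calc ‖f z‖ ≤ M / r * ‖z‖ := this
    _ = M * (‖z‖ / r) := by ring

/-- order two. -/
theorem scv_schwarz_two {f : E → F} {r M : ℝ} (hr : 0 < r)
    (hf : DifferentiableOn ℂ f (Metric.ball 0 r)) (hM : ∀ z ∈ Metric.ball (0 : E) r, ‖f z‖ ≤ M)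
    (h0 : f 0 = 0) (h1 : fderiv ℂ f 0 = 0) : ∀ z ∈ Metric.ball (0 : E) r, ‖f z‖ ≤ M * (‖z‖ / r) ^ 2 := by
  intro z hz
  have hmaps : Set.MapsTo f (Metric.ball 0 r) (Metric.closedBall (f 0) M) := by
    intro x hx
    rw [h0, mem_closedBall_zero_iff]
    exact hM x hx
  have hd : HasFDerivAt f (0 : E →L[ℂ] F) 0 := by
    rw [← h1]
    exact ((hf 0 (Metric.mem_ball_self hr)).differentiableAt
      (Metric.isOpen_ball.mem_nhds (Metric.mem_ball_self hr))).hasFDerivAt
  have hlo : (f · - f 0) =o[𝓝 0] (fun w : E => ‖w - 0‖ ^ 1) := by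
    have := hd.isLittleO
    simp only [zero_apply, sub_zero, pow_one] at this ⊢
    exact this.norm_right
  have := Complex.dist_le_mul_div_pow_of_mapsTo_ball_of_isLittleO hf hmaps hlo hz
  simpa [h0] using this

/-- quadratic remainder: `|f z - f 0 - f'(0) z| ≤ 3 M (|z|/r)²`. -/
theorem scv_norm_sub_lin_le {f : E → F} {r M : ℝ} (hr : 0 < r)
    (hf : DifferentiableOn ℂ f (Metric.ball 0 r)) (hM : ∀ z ∈ Metric.ball (0 : E) r, ‖f z‖ ≤ M) :
    ∀ z ∈ Metric.ball (0 : E) r, ‖f z - f 0 - fderiv ℂ f 0 z‖ ≤ 3 * M * (‖z‖ / r) ^ 2 := by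
  have h00 : (0 : E) ∈ Metric.ball (0 : E) r := Metric.mem_ball_self hr
  have hM0 : 0 ≤ M := (norm_nonneg _).trans (hM 0 h00)
  have hc := scv_norm_fderiv_le hr hf hM
  have hd0 : DifferentiableAt ℂ f 0 := (hf 0 h00).differentiableAt (Metric.isOpen_ball.mem_nhds h00)
  refine scv_schwarz_two (f := fun z => f z - f 0 - fderiv ℂ f 0 z) hr ?_ ?_ (by simp) ?_
  · exact (hf.sub (differentiableOn_const _)).sub (fderiv ℂ f 0).differentiable.differentiableOn
  · intro z hz
    have h1 := hM z hz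
    have h2 := hM 0 h00
    have h3 : ‖fderiv ℂ f 0 z‖ ≤ M := by
      rw [mem_ball_zero_iff] at hz
      calc ‖fderiv ℂ f 0 z‖ ≤ ‖fderiv ℂ f 0‖ * ‖z‖ := (fderiv ℂ f 0).le_opNorm z
        _ ≤ M / r * r := mul_le_mul hc hz.le (norm_nonneg _) (by positivity)
        _ = M := by field_simp
    calc ‖f z - f 0 - fderiv ℂ f 0 z‖ ≤ ‖f z - f 0‖ + ‖fderiv ℂ f 0 z‖ := norm_sub_le _ _
      _ ≤ ‖f z‖ + ‖f 0‖ + ‖fderiv ℂ f 0 z‖ := by gcongr; exact norm_sub_le _ _
      _ ≤ 3 * M := by linarith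
  · have : HasFDerivAt (fun z => f z - f 0 - fderiv ℂ f 0 z) (fderiv ℂ f 0 - 0 - fderiv ℂ f 0) 0 :=
      (hd0.hasFDerivAt.sub (hasFDerivAt_const _ _)).sub (fderiv ℂ f 0).hasFDerivAt
    rw [this.fderiv]; simp

/-- the derivative is Lipschitz at the centre: `|f'(y) - f'(0)| ≤ 12 M |y| / r²` for `|y| ≤ r/2`
(Cauchy estimate on `ball y |y|` for the quadratic remainder). -/
theorem scv_norm_fderiv_sub_le {f : E → F} {r M : ℝ} (hr : 0 < r)
    (hf : DifferentiableOn ℂ f (Metric.ball 0 r)) (hM : ∀ z ∈ Metric.ball (0 : E) r, ‖f z‖ ≤ M) :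
    ∀ y : E, ‖y‖ ≤ r / 2 → ‖fderiv ℂ f y - fderiv ℂ f 0‖ ≤ 12 * M * ‖y‖ / r ^ 2 := by
  intro y hy
  have h00 : (0 : E) ∈ Metric.ball (0 : E) r := Metric.mem_ball_self hr
  have hM0 : 0 ≤ M := (norm_nonneg _).trans (hM 0 h00)
  rcases eq_or_ne y 0 with rfl | hy0
  · simp
  have hyn : 0 < ‖y‖ := norm_pos_iff.2 hy0
  have hyB : y ∈ Metric.ball (0 : E) r := by rw [mem_ball_zero_iff]; linarith
  have hdy : DifferentiableAt ℂ f y := (hf y hyB).differentiableAt (Metric.isOpen_ball.mem_nhds hyB)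
  have hsub : Metric.ball y ‖y‖ ⊆ Metric.ball (0 : E) r := by
    intro x hx
    rw [Metric.mem_ball, dist_eq_norm] at hx
    rw [mem_ball_zero_iff]
    have : ‖x‖ ≤ ‖x - y‖ + ‖y‖ := by
      have := norm_add_le (x - y) y
      rwa [sub_add_cancel] at this
    linarith
  have hg : DifferentiableOn ℂ (fun z => f z - f 0 - fderiv ℂ f 0 z) (Metric.ball 0 r) :=
    (hf.sub (differentiableOn_const _)).sub (fderiv ℂ f 0).differentiable.differentiableOn
  have hb : ∀ x ∈ Metric.ball y ‖y‖, ‖f x - f 0 - fderiv ℂ f 0 x‖ ≤ 12 * M * ‖y‖ ^ 2 / r ^ 2 := by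
    intro x hx
    have h1 := scv_norm_sub_lin_le hr hf hM x (hsub hx)
    rw [Metric.mem_ball, dist_eq_norm] at hx
    have h2 : ‖x‖ ≤ 2 * ‖y‖ := by
      have := norm_add_le (x - y) y
      rw [sub_add_cancel] at this
      linarith
    have h3 : (‖x‖ / r) ^ 2 ≤ (2 * ‖y‖ / r) ^ 2 := by gcongr
    calc _ ≤ 3 * M * (‖x‖ / r) ^ 2 := h1
      _ ≤ 3 * M * (2 * ‖y‖ / r) ^ 2 := by gcongr
      _ = 12 * M * ‖y‖ ^ 2 / r ^ 2 := by ring
  have h4 := scv_norm_fderiv_le hyn (hg.mono hsub) hb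
  have h5 : fderiv ℂ (fun z => f z - f 0 - fderiv ℂ f 0 z) y = fderiv ℂ f y - fderiv ℂ f 0 := by
    have : HasFDerivAt (fun z => f z - f 0 - fderiv ℂ f 0 z) (fderiv ℂ f y - 0 - fderiv ℂ f 0) y :=
      (hdy.hasFDerivAt.sub (hasFDerivAt_const _ _)).sub (fderiv ℂ f 0).hasFDerivAt
    rw [this.fderiv]; simp
  rw [h5] at h4
  calc _ ≤ 12 * M * ‖y‖ ^ 2 / r ^ 2 / ‖y‖ := h4
    _ = 12 * M * ‖y‖ / r ^ 2 := by field_simp

/-! ### SCV-B: identity theorem, Weierstrass -/

/-- identity theorem on a ball. -/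
theorem scv_eqOn_ball {f g : E → F} {c : E} {r : ℝ}
    (hf : DifferentiableOn ℂ f (Metric.ball c r)) (hg : DifferentiableOn ℂ g (Metric.ball c r))
    (h : f =ᶠ[𝓝 c] g) : Set.EqOn f g (Metric.ball c r) := by
  have : CompleteSpace F := FiniteDimensional.complete ℂ F
  intro z hz
  rcases eq_or_ne z c with rfl | hzc
  · exact h.self_of_nhds
  have hn : 0 < ‖z - c‖ := norm_pos_iff.2 (sub_ne_zero.2 hzc)
  rw [Metric.mem_ball, dist_eq_norm] at hz
  set R : ℝ := r / ‖z - c‖ with hR
  have hR1 : 1 < R := by rw [hR, lt_div_iff₀ hn]; linarith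
  set L : ℂ → E := fun t => c + t • (z - c) with hL
  have hLd : Differentiable ℂ L := (differentiable_const c).add (differentiable_id.smul_const (z - c))
  have hLm : Set.MapsTo L (Metric.ball 0 R) (Metric.ball c r) := by
    intro t ht
    rw [mem_ball_zero_iff] at ht
    rw [Metric.mem_ball, dist_eq_norm, hL]
    simp only [add_sub_cancel_left, norm_smul]
    rw [hR, lt_div_iff₀ hn] at ht
    exact ht
  have hφ : AnalyticOnNhd ℂ (f ∘ L) (Metric.ball 0 R) :=
    (hf.comp hLd.differentiableOn hLm).analyticOnNhd Metric.isOpen_ball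
  have hψ : AnalyticOnNhd ℂ (g ∘ L) (Metric.ball 0 R) :=
    (hg.comp hLd.differentiableOn hLm).analyticOnNhd Metric.isOpen_ball
  have h0 : (0 : ℂ) ∈ Metric.ball (0 : ℂ) R := Metric.mem_ball_self (by linarith)
  have hev : (f ∘ L) =ᶠ[𝓝 0] (g ∘ L) := by
    have hc : Tendsto L (𝓝 0) (𝓝 c) := by
      have := hLd.continuous.tendsto 0
      simpa [hL] using this
    exact hc.eventually h
  have := hφ.eqOn_of_preconnected_of_eventuallyEq hψ (convex_ball (0 : ℂ) R).isPreconnected h0 hev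
  have h1 : (1 : ℂ) ∈ Metric.ball (0 : ℂ) R := by rw [mem_ball_zero_iff]; simpa using hR1
  have := this h1
  simpa [hL] using this

/-- identity theorem on a connected open set. -/
theorem scv_eqOn_of_preconnected {f g : E → F} {U : Set E} {c : E} (hU : IsOpen U) (hc : IsPreconnected U)
    (hf : DifferentiableOn ℂ f U) (hg : DifferentiableOn ℂ g U) (hcU : c ∈ U)
    (h : f =ᶠ[𝓝 c] g) : Set.EqOn f g U := by
  set A : Set E := {x | f =ᶠ[𝓝 x] g} with hA
  have hAo : IsOpen A := isOpen_setOfPred_eventually_nhds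
  have hsub : U ⊆ A := by
    refine hc.subset_of_closure_inter_subset hAo ⟨c, hcU, h⟩ ?_
    rintro x ⟨hxc, hxU⟩
    obtain ⟨ρ, hρ, hball⟩ := Metric.isOpen_iff.1 hU x hxU
    obtain ⟨y, hyA, hyx⟩ := Metric.mem_closure_iff.1 hxc (ρ / 2) (by positivity)
    have hs : Metric.ball y (ρ / 2) ⊆ U := by
      intro w hw
      apply hball
      rw [Metric.mem_ball] at hw ⊢
      have := dist_triangle w y x
      rw [dist_comm y x] at this
      linarith
    have he := scv_eqOn_ball (hf.mono hs) (hg.mono hs) hyA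
    have hx : x ∈ Metric.ball y (ρ / 2) := hyx
    exact he.eventuallyEq_of_mem (Metric.isOpen_ball.mem_nhds hx)
  intro x hx
  exact (hsub hx).self_of_nhds

/-- **Weierstrass**: locally uniform limits of holomorphic maps are holomorphic
(Cauchy estimate ⟹ the derivatives converge locally uniformly; `hasFDerivAt_of_tendstoUniformlyOnFilter`). -/
theorem scv_differentiableOn_of_tendstoLocallyUniformlyOn {α : Type} {l : Filter α} [l.NeBot]
    {fs : α → E → F} {f : E → F} {U : Set E} (hU : IsOpen U)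
    (hlim : TendstoLocallyUniformlyOn fs f l U) (hfs : ∀ᶠ i in l, DifferentiableOn ℂ (fs i) U) :
    DifferentiableOn ℂ f U := by
  have : CompleteSpace F := FiniteDimensional.complete ℂ F
  have : ProperSpace E := FiniteDimensional.proper ℂ E
  intro x hx
  obtain ⟨ρ', hρ', hball⟩ := Metric.isOpen_iff.1 hU x hx
  set ρ : ℝ := ρ' / 4 with hρ
  have hρ0 : 0 < ρ := by positivity
  have hKU : Metric.closedBall x (2 * ρ) ⊆ U :=
    (Metric.closedBall_subset_ball (by rw [hρ]; linarith)).trans hball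
  have hK : TendstoUniformlyOn fs f l (Metric.closedBall x (2 * ρ)) :=
    (tendstoLocallyUniformlyOn_iff_forall_isCompact hU).1 hlim _ hKU (isCompact_closedBall _ _)
  have hsub : ∀ y ∈ Metric.ball x ρ, Metric.ball y ρ ⊆ Metric.closedBall x (2 * ρ) := by
    intro y hy w hw
    rw [Metric.mem_ball] at hy hw
    rw [Metric.mem_closedBall]
    have := dist_triangle w y x
    linarith
  -- the derivatives are uniformly Cauchy
  have hC : UniformCauchySeqOn (fun i y => fderiv ℂ (fs i) y) l (Metric.ball x ρ) := by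
    intro u hu
    obtain ⟨ε, hε, hεu⟩ := Metric.mem_uniformity_dist.1 hu
    have h1 := hK.uniformCauchySeqOn {p : F × F | dist p.1 p.2 < ε * ρ / 2}
      (Metric.dist_mem_uniformity (by positivity))
    filter_upwards [h1, hfs.prod_mk hfs] with m hm hd y hy
    apply hεu
    rw [dist_eq_norm]
    have hyU : y ∈ U := hKU (hsub y hy (Metric.mem_ball_self hρ0))
    have hd1 : DifferentiableAt ℂ (fs m.1) y := (hd.1 y hyU).differentiableAt (hU.mem_nhds hyU)
    have hd2 : DifferentiableAt ℂ (fs m.2) y := (hd.2 y hyU).differentiableAt (hU.mem_nhds hyU)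
    have hs2 : Metric.ball y ρ ⊆ U := (hsub y hy).trans hKU
    have h2 := scv_norm_fderiv_le (f := fun w => fs m.1 w - fs m.2 w) (c := y) (M := ε * ρ / 2) hρ0
      ((hd.1.mono hs2).sub (hd.2.mono hs2))
      (fun w hw => by
        have := hm w (hsub y hy hw)
        simp only [dist_eq_norm] at this
        exact this.le)
    have h3 : fderiv ℂ (fun w => fs m.1 w - fs m.2 w) y = fderiv ℂ (fs m.1) y - fderiv ℂ (fs m.2) y :=
      fderiv_fun_sub hd1 hd2
    rw [h3] at h2
    have h4 : ε * ρ / 2 / ρ = ε / 2 := by field_simp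
    rw [h4] at h2
    linarith
  -- pointwise limits
  have hlimex : ∀ y ∈ Metric.ball x ρ, ∃ L : E →L[ℂ] F, Tendsto (fun i => fderiv ℂ (fs i) y) l (𝓝 L) :=
    fun y hy => cauchy_map_iff_exists_tendsto.1 (hC.cauchy_map hy)
  classical
  set g' : E → E →L[ℂ] F := fun y => if hy : y ∈ Metric.ball x ρ then (hlimex y hy).choose else 0 with hg'
  have hg'lim : ∀ y ∈ Metric.ball x ρ, Tendsto (fun i => fderiv ℂ (fs i) y) l (𝓝 (g' y)) := by
    intro y hy
    rw [hg']
    simp only [hy, dif_pos]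
    exact (hlimex y hy).choose_spec
  have hT : TendstoUniformlyOn (fun i y => fderiv ℂ (fs i) y) g' l (Metric.ball x ρ) :=
    hC.tendstoUniformlyOn_of_tendsto hg'lim
  have hbn : Metric.ball x ρ ∈ 𝓝 x := Metric.ball_mem_nhds x hρ0
  have hTf : TendstoUniformlyOnFilter (fun i y => fderiv ℂ (fs i) y) g' l (𝓝 x) :=
    (tendstoUniformlyOn_iff_tendstoUniformlyOnFilter.1 hT).mono_right (le_principal_iff.2 hbn)
  have hder : ∀ᶠ q : α × E in l ×ˢ 𝓝 x, HasFDerivAt (fs q.1) (fderiv ℂ (fs q.1) q.2) q.2 := by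
    filter_upwards [hfs.prod_mk (hU.mem_nhds hx : ∀ᶠ y in 𝓝 x, y ∈ U)] with q hq
    exact ((hq.1 q.2 hq.2).differentiableAt (hU.mem_nhds hq.2)).hasFDerivAt
  have hpt : ∀ᶠ y in 𝓝 x, Tendsto (fun i => fs i y) l (𝓝 (f y)) := by
    filter_upwards [hbn] with y hy
    exact hK.tendsto_at (hsub y hy (Metric.mem_ball_self hρ0))
  exact (hasFDerivAt_of_tendstoUniformlyOnFilter hTf hder hpt).differentiableAt.differentiableWithinAt

theorem scv_differentiableOn_of_tendstoUniformlyOn {α : Type} {l : Filter α} [l.NeBot]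
    {fs : α → E → F} {f : E → F} {U : Set E} (hU : IsOpen U)
    (hlim : TendstoUniformlyOn fs f l U) (hfs : ∀ᶠ i in l, DifferentiableOn ℂ (fs i) U) :
    DifferentiableOn ℂ f U :=
  scv_differentiableOn_of_tendstoLocallyUniformlyOn hU hlim.tendstoLocallyUniformlyOn hfs

/-! ### SCV-C: inverse function theorem -/

theorem scv_hasStrictFDerivAt {f : E → F} {U : Set E} {z : E} (hU : IsOpen U)
    (hf : DifferentiableOn ℂ f U) (hz : z ∈ U) : HasStrictFDerivAt f (fderiv ℂ f z) z :=
  ((hol_contDiffOn hU hf).contDiffAt (hU.mem_nhds hz)).hasStrictFDerivAt (by simp)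

/-- a holomorphic self map with injective derivative at `z` is open at `z`. -/
theorem scv_image_mem_nhds {f : E → E} {U N : Set E} {z : E} (hU : IsOpen U)
    (hf : DifferentiableOn ℂ f U) (hz : z ∈ U) (hinj : Function.Injective (fderiv ℂ f z))
    (hN : N ∈ 𝓝 z) : f '' N ∈ 𝓝 (f z) := by
  have : CompleteSpace E := FiniteDimensional.complete ℂ E
  have hs := scv_hasStrictFDerivAt hU hf hz
  have hsurj : LinearMap.range (fderiv ℂ f z : E →ₗ[ℂ] E) = ⊤ :=
    LinearMap.range_eq_top.2 (LinearMap.injective_iff_surjective.1 hinj)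
  rw [← hs.map_nhds_eq_of_surj hsurj]
  exact image_mem_map hN

theorem scv_isOpen_image {f : E → E} {U : Set E} (hU : IsOpen U)
    (hf : DifferentiableOn ℂ f U) (hinj : ∀ z ∈ U, Function.Injective (fderiv ℂ f z)) :
    IsOpen (f '' U) := by
  rw [isOpen_iff_mem_nhds]
  rintro _ ⟨z, hz, rfl⟩
  exact scv_image_mem_nhds hU hf hz (hinj z hz) (hU.mem_nhds hz)

/-- **quantitative surjectivity** (contraction mapping).  `T = A + Er` on `ball 0 r`, `|v| ≤ a |A v|`,
`a |Er| ≤ r / 16` on `ball 0 r`.  Then every `w` with `a |w| ≤ r / 4` is a value `T z`, `|z| ≤ r/2`.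
(Cauchy: `a |Er'| ≤ 1/8` on `closedBall 0 (r/2)`; `z ↦ A⁻¹ (w - Er z)` is a contraction of `closedBall 0 (r/2)`.) -/
theorem scv_exists_preimage {T : E → E} {A : E →L[ℂ] E} {r a : ℝ} (hr : 0 < r) (ha : 0 < a)
    (hT : DifferentiableOn ℂ T (Metric.ball 0 r)) (hA : ∀ v, ‖v‖ ≤ a * ‖A v‖)
    (hE : ∀ z ∈ Metric.ball (0 : E) r, a * ‖T z - A z‖ ≤ r / 16) :
    ∀ w : E, a * ‖w‖ ≤ r / 4 → ∃ z ∈ Metric.closedBall (0 : E) (r / 2), T z = w := by
  intro w hw
  have : CompleteSpace E := FiniteDimensional.complete ℂ E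
  have hinj : Function.Injective A := by
    intro x y hxy
    have := hA (x - y)
    rw [map_sub, hxy, sub_self, norm_zero, mul_zero] at this
    exact sub_eq_zero.1 (norm_le_zero_iff.1 this)
  have hsurj : Function.Surjective A := (LinearMap.injective_iff_surjective (f := (A : E →ₗ[ℂ] E))).1 hinj
  obtain ⟨B, hB⟩ := hsurj.hasRightInverse
  have hBn : ∀ y, ‖B y‖ ≤ a * ‖y‖ := fun y => by
    have := hA (B y)
    rwa [hB y] at this
  have hBsub : ∀ y y', B y - B y' = B (y - y') := fun y y' => by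
    apply hinj
    rw [map_sub, hB, hB, hB]
  set Er : E → E := fun z => T z - A z with hEr
  have hErd : DifferentiableOn ℂ Er (Metric.ball 0 r) := hT.sub A.differentiable.differentiableOn
  have hErb : ∀ z ∈ Metric.ball (0 : E) r, ‖Er z‖ ≤ r / (16 * a) := by
    intro z hz
    have := hE z hz
    rw [le_div_iff₀ (by positivity)]
    nlinarith
  have hlip := scv_lipschitz (ρ := r / 2) (by linarith) hErd hErb
  set Q : E → E := fun z => B (w - Er z) with hQ
  set S : Set E := Metric.closedBall (0 : E) (r / 2) with hS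
  have hSsub : S ⊆ Metric.ball (0 : E) r := Metric.closedBall_subset_ball (by linarith)
  have hmaps : Set.MapsTo Q S S := by
    intro z hz
    rw [hS, mem_closedBall_zero_iff]
    have h1 := hBn (w - Er z)
    have h2 : ‖w - Er z‖ ≤ ‖w‖ + ‖Er z‖ := norm_sub_le _ _
    have h3 := hE z (hSsub hz)
    have h4 : a * ‖w - Er z‖ ≤ a * ‖w‖ + a * ‖Er z‖ := by nlinarith
    linarith
  have hcontr : ContractingWith (1 / 8) (hmaps.restrict Q S S) := by
    refine ⟨by norm_num, ?_⟩
    refine LipschitzWith.of_dist_le_mul fun x y => ?_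
    rw [Subtype.dist_eq, Subtype.dist_eq, dist_eq_norm, dist_eq_norm]
    simp only [Set.MapsTo.val_restrict_apply]
    have h1 : Q x - Q y = B (Er y - Er x) := by
      rw [hQ]; simp only; rw [hBsub]; congr 1; abel
    rw [h1]
    have h2 := hBn (Er y - Er x)
    have h3 := hlip y y.2 x x.2
    have h4 : r / (16 * a) / (r - r / 2) = 1 / (8 * a) := by field_simp; ring
    rw [h4] at h3
    have h5 : a * ‖Er (y : E) - Er x‖ ≤ a * (1 / (8 * a) * ‖(y : E) - x‖) := mul_le_mul_of_nonneg_left h3 ha.le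
    have h6 : a * (1 / (8 * a) * ‖(y : E) - x‖) = 1 / 8 * ‖(x : E) - y‖ := by
      rw [norm_sub_rev]; field_simp
    have h7 : (((1 / 8 : NNReal) : ℝ)) = 1 / 8 := by norm_num
    rw [h7]
    linarith
  have h0S : (0 : E) ∈ S := Metric.mem_closedBall_self (by positivity)
  obtain ⟨z, hzS, hfix, -⟩ := hcontr.exists_fixedPoint' (Metric.isClosed_closedBall.isComplete) hmaps h0S
    (edist_ne_top _ _)
  refine ⟨z, hzS, ?_⟩
  have h1 : A z = w - Er z := by
    have : Q z = z := hfix
    rw [← this, hQ]; simp only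
    rw [hB]
    have h2 : B (w - Er z) = z := this
    rw [h2]
  have : T z = A z + Er z := by rw [hEr]; simp
  rw [this, h1]; abel

end Claimed.Agent.R316
end

/- ===== packed: Claimed.Agent.R316.Base.ODE.Hol ===== -/
section
/-!
# `BP-G2` E: holomorphic fields, complex time flow

(For "complex differentiable implies `C^∞`" on finite dimensional spaces see `R316/CW/HolSmooth.lean`:
`hol_contDiffOn`, `hol_contDiffOn_real`.)

Leaf `G2-HOL` = all sorries of this file.  PLANS:
* `contDiffOn_one_of_differentiableOn` (Banach): near `x₀`, `‖g‖ ≤ M` on `ball x₀ (3r)` (continuity);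
  Cauchy estimate (`Complex.norm_deriv_le_of_forall_mem_sphere_norm_le` for `z ↦ g (x + z • h)`):
  `‖Dg x‖ ≤ M / r` on `ball x₀ (2r)`; mean value: `g` is `M/r`-Lipschitz there; Cauchy estimate for
  `z ↦ g (x + k + z • h) - g (x + z • h)`: `‖Dg (x+k) - Dg x‖ ≤ (M / r²) ‖k‖`; so `Dg` is continuous;
  `contDiffOn_succ_iff_fderiv_of_isOpen` with `n = 0`.  (The first Cauchy estimate is proved in
  `CW/HolSmooth.lean`, `hs_norm_fderiv_le`, for finite dimensional spaces; the proof does not use it.)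
* `cdom f Ω = kdom ℂ f Ω` and `cfl f Ω ζ x = fl (fun y => ζ • f y) Ω 1 x` hold by `rfl`; so
  `isOpen_cdom = isOpen_kdom`, `differentiableOn_cfl` from `contDiffOn_kflow (n := 1)` (`Core.lean`).
* `ofReal_mem_cdom`, `cfl_ofReal`: `(t : ℂ) • y = t • y` (`Complex.coe_smul`), `mem_dom_smul`, `fl_smul`.
* `differentiableOn_fl`: `fl f Ω t = cfl f Ω t`, compose `differentiableOn_cfl` with `y ↦ ((t : ℂ), y)`.
* `smul_mem_cdom`: `mem_dom_smul` for the field `ζ • f` and `mem_dom_of_mem_uIcc`.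
* `hasDerivAt_cfl`: `Ψ w = cfl f Ω w x` is complex differentiable at `ζ`.  For real `s` near `1`:
  `Ψ (s ζ) = fl (ζ • f) Ω s x` (`fl_smul`), whose derivative at `s = 1` is `ζ • f (Ψ ζ)`
  (`hasDerivAt_fl`); chain rule: `ζ • Ψ' ζ = ζ • f (Ψ ζ)`: done if `ζ ≠ 0`.  For `ζ = 0`: for every
  direction `w`: `s ↦ Ψ (s w) = fl (w • f) Ω s x` has derivative `w • f x` at `s = 0`, take `w = 1`.
* `exists_pos_forall_mem_cdom`: tube lemma, as `exists_pos_forall_mem_dom`.
-/

set_option autoImplicit false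
open scoped ContDiff Topology

namespace Claimed.Agent.R316.ODE

/-! ## E0. complex differentiable maps are `C^1` -/

section E0

variable {E : Type*} [NormedAddCommGroup E] [NormedSpace ℂ E]
variable {F : Type*} [NormedAddCommGroup F] [NormedSpace ℂ F]

/-- Cauchy estimate for the Fréchet derivative (Banach spaces). -/
theorem odeh_norm_fderiv_le {g : E → F} {w : E} {ρ C : ℝ} (hρ : 0 < ρ)
    (hd : ∀ y ∈ Metric.closedBall w ρ, DifferentiableAt ℂ g y)
    (hC : ∀ y ∈ Metric.closedBall w ρ, ‖g y‖ ≤ C) : ‖fderiv ℂ g w‖ ≤ C / ρ := by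
  have hC0 : 0 ≤ C := (norm_nonneg _).trans (hC w (Metric.mem_closedBall_self hρ.le))
  refine ContinuousLinearMap.opNorm_le_bound _ (div_nonneg hC0 hρ.le) fun x => ?_
  rcases eq_or_ne x 0 with rfl | hx
  · simp
  have hx0 : 0 < ‖x‖ := norm_pos_iff.2 hx
  set R : ℝ := ρ / ‖x‖ with hR
  have hR0 : 0 < R := div_pos hρ hx0
  have hmem : ∀ t ∈ Metric.closedBall (0 : ℂ) R, w + t • x ∈ Metric.closedBall w ρ := by
    intro t ht
    rw [Metric.mem_closedBall, dist_zero_right] at ht
    rw [Metric.mem_closedBall, dist_eq_norm, add_sub_cancel_left, norm_smul]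
    calc ‖t‖ * ‖x‖ ≤ R * ‖x‖ := by gcongr
      _ = ρ := by rw [hR]; field_simp
  have hline : ∀ t : ℂ, DifferentiableAt ℂ g (w + t • x) →
      HasDerivAt (fun s : ℂ => g (w + s • x)) (fderiv ℂ g (w + t • x) x) t := by
    intro t h
    have h1 : HasDerivAt (fun s : ℂ => w + s • x) x t := by
      simpa using ((hasDerivAt_id t).smul_const x).const_add w
    exact h.hasFDerivAt.comp_hasDerivAt t h1
  have hdiff : ∀ t ∈ Metric.closedBall (0 : ℂ) R,
      DifferentiableAt ℂ (fun s : ℂ => g (w + s • x)) t := fun t ht =>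
    (hline t (hd _ (hmem t ht))).differentiableAt
  have hdc : DiffContOnCl ℂ (fun s : ℂ => g (w + s • x)) (Metric.ball 0 R) := by
    refine ⟨fun t ht => (hdiff t (Metric.ball_subset_closedBall ht)).differentiableWithinAt, ?_⟩
    rw [closure_ball _ hR0.ne']
    exact fun t ht => (hdiff t ht).continuousAt.continuousWithinAt
  have h1 := Complex.norm_deriv_le_of_forall_mem_sphere_norm_le hR0 hdc (C := C)
    (fun t ht => hC _ (hmem t (Metric.sphere_subset_closedBall ht)))
  have h2 := (hline 0 (by simpa using hd w (Metric.mem_closedBall_self hρ.le))).deriv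
  rw [zero_smul, add_zero] at h2
  rw [h2] at h1
  calc ‖fderiv ℂ g w x‖ ≤ C / R := h1
    _ = C / ρ * ‖x‖ := by rw [hR]; field_simp

theorem contDiffOn_one_of_differentiableOn_aux {g : E → F} {Ω : Set E} (hΩ : IsOpen Ω)
    (hg : DifferentiableOn ℂ g Ω) : ContDiffOn ℂ 1 g Ω := by
  have hda : ∀ y ∈ Ω, DifferentiableAt ℂ g y := fun y hy => hg.differentiableAt (hΩ.mem_nhds hy)
  rw [show (1 : WithTop ℕ∞) = 0 + 1 from rfl, contDiffOn_succ_iff_fderiv_of_isOpen hΩ]
  refine ⟨hg, fun h => absurd h (by simp), contDiffOn_zero.2 ?_⟩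
  intro x₀ hx₀
  refine ContinuousAt.continuousWithinAt ?_
  -- local bound
  have hcont : ContinuousAt g x₀ := (hda x₀ hx₀).continuousAt
  have hev : ∀ᶠ y in 𝓝 x₀, y ∈ Ω ∧ ‖g y‖ ≤ ‖g x₀‖ + 1 := by
    have h1 : ∀ᶠ y in 𝓝 x₀, y ∈ Ω := hΩ.mem_nhds hx₀
    have h2 : ∀ᶠ y in 𝓝 x₀, ‖g y‖ ≤ ‖g x₀‖ + 1 :=
      hcont.norm.eventually (ge_mem_nhds (show ‖g x₀‖ < ‖g x₀‖ + 1 by linarith))
    exact h1.and h2
  obtain ⟨ε, hε, hball⟩ := Metric.eventually_nhds_iff.1 hev
  set r : ℝ := ε / 4 with hr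
  have hr0 : 0 < r := by positivity
  set M : ℝ := ‖g x₀‖ + 1 with hM
  have hM0 : 0 ≤ M := by positivity
  have hin : ∀ y, dist y x₀ ≤ 3 * r → y ∈ Ω ∧ ‖g y‖ ≤ M := fun y hy =>
    hball (lt_of_le_of_lt hy (by rw [hr]; linarith))
  -- first Cauchy estimate
  have hD : ∀ y ∈ Metric.ball x₀ (2 * r), ‖fderiv ℂ g y‖ ≤ M / r := by
    intro y hy
    rw [Metric.mem_ball] at hy
    have hsub : ∀ u ∈ Metric.closedBall y r, dist u x₀ ≤ 3 * r := fun u hu => by
      rw [Metric.mem_closedBall] at hu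
      linarith [dist_triangle u y x₀]
    exact odeh_norm_fderiv_le hr0 (fun u hu => hda u (hin u (hsub u hu)).1)
      (fun u hu => (hin u (hsub u hu)).2)
  -- Lipschitz
  have hLip : ∀ a ∈ Metric.ball x₀ (2 * r), ∀ b ∈ Metric.ball x₀ (2 * r),
      ‖g b - g a‖ ≤ M / r * ‖b - a‖ := by
    intro a ha b hb
    refine (convex_ball x₀ (2 * r)).norm_image_sub_le_of_norm_fderiv_le (𝕜 := ℂ)
      (fun y hy => hda y (hin y ?_).1) hD ha hb
    rw [Metric.mem_ball] at hy
    linarith
  -- second Cauchy estimate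
  have hkey : ∀ k : E, ‖k‖ < r / 2 → ‖fderiv ℂ g (x₀ + k) - fderiv ℂ g x₀‖ ≤ M / r * ‖k‖ / r := by
    intro k hk
    have hG : ∀ y ∈ Metric.closedBall x₀ r, DifferentiableAt ℂ (fun y => g (y + k) - g y) y := by
      intro y hy
      rw [Metric.mem_closedBall] at hy
      have h1 : DifferentiableAt ℂ g (y + k) := by
        refine hda _ (hin _ ?_).1
        rw [dist_eq_norm] at hy ⊢
        calc ‖y + k - x₀‖ = ‖(y - x₀) + k‖ := by congr 1; abel
          _ ≤ ‖y - x₀‖ + ‖k‖ := norm_add_le _ _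
          _ ≤ 3 * r := by linarith
      have h2 : DifferentiableAt ℂ (fun y => g (y + k)) y :=
        DifferentiableAt.comp y (g := g) h1 (differentiableAt_id.add_const k)
      exact h2.sub (hda y (hin y (by linarith)).1)
    have hB : ∀ y ∈ Metric.closedBall x₀ r, ‖g (y + k) - g y‖ ≤ M / r * ‖k‖ := by
      intro y hy
      rw [Metric.mem_closedBall] at hy
      have h1 := hLip y (by rw [Metric.mem_ball]; linarith) (y + k) (by
        rw [Metric.mem_ball, dist_eq_norm]
        rw [dist_eq_norm] at hy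
        calc ‖y + k - x₀‖ = ‖(y - x₀) + k‖ := by congr 1; abel
          _ ≤ ‖y - x₀‖ + ‖k‖ := norm_add_le _ _
          _ < 2 * r := by linarith)
      rwa [add_sub_cancel_left] at h1
    have h3 := odeh_norm_fderiv_le hr0 hG hB
    have h4 : fderiv ℂ (fun y => g (y + k) - g y) x₀ = fderiv ℂ g (x₀ + k) - fderiv ℂ g x₀ := by
      have h1 : DifferentiableAt ℂ g (x₀ + k) := by
        refine hda _ (hin _ ?_).1
        rw [dist_eq_norm, add_sub_cancel_left]
        linarith
      have h5 : HasFDerivAt (fun y => g (y + k)) (fderiv ℂ g (x₀ + k)) x₀ := by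
        have := h1.hasFDerivAt.comp x₀ ((hasFDerivAt_id x₀).add_const k)
        rw [ContinuousLinearMap.comp_id] at this
        exact this
      exact (h5.sub (hda x₀ hx₀).hasFDerivAt).fderiv
    rwa [h4] at h3
  rw [Metric.continuousAt_iff]
  intro η hη
  refine ⟨min (r / 2) (η * r * r / (M + 1)), by positivity, fun y hy => ?_⟩
  rw [dist_eq_norm] at hy ⊢
  have h1 := hkey (y - x₀) (lt_of_lt_of_le hy (min_le_left _ _))
  rw [add_sub_cancel] at h1
  refine lt_of_le_of_lt h1 ?_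
  have h2 : ‖y - x₀‖ < η * r * r / (M + 1) := lt_of_lt_of_le hy (min_le_right _ _)
  have h3 : M / r * ‖y - x₀‖ / r = M * ‖y - x₀‖ / (r * r) := by field_simp
  rw [h3, div_lt_iff₀ (by positivity)]
  have h4 : ‖y - x₀‖ * (M + 1) < η * r * r := by rwa [lt_div_iff₀ (by positivity)] at h2
  nlinarith [norm_nonneg (y - x₀)]
end E0

/-! ## E. holomorphic fields -/

section E

variable {E : Type*} [NormedAddCommGroup E] [NormedSpace ℂ E] [CompleteSpace E]
variable {F : Type*} [NormedAddCommGroup F] [NormedSpace ℂ F] [CompleteSpace F]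
variable {f : E → E} {Ω : Set E} {t : ℝ} {ζ : ℂ} {x : E}

/-- a complex differentiable map on an open subset of a complex Banach space is `C^1`. -/
theorem contDiffOn_one_of_differentiableOn {g : E → F} (hΩ : IsOpen Ω)
    (hg : DifferentiableOn ℂ g Ω) : ContDiffOn ℂ 1 g Ω :=
  contDiffOn_one_of_differentiableOn_aux hΩ hg

theorem odeh_contDiffOn_real (hΩ : IsOpen Ω) (hf : DifferentiableOn ℂ f Ω) : ContDiffOn ℝ 1 f Ω :=
  (contDiffOn_one_of_differentiableOn hΩ hf).restrict_scalars ℝ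

theorem odeh_contDiffOn_real_smul (hΩ : IsOpen Ω) (hf : DifferentiableOn ℂ f Ω) (ζ : ℂ) :
    ContDiffOn ℝ 1 (fun y => ζ • f y) Ω :=
  ((contDiffOn_one_of_differentiableOn hΩ hf).restrict_scalars ℝ).const_smul ζ

theorem isOpen_cdom (hΩ : IsOpen Ω) (hf : DifferentiableOn ℂ f Ω) : IsOpen (cdom f Ω) :=
  isOpen_kdom (𝕜 := ℂ) hΩ (contDiffOn_one_of_differentiableOn hΩ hf)

/-- the complex time flow is holomorphic in `(ζ, x)`. -/
theorem differentiableOn_cfl (hΩ : IsOpen Ω) (hf : DifferentiableOn ℂ f Ω) :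
    DifferentiableOn ℂ (fun p : ℂ × E => cfl f Ω p.1 p.2) (cdom f Ω) :=
  (contDiffOn_kflow (𝕜 := ℂ) (n := 1) le_rfl hΩ
    (contDiffOn_one_of_differentiableOn hΩ hf)).differentiableOn (by norm_num)

omit [CompleteSpace E] in
theorem zero_mem_cdom : ((0 : ℂ), x) ∈ cdom f Ω ↔ x ∈ Ω := by
  constructor
  · intro h
    exact mem_of_mem_dom h
  · intro hx
    refine ⟨fun _ => x, rfl, fun s _ => ⟨hx, ?_⟩⟩
    simp only [zero_smul]
    exact hasDerivWithinAt_const _ _ _

omit [CompleteSpace E] in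
theorem cfl_zero : cfl f Ω 0 x = x := by
  by_cases h : ((1 : ℝ), x) ∈ dom (fun y => (0 : ℂ) • f y) Ω
  · obtain ⟨c, hc, he⟩ := dom_spec h
    show fl (fun y => (0 : ℂ) • f y) Ω 1 x = x
    rw [he, ← hc.1]
    have hI : Set.uIcc (0 : ℝ) 1 = Set.Icc 0 1 := Set.uIcc_of_le zero_le_one
    have hder : ∀ s ∈ Set.Icc (0 : ℝ) 1, HasDerivWithinAt c 0 (Set.Icc 0 1) s := by
      intro s hs
      have := (hc.2 s (hI ▸ hs)).2
      rw [hI] at this
      simpa only [zero_smul] using this
    refine constant_of_has_deriv_right_zero (fun s hs => (hder s hs).continuousWithinAt)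
      (fun s hs => ?_) 1 (Set.right_mem_Icc.2 zero_le_one)
    exact (hder s ⟨hs.1, hs.2.le⟩).mono_of_mem_nhdsWithin (Icc_mem_nhdsGE_of_mem hs)
  · exact fl_of_not_mem h

omit [CompleteSpace E] in
theorem cfl_mem (h : (ζ, x) ∈ cdom f Ω) : cfl f Ω ζ x ∈ Ω := fl_mem h

omit [CompleteSpace E] in
theorem ofReal_mem_cdom : ((t : ℂ), x) ∈ cdom f Ω ↔ (t, x) ∈ dom f Ω := by
  have h1 : (fun y => (t : ℂ) • f y) = fun y => t • f y := by
    funext y
    exact Complex.coe_smul t (f y)
  show ((1 : ℝ), x) ∈ dom (fun y => (t : ℂ) • f y) Ω ↔ _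
  rw [h1, mem_dom_smul, mul_one]

theorem cfl_ofReal (hΩ : IsOpen Ω) (hf : DifferentiableOn ℂ f Ω) :
    cfl f Ω (t : ℂ) x = fl f Ω t x := by
  have h1 : (fun y => (t : ℂ) • f y) = fun y => t • f y := by
    funext y
    exact Complex.coe_smul t (f y)
  show fl (fun y => (t : ℂ) • f y) Ω 1 x = _
  rw [h1, fl_smul hΩ (odeh_contDiffOn_real hΩ hf), mul_one]

/-- the flow maps of a holomorphic field are holomorphic. -/
theorem differentiableOn_fl (hΩ : IsOpen Ω) (hf : DifferentiableOn ℂ f Ω) (t : ℝ) :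
    DifferentiableOn ℂ (fl f Ω t) {y | (t, y) ∈ dom f Ω} := by
  have h1 : DifferentiableOn ℂ (fun y : E => ((t : ℂ), y)) {y | (t, y) ∈ dom f Ω} :=
    ((differentiable_const (t : ℂ)).prodMk differentiable_id).differentiableOn
  have h2 := (differentiableOn_cfl hΩ hf).comp h1 (fun y hy => ofReal_mem_cdom.2 hy)
  exact h2.congr fun y _ => (cfl_ofReal hΩ hf).symm

omit [CompleteSpace E] in
theorem odeh_smul_field (s : ℝ) (ζ : ℂ) :
    (fun y => ((s : ℂ) * ζ) • f y) = fun y => s • (fun y => ζ • f y) y := by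
  funext y
  rw [mul_smul]
  exact Complex.coe_smul s _

omit [CompleteSpace E] in
theorem smul_mem_cdom (h : (ζ, x) ∈ cdom f Ω) {s : ℝ} (hs : s ∈ Set.Icc (0 : ℝ) 1) :
    ((s : ℂ) * ζ, x) ∈ cdom f Ω := by
  show ((1 : ℝ), x) ∈ dom (fun y => ((s : ℂ) * ζ) • f y) Ω
  rw [odeh_smul_field, mem_dom_smul, mul_one]
  exact mem_dom_of_mem_uIcc h (by rwa [Set.uIcc_of_le zero_le_one])

theorem cfl_ofReal_mul (hΩ : IsOpen Ω) (hf : DifferentiableOn ℂ f Ω) (s : ℝ) (ζ : ℂ) :
    cfl f Ω ((s : ℂ) * ζ) x = fl (fun y => ζ • f y) Ω s x := by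
  show fl (fun y => ((s : ℂ) * ζ) • f y) Ω 1 x = _
  rw [odeh_smul_field, fl_smul hΩ (odeh_contDiffOn_real_smul hΩ hf ζ), mul_one]

/-- `∂_ζ cfl(ζ, x) = f(cfl(ζ, x))`. -/
theorem hasDerivAt_cfl (hΩ : IsOpen Ω) (hf : DifferentiableOn ℂ f Ω) (h : (ζ, x) ∈ cdom f Ω) :
    HasDerivAt (fun w => cfl f Ω w x) (f (cfl f Ω ζ x)) ζ := by
  have hd : DifferentiableAt ℂ (fun w => cfl f Ω w x) ζ := by
    have h2 : DifferentiableAt ℂ (fun p : ℂ × E => cfl f Ω p.1 p.2) (ζ, x) :=
      (differentiableOn_cfl hΩ hf).differentiableAt ((isOpen_cdom hΩ hf).mem_nhds h)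
    have h3 : DifferentiableAt ℂ (fun w : ℂ => (w, x)) ζ :=
      differentiableAt_id.prodMk (differentiableAt_const x)
    exact DifferentiableAt.comp ζ (g := fun p : ℂ × E => cfl f Ω p.1 p.2) h2 h3
  have hD := hd.hasDerivAt
  by_cases hζ : ζ = 0
  · subst hζ
    have hx : x ∈ Ω := zero_mem_cdom.1 h
    have h1 : HasDerivAt (fun s : ℝ => (s : ℂ)) 1 (0 : ℝ) := Complex.ofRealCLM.hasDerivAt
    have hD' : HasDerivAt (fun w => cfl f Ω w x) (deriv (fun w => cfl f Ω w x) 0) ((fun s : ℝ => (s : ℂ)) 0) := by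
      simpa using hD
    have h2 := HasDerivAt.scomp (0 : ℝ) hD' h1
    have h3 : HasDerivAt (fun s : ℝ => fl f Ω s x) (f (fl f Ω 0 x)) 0 :=
      hasDerivAt_fl hΩ (odeh_contDiffOn_real hΩ hf) (zero_mem_dom.2 hx)
    have h4 : ((fun w => cfl f Ω w x) ∘ fun s : ℝ => (s : ℂ)) = fun s : ℝ => fl f Ω s x := by
      funext s
      exact cfl_ofReal hΩ hf
    rw [h4] at h2
    have h5 := h2.unique h3
    rw [one_smul, fl_zero] at h5
    rw [h5] at hD
    rwa [cfl_zero]
  · have h1 : HasDerivAt (fun s : ℝ => (s : ℂ) * ζ) ζ (1 : ℝ) := by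
      have := (Complex.ofRealCLM.hasDerivAt (x := (1 : ℝ))).mul_const ζ
      simpa using this
    have hD' : HasDerivAt (fun w => cfl f Ω w x) (deriv (fun w => cfl f Ω w x) ζ)
        ((fun s : ℝ => (s : ℂ) * ζ) 1) := by
      simpa using hD
    have h2 := HasDerivAt.scomp (1 : ℝ) hD' h1
    have h3 : HasDerivAt (fun s : ℝ => fl (fun y => ζ • f y) Ω s x)
        (ζ • f (fl (fun y => ζ • f y) Ω 1 x)) 1 :=
      hasDerivAt_fl hΩ (odeh_contDiffOn_real_smul hΩ hf ζ) h
    have h4 : ((fun w => cfl f Ω w x) ∘ fun s : ℝ => (s : ℂ) * ζ) =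
        fun s : ℝ => fl (fun y => ζ • f y) Ω s x := by
      funext s
      exact cfl_ofReal_mul hΩ hf s ζ
    rw [h4] at h2
    have h5 := h2.unique h3
    have h6 : deriv (fun w => cfl f Ω w x) ζ = f (fl (fun y => ζ • f y) Ω 1 x) :=
      smul_right_injective E hζ h5
    rw [h6] at hD
    exact hD

/-- uniform existence radius on compact sets. -/
theorem exists_pos_forall_mem_cdom (hΩ : IsOpen Ω) (hf : DifferentiableOn ℂ f Ω) {K : Set E}
    (hK : IsCompact K) (hKΩ : K ⊆ Ω) : ∃ r > 0, ∀ y ∈ K, ∀ w : ℂ, ‖w‖ ≤ r → (w, y) ∈ cdom f Ω := by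
  have hopen := isOpen_cdom hΩ hf
  have hsub : ({0} : Set ℂ) ×ˢ K ⊆ cdom f Ω := by
    rintro ⟨r, y⟩ ⟨hr, hy⟩
    rw [Set.mem_singleton_iff] at hr
    subst hr
    exact zero_mem_cdom.2 (hKΩ hy)
  obtain ⟨U, V, hU, -, h0U, hKV, hUV⟩ := generalized_tube_lemma isCompact_singleton hK hopen hsub
  obtain ⟨ε, hε, hball⟩ := Metric.isOpen_iff.1 hU 0 (h0U rfl)
  refine ⟨ε / 2, by positivity, fun y hy r hr => hUV ⟨hball ?_, hKV hy⟩⟩
  rw [Metric.mem_ball, dist_zero_right]
  linarith

end E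

end Claimed.Agent.R316.ODE
end

/- ===== packed: Claimed.Agent.R316.Base.ODE.Api ===== -/
section
/-!
# Row 316 base layer `BP-G2`: ordinary differential equations, the exported statements

CONSUMERS (G1, G3, G4, G5, G14, S5): import this file; the statements of the five section files are final.
The proofs are being filled in from the leaf files of `R316/Base/ODE/` (owner helper267).

Contents
* A. (`FlowBasic.lean`, `Flow.lean`) maximal flow of an autonomous field: uniqueness, open domain, smoothness, group law,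
     continuation / escape, rescaling, restriction, naturality, variational equation;
* B. (`Evo.lean`) time and parameter dependent equations (`evo`);
* C. (`Linear.lean`) linear equations (global existence, linearity), second order linear estimates (Jacobi);
* D. (`Spray.lean`) second order systems `x'' = B x (x', x')` (`spray`), homogeneity;
* E. (`Hol.lean`) holomorphic fields: holomorphic flow maps, complex time flow (`cfl`).
-/
end

/- ===== packed: Claimed.Agent.R316.B6E.Moll ===== -/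
section
set_option autoImplicit false

/-!
# Row 316, B6E: mollifiers on a finite dimensional real inner product space, `L^p` convergence

Copy of `Claimed/Agent/R259/WsMol.lean` (author helper217, sorry-free), moved into the namespace
`Claimed.Agent.R316.B6E` so that the package does not depend on another row.  Main results:
`wsMol_contDiff`, `wsMol_support_subset`, `wsMol_eLpNorm_le` (Young), `wsMol_tendsto_eLpNorm`.
-/

section SecMoll
set_option linter.unusedSectionVars false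

open MeasureTheory Filter Topology ContinuousLinearMap
open scoped ContDiff ENNReal Convolution

namespace Claimed.Agent.R316.B6E

variable {E : Type} [NormedAddCommGroup E] [InnerProductSpace ℝ E] [FiniteDimensional ℝ E]
  [MeasurableSpace E] [BorelSpace E]
variable {F : Type} [NormedAddCommGroup F] [NormedSpace ℝ F] [CompleteSpace F]

/-- the `k`-th bump: inner radius `1/(2(k+1))`, outer radius `1/(k+1)`. -/
noncomputable def wsB (k : ℕ) : ContDiffBump (0 : E) where
  rIn := 1 / (2 * ((k : ℝ) + 1))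
  rOut := 1 / ((k : ℝ) + 1)
  rIn_pos := by positivity
  rIn_lt_rOut := by
    have h : (0:ℝ) < (k:ℝ) + 1 := by positivity
    rw [div_lt_div_iff₀ (by positivity) h]
    linarith

/-- the `k`-th mollifier. -/
noncomputable def wsRho (k : ℕ) : E → ℝ := (wsB k : ContDiffBump (0 : E)).normed volume

/-- mollification at scale `1/(k+1)`. -/
noncomputable def wsMol (k : ℕ) (f : E → F) : E → F :=
  (wsRho k : E → ℝ) ⋆[lsmul ℝ ℝ, volume] f

theorem wsB_rOut (k : ℕ) : (wsB k : ContDiffBump (0 : E)).rOut = 1 / ((k : ℝ) + 1) := rfl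

theorem wsB_rOut_le_one (k : ℕ) : (wsB k : ContDiffBump (0 : E)).rOut ≤ 1 := by
  rw [wsB_rOut, div_le_one (by positivity)]
  have : (0:ℝ) ≤ k := Nat.cast_nonneg k
  linarith

theorem wsB_rOut_tendsto :
    Tendsto (fun k : ℕ => (wsB k : ContDiffBump (0 : E)).rOut) atTop (𝓝 0) := by
  simp only [wsB_rOut]
  exact tendsto_one_div_add_atTop_nhds_zero_nat

theorem wsRho_contDiff (k : ℕ) : ContDiff ℝ ∞ (wsRho k : E → ℝ) :=
  (wsB k).contDiff_normed

theorem wsRho_nonneg (k : ℕ) (x : E) : 0 ≤ wsRho k x := (wsB k).nonneg_normed x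

theorem wsRho_integral (k : ℕ) : ∫ x : E, wsRho k x = 1 := (wsB k).integral_normed

theorem wsRho_hasCompactSupport (k : ℕ) : HasCompactSupport (wsRho k : E → ℝ) :=
  (wsB k).hasCompactSupport_normed

theorem wsRho_support (k : ℕ) :
    Function.support (wsRho k : E → ℝ) = Metric.ball 0 (1 / ((k : ℝ) + 1)) :=
  (wsB k).support_normed_eq

theorem wsRho_neg (k : ℕ) (x : E) : wsRho k (-x) = wsRho k x := (wsB k).normed_neg x

theorem wsRho_integrable (k : ℕ) : Integrable (wsRho k : E → ℝ) volume :=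
  (wsB k).integrable_normed


theorem wsRho_eq_zero {k : ℕ} {x : E} (hx : 1 / ((k : ℝ) + 1) ≤ ‖x‖) : wsRho k x = 0 := by
  by_contra h
  have : x ∈ Function.support (wsRho k : E → ℝ) := h
  rw [wsRho_support] at this
  simp at this
  simp at hx
  linarith

theorem wsMol_eq (k : ℕ) (f : E → F) (x : E) : wsMol k f x = ∫ y, wsRho k (x - y) • f y := by
  unfold wsMol
  rw [convolution_lsmul_swap]

theorem wsMol_eq' (k : ℕ) (f : E → F) (x : E) : wsMol k f x = ∫ y, wsRho k y • f (x - y) := by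
  unfold wsMol
  rw [convolution_lsmul]

theorem wsMol_exists (k : ℕ) {f : E → F} (hf : LocallyIntegrable f volume) :
    ConvolutionExists (wsRho k : E → ℝ) f (lsmul ℝ ℝ) volume :=
  (wsRho_hasCompactSupport k).convolutionExists_left _ (wsRho_contDiff k).continuous hf

theorem wsMol_integrable_swap (k : ℕ) {f : E → F} (hf : LocallyIntegrable f volume) (x : E) :
    Integrable (fun y => wsRho k (x - y) • f y) volume :=
  (wsMol_exists k hf x).integrable_swap

theorem wsMol_integrable' (k : ℕ) {f : E → F} (hf : LocallyIntegrable f volume) (x : E) :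
    Integrable (fun y => wsRho k y • f (x - y)) volume :=
  (wsMol_exists k hf x).integrable

theorem wsMol_contDiff (k : ℕ) {f : E → F} (hf : LocallyIntegrable f volume) :
    ContDiff ℝ ∞ (wsMol k f) :=
  (wsRho_hasCompactSupport k).contDiff_convolution_left _ (wsRho_contDiff k) hf

theorem wsMol_hasCompactSupport (k : ℕ) {f : E → F} (hf : HasCompactSupport f) :
    HasCompactSupport (wsMol k f) :=
  (wsRho_hasCompactSupport k).convolution _ hf

theorem wsMol_tendsto_ae {f : E → F} (hf : LocallyIntegrable f volume) :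
    ∀ᵐ x, Tendsto (fun k => wsMol k f x) atTop (𝓝 (f x)) := by
  refine ContDiffBump.ae_convolution_tendsto_right_of_locallyIntegrable (K := 2)
    (φ := fun k => (wsB k : ContDiffBump (0 : E))) wsB_rOut_tendsto ?_ hf
  refine Eventually.of_forall fun k => ?_
  show 1 / ((k : ℝ) + 1) ≤ 2 * (1 / (2 * ((k : ℝ) + 1)))
  have h : (0:ℝ) < (k:ℝ) + 1 := by positivity
  field_simp
  exact le_refl _

theorem wsMol_congr (k : ℕ) {f f' : E → F} (h : f =ᵐ[volume] f') : wsMol k f = wsMol k f' := by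
  funext x
  rw [wsMol_eq, wsMol_eq]
  refine integral_congr_ae ?_
  filter_upwards [h] with y hy
  rw [hy]

theorem wsRho_integral_sub (k : ℕ) (x : E) : ∫ y, wsRho k (x - y) = 1 := by
  rw [integral_sub_left_eq_self (fun y => wsRho k y) volume x]
  exact wsRho_integral k

theorem wsRho_integrable_sub (k : ℕ) (x : E) : Integrable (fun y => wsRho k (x - y)) volume :=
  (wsRho_integrable k).comp_sub_left x

theorem wsMol_nonneg (k : ℕ) {f : E → ℝ} (hf : ∀ᵐ x, 0 ≤ f x) (x : E) : 0 ≤ wsMol k f x := by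
  rw [wsMol_eq]
  refine integral_nonneg_of_ae ?_
  filter_upwards [hf] with y hy
  exact mul_nonneg (wsRho_nonneg k _) hy

theorem wsMol_norm_le (k : ℕ) {f : E → F} {C : ℝ} (hf : ∀ᵐ x, ‖f x‖ ≤ C) (x : E) :
    ‖wsMol k f x‖ ≤ C := by
  rw [wsMol_eq]
  have h1 : ‖∫ y, wsRho k (x - y) • f y‖ ≤ ∫ y, wsRho k (x - y) * C := by
    refine norm_integral_le_of_norm_le ((wsRho_integrable_sub k x).mul_const C) ?_
    filter_upwards [hf] with y hy
    rw [norm_smul, Real.norm_of_nonneg (wsRho_nonneg k _)]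
    exact mul_le_mul_of_nonneg_left hy (wsRho_nonneg k _)
  rw [integral_mul_const, wsRho_integral_sub, one_mul] at h1
  exact h1

theorem wsMol_add (k : ℕ) {f g : E → F} (hf : LocallyIntegrable f volume)
    (hg : LocallyIntegrable g volume) :
    wsMol k (fun x => f x + g x) = fun x => wsMol k f x + wsMol k g x := by
  funext x
  simp only [wsMol_eq, smul_add]
  exact integral_add (wsMol_integrable_swap k hf x) (wsMol_integrable_swap k hg x)

theorem wsMol_sub (k : ℕ) {f g : E → F} (hf : LocallyIntegrable f volume)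
    (hg : LocallyIntegrable g volume) :
    wsMol k (fun x => f x - g x) = fun x => wsMol k f x - wsMol k g x := by
  funext x
  simp only [wsMol_eq, smul_sub]
  exact integral_sub (wsMol_integrable_swap k hf x) (wsMol_integrable_swap k hg x)

theorem wsMol_smul (k : ℕ) (c : ℝ) (f : E → F) :
    wsMol k (fun x => c • f x) = fun x => c • wsMol k f x := by
  funext x
  simp only [wsMol_eq]
  rw [← integral_smul]
  refine integral_congr_ae (Eventually.of_forall fun y => ?_)
  simp only [smul_comm c]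

theorem wsMol_const (k : ℕ) (c : F) : wsMol k (fun _ : E => c) = fun _ => c := by
  funext x
  rw [wsMol_eq, integral_smul_const, wsRho_integral_sub, one_smul]

/-- a continuous linear map commutes with mollification. -/
theorem wsMol_clm {F' : Type} [NormedAddCommGroup F'] [NormedSpace ℝ F'] [CompleteSpace F']
    (k : ℕ) (L : F →L[ℝ] F') {f : E → F} (hf : LocallyIntegrable f volume) :
    wsMol k (fun x => L (f x)) = fun x => L (wsMol k f x) := by
  funext x
  simp only [wsMol_eq]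
  rw [← L.integral_comp_comm (wsMol_integrable_swap k hf x)]
  simp

theorem wsMol_le (k : ℕ) {f : E → ℝ} (hf : LocallyIntegrable f volume) {C : ℝ}
    (hC : ∀ᵐ x, f x ≤ C) (x : E) : wsMol k f x ≤ C := by
  have h := wsMol_nonneg k (f := fun x => C - f x) (by filter_upwards [hC] with y hy; linarith) x
  rw [wsMol_sub k (locallyIntegrable_const C) hf, wsMol_const] at h
  linarith

theorem wsMol_ge (k : ℕ) {f : E → ℝ} (hf : LocallyIntegrable f volume) {C : ℝ}
    (hC : ∀ᵐ x, C ≤ f x) (x : E) : C ≤ wsMol k f x := by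
  have h := wsMol_nonneg k (f := fun x => f x - C) (by filter_upwards [hC] with y hy; linarith) x
  rw [wsMol_sub k hf (locallyIntegrable_const C), wsMol_const] at h
  linarith

theorem wsMol_dist_le (k : ℕ) {f : E → F} (hf : AEStronglyMeasurable f volume) {x : E} {ε : ℝ}
    (h : ∀ y ∈ Metric.ball x (1 / ((k : ℝ) + 1)), dist (f y) (f x) ≤ ε) :
    dist (wsMol k f x) (f x) ≤ ε :=
  (wsB k).dist_normed_convolution_le hf h

theorem wsMol_tendstoUniformly {f : E → F} (hf : UniformContinuous f) :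
    TendstoUniformly (fun k => wsMol k f) f atTop := by
  rw [Metric.tendstoUniformly_iff]
  intro ε hε
  obtain ⟨δ, hδ, hd⟩ := Metric.uniformContinuous_iff.1 hf (ε / 2) (half_pos hε)
  have h1 : ∀ᶠ k : ℕ in atTop, 1 / ((k : ℝ) + 1) < δ :=
    (tendsto_one_div_add_atTop_nhds_zero_nat (𝕜 := ℝ)).eventually (gt_mem_nhds hδ)
  filter_upwards [h1] with k hk x
  rw [dist_comm]
  refine lt_of_le_of_lt (wsMol_dist_le k hf.continuous.aestronglyMeasurable ?_) (half_lt_self hε)
  intro y hy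
  exact (hd (lt_trans (Metric.mem_ball.1 hy) hk)).le

/-- the value of the mollification at `x` depends only on `f` near `x`. -/
theorem wsMol_eq_of_eqOn (k : ℕ) {f f' : E → F} {x : E}
    (h : ∀ y ∈ Metric.ball x (1 / ((k : ℝ) + 1)), f y = f' y) : wsMol k f x = wsMol k f' x := by
  rw [wsMol_eq, wsMol_eq]
  refine integral_congr_ae (Eventually.of_forall fun y => ?_)
  by_cases hy : y ∈ Metric.ball x (1 / ((k : ℝ) + 1))
  · simp only [h y hy]
  · have : wsRho k (x - y) = 0 := by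
      apply wsRho_eq_zero
      rw [Metric.mem_ball, dist_comm, dist_eq_norm] at hy
      exact not_lt.1 hy
    simp only [this, zero_smul]

theorem wsMol_eq_zero_of (k : ℕ) {f : E → F} {x : E}
    (h : ∀ y ∈ Metric.ball x (1 / ((k : ℝ) + 1)), f y = 0) : wsMol k f x = 0 := by
  rw [wsMol_eq_of_eqOn k (f' := fun _ => 0) h, wsMol_const]

/-- support control: the mollification vanishes off the `1`-thickening. -/
theorem wsMol_support_subset (k : ℕ) (f : E → F) :
    Function.support (wsMol k f) ⊆ Metric.cthickening 1 (tsupport f) := by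
  intro x hx
  by_contra hx'
  apply hx
  apply wsMol_eq_zero_of
  intro y hy
  by_contra hy'
  apply hx'
  have h1 : y ∈ tsupport f := subset_tsupport _ hy'
  refine Metric.mem_cthickening_of_dist_le x y 1 _ h1 ?_
  rw [dist_comm]
  exact (Metric.mem_ball.1 hy).le.trans (wsB_rOut_le_one (E := E) k)

/-- the probability measure `ρ_k dx`. -/
noncomputable def wsNu (k : ℕ) : Measure E :=
  volume.withDensity (fun y => ENNReal.ofReal (wsRho k y))

instance wsNu_prob (k : ℕ) : IsProbabilityMeasure (wsNu k : Measure E) := by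
  constructor
  unfold wsNu
  rw [withDensity_apply _ MeasurableSet.univ, Measure.restrict_univ,
    ← ofReal_integral_eq_lintegral_ofReal (wsRho_integrable k)
      (Eventually.of_forall (wsRho_nonneg k)), wsRho_integral, ENNReal.ofReal_one]

theorem wsMol_enorm_le (k : ℕ) {f : E → F} (hf : StronglyMeasurable f) (x : E) :
    ‖wsMol k f x‖ₑ ≤ ∫⁻ y, ‖f (x - y)‖ₑ ∂(wsNu k) := by
  rw [wsMol_eq']
  refine (enorm_integral_le_lintegral_enorm _).trans ?_
  unfold wsNu
  have hm : Measurable fun y => ‖f (x - y)‖ₑ :=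
    (hf.comp_measurable (measurable_const.sub measurable_id)).enorm
  rw [lintegral_withDensity_eq_lintegral_mul _
    (wsRho_contDiff k).continuous.measurable.ennreal_ofReal hm]
  refine le_of_eq (lintegral_congr fun y => ?_)
  rw [enorm_smul, Pi.mul_apply, Real.enorm_of_nonneg (wsRho_nonneg k y)]

theorem wsMol_enorm_rpow_le (k : ℕ) {p : ℝ} (hp : 1 ≤ p) {f : E → F} (hf : StronglyMeasurable f)
    (x : E) : ‖wsMol k f x‖ₑ ^ p ≤ ∫⁻ y, ‖f (x - y)‖ₑ ^ p ∂(wsNu k) := by
  have hp0 : 0 < p := lt_of_lt_of_le one_pos hp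
  have hm : StronglyMeasurable fun y => f (x - y) :=
    hf.comp_measurable (measurable_const.sub measurable_id)
  have h1 := eLpNorm'_le_eLpNorm'_of_exponent_le (f := fun y => f (x - y)) one_pos hp
    (wsNu k : Measure E) hm.aestronglyMeasurable
  simp only [eLpNorm', ENNReal.rpow_one, div_one] at h1
  calc ‖wsMol k f x‖ₑ ^ p ≤ (∫⁻ y, ‖f (x - y)‖ₑ ∂(wsNu k)) ^ p :=
        ENNReal.rpow_le_rpow (wsMol_enorm_le k hf x) hp0.le
    _ ≤ ((∫⁻ y, ‖f (x - y)‖ₑ ^ p ∂(wsNu k)) ^ (1 / p)) ^ p := ENNReal.rpow_le_rpow h1 hp0.le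
    _ = ∫⁻ y, ‖f (x - y)‖ₑ ^ p ∂(wsNu k) := by
        rw [← ENNReal.rpow_mul, one_div, inv_mul_cancel₀ hp0.ne', ENNReal.rpow_one]

/-- YOUNG's inequality for the mollifier. -/
theorem wsMol_lintegral_rpow_le (k : ℕ) {p : ℝ} (hp : 1 ≤ p) {f : E → F}
    (hf : AEStronglyMeasurable f volume) :
    ∫⁻ x, ‖wsMol k f x‖ₑ ^ p ≤ ∫⁻ x, ‖f x‖ₑ ^ p := by
  have hp0 : 0 < p := lt_of_lt_of_le one_pos hp
  set f' := hf.mk f with hf'
  have hsm : StronglyMeasurable f' := hf.stronglyMeasurable_mk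
  have hae : f =ᵐ[volume] f' := hf.ae_eq_mk
  rw [wsMol_congr k hae]
  have hR : ∫⁻ x, ‖f x‖ₑ ^ p = ∫⁻ x, ‖f' x‖ₑ ^ p := by
    refine lintegral_congr_ae ?_
    filter_upwards [hae] with x hx
    rw [hx]
  rw [hR]
  have hm2 : Measurable (Function.uncurry fun (x y : E) => ‖f' (x - y)‖ₑ ^ p) := by
    have : StronglyMeasurable fun z : E × E => f' (z.1 - z.2) :=
      hsm.comp_measurable (measurable_fst.sub measurable_snd)
    exact this.enorm.pow_const p
  calc ∫⁻ x, ‖wsMol k f' x‖ₑ ^ p ≤ ∫⁻ x, ∫⁻ y, ‖f' (x - y)‖ₑ ^ p ∂(wsNu k) :=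
        lintegral_mono fun x => wsMol_enorm_rpow_le k hp hsm x
    _ = ∫⁻ y, (∫⁻ x, ‖f' (x - y)‖ₑ ^ p) ∂(wsNu k) := lintegral_lintegral_swap hm2.aemeasurable
    _ = ∫⁻ y, (∫⁻ x, ‖f' x‖ₑ ^ p) ∂(wsNu k) := by
        refine lintegral_congr fun y => ?_
        exact lintegral_sub_right_eq_self (fun x => ‖f' x‖ₑ ^ p) y
    _ = ∫⁻ x, ‖f' x‖ₑ ^ p := by
        rw [lintegral_const, measure_univ, mul_one]

theorem wsMol_eLpNorm_le (k : ℕ) {p : ℝ≥0∞} (hp : 1 ≤ p) (hp' : p ≠ ⊤) {f : E → F}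
    (hf : AEStronglyMeasurable f volume) :
    eLpNorm (wsMol k f) p volume ≤ eLpNorm f p volume := by
  have hp0 : p ≠ 0 := (lt_of_lt_of_le one_pos hp).ne'
  rw [eLpNorm_eq_lintegral_rpow_enorm_toReal hp0 hp', eLpNorm_eq_lintegral_rpow_enorm_toReal hp0 hp']
  refine ENNReal.rpow_le_rpow (wsMol_lintegral_rpow_le k ?_ hf) (by positivity)
  rw [← ENNReal.toReal_one]
  exact ENNReal.toReal_mono hp' hp


theorem wsMol_aestronglyMeasurable (k : ℕ) {f : E → F} (hf : LocallyIntegrable f volume) :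
    AEStronglyMeasurable (wsMol k f) volume :=
  (wsMol_contDiff k hf).continuous.aestronglyMeasurable

theorem wsMol_memLp (k : ℕ) {p : ℝ≥0∞} (hp : 1 ≤ p) (hp' : p ≠ ⊤) {f : E → F}
    (hf : MemLp f p volume) : MemLp (wsMol k f) p volume :=
  ⟨wsMol_aestronglyMeasurable k (hf.locallyIntegrable hp),
    (wsMol_eLpNorm_le k hp hp' hf.1).trans_lt hf.2⟩

/-- mollification of a continuous compactly supported function converges in `L^p`. -/
theorem wsMol_tendsto_eLpNorm_of_continuous {p : ℝ≥0∞} {h : E → F}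
    (hc : Continuous h) (hs : HasCompactSupport h) :
    Tendsto (fun k => eLpNorm (fun x => wsMol k h x - h x) p volume) atTop (𝓝 0) := by
  set K := Metric.cthickening 1 (tsupport h) with hK
  have hKc : IsCompact K := hs.isCompact.cthickening
  have hsub : ∀ k, Function.support (fun x => wsMol k h x - h x) ⊆ K := by
    intro k x hx
    by_contra hx'
    apply hx
    have h1 : wsMol k h x = 0 := by
      by_contra h0
      exact hx' (wsMol_support_subset k h h0)
    have h2 : h x = 0 := by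
      by_contra h0
      exact hx' (Metric.self_subset_cthickening _ (subset_tsupport _ h0))
    simp [h1, h2]
  have hunif := Metric.tendstoUniformly_iff.1
    (wsMol_tendstoUniformly (hs.uniformContinuous_of_continuous hc))
  have hfin : volume K ^ p.toReal⁻¹ ≠ ⊤ :=
    ENNReal.rpow_ne_top_of_nonneg (by positivity) hKc.measure_lt_top.ne
  rw [ENNReal.tendsto_nhds_zero]
  intro ε hε
  -- choose δ with vol(K)^(1/p) * δ ≤ ε
  obtain ⟨δ, hδ, hδε⟩ : ∃ δ : ℝ, 0 < δ ∧ volume K ^ p.toReal⁻¹ * ENNReal.ofReal δ ≤ ε := by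
    have ht : Tendsto (fun δ : ℝ => volume K ^ p.toReal⁻¹ * ENNReal.ofReal δ) (𝓝[>] 0) (𝓝 0) := by
      have h1 : Tendsto (fun δ : ℝ => ENNReal.ofReal δ) (𝓝 0) (𝓝 0) := by
        simpa using (ENNReal.continuous_ofReal.tendsto 0)
      have h2 := ENNReal.Tendsto.const_mul (a := volume K ^ p.toReal⁻¹) h1 (Or.inr hfin)
      rw [mul_zero] at h2
      exact h2.mono_left nhdsWithin_le_nhds
    have h3 := (ht.eventually (ge_mem_nhds hε)).and self_mem_nhdsWithin
    obtain ⟨δ, h4, h5⟩ := h3.exists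
    exact ⟨δ, h5, h4⟩
  filter_upwards [hunif δ hδ] with k hk
  rw [← eLpNorm_restrict_eq_of_support_subset (hsub k)]
  refine (eLpNorm_le_of_ae_bound (C := δ) (Eventually.of_forall fun x => ?_)).trans ?_
  · have := hk x
    rw [dist_comm, dist_eq_norm] at this
    exact this.le
  · rw [Measure.restrict_apply MeasurableSet.univ, Set.univ_inter]
    exact hδε

/-- mollification converges in `L^p`, `1 ≤ p < ∞`. -/
theorem wsMol_tendsto_eLpNorm {p : ℝ≥0∞} (hp : 1 ≤ p) (hp' : p ≠ ⊤) {f : E → F}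
    (hf : MemLp f p volume) :
    Tendsto (fun k => eLpNorm (fun x => wsMol k f x - f x) p volume) atTop (𝓝 0) := by
  rw [ENNReal.tendsto_nhds_zero]
  intro ε hε
  have hε3 : ε / 3 ≠ 0 := (ENNReal.div_pos hε.ne' (by simp)).ne'
  obtain ⟨h, hs, hfh, hc, hm⟩ := hf.exists_hasCompactSupport_eLpNorm_sub_le hp' hε3
  have hfl := hf.locallyIntegrable hp
  have hhl := hm.locallyIntegrable hp
  have h1 := (ENNReal.tendsto_nhds_zero.1
    (wsMol_tendsto_eLpNorm_of_continuous (p := p) hc hs)) (ε / 3) (pos_iff_ne_zero.2 hε3)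
  filter_upwards [h1] with k hk
  have hdec : (fun x => wsMol k f x - f x) =
      (wsMol k (fun x => f x - h x) + (fun x => wsMol k h x - h x)) + (fun x => h x - f x) := by
    funext x
    simp only [Pi.add_apply, wsMol_sub k hfl hhl]
    abel
  have hfh' : eLpNorm (fun x => f x - h x) p volume ≤ ε / 3 := hfh
  have hfh'' : eLpNorm (fun x => h x - f x) p volume ≤ ε / 3 := by
    have : (fun x => h x - f x) = -(fun x => f x - h x) := by
      funext x; simp
    rw [this, eLpNorm_neg]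
    exact hfh'
  have hsubm : AEStronglyMeasurable (fun x => f x - h x) volume := hf.1.sub hm.1
  rw [hdec]
  calc eLpNorm ((wsMol k (fun x => f x - h x) + (fun x => wsMol k h x - h x))
          + (fun x => h x - f x)) p volume
      ≤ eLpNorm (wsMol k (fun x => f x - h x) + (fun x => wsMol k h x - h x)) p volume
          + eLpNorm (fun x => h x - f x) p volume :=
        eLpNorm_add_le (((wsMol_aestronglyMeasurable k (hfl.sub hhl))).add
          ((wsMol_aestronglyMeasurable k hhl).sub hm.1)) (hm.1.sub hf.1) hp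
    _ ≤ (eLpNorm (wsMol k (fun x => f x - h x)) p volume
          + eLpNorm (fun x => wsMol k h x - h x) p volume)
          + eLpNorm (fun x => h x - f x) p volume := by
        gcongr
        exact eLpNorm_add_le (wsMol_aestronglyMeasurable k (hfl.sub hhl))
          ((wsMol_aestronglyMeasurable k hhl).sub hm.1) hp
    _ ≤ (ε / 3 + ε / 3) + ε / 3 := by
        gcongr
        exact (wsMol_eLpNorm_le k hp hp' hsubm).trans hfh'
    _ = ε := by
        rw [← two_mul, ← add_one_mul]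
        norm_num
        exact ENNReal.mul_div_cancel (by simp) (by simp)

end Claimed.Agent.R316.B6E

end SecMoll

/-!
# Row 316, B6E-Hilbert: two abstract Hilbert space lemmas (replace the theory of unbounded operators)
-/

section SecHilbert
namespace Claimed.Agent.R316.B6E

/-- **Projection lemma.**  `𝒢` = images `S^*w` of the test 2-forms, `𝒯` = pairs `(∂̄u, u)` for test functions `u`.
If the estimate `|⟨g,f⟩|² ≤ C ‖v‖²` holds for all `f ⊥ 𝒢` with "weak adjoint" `v`, then it holds for ALL `F` with weak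
adjoint `V` (no orthogonality to `𝒢` needed), provided `g ⊥ 𝒢` and `𝒯.1 ⊥ 𝒢`.
Proof: `N = (span 𝒢)ᗮ`, `f = P_N F`; `F - f ∈ Nᗮ`, and `g, τ.1 ∈ N`. -/
theorem hilbert_projection_estimate {H1 H2 : Type*} [NormedAddCommGroup H1]
    [InnerProductSpace ℂ H1] [NormedAddCommGroup H2] [InnerProductSpace ℂ H2] [CompleteSpace H2]
    (𝒢 : Set H2) (𝒯 : Set (H2 × H1)) (horth : ∀ τ ∈ 𝒯, ∀ γ ∈ 𝒢, inner ℂ τ.1 γ = 0)
    (g : H2) (hg : ∀ γ ∈ 𝒢, inner ℂ g γ = 0) (C : ℝ)
    (hest : ∀ (f : H2) (v : H1), (∀ γ ∈ 𝒢, inner ℂ f γ = 0) →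
      (∀ τ ∈ 𝒯, inner ℂ τ.1 f = inner ℂ τ.2 v) → ‖inner ℂ g f‖ ^ 2 ≤ C * ‖v‖ ^ 2)
    (F : H2) (V : H1) (hFV : ∀ τ ∈ 𝒯, inner ℂ τ.1 F = inner ℂ τ.2 V) :
    ‖inner ℂ g F‖ ^ 2 ≤ C * ‖V‖ ^ 2 := by
  classical
  set N : Submodule ℂ H2 := (Submodule.span ℂ 𝒢)ᗮ with hN
  have memN : ∀ x : H2, (∀ γ ∈ 𝒢, inner ℂ x γ = 0) → x ∈ N := by
    intro x hx
    rw [hN, Submodule.mem_orthogonal]
    intro u hu
    induction hu using Submodule.span_induction with
    | mem γ hγ =>
      rw [← inner_conj_symm, hx γ hγ, map_zero]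
    | zero => simp
    | add a b _ _ ha hb => rw [inner_add_left, ha, hb, add_zero]
    | smul c a _ ha => rw [inner_smul_left, ha, mul_zero]
  have ofN : ∀ x ∈ N, ∀ γ ∈ 𝒢, inner ℂ x γ = 0 := by
    intro x hx γ hγ
    rw [hN, Submodule.mem_orthogonal] at hx
    rw [← inner_conj_symm, hx γ (Submodule.subset_span hγ), map_zero]
  set f : H2 := (N.starProjection F) with hf
  have hfN : f ∈ N := by
    rw [hf]; exact Submodule.starProjection_apply_mem N F
  have hperp : ∀ x ∈ N, inner ℂ x (F - f) = 0 := by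
    intro x hx
    have := Submodule.sub_starProjection_mem_orthogonal (K := N) F
    rw [Submodule.mem_orthogonal] at this
    exact this x hx
  have hgN : g ∈ N := memN g hg
  have h1 : inner ℂ g F = inner ℂ g f := by
    have := hperp g hgN
    rw [inner_sub_right, sub_eq_zero] at this
    exact this
  rw [h1]
  refine hest f V (ofN f hfN) ?_
  intro τ hτ
  have hτN : τ.1 ∈ N := memN τ.1 (horth τ hτ)
  have := hperp τ.1 hτN
  rw [inner_sub_right, sub_eq_zero] at this
  rw [← this]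
  exact hFV τ hτ

/-- **Riesz on a range.**  A linear functional dominated by `√C ‖A x‖` is represented by a vector of norm `≤ √C`.
Proof: the functional descends to `LinearMap.range A`, is bounded there; extend by Hahn–Banach
(`exists_extension_norm_eq`) or by continuity + orthogonal projection; `InnerProductSpace.toDual`. -/
theorem hilbert_riesz_range {H : Type*} [NormedAddCommGroup H] [InnerProductSpace ℂ H]
    [CompleteSpace H] {D : Type*} [AddCommGroup D] [Module ℂ D] (A : D →ₗ[ℂ] H) (ℓ : D →ₗ[ℂ] ℂ)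
    (C : ℝ) (hC : 0 ≤ C) (h : ∀ x, ‖ℓ x‖ ^ 2 ≤ C * ‖A x‖ ^ 2) :
    ∃ u : H, ‖u‖ ^ 2 ≤ C ∧ ∀ x, ℓ x = inner ℂ u (A x) := by
  classical
  have hker : LinearMap.ker A ≤ LinearMap.ker ℓ := by
    intro x hx
    rw [LinearMap.mem_ker] at hx ⊢
    have := h x
    rw [hx, norm_zero] at this
    have h2 : ‖ℓ x‖ ^ 2 ≤ 0 := by simpa using this
    have h3 : ‖ℓ x‖ = 0 := by
      have := sq_nonneg ‖ℓ x‖
      exact pow_eq_zero_iff (two_ne_zero) |>.1 (le_antisymm h2 this)
    exact norm_eq_zero.1 h3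
  set φ0 : LinearMap.range A →ₗ[ℂ] ℂ :=
    ((LinearMap.ker A).liftQ ℓ hker).comp (A.quotKerEquivRange.symm : _ →ₗ[ℂ] _) with hφ0
  have hφA : ∀ x, φ0 ⟨A x, LinearMap.mem_range_self A x⟩ = ℓ x := by
    intro x
    have : A.quotKerEquivRange.symm ⟨A x, LinearMap.mem_range_self A x⟩
        = (LinearMap.ker A).mkQ x := by
      rw [LinearEquiv.symm_apply_eq]
      ext
      simp
    simp only [hφ0, LinearMap.comp_apply, LinearEquiv.coe_coe, this]
    simp
  have hbound : ∀ y : LinearMap.range A, ‖φ0 y‖ ≤ Real.sqrt C * ‖y‖ := by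
    rintro ⟨y, x, rfl⟩
    rw [hφA x]
    have h1 := h x
    have h2 : ‖ℓ x‖ ^ 2 ≤ (Real.sqrt C * ‖A x‖) ^ 2 := by
      rw [mul_pow, Real.sq_sqrt hC]; exact h1
    exact abs_le_of_sq_le_sq' h2 (by positivity) |>.2 |> fun h => by simpa using h
  set φ : StrongDual ℂ (LinearMap.range A) := φ0.mkContinuous (Real.sqrt C) hbound with hφ
  obtain ⟨G, hG1, hG2⟩ := exists_extension_norm_eq (LinearMap.range A) φ
  refine ⟨(InnerProductSpace.toDual ℂ H).symm G, ?_, ?_⟩
  · rw [LinearIsometryEquiv.norm_map, hG2]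
    have h1 : ‖φ‖ ≤ Real.sqrt C := LinearMap.mkContinuous_norm_le _ (Real.sqrt_nonneg C) _
    calc ‖φ‖ ^ 2 ≤ (Real.sqrt C) ^ 2 := by gcongr
      _ = C := Real.sq_sqrt hC
  · intro x
    rw [InnerProductSpace.toDual_symm_apply]
    have := hG1 ⟨A x, LinearMap.mem_range_self A x⟩
    simp only at this
    rw [this]
    exact (hφA x).symm

end Claimed.Agent.R316.B6E

end SecHilbert
end
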