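/- Packed by merge_tool.py (helper293): 7 modules of Claimed.Agent.R316 in one file, same declarations.
   Old modules, in this order: Base.Tub.Api, B6E.BKH, Top.Assembly, BR.Par, BR.KImm, BR.Gram, S10.Par -/
import Claimed.Agent.R316.Base.Tub.Field
import Claimed.Agent.R316.Base.Tub.Spray
import Claimed.Agent.R316.BR.Defs
import Claimed.Agent.R316.CW.MatAlg
import Claimed.Agent.R316.S10.Poly
import Claimed.Agent.R316.S10.Shadow
import Claimed.Agent.R316.Pack015_2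
import Claimed.Agent.R316.Pack016_2
import Claimed.Agent.R316.Pack007

/- ===== packed: Claimed.Agent.R316.Base.Tub.Api ===== -/
section
/-!
# `BP-G3`: flows of tangent fields, complex time flows, geodesic flow on a `CMfd` with CLOSED carrier

CONSUMERS (G4, G5, S5, S7-5): import this file.
* `Tub/Inv.lean`   : `TanField M X` (closed `M ⊆ V`), the flow `ODE.fl X M` in `M`, full flow API;
                     `exists_contDiff_extension` (smooth extension from closed sets).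
* `Tub/Field.lean` : `𝓜.SmoothMap`, `𝓜.SmoothField`, `coField`, flows in parametrisations.
* `Tub/CFlow.lean` : `𝓜.cmul`, `𝓜.cfield`, `𝓜.cdom`, `𝓜.cfl` (complex time flow of holomorphic fields).
* `Tub/Spray.lean` : `𝓜.TM`, `gspray`, `gdom`, `geo`, `geoV`, `hexp`; geodesics = integral curves.
There is no tubular retraction (not needed).
-/
end

/- ===== packed: Claimed.Agent.R316.B6E.BKH ===== -/
section
set_option autoImplicit false

/-!
# Row 316, B6E-BKH: the Bochner–Kodaira–Hörmander inequality for test forms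

For a weight `p` smooth on the open set `Ω` and a test form `F` on `Ω`:
`∫ ∑ p_{j\bar k} F_j \bar F_k e^{-p} + ∫ ∑_{j,k} |∂̄_k F_j|² e^{-p}
   = ∫ |∑ δ_j F_j|² e^{-p} + ∫ ∑_{j<k} |∂̄_j F_k - ∂̄_k F_j|² e^{-p}`.

Proof (Hörmander, Introduction to complex analysis in several variables, (4.2.6)–(4.2.8)):
`∫ δ_j F_j \overline{δ_k F_k} e^{-p} = - ∫ ∂̄_k δ_j F_j \bar F_k e^{-p}`  (`integral_dl_mul_conj`, conjugated)
`= - ∫ δ_j ∂̄_k F_j \bar F_k e^{-p} + ∫ p_{j \bar k} F_j \bar F_k e^{-p}`   (`dl_dzb_comm`)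
`= ∫ ∂̄_k F_j \overline{∂̄_j F_k} e^{-p} + ∫ p_{j\bar k} F_j \bar F_k e^{-p}` (`integral_dl_mul_conj`),
and pointwise `½ ∑_{j,k} |∂̄_j F_k - ∂̄_k F_j|² = ∑_{j,k} |∂̄_k F_j|² - Re ∑_{j,k} ∂̄_k F_j \overline{∂̄_j F_k}`.
All integrands are continuous on `Ω` and vanish off the compact set `⋃ tsupport (F j) ⊆ Ω`
(`integrable_of_continuousOn_of_compact`).  `dl p j (F j)` is a test function (`IsTest.mul_contDiffOn`).
-/

section SecBKH
set_option linter.unusedSectionVars false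
open scoped ContDiff ComplexOrder ComplexConjugate Topology
open MeasureTheory

namespace Claimed.Agent.R316.B6E

variable {ι : Type} [Fintype ι] [DecidableEq ι]
variable {Ω : Set (CE ι)} {p : CE ι → ℝ} {F : ι → CE ι → ℂ}

theorem isTest_dl (hΩ : IsOpen Ω) (hp : ContDiffOn ℝ ∞ p Ω) {w : CE ι → ℂ} (hw : IsTest Ω w)
    (j : ι) : IsTest Ω (dl p j w) := isTest_dl' hΩ hp hw j

/-- real integrand from a complex test function: `Re` of test × smooth is integrable. -/
theorem integrable_re_test {w : CE ι → ℂ} (hw : IsTest Ω w) : Integrable (fun z => (w z).re) :=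
  hw.integrable.re

theorem normSq_eq_re (x : ℂ) : ‖x‖ ^ 2 = (x * conj x).re := by
  rw [Complex.mul_conj, Complex.ofReal_re, Complex.normSq_eq_norm_sq]

/-- general tool: (norm square of a test function) times `e^{-a}` is integrable. -/
theorem integrable_normSq_test (hΩ : IsOpen Ω) {a : CE ι → ℝ}
    (ha : ContDiffOn ℝ ∞ a Ω) {w : CE ι → ℂ} (hw : IsTest Ω w) :
    Integrable (fun z => ‖w z‖ ^ 2 * Real.exp (-a z)) := by
  have h := ((hw.mul hw.conj).mul_contDiffOn hΩ (contDiffOn_cx_exp ha.neg)).integrable.re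
  refine h.congr (Filter.Eventually.of_forall fun z => ?_)
  show (w z * conj (w z) * ((Real.exp (-a z) : ℝ) : ℂ)).re = ‖w z‖ ^ 2 * Real.exp (-a z)
  rw [Complex.re_mul_ofReal, normSq_eq_re]

theorem integrable_qf_levi (hΩ : IsOpen Ω) (hp : ContDiffOn ℝ ∞ p Ω) {a : CE ι → ℝ}
    (ha : ContDiffOn ℝ ∞ a Ω) (hF : IsTestForm Ω F) :
    Integrable (fun z => qf (levi p z) (fun j => F j z) * Real.exp (-a z)) := by
  have h : IsTest Ω (fun z => ∑ j, ∑ k, (conj (F j z) * F k z)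
      * (levi p z j k * ((Real.exp (-a z) : ℝ) : ℂ))) :=
    IsTest.sum _ fun j _ => IsTest.sum _ fun k _ =>
      ((hF j).conj.mul (hF k)).mul_contDiffOn hΩ
        ((contDiffOn_levi hΩ hp).mul (contDiffOn_cx_exp ha.neg))
  refine h.integrable.re.congr (Filter.Eventually.of_forall fun z => ?_)
  show (∑ j, ∑ k, (conj (F j z) * F k z)
      * (levi p z j k * ((Real.exp (-a z) : ℝ) : ℂ))).re
    = qf (levi p z) (fun j => F j z) * Real.exp (-a z)
  rw [qf_eq_sum, ← Complex.re_mul_ofReal]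
  congr 1
  rw [Finset.sum_mul]
  refine Finset.sum_congr rfl fun j _ => ?_
  rw [Finset.sum_mul]
  refine Finset.sum_congr rfl fun k _ => ?_
  ring

theorem integrable_div_sq (hΩ : IsOpen Ω) (hp : ContDiffOn ℝ ∞ p Ω) {a : CE ι → ℝ}
    (ha : ContDiffOn ℝ ∞ a Ω) (hF : IsTestForm Ω F) :
    Integrable (fun z => ‖∑ j, dl p j (F j) z‖ ^ 2 * Real.exp (-a z)) :=
  integrable_normSq_test hΩ ha (IsTest.sum _ fun j _ => isTest_dl hΩ hp (hF j) j)

theorem integrable_curlSq (hΩ : IsOpen Ω) {a : CE ι → ℝ}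
    (ha : ContDiffOn ℝ ∞ a Ω) (hF : IsTestForm Ω F) :
    Integrable (fun z => curlSq F z * Real.exp (-a z)) := by
  have h : Integrable (fun z => (1 / 2 : ℝ) * ∑ j, ∑ k,
      ‖dzb j (F k) z - dzb k (F j) z‖ ^ 2 * Real.exp (-a z)) :=
    (integrable_finsetSum _ fun j _ => integrable_finsetSum _ fun k _ =>
      integrable_normSq_test hΩ ha (((hF k).dzb (j := j)).sub ((hF j).dzb (j := k)))).const_mul _
  refine h.congr (Filter.Eventually.of_forall fun z => ?_)
  simp only [curlSq, Finset.sum_mul, mul_assoc]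

theorem curlSq_nonneg (F : ι → CE ι → ℂ) (z : CE ι) : 0 ≤ curlSq F z := by
  unfold curlSq; positivity

/-- pointwise algebra for the curl. -/
theorem curlSq_ofReal (F : ι → CE ι → ℂ) (z : CE ι) :
    ((curlSq F z : ℝ) : ℂ) = (((∑ j, ∑ k, ‖dzb k (F j) z‖ ^ 2 : ℝ)) : ℂ)
      - ∑ j, ∑ k, dzb k (F j) z * conj (dzb j (F k) z) := by
  set a : ι → ι → ℂ := fun j k => dzb j (F k) z with ha
  have h1 : ∀ j k, (((‖a j k - a k j‖ ^ 2 : ℝ)) : ℂ)
      = (((‖a j k‖ ^ 2 : ℝ)) : ℂ) + (((‖a k j‖ ^ 2 : ℝ)) : ℂ)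
        - a j k * conj (a k j) - a k j * conj (a j k) := by
    intro j k
    have e : ∀ x : ℂ, (((‖x‖ ^ 2 : ℝ)) : ℂ) = x * conj x := fun x => by
      rw [Complex.mul_conj, Complex.normSq_eq_norm_sq]
    rw [e, e, e, map_sub]; ring
  have h2 : ((curlSq F z : ℝ) : ℂ) = (1 / 2) * ∑ j, ∑ k, (((‖a j k - a k j‖ ^ 2 : ℝ)) : ℂ) := by
    unfold curlSq; push_cast; rfl
  rw [h2]
  simp only [h1, Finset.sum_sub_distrib, Finset.sum_add_distrib]
  have s1 : ∑ j, ∑ k, (((‖a k j‖ ^ 2 : ℝ)) : ℂ) = ∑ j, ∑ k, (((‖a j k‖ ^ 2 : ℝ)) : ℂ) :=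
    Finset.sum_comm
  have s2 : ∑ j, ∑ k, a k j * conj (a j k) = ∑ j, ∑ k, a j k * conj (a k j) := Finset.sum_comm
  rw [s1, s2]
  push_cast
  have s3 : ∑ j, ∑ k, ((‖dzb k (F j) z‖ : ℂ)) ^ 2 = ∑ j, ∑ k, ((‖a j k‖ : ℂ)) ^ 2 := Finset.sum_comm
  rw [s3]
  ring

/-- the two integrations by parts. -/
theorem bkh_pair (hΩ : IsOpen Ω) (hp : ContDiffOn ℝ ∞ p Ω) (hF : IsTestForm Ω F) (j k : ι) :
    ∫ z, dl p j (F j) z * conj (dl p k (F k) z) * ((Real.exp (-p z) : ℝ) : ℂ)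
      = (∫ z, dzb k (F j) z * conj (dzb j (F k) z) * ((Real.exp (-p z) : ℝ) : ℂ))
        + ∫ z, conj (F k z) * levi p z k j * F j z * ((Real.exp (-p z) : ℝ) : ℂ) := by
  have hE : ContDiffOn ℝ ∞ (fun z => ((Real.exp (-p z) : ℝ) : ℂ)) Ω := contDiffOn_cx_exp hp.neg
  rw [integral_dl_mul_conj hΩ hp (hF j) (isTest_dl hΩ hp (hF k) k)]
  -- commutator
  have hc : ∀ z, F j z * conj (dzb j (dl p k (F k)) z) * ((Real.exp (-p z) : ℝ) : ℂ)
      = F j z * conj (dl p k (dzb j (F k)) z) * ((Real.exp (-p z) : ℝ) : ℂ)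
        - conj (F k z) * levi p z k j * F j z * ((Real.exp (-p z) : ℝ) : ℂ) := by
    intro z
    by_cases hz : z ∈ Ω
    · have hpz : ContDiffAt ℝ 2 p z := (hp.contDiffAt (hΩ.mem_nhds hz)).of_le (by norm_cast)
      have h := dl_dzb_comm (j := k) (k := j) hpz
        ((hF k).smooth.contDiffAt.of_le (by norm_cast) : ContDiffAt ℝ 2 (F k) z)
      have h' : dzb j (dl p k (F k)) z = dl p k (dzb j (F k)) z - levi p z j k * F k z := by
        rw [← h]; ring
      have hH : conj (levi p z j k) = levi p z k j := by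
        have := congrFun (congrFun (levi_isHermitian hpz) k) j
        simpa [Matrix.conjTranspose_apply] using this
      rw [h', map_sub, map_mul, hH]
      ring
    · rw [(hF j).eq_zero_of_notMem hz]; simp
  simp only [hc]
  have hI1 : Integrable (fun z => F j z * conj (dl p k (dzb j (F k)) z)
      * ((Real.exp (-p z) : ℝ) : ℂ)) :=
    (((hF j).mul (isTest_dl hΩ hp ((hF k).dzb (j := j)) k).conj).mul_contDiffOn hΩ hE).integrable
  have hI2 : Integrable (fun z => conj (F k z) * levi p z k j * F j z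
      * ((Real.exp (-p z) : ℝ) : ℂ)) := by
    have := (((hF k).conj.mul (hF j)).mul_contDiffOn hΩ
      ((contDiffOn_levi (j := k) (k := j) hΩ hp).mul hE)).integrable
    refine this.congr (Filter.Eventually.of_forall fun z => ?_)
    simp only; ring
  rw [integral_sub hI1 hI2]
  -- second integration by parts
  have h2 := integral_dl_mul_conj (j := k) hΩ hp ((hF k).dzb (j := j)) (hF j)
  have h2' := congrArg conj h2
  rw [← integral_conj, map_neg, ← integral_conj] at h2'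
  simp only [map_mul, Complex.conj_conj, Complex.conj_ofReal] at h2'
  have e1 : ∀ z, F j z * conj (dl p k (dzb j (F k)) z) * ((Real.exp (-p z) : ℝ) : ℂ)
      = conj (dl p k (dzb j (F k)) z) * F j z * ((Real.exp (-p z) : ℝ) : ℂ) := fun z => by ring
  have e2 : ∀ z, dzb k (F j) z * conj (dzb j (F k) z) * ((Real.exp (-p z) : ℝ) : ℂ)
      = conj (dzb j (F k) z) * dzb k (F j) z * ((Real.exp (-p z) : ℝ) : ℂ) := fun z => by ring
  simp only [e1, e2]
  rw [h2']
  ring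


theorem integrable_sum_dzb_sq (hΩ : IsOpen Ω) {a : CE ι → ℝ}
    (ha : ContDiffOn ℝ ∞ a Ω) (hF : IsTestForm Ω F) :
    Integrable (fun z => (∑ j, ∑ k, ‖dzb k (F j) z‖ ^ 2) * Real.exp (-a z)) := by
  have h : Integrable (fun z => ∑ j, ∑ k, ‖dzb k (F j) z‖ ^ 2 * Real.exp (-a z)) :=
    integrable_finsetSum _ fun j _ => integrable_finsetSum _ fun k _ =>
      integrable_normSq_test hΩ ha ((hF j).dzb (j := k))
  refine h.congr (Filter.Eventually.of_forall fun z => ?_)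
  simp only [Finset.sum_mul]

/-- **Bochner–Kodaira–Hörmander identity**. -/
theorem bkh_identity (hΩ : IsOpen Ω) (hp : ContDiffOn ℝ ∞ p Ω) (hF : IsTestForm Ω F) :
    (∫ z, qf (levi p z) (fun j => F j z) * Real.exp (-p z))
        + (∫ z, (∑ j, ∑ k, ‖dzb k (F j) z‖ ^ 2) * Real.exp (-p z))
      = (∫ z, ‖∑ j, dl p j (F j) z‖ ^ 2 * Real.exp (-p z))
        + (∫ z, curlSq F z * Real.exp (-p z)) := by
  have hE : ContDiffOn ℝ ∞ (fun z => ((Real.exp (-p z) : ℝ) : ℂ)) Ω := contDiffOn_cx_exp hp.neg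
  set X : ℂ := ∑ j, ∑ k, ∫ z, dzb k (F j) z * conj (dzb j (F k) z) * ((Real.exp (-p z) : ℝ) : ℂ)
    with hX
  set Y : ℂ := ∑ j, ∑ k, ∫ z, conj (F k z) * levi p z k j * F j z * ((Real.exp (-p z) : ℝ) : ℂ)
    with hY
  have hIX : ∀ j k, Integrable (fun z => dzb k (F j) z * conj (dzb j (F k) z)
      * ((Real.exp (-p z) : ℝ) : ℂ)) := fun j k =>
    ((((hF j).dzb (j := k)).mul ((hF k).dzb (j := j)).conj).mul_contDiffOn hΩ hE).integrable
  have hIY : ∀ j k, Integrable (fun z => conj (F k z) * levi p z k j * F j z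
      * ((Real.exp (-p z) : ℝ) : ℂ)) := fun j k => by
    have := (((hF k).conj.mul (hF j)).mul_contDiffOn hΩ
      ((contDiffOn_levi (j := k) (k := j) hΩ hp).mul hE)).integrable
    refine this.congr (Filter.Eventually.of_forall fun z => ?_)
    simp only; ring
  have hID : ∀ j k, Integrable (fun z => dl p j (F j) z * conj (dl p k (F k) z)
      * ((Real.exp (-p z) : ℝ) : ℂ)) := fun j k =>
    (((isTest_dl hΩ hp (hF j) j).mul (isTest_dl hΩ hp (hF k) k).conj).mul_contDiffOn hΩ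
      hE).integrable
  -- divergence term
  have hD : (((∫ z, ‖∑ j, dl p j (F j) z‖ ^ 2 * Real.exp (-p z) : ℝ)) : ℂ) = X + Y := by
    rw [← integral_complex_ofReal]
    have e : ∀ z, (((‖∑ j, dl p j (F j) z‖ ^ 2 * Real.exp (-p z) : ℝ)) : ℂ)
        = ∑ j, ∑ k, dl p j (F j) z * conj (dl p k (F k) z) * ((Real.exp (-p z) : ℝ) : ℂ) := by
      intro z
      have e0 : ∀ x : ℂ, (((‖x‖ ^ 2 : ℝ)) : ℂ) = x * conj x := fun x => by
        rw [Complex.mul_conj, Complex.normSq_eq_norm_sq]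
      rw [Complex.ofReal_mul, e0, map_sum, Finset.sum_mul_sum, Finset.sum_mul]
      refine Finset.sum_congr rfl fun j _ => ?_
      rw [Finset.sum_mul]
    simp only [e]
    rw [integral_finsetSum _ fun j _ => integrable_finsetSum _ fun k _ => hID j k]
    simp only [integral_finsetSum _ fun k _ => hID _ k, bkh_pair hΩ hp hF,
      Finset.sum_add_distrib]
    rfl
  -- curvature term
  have hQ : (((∫ z, qf (levi p z) (fun j => F j z) * Real.exp (-p z) : ℝ)) : ℂ) = Y := by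
    rw [← integral_complex_ofReal]
    have e : ∀ z, (((qf (levi p z) (fun j => F j z) * Real.exp (-p z) : ℝ)) : ℂ)
        = ∑ j, ∑ k, conj (F k z) * levi p z k j * F j z * ((Real.exp (-p z) : ℝ) : ℂ) := by
      intro z
      by_cases hz : z ∈ Ω
      · have hpz : ContDiffAt ℝ 2 p z := (hp.contDiffAt (hΩ.mem_nhds hz)).of_le (by norm_cast)
        rw [Complex.ofReal_mul, qf_ofReal (levi_isHermitian hpz), Finset.sum_comm, Finset.sum_mul]
        refine Finset.sum_congr rfl fun j _ => ?_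
        rw [Finset.sum_mul]
      · have h0 : (fun j => F j z) = fun _ => 0 := funext fun j => (hF j).eq_zero_of_notMem hz
        rw [h0, qf_zero_vec]
        simp [(hF _).eq_zero_of_notMem hz]
    simp only [e]
    rw [integral_finsetSum _ fun j _ => integrable_finsetSum _ fun k _ => hIY j k]
    simp only [integral_finsetSum _ fun k _ => hIY _ k]
    rfl
  -- curl term
  have hC : (((∫ z, curlSq F z * Real.exp (-p z) : ℝ)) : ℂ)
      = (((∫ z, (∑ j, ∑ k, ‖dzb k (F j) z‖ ^ 2) * Real.exp (-p z) : ℝ)) : ℂ) - X := by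
    rw [← integral_complex_ofReal, ← integral_complex_ofReal]
    have e : ∀ z, (((curlSq F z * Real.exp (-p z) : ℝ)) : ℂ)
        = ((((∑ j, ∑ k, ‖dzb k (F j) z‖ ^ 2) * Real.exp (-p z) : ℝ)) : ℂ)
          - ∑ j, ∑ k, dzb k (F j) z * conj (dzb j (F k) z) * ((Real.exp (-p z) : ℝ) : ℂ) := by
      intro z
      rw [Complex.ofReal_mul, curlSq_ofReal, sub_mul, Complex.ofReal_mul, Finset.sum_mul]
      congr 1
      refine Finset.sum_congr rfl fun j _ => ?_
      rw [Finset.sum_mul]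
    simp only [e]
    have hS : Integrable (fun z => ((((∑ j, ∑ k, ‖dzb k (F j) z‖ ^ 2) * Real.exp (-p z) : ℝ)) : ℂ)) :=
      (integrable_sum_dzb_sq hΩ hp hF).ofReal
    have hXX : Integrable (fun z => ∑ j, ∑ k, dzb k (F j) z * conj (dzb j (F k) z)
        * ((Real.exp (-p z) : ℝ) : ℂ)) :=
      integrable_finsetSum _ fun j _ => integrable_finsetSum _ fun k _ => hIX j k
    rw [integral_sub hS hXX,
      integral_finsetSum _ fun j _ => integrable_finsetSum _ fun k _ => hIX j k]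
    simp only [integral_finsetSum _ fun k _ => hIX _ k]
    rfl
  apply Complex.ofReal_injective
  rw [Complex.ofReal_add, Complex.ofReal_add, hD, hQ, hC]
  ring

/-- **Bochner–Kodaira–Hörmander inequality**. -/
theorem bkh_inequality (hΩ : IsOpen Ω) (hp : ContDiffOn ℝ ∞ p Ω) (hF : IsTestForm Ω F) :
    (∫ z, qf (levi p z) (fun j => F j z) * Real.exp (-p z))
      ≤ (∫ z, ‖∑ j, dl p j (F j) z‖ ^ 2 * Real.exp (-p z))
        + (∫ z, curlSq F z * Real.exp (-p z)) := by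
  have h := bkh_identity hΩ hp hF
  have h0 : 0 ≤ ∫ z, (∑ j, ∑ k, ‖dzb k (F j) z‖ ^ 2) * Real.exp (-p z) :=
    integral_nonneg fun z => by positivity
  linarith

end Claimed.Agent.R316.B6E

end SecBKH

/-!
# Row 316, B6E-BasicEst: the basic estimate for test forms (three weights)

Weights `p₃ = p = φ + q`, `p₂ = p - ψ`, `p₁ = p - 2ψ`.  For a test form `F` on `Ω`:
1. pointwise `‖∑ g_j \bar F_j‖ e^{-p+ψ} ≤ √(H e^{-p+2ψ}) √(qf (levi φ) F e^{-p})`  (`hdom`);
   Cauchy–Schwarz; `∫_Ω H e^{-p+2ψ} ≤ ∫_Ω H e^{-φ}` by `2ψ ≤ q`.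
2. `levi p = levi φ + levi q` on `Ω`, so `qf (levi φ) F ≤ qf (levi p) F - (1+1/ε) ‖∑ ∂_jψ F_j‖²`.
3. `bkh_inequality` for `p`.
4. `∑ δ^p_j F_j = - e^{ψ} T^*F - ∑ ∂_jψ F_j`, `‖a+b‖² ≤ (1+ε)‖a‖² + (1+1/ε)‖b‖²`.
-/

section SecBasicEst
set_option linter.unusedSectionVars false
open scoped ContDiff ComplexOrder ComplexConjugate Topology
open MeasureTheory

namespace Claimed.Agent.R316.B6E

variable {ι : Type} [Fintype ι] [DecidableEq ι]

theorem norm_add_sq_le_eps {ε : ℝ} (hε : 0 < ε) (a b : ℂ) :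
    ‖a + b‖ ^ 2 ≤ (1 + ε) * ‖a‖ ^ 2 + (1 + 1 / ε) * ‖b‖ ^ 2 := by
  have h1 : ‖a + b‖ ^ 2 ≤ (‖a‖ + ‖b‖) ^ 2 := by
    gcongr; exact norm_add_le a b
  have h2 : 2 * ‖a‖ * ‖b‖ ≤ ε * ‖a‖ ^ 2 + (1 / ε) * ‖b‖ ^ 2 := by
    have h3 : 0 ≤ (ε * ‖a‖ - ‖b‖) ^ 2 / ε := by positivity
    have h4 : (ε * ‖a‖ - ‖b‖) ^ 2 / ε = ε * ‖a‖ ^ 2 + (1 / ε) * ‖b‖ ^ 2 - 2 * ‖a‖ * ‖b‖ := by
      field_simp; ring
    linarith
  nlinarith

/-- the compact set carrying a test form. -/
theorem exists_compact_testForm {Ω : Set (CE ι)} {F : ι → CE ι → ℂ} (hF : IsTestForm Ω F) :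
    ∃ K : Set (CE ι), IsCompact K ∧ K ⊆ Ω ∧ (∀ j, tsupport (F j) ⊆ K) ∧
      ∀ z, z ∉ K → ∀ j, F j z = 0 := by
  refine ⟨⋃ j, tsupport (F j), isCompact_iUnion fun j => (hF j).compact,
    Set.iUnion_subset fun j => (hF j).supp, fun j => Set.subset_iUnion (fun j => tsupport (F j)) j,
    fun z hz j => image_eq_zero_of_notMem_tsupport fun h => hz (Set.mem_iUnion.2 ⟨j, h⟩)⟩

theorem dl_eq_zero_of_notMem {Ω : Set (CE ι)} {w : CE ι → ℂ} (hw : IsTest Ω w) (p : CE ι → ℝ)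
    (j : ι) {z : CE ι} (hz : z ∉ Ω) : dl p j w z = 0 := by
  unfold dl
  rw [hw.eq_zero_of_notMem hz, dz_eq_zero_of_notMem_tsupport fun h => hz (hw.supp h)]
  simp

/-- step 2–4: the curvature term is controlled. -/
theorem curvature_le {Ω : Set (CE ι)} (hΩ : IsOpen Ω) {φ q ψ : CE ι → ℝ}
    (hφ : ContDiffOn ℝ ∞ φ Ω) (hq : ContDiffOn ℝ ∞ q Ω) (hψ : ContDiffOn ℝ ∞ ψ Ω)
    {ε : ℝ} (hε : 0 < ε)
    (hqψ : ∀ z ∈ Ω, ∀ v : ι → ℂ,
      (1 + 1 / ε) * ‖∑ j, grad10 ψ z j * v j‖ ^ 2 ≤ qf (levi q z) v)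
    {F : ι → CE ι → ℂ} (hF : IsTestForm Ω F) :
    (∫ z, qf (levi φ z) (fun j => F j z) * Real.exp (-(φ z + q z)))
      ≤ (1 + ε) * (∫ z, ‖Tst (fun y => φ y + q y) ψ F z‖ ^ 2 * Real.exp (-(φ z + q z - 2 * ψ z)))
        + (∫ z, curlSq F z * Real.exp (-(φ z + q z))) := by
  set p : CE ι → ℝ := fun y => φ y + q y with hpdef
  have hp : ContDiffOn ℝ ∞ p Ω := hφ.add hq
  have hbkh := bkh_inequality hΩ hp hF
  have hGt : IsTest Ω (fun z => ∑ j, grad10 ψ z j * F j z) := by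
    refine IsTest.sum _ fun j _ => ?_
    have := (hF j).mul_contDiffOn hΩ (contDiffOn_grad10 (j := j) hΩ hψ)
    simpa only [mul_comm] using this
  have iB : Integrable (fun z => ‖∑ j, grad10 ψ z j * F j z‖ ^ 2 * Real.exp (-p z)) :=
    integrable_normSq_test hΩ hp hGt
  have iQφ := integrable_qf_levi hΩ hφ hp hF
  have iQp := integrable_qf_levi hΩ hp hp hF
  have iD := integrable_div_sq hΩ hp hp hF
  have iT : Integrable (fun z => ‖Tst p ψ F z‖ ^ 2 * Real.exp (-(p z - 2 * ψ z))) :=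
    integrable_normSq_test hΩ (hp.sub (contDiffOn_const.mul hψ)) (isTest_Tst hΩ hp hψ hF)
  -- (P1)
  have P1 : (∫ z, qf (levi φ z) (fun j => F j z) * Real.exp (-p z))
      + (1 + 1 / ε) * (∫ z, ‖∑ j, grad10 ψ z j * F j z‖ ^ 2 * Real.exp (-p z))
      ≤ ∫ z, qf (levi p z) (fun j => F j z) * Real.exp (-p z) := by
    rw [← integral_const_mul, ← integral_add iQφ (iB.const_mul _)]
    refine integral_mono (iQφ.add (iB.const_mul _)) iQp fun z => ?_
    by_cases hz : z ∈ Ω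
    · have h2 : ∀ {f : CE ι → ℝ}, ContDiffOn ℝ ∞ f Ω → ContDiffAt ℝ 2 f z := fun hf =>
        (hf.contDiffAt (hΩ.mem_nhds hz)).of_le (by norm_cast)
      have hl : levi p z = levi φ z + levi q z := levi_add (h2 hφ) (h2 hq)
      have := hqψ z hz (fun j => F j z)
      have he := (Real.exp_pos (-p z)).le
      simp only [hl, qf_add]
      nlinarith
    · have h0 : (fun j => F j z) = fun _ => 0 := funext fun j => (hF j).eq_zero_of_notMem hz
      simp [qf_zero_vec, (hF _).eq_zero_of_notMem hz]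
  -- (P2)
  have P2 : (∫ z, ‖∑ j, dl p j (F j) z‖ ^ 2 * Real.exp (-p z))
      ≤ (1 + ε) * (∫ z, ‖Tst p ψ F z‖ ^ 2 * Real.exp (-(p z - 2 * ψ z)))
        + (1 + 1 / ε) * (∫ z, ‖∑ j, grad10 ψ z j * F j z‖ ^ 2 * Real.exp (-p z)) := by
    rw [← integral_const_mul, ← integral_const_mul, ← integral_add (iT.const_mul _) (iB.const_mul _)]
    refine integral_mono iD ((iT.const_mul _).add (iB.const_mul _)) fun z => ?_
    by_cases hz : z ∈ Ω
    · have hd : ∀ {f : CE ι → ℝ}, ContDiffOn ℝ ∞ f Ω → DifferentiableAt ℝ f z := fun hf =>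
        (hf.contDiffAt (hΩ.mem_nhds hz)).differentiableAt (by simp)
      have hg : grad10 (fun y => p y - ψ y) z = grad10 p z - grad10 ψ z :=
        grad10_sub (hd hp) (hd hψ)
      have hsum : ∑ j, dl p j (F j) z
          = - ((Real.exp (ψ z) : ℝ) : ℂ) * Tst p ψ F z + - ∑ j, grad10 ψ z j * F j z := by
        unfold Tst dl
        rw [hg]
        have he : ((Real.exp (ψ z) : ℝ) : ℂ) * ((Real.exp (-ψ z) : ℝ) : ℂ) = 1 := by
          rw [← Complex.ofReal_mul, ← Real.exp_add]; simp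
        have : - ((Real.exp (ψ z) : ℝ) : ℂ) * (- ((Real.exp (-ψ z) : ℝ) : ℂ) *
            ∑ j, (dz j (F j) z - (grad10 p z - grad10 ψ z) j * F j z))
            = ∑ j, (dz j (F j) z - (grad10 p z - grad10 ψ z) j * F j z) := by
          rw [neg_mul, neg_mul, mul_neg, neg_neg, ← mul_assoc, he, one_mul]
        rw [this, ← Finset.sum_neg_distrib, ← Finset.sum_add_distrib]
        refine Finset.sum_congr rfl fun j _ => ?_
        simp only [Pi.sub_apply]; ring
      have h1 := norm_add_sq_le_eps hε (- ((Real.exp (ψ z) : ℝ) : ℂ) * Tst p ψ F z)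
        (- ∑ j, grad10 ψ z j * F j z)
      rw [← hsum, norm_neg, norm_mul, norm_neg, Complex.norm_real, Real.norm_eq_abs,
        abs_of_pos (Real.exp_pos _)] at h1
      have he2 : Real.exp (-(p z - 2 * ψ z)) = Real.exp (ψ z) ^ 2 * Real.exp (-p z) := by
        rw [← Real.exp_nat_mul, ← Real.exp_add]; congr 1; push_cast; ring
      have he := (Real.exp_pos (-p z)).le
      simp only [he2]
      calc ‖∑ j, dl p j (F j) z‖ ^ 2 * Real.exp (-p z)
          ≤ ((1 + ε) * (Real.exp (ψ z) * ‖Tst p ψ F z‖) ^ 2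
            + (1 + 1 / ε) * ‖∑ j, grad10 ψ z j * F j z‖ ^ 2) * Real.exp (-p z) := by gcongr
        _ = _ := by ring
    · have h0 : ∑ j, dl p j (F j) z = 0 :=
        Finset.sum_eq_zero fun j _ => dl_eq_zero_of_notMem (hF j) p j hz
      have h1 : (0:ℝ) < 1 + 1 / ε := by positivity
      have h2 : (0:ℝ) < 1 + ε := by positivity
      show ‖∑ j, dl p j (F j) z‖ ^ 2 * Real.exp (-p z)
        ≤ (1 + ε) * (‖Tst p ψ F z‖ ^ 2 * Real.exp (-(p z - 2 * ψ z)))
          + (1 + 1 / ε) * (‖∑ j, grad10 ψ z j * F j z‖ ^ 2 * Real.exp (-p z))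
      rw [h0, norm_zero, zero_pow two_ne_zero, zero_mul]
      positivity
  linarith


/-- Cauchy–Schwarz in the form `G² ≤ a b ⇒ (∫ G)² ≤ ∫ a ∫ b`. -/
theorem sq_integral_le_of_sq_le {α : Type} [MeasurableSpace α] {μ : Measure α} {G a b : α → ℝ}
    (hG : Integrable G μ) (ha : Integrable a μ) (hb : Integrable b μ)
    (ha0 : ∀ᵐ x ∂μ, 0 ≤ a x) (hb0 : ∀ᵐ x ∂μ, 0 ≤ b x)
    (h : ∀ᵐ x ∂μ, G x ^ 2 ≤ a x * b x) :
    (∫ x, G x ∂μ) ^ 2 ≤ (∫ x, a x ∂μ) * ∫ x, b x ∂μ := by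
  have key : ∀ t : ℝ, 0 ≤ (∫ x, a x ∂μ) * (t * t) + (-2 * ∫ x, G x ∂μ) * t + ∫ x, b x ∂μ := by
    intro t
    have hi : Integrable (fun x => a x * (t * t) + (-2 * G x) * t + b x) μ :=
      ((ha.mul_const _).add ((hG.const_mul _).mul_const _)).add hb
    have h0 : 0 ≤ ∫ x, (a x * (t * t) + (-2 * G x) * t + b x) ∂μ := by
      refine integral_nonneg_of_ae ?_
      filter_upwards [ha0, hb0, h] with x hax hbx hx
      have h1 : (2 * t * G x) ^ 2 ≤ (t ^ 2 * a x + b x) ^ 2 := by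
        nlinarith [sq_nonneg (t ^ 2 * a x - b x), mul_le_mul_of_nonneg_left hx (sq_nonneg t)]
      have h2 := (abs_le_of_sq_le_sq' h1 (by positivity)).2
      show 0 ≤ a x * (t * t) + (-2 * G x) * t + b x
      nlinarith
    have i1 : Integrable (fun x => a x * (t * t)) μ := ha.mul_const _
    have i2 : Integrable (fun x => (-2 * G x) * t) μ := (hG.const_mul _).mul_const _
    have i12 : Integrable (fun x => a x * (t * t) + (-2 * G x) * t) μ := i1.add i2
    rw [integral_add i12 hb, integral_add i1 i2, integral_mul_const,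
      integral_mul_const, integral_const_mul] at h0
    exact h0
  have := discrim_le_zero key
  unfold discrim at this
  nlinarith

/-- **basic estimate**. -/
theorem basic_estimate {Ω : Set (CE ι)} (hΩ : IsOpen Ω) {φ q ψ : CE ι → ℝ}
    (hφ : ContDiffOn ℝ ∞ φ Ω) (hq : ContDiffOn ℝ ∞ q Ω) (hψ : ContDiffOn ℝ ∞ ψ Ω)
    {ε : ℝ} (hε : 0 < ε)
    (hqψ : ∀ z ∈ Ω, ∀ v : ι → ℂ,
      (1 + 1 / ε) * ‖∑ j, grad10 ψ z j * v j‖ ^ 2 ≤ qf (levi q z) v)
    (h2 : ∀ z ∈ Ω, 2 * ψ z ≤ q z)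
    (hpsh : ∀ z ∈ Ω, (levi φ z).PosSemidef)
    {g : ι → CE ι → ℂ} (hg : ∀ j, ContinuousOn (g j) Ω)
    {H : CE ι → ℝ} (hH0 : ∀ z ∈ Ω, 0 ≤ H z)
    (hHint : IntegrableOn (fun z => H z * Real.exp (-φ z)) Ω)
    (hdom : ∀ z ∈ Ω, ∀ v : ι → ℂ, ‖∑ j, g j z * conj (v j)‖ ^ 2 ≤ H z * qf (levi φ z) v)
    {F : ι → CE ι → ℂ} (hF : IsTestForm Ω F) :
    ‖∫ z, (∑ j, g j z * conj (F j z)) * ((Real.exp (-(φ z + q z - ψ z)) : ℝ) : ℂ)‖ ^ 2
      ≤ (∫ z in Ω, H z * Real.exp (-φ z)) *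
        ((1 + ε) * (∫ z, ‖Tst (fun y => φ y + q y) ψ F z‖ ^ 2 * Real.exp (-(φ z + q z - 2 * ψ z)))
          + (∫ z, curlSq F z * Real.exp (-(φ z + q z)))) := by
  have hcurv := curvature_le hΩ hφ hq hψ hε hqψ hF
  have hI0 : 0 ≤ ∫ z in Ω, H z * Real.exp (-φ z) :=
    setIntegral_nonneg hΩ.measurableSet fun z hz => mul_nonneg (hH0 z hz) (Real.exp_pos _).le
  refine le_trans ?_ (mul_le_mul_of_nonneg_left hcurv hI0)
  obtain ⟨K, hK, hKΩ, -, hK0⟩ := exists_compact_testForm hF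
  set G : CE ι → ℂ := fun z => (∑ j, g j z * conj (F j z))
    * ((Real.exp (-(φ z + q z - ψ z)) : ℝ) : ℂ) with hGdef
  have hGc : ContinuousOn G Ω := by
    refine ContinuousOn.mul (continuousOn_finsetSum _ fun j _ =>
      (hg j).mul (hF j).conj.continuous.continuousOn) ?_
    exact (contDiffOn_cx_exp ((hφ.add hq).sub hψ).neg).continuousOn
  have hG0 : ∀ z, z ∉ K → G z = 0 := fun z hz => by
    simp [hGdef, hK0 z hz]
  have hGi : Integrable G := integrable_of_continuousOn_of_compact hΩ hK hKΩ hGc hG0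
  have iQ := integrable_qf_levi hΩ hφ (hφ.add hq) hF
  have hQset : ∫ z, qf (levi φ z) (fun j => F j z) * Real.exp (-(φ z + q z))
      = ∫ z in Ω, qf (levi φ z) (fun j => F j z) * Real.exp (-(φ z + q z)) := by
    refine (setIntegral_eq_integral_of_forall_compl_eq_zero fun z hz => ?_).symm
    have h0 : (fun j => F j z) = fun _ => 0 := funext fun j => (hF j).eq_zero_of_notMem hz
    rw [h0, qf_zero_vec, zero_mul]
  have hGset : ∫ z, ‖G z‖ = ∫ z in Ω, ‖G z‖ := by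
    refine (setIntegral_eq_integral_of_forall_compl_eq_zero fun z hz => ?_).symm
    rw [hG0 z fun h => hz (hKΩ h), norm_zero]
  have h1 : ‖∫ z, G z‖ ^ 2 ≤ (∫ z, ‖G z‖) ^ 2 := by
    gcongr; exact norm_integral_le_integral_norm G
  refine h1.trans ?_
  rw [hGset, hQset]
  refine sq_integral_le_of_sq_le hGi.norm.integrableOn hHint iQ.integrableOn ?_ ?_ ?_
  · exact (ae_restrict_iff' hΩ.measurableSet).2 (Filter.Eventually.of_forall fun z hz =>
      mul_nonneg (hH0 z hz) (Real.exp_pos _).le)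
  · exact (ae_restrict_iff' hΩ.measurableSet).2 (Filter.Eventually.of_forall fun z hz =>
      mul_nonneg (qf_nonneg (hpsh z hz) _) (Real.exp_pos _).le)
  · refine (ae_restrict_iff' hΩ.measurableSet).2 (Filter.Eventually.of_forall fun z hz => ?_)
    have hd := hdom z hz (fun j => F j z)
    have hq0 := qf_nonneg (hpsh z hz) (fun j => F j z)
    have hn : ‖G z‖ ^ 2 = ‖∑ j, g j z * conj (F j z)‖ ^ 2 * Real.exp (-(φ z + q z - ψ z)) ^ 2 := by
      rw [hGdef]
      simp only [norm_mul, Complex.norm_real, Real.norm_eq_abs, abs_of_pos (Real.exp_pos _), mul_pow]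
    have he : Real.exp (-(φ z + q z - ψ z)) ^ 2
        = Real.exp (-φ z) * Real.exp (-(φ z + q z)) * Real.exp (-(q z - 2 * ψ z)) := by
      rw [← Real.exp_nat_mul, ← Real.exp_add, ← Real.exp_add]; congr 1; push_cast; ring
    have he1 : Real.exp (-(q z - 2 * ψ z)) ≤ 1 := by
      rw [Real.exp_le_one_iff]; linarith [h2 z hz]
    rw [hn, he]
    have hpos : 0 ≤ H z * qf (levi φ z) (fun j => F j z) * (Real.exp (-φ z)
        * Real.exp (-(φ z + q z))) := by
      have := hH0 z hz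
      positivity
    calc ‖∑ j, g j z * conj (F j z)‖ ^ 2
          * (Real.exp (-φ z) * Real.exp (-(φ z + q z)) * Real.exp (-(q z - 2 * ψ z)))
        ≤ (H z * qf (levi φ z) (fun j => F j z))
          * (Real.exp (-φ z) * Real.exp (-(φ z + q z)) * Real.exp (-(q z - 2 * ψ z))) := by
          gcongr
      _ = (H z * qf (levi φ z) (fun j => F j z) * (Real.exp (-φ z)
            * Real.exp (-(φ z + q z)))) * Real.exp (-(q z - 2 * ψ z)) := by ring
      _ ≤ (H z * qf (levi φ z) (fun j => F j z) * (Real.exp (-φ z)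
            * Real.exp (-(φ z + q z)))) * 1 := by gcongr
      _ = _ := by ring

end Claimed.Agent.R316.B6E

end SecBasicEst

/-!
# Row 316, B6E-BallLimit (monotonicity, congruence and limits of `DualEst`); context: the dual estimate on a ball for smooth psh weights; limits of weights

`dualEst_ball_smooth`.  Fix a test form `Φ` on `ball 0 R`; `⋃ tsupport (Φ j)` is compact, so it lies in `ball 0 r'` for some
`0 < r' < r < R`.  For `ε > 0` take `q, ψ, η` from `exists_weights` (on `ball 0 r`).  On `Ω = ball 0 r`: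
`φ, g` are smooth on a neighbourhood of `closedBall 0 r`, hence bounded; `e^{-(φ+q-ψ)} ≤ e^{-φ}` (`q - ψ ≥ ψ ≥ 0`), so
`g_j ∈ L2w Ω (φ+q-ψ)`; `WeakClosed` by `weakClosed_of_closed`; `basic_estimate` gives `hA` of `dualEst_of_basic` with
`C = (1+ε) I_r`, `C' = I_r`, `I_r = ∫_{ball 0 r} H e^{-φ} ≤ I_R`.  Apply the resulting `DualEst (ball 0 r) g e^{φ+q-2ψ}` to `Φ`:
on `ball 0 r' ⊇ supp Φ` we have `q = ψ = 0`.  Let `ε → 0`.

`dualEst_limit`: dominated convergence on the compact support of `Φ`.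
-/

section SecBallLimit
set_option linter.unusedSectionVars false
open scoped ContDiff ComplexOrder ComplexConjugate Topology
open MeasureTheory Filter

namespace Claimed.Agent.R316.B6E

variable {ι : Type} [Fintype ι] [DecidableEq ι]

theorem DualEst.mono_set {Ω Ω' : Set (CE ι)} {g : ι → CE ι → ℂ} {W : CE ι → ℝ} {C : ℝ}
    (h : Ω' ⊆ Ω) (hD : DualEst Ω g W C) : DualEst Ω' g W C :=
  fun Φ hΦ => hD Φ fun j => (hΦ j).mono h

theorem sum_dzb_eq_zero_of_notMem {Ω : Set (CE ι)} {Φ : ι → CE ι → ℂ} (hΦ : IsTestForm Ω Φ)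
    {z : CE ι} (hz : z ∉ Ω) : ∑ j, dzb j (Φ j) z = 0 :=
  Finset.sum_eq_zero fun j _ => ((hΦ j).dzb (j := j)).eq_zero_of_notMem hz

theorem DualEst.mono_const {Ω : Set (CE ι)} {g : ι → CE ι → ℂ} {W : CE ι → ℝ} {C C' : ℝ}
    (hW : ∀ z ∈ Ω, 0 ≤ W z) (h : C ≤ C') (hD : DualEst Ω g W C) : DualEst Ω g W C' := by
  intro Φ hΦ
  refine (hD Φ hΦ).trans (mul_le_mul_of_nonneg_right h (integral_nonneg fun z => ?_))
  by_cases hz : z ∈ Ω
  · exact mul_nonneg (by positivity) (hW z hz)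
  · simp [sum_dzb_eq_zero_of_notMem hΦ hz]

/-- only the values of `g` and `W` on `Ω` matter. -/
theorem DualEst.congr {Ω : Set (CE ι)} {g g' : ι → CE ι → ℂ} {W W' : CE ι → ℝ} {C : ℝ}
    (hg : ∀ j, Set.EqOn (g j) (g' j) Ω) (hW : Set.EqOn W W' Ω) (hD : DualEst Ω g W C) :
    DualEst Ω g' W' C := by
  intro Φ hΦ
  have h1 : ∀ z, ∑ j, g' j z * Φ j z = ∑ j, g j z * Φ j z := by
    intro z
    refine Finset.sum_congr rfl fun j _ => ?_
    by_cases hz : z ∈ Ω
    · rw [hg j hz]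
    · rw [(hΦ j).eq_zero_of_notMem hz]; simp
  have h2 : ∀ z, ‖∑ j, dzb j (Φ j) z‖ ^ 2 * W' z = ‖∑ j, dzb j (Φ j) z‖ ^ 2 * W z := by
    intro z
    by_cases hz : z ∈ Ω
    · rw [hW hz]
    · simp [sum_dzb_eq_zero_of_notMem hΦ hz]
  simp only [h1, h2]
  exact hD Φ hΦ

/-- **limits of dual estimates** (exhaustion of the domain and convergence of the weights). -/
theorem dualEst_limit {Ω : Set (CE ι)} {g : ι → CE ι → ℂ} {Ων : ℕ → Set (CE ι)}
    (hexh : ∀ K ⊆ Ω, IsCompact K → ∀ᶠ ν in atTop, K ⊆ Ων ν)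
    (hopen : ∀ ν, IsOpen (Ων ν))
    {Wν : ℕ → CE ι → ℝ} {W : CE ι → ℝ} {C : ℝ} (hD : ∀ ν, DualEst (Ων ν) g (Wν ν) C)
    (hm : ∀ ν, AEStronglyMeasurable (Wν ν) (volume.restrict (Ων ν)))
    (hb : ∀ K ⊆ Ω, IsCompact K → ∃ M, ∀ᶠ ν in atTop, ∀ z ∈ K, |Wν ν z| ≤ M)
    (hlim : ∀ z ∈ Ω, Tendsto (fun ν => Wν ν z) atTop (𝓝 (W z))) :
    DualEst Ω g W C := by
  intro Φ hΦ
  set K : Set (CE ι) := ⋃ j, tsupport (Φ j) with hKdef
  have hK : IsCompact K := isCompact_iUnion fun j => (hΦ j).compact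
  have hKΩ : K ⊆ Ω := Set.iUnion_subset fun j => (hΦ j).supp
  set D : CE ι → ℂ := fun z => ∑ j, dzb j (Φ j) z with hDdef
  have hDt : IsTest Ω D := IsTest.sum _ fun j _ => (hΦ j).dzb
  have hD0 : ∀ z, z ∉ K → D z = 0 := fun z hz =>
    Finset.sum_eq_zero fun j _ => dzb_eq_zero_of_notMem_tsupport fun h =>
      hz (Set.mem_iUnion.2 ⟨j, h⟩)
  obtain ⟨M, hM⟩ := hb K hKΩ hK
  have hev := hexh K hKΩ hK
  -- convergence of the right hand sides
  have hconv : Tendsto (fun ν => ∫ z, ‖D z‖ ^ 2 * Wν ν z) atTop (𝓝 (∫ z, ‖D z‖ ^ 2 * W z)) := by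
    refine tendsto_integral_filter_of_dominated_convergence (fun z => ‖D z‖ ^ 2 * M) ?_ ?_ ?_ ?_
    · filter_upwards [hev] with ν hν
      -- measurability: the integrand is the indicator of `Ων ν` of a measurable function
      have h1 : AEStronglyMeasurable (fun z => ‖D z‖ ^ 2 * Wν ν z) (volume.restrict (Ων ν)) :=
        ((hDt.continuous.norm.pow 2).aestronglyMeasurable).mul (hm ν)
      have h2 : (fun z => ‖D z‖ ^ 2 * Wν ν z)
          = (Ων ν).indicator (fun z => ‖D z‖ ^ 2 * Wν ν z) := by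
        funext z
        by_cases hz : z ∈ Ων ν
        · rw [Set.indicator_of_mem hz]
        · rw [Set.indicator_of_notMem hz, hD0 z fun h => hz (hν h)]; simp
      rw [h2]
      exact (aestronglyMeasurable_indicator_iff (hopen ν).measurableSet).2 h1
    · filter_upwards [hM] with ν hν
      refine Eventually.of_forall fun z => ?_
      by_cases hz : z ∈ K
      · rw [norm_mul, Real.norm_eq_abs, Real.norm_eq_abs, abs_of_nonneg (by positivity)]
        exact mul_le_mul_of_nonneg_left (hν z hz) (by positivity)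
      · simp [hD0 z hz]
    · exact ((hDt.continuous.norm.pow 2).integrable_of_hasCompactSupport
        (by
          have : HasCompactSupport (fun z => ‖D z‖ ^ 2) :=
            hDt.compact.comp_left (g := fun x : ℂ => ‖x‖ ^ 2) (by simp)
          exact this)).mul_const M
    · refine Eventually.of_forall fun z => ?_
      by_cases hz : z ∈ K
      · exact (hlim z (hKΩ hz)).const_mul _
      · simp [hD0 z hz]
  refine le_of_tendsto_of_tendsto tendsto_const_nhds (hconv.const_mul C) ?_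
  filter_upwards [hev] with ν hν
  exact hD ν Φ fun j => ⟨(hΦ j).smooth, (hΦ j).compact,
    (Set.subset_iUnion (fun j => tsupport (Φ j)) j).trans hν⟩

end Claimed.Agent.R316.B6E

end SecBallLimit
end

/- ===== packed: Claimed.Agent.R316.Top.Assembly ===== -/
section
/-!
# Row 316, top level: assembly of the section statements

Owner: helper84 (review: helper258).  Part 1 (this file, proved): Sections 7-9, i.e.
`joint positivity (Theorem 6.3)  ⟹  biholomorphism onto ℂⁿ`, from the statements `St71 … St77, St81, St9`.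
Part 2 (Sections 2-6 ⟹ joint positivity) is added when `Top/S4.lean`, `Top/S6.lean` are on main.
-/

set_option autoImplicit false
open scoped ContDiff ComplexOrder Topology
open MeasureTheory Filter

namespace Claimed.Agent.R316

variable {V : Type} [NormedAddCommGroup V] [NormedSpace ℝ V] [MeasurableSpace V] [BorelSpace V]
variable {n : ℕ}
variable {𝓜 : CMfd V (Fin n)} {g : HFam V (Fin n)} {o : V}

/-- Sections 7, 8, 9 assembled. -/
theorem bihol_of_jointPositivity (I : InitialData 𝓜 g) (ho : o ∈ 𝓜.carrier) (D : FlowData 𝓜 g o)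
    (hJ : StJointPositivity D)
    (h71 : St71 D) (h72 : St72 D) (h72a : St72a D) (h73 : St73 𝓜 g) (h74a : St74a D) (h74b : St74b D)
    (h75 : St75 D) (h76 : St76 𝓜 g) (h77 : St77 D) (h81 : ∀ T : TransSystem n, St81 T) (h9 : St9 𝓜 g o) :
    ∃ Ψ : V → CE (Fin n), IsBiholToCn 𝓜 Ψ := by
  have H := h71 I ho hJ
  have UC := h72 I ho H
  have LC := h72a I ho H UC
  have SD := h73 I
  have CF := h74a I ho hJ H LC SD
  have W := h74b I ho H CF
  have SC := h75 I ho H UC CF W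
  have PL := h76 I
  obtain ⟨S⟩ := h77 I ho hJ H LC CF SC PL
  exact h9 I ho S (h81 _)

end Claimed.Agent.R316
end

/- ===== packed: Claimed.Agent.R316.BR.Par ===== -/
section
/-!
# Row 316, BR-1/BR-2: real and complex parametrisations; the complex manifold of `(M, J)`

Owner: helper193.

* BR-1: `IsLocalParam M ψ U` (model `ℝ²ⁿ`, `Def_0500`) `↔` `IsParam M (ψ ∘ cr n) (cr n ⁻¹' U)` (model `ℂⁿ`).
* BR-2: `isParam_congr`, `isParam_comp_hol`; `JHol` satisfies `compat`, `reparam`, `congr`; `mfd M J hcover : CMfd (EN N) (Fin n)`.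

PLANS.
* `invFunOn` of an injective map is THE inverse on the image: `Function.invFunOn_eq`, `Set.InjOn.leftInvOn_invFunOn`.
* `hol_isOpen_image`: `τ` holomorphic on the open `U'` with injective (hence bijective: equal finite dimension) derivative:
  `τ` is `C¹` (`hol_contDiffOn`), so `HasStrictFDerivAt` with an equivalence (`ContinuousLinearEquiv.ofBijective` /
  `LinearEquiv.ofInjectiveEndo .. toContinuousLinearEquiv`), `HasStrictFDerivAt.map_nhds_eq_of_equiv` gives `τ '' O ∈ 𝓝 (τ z)`.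
* `hol_continuousOn_invFunOn`: an injective map which maps open subsets to open sets has a continuous inverse.
* `jhol_compat`: `IsParam.hasFDerivAt_invFunOn_comp` (CM-1a) for `γ = Φ`: `τ = Ψ⁻¹ ∘ Φ` is real differentiable, `dΦ = dΨ ∘ dτ`;
  `dΨ (dτ (i v)) = dΦ (i v) = J dΦ v = J dΨ (dτ v) = dΨ (i dτ v)` and `dΨ` is injective; then `differentiableAt_of_comm_I`.
-/

set_option autoImplicit false
open scoped ContDiff ComplexOrder ComplexConjugate Topology
open Claims.C0500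

namespace Claimed.Agent.R316.BR

/-! ### BR-1 -/

section raw

variable {E F V : Type} [NormedAddCommGroup E] [NormedSpace ℝ E] [NormedAddCommGroup F]
  [NormedSpace ℝ F] [NormedAddCommGroup V] [NormedSpace ℝ V]

/-- the clauses common to `IsLocalParam` and `IsParam`. -/
def RawParam (M : Set V) (f : E → V) (U : Set E) : Prop :=
  IsOpen U ∧ ContDiffOn ℝ ∞ f U ∧ (∀ u ∈ U, Function.Injective (fderiv ℝ f u)) ∧
    Set.InjOn f U ∧ (∃ W : Set V, IsOpen W ∧ f '' U = M ∩ W) ∧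
    ContinuousOn (Function.invFunOn f U) (f '' U)

theorem invFunOn_comp_equiv (e : E ≃L[ℝ] F) {f : F → V} {U : Set F} (hinj : Set.InjOn f U)
    {x : V} (hx : x ∈ f '' U) :
    Function.invFunOn (f ∘ e) (e ⁻¹' U) x = e.symm (Function.invFunOn f U x) := by
  have hx' : x ∈ (f ∘ e) '' (e ⁻¹' U) := by
    rw [Set.image_comp, Set.image_preimage_eq _ e.surjective]
    exact hx
  have h1 := Function.invFunOn_mem hx'
  have h2 := Function.invFunOn_eq hx'
  have h3 := Function.invFunOn_mem hx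
  have h4 := Function.invFunOn_eq hx
  have h5 : e (Function.invFunOn (f ∘ e) (e ⁻¹' U) x) = Function.invFunOn f U x :=
    hinj h1 h3 (h2.trans h4.symm)
  rw [← h5, ContinuousLinearEquiv.symm_apply_apply]

theorem RawParam.comp_equiv (e : E ≃L[ℝ] F) {M : Set V} {f : F → V} {U : Set F}
    (h : RawParam M f U) : RawParam M (f ∘ e) (e ⁻¹' U) := by
  obtain ⟨h1, h2, h3, h4, h5, h6⟩ := h
  have himg : (f ∘ e) '' (e ⁻¹' U) = f '' U := by
    rw [Set.image_comp, Set.image_preimage_eq _ e.surjective]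
  refine ⟨h1.preimage e.continuous, h2.comp e.contDiff.contDiffOn (fun x hx => hx), ?_, ?_, ?_, ?_⟩
  · intro u hu
    rw [ContinuousLinearEquiv.comp_right_fderiv]
    exact (h3 (e u) hu).comp e.injective
  · exact h4.comp e.injective.injOn (fun x hx => hx)
  · rw [himg]
    exact h5
  · rw [himg]
    exact (e.symm.continuous.comp_continuousOn h6).congr fun x hx => invFunOn_comp_equiv e h4 hx

end raw

section real

variable {n N : ℕ} {M : Set (EN N)}

theorem isParam_of_isLocalParam {ψ : EN (2 * n) → EN N} {U : Set (EN (2 * n))}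
    (h : IsLocalParam M ψ U) : IsParam M (ψ ∘ cr n) (cr n ⁻¹' U) := by
  have h' : RawParam M ψ U := h
  obtain ⟨h1, h2, h3, h4, h5, h6⟩ := h'.comp_equiv (cr n)
  exact ⟨h1, h2, h3, h4, h5, h6⟩

theorem isLocalParam_of_isParam {Φ : CE (Fin n) → EN N} {U : Set (CE (Fin n))}
    (h : IsParam M Φ U) : IsLocalParam M (Φ ∘ (cr n).symm) ((cr n).symm ⁻¹' U) := by
  have h' : RawParam M Φ U := ⟨h.isOpen, h.smooth, h.immersion, h.injOn, h.image, h.cont_inv⟩
  exact h'.comp_equiv (cr n).symm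

end real

/-! ### BR-2 -/

section cplx

variable {ι : Type} [Fintype ι] {V : Type} [NormedAddCommGroup V] [NormedSpace ℝ V]
variable {M : Set V} {Φ Ψ : CE ι → V} {U U' W : Set (CE ι)} {τ : CE ι → CE ι}

theorem fderiv_eq_of_eqOn (hU : IsOpen U) (he : Set.EqOn Φ Ψ U) {z : CE ι} (hz : z ∈ U) :
    fderiv ℝ Ψ z = fderiv ℝ Φ z :=
  (he.eventuallyEq_of_mem (hU.mem_nhds hz)).symm.fderiv_eq

theorem isParam_congr (h : IsParam M Φ U) (he : Set.EqOn Φ Ψ U) : IsParam M Ψ U := by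
  refine ⟨h.isOpen, h.smooth.congr fun x hx => (he hx).symm, ?_, (he.injOn_iff).1 h.injOn, ?_, ?_⟩
  · intro z hz
    rw [fderiv_eq_of_eqOn h.isOpen he hz]
    exact h.immersion z hz
  · rw [← he.image_eq]
    exact h.image
  · rw [← he.image_eq]
    refine h.cont_inv.congr fun x hx => ?_
    have hx' : x ∈ Ψ '' U := he.image_eq ▸ hx
    have h1 := Function.invFunOn_mem hx'
    have h2 := Function.invFunOn_eq hx'
    rw [← he h1] at h2
    conv_rhs => rw [← h2]
    exact (h.leftInv h1).symm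

/-- a real differentiable map whose differential commutes with `i` is complex differentiable. -/
theorem differentiableAt_of_comm_I {κ : Type} [Fintype κ] {f : CE ι → CE κ} {z : CE ι}
    (hf : DifferentiableAt ℝ f z)
    (hI : ∀ v, fderiv ℝ f z (Complex.I • v) = Complex.I • fderiv ℝ f z v) :
    DifferentiableAt ℂ f z := by
  rw [differentiableAt_iff_restrictScalars ℝ hf]
  refine ⟨{ toFun := fderiv ℝ f z, map_add' := map_add _, map_smul' := ?_,
            cont := (fderiv ℝ f z).cont }, ?_⟩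
  · intro c v
    have hc : c • v = c.re • v + c.im • (Complex.I • v) := by
      conv_lhs => rw [← Complex.re_add_im c]
      rw [add_smul, mul_smul]
      rfl
    have hc' : c • fderiv ℝ f z v = c.re • fderiv ℝ f z v + c.im • (Complex.I • fderiv ℝ f z v) := by
      conv_lhs => rw [← Complex.re_add_im c]
      rw [add_smul, mul_smul]
      rfl
    rw [RingHom.id_apply, hc, map_add, map_smul, map_smul, hI, ← hc']
  · ext v
    rfl

/-- open mapping for holomorphic immersions in equal dimension. -/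
theorem hol_isOpen_image (hU' : IsOpen U') (hτ : DifferentiableOn ℂ τ U')
    (himm : ∀ z ∈ U', Function.Injective (fderiv ℂ τ z)) {O : Set (CE ι)} (hO : IsOpen O)
    (hsub : O ⊆ U') : IsOpen (τ '' O) := by
  rw [isOpen_iff_mem_nhds]
  rintro _ ⟨z, hz, rfl⟩
  have hcd : ContDiffAt ℂ ∞ τ z := (hol_contDiffOn hU' hτ).contDiffAt (hU'.mem_nhds (hsub hz))
  have hs : HasStrictFDerivAt τ (fderiv ℂ τ z) z := hcd.hasStrictFDerivAt (by simp)
  have hsurj : (fderiv ℂ τ z : CE ι →ₗ[ℂ] CE ι).range = ⊤ :=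
    LinearMap.range_eq_top.2 (LinearMap.injective_iff_surjective.1 (himm z (hsub hz)))
  rw [← hs.map_nhds_eq_of_surj hsurj]
  exact Filter.image_mem_map (hO.mem_nhds hz)

theorem hol_continuousOn_invFunOn (hU' : IsOpen U') (hτ : DifferentiableOn ℂ τ U')
    (hinj : Set.InjOn τ U') (himm : ∀ z ∈ U', Function.Injective (fderiv ℂ τ z)) :
    ContinuousOn (Function.invFunOn τ U') (τ '' U') := by
  rintro _ ⟨z, hz, rfl⟩
  refine ContinuousAt.continuousWithinAt ?_
  unfold ContinuousAt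
  rw [hinj.leftInvOn_invFunOn hz]
  intro N hN
  rw [Filter.mem_map]
  have hO : IsOpen (interior N ∩ U') := isOpen_interior.inter hU'
  have hzO : z ∈ interior N ∩ U' := ⟨mem_interior_iff_mem_nhds.2 hN, hz⟩
  refine Filter.mem_of_superset
    ((hol_isOpen_image hU' hτ himm hO Set.inter_subset_right).mem_nhds ⟨z, hzO, rfl⟩) ?_
  rintro _ ⟨w, hw, rfl⟩
  show Function.invFunOn τ U' (τ w) ∈ N
  rw [hinj.leftInvOn_invFunOn hw.2]
  exact interior_subset hw.1

theorem fderiv_comp_hol_real {z : CE ι} (hΦ : DifferentiableAt ℝ Φ (τ z))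
    (hτ : DifferentiableAt ℂ τ z) (v : CE ι) :
    fderiv ℝ (Φ ∘ τ) z v = fderiv ℝ Φ (τ z) (fderiv ℂ τ z v) := by
  rw [fderiv_comp z hΦ (hτ.restrictScalars ℝ), hτ.fderiv_restrictScalars ℝ]
  rfl

theorem isParam_comp_hol (h : IsParam M Φ U) (hU' : IsOpen U') (hτ : DifferentiableOn ℂ τ U')
    (hinj : Set.InjOn τ U') (himm : ∀ z ∈ U', Function.Injective (fderiv ℂ τ z))
    (hmaps : Set.MapsTo τ U' U) : IsParam M (Φ ∘ τ) U' := by
  have hda : ∀ z ∈ U', DifferentiableAt ℂ τ z := fun z hz =>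
    (hτ z hz).differentiableAt (hU'.mem_nhds hz)
  have hinj2 : Set.InjOn (Φ ∘ τ) U' := h.injOn.comp hinj hmaps
  refine ⟨hU', h.smooth.comp (hol_contDiffOn_real hU' hτ) hmaps, ?_, hinj2, ?_, ?_⟩
  · intro z hz a b hab
    rw [fderiv_comp_hol_real (h.differentiableAt (hmaps hz)) (hda z hz),
      fderiv_comp_hol_real (h.differentiableAt (hmaps hz)) (hda z hz)] at hab
    exact himm z hz (h.immersion _ (hmaps hz) hab)
  · rw [Set.image_comp]
    exact h.exists_isOpen_image (hol_isOpen_image hU' hτ himm hU' subset_rfl) hmaps.image_subset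
  · have hc1 : ContinuousOn (Function.invFunOn Φ U) ((Φ ∘ τ) '' U') := by
      refine h.cont_inv.mono ?_
      rw [Set.image_comp]
      exact Set.image_mono hmaps.image_subset
    have hm : Set.MapsTo (Function.invFunOn Φ U) ((Φ ∘ τ) '' U') (τ '' U') := by
      rintro _ ⟨w, hw, rfl⟩
      rw [Function.comp_apply, h.leftInv (hmaps hw)]
      exact ⟨w, hw, rfl⟩
    refine ((hol_continuousOn_invFunOn hU' hτ hinj himm).comp hc1 hm).congr ?_
    rintro _ ⟨w, hw, rfl⟩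
    rw [hinj2.leftInvOn_invFunOn hw, Function.comp_apply, Function.comp_apply,
      h.leftInv (hmaps hw), hinj.leftInvOn_invFunOn hw]

end cplx

section jhol

variable {ι : Type} [Fintype ι] {N : ℕ} {M : Set (EN N)} {J : EN N → EN N →L[ℝ] EN N}
variable {Φ Ψ : CE ι → EN N} {U U' W : Set (CE ι)}

theorem jhol_compat (hΦ : JHol M J Φ U) (hΨ : JHol M J Ψ W) :
    DifferentiableOn ℂ (Function.invFunOn Ψ W ∘ Φ) (U ∩ Φ ⁻¹' (Ψ '' W)) := by
  rintro z ⟨hz, hzW⟩
  have hM : ∀ᶠ y in 𝓝 z, Φ y ∈ M := by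
    filter_upwards [hΦ.1.isOpen.mem_nhds hz] with y hy
    exact hΦ.1.mem hy
  obtain ⟨hd, hv⟩ := hΨ.1.hasFDerivAt_invFunOn_comp (hΦ.1.differentiableAt hz) hM hzW
  have hw : Function.invFunOn Ψ W (Φ z) ∈ W := hΨ.1.invFunOn_mem hzW
  have hr : Ψ (Function.invFunOn Ψ W (Φ z)) = Φ z := hΨ.1.rightInv hzW
  refine (differentiableAt_of_comm_I hd fun v => ?_).differentiableWithinAt
  apply hΨ.1.immersion _ hw
  rw [← hv, hΦ.2 z hz, hΨ.2 _ hw, hr, ← hv]

theorem jhol_reparam (hΦ : JHol M J Φ U) (τ : CE ι → CE ι) (U' : Set (CE ι)) (hU' : IsOpen U')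
    (hτ : DifferentiableOn ℂ τ U') (hinj : Set.InjOn τ U')
    (himm : ∀ z ∈ U', Function.Injective (fderiv ℂ τ z)) (hmaps : Set.MapsTo τ U' U) :
    JHol M J (Φ ∘ τ) U' := by
  refine ⟨isParam_comp_hol hΦ.1 hU' hτ hinj himm hmaps, fun z hz v => ?_⟩
  have hda : DifferentiableAt ℂ τ z := (hτ z hz).differentiableAt (hU'.mem_nhds hz)
  rw [fderiv_comp_hol_real (hΦ.1.differentiableAt (hmaps hz)) hda,
    fderiv_comp_hol_real (hΦ.1.differentiableAt (hmaps hz)) hda, map_smul, hΦ.2 _ (hmaps hz)]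
  rfl

theorem jhol_congr (hΦ : JHol M J Φ U) (he : Set.EqOn Φ Ψ U) : JHol M J Ψ U := by
  refine ⟨isParam_congr hΦ.1 he, fun z hz v => ?_⟩
  rw [fderiv_eq_of_eqOn hΦ.1.isOpen he hz, ← he hz]
  exact hΦ.2 z hz v

/-- **the complex manifold of `(M, J)`**. -/
def mfd (M : Set (EN N)) (J : EN N → EN N →L[ℝ] EN N)
    (hcover : ∀ x ∈ M, ∃ (Φ : CE ι → EN N) (U : Set (CE ι)), JHol M J Φ U ∧ x ∈ Φ '' U) :
    CMfd (EN N) ι where
  carrier := M
  IsHol := JHol M J
  isParam := fun h => h.1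
  cover := hcover
  compat := jhol_compat
  reparam := jhol_reparam
  congr := jhol_congr

end jhol

end Claimed.Agent.R316.BR
end

/- ===== packed: Claimed.Agent.R316.BR.KImm ===== -/
section
/-!
# Row 316, BR-K: from `IsKahlerEmbedded` / the curvature hypothesis of S0572 to `KImm` and `gaussB`

Owner: helper193.

Part 1: `ψ = Φ ∘ (cr n).symm`: `fderiv`, `secondDeriv`, `tangentialPart`, `secondFund` of `Def_0500` in terms of `fderiv`, `D2`, `tanP`, `sff`
(`ContinuousLinearEquiv.comp_right_fderiv`: no differentiability hypothesis is needed).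
Part 2: elementary properties of `tanP`, `sff`, `D2`.
Part 3: `JHol.kimm`, `JHol.gaussB_pos`.

PLAN of `JHol.kimm`, clause `kahler`.  Apply the 4th clause of `IsKahlerEmbedded` to `ψ = Φ ∘ (cr n).symm`, `u = cr n z`, `v = cr n a`, `w = cr n b`.
On the open set `(cr n).symm ⁻¹' U` we have `J (ψ x) (dψ_x w) = dΦ_{y} (i b)`, `y = (cr n).symm x`; so the left side is `tanP Φ z (D2 Φ z a (i b))`
and the clause reads `tanP (D2 a (i b)) = J (tanP (D2 a b))`.  Write `tanP (D2 a b) = dΦ γ`.  Then for all `c`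
`⟨D2 a (i b), dΦ c⟩ = ⟨tanP (D2 a (i b)), dΦ c⟩ = ⟨J dΦ γ, dΦ c⟩ = ⟨J J dΦ γ, J dΦ c⟩ = - ⟨dΦ γ, dΦ (i c)⟩ = - ⟨D2 a b, dΦ (i c)⟩`.
-/

set_option autoImplicit false
open scoped ContDiff ComplexOrder ComplexConjugate Topology
open Claims.C0500

namespace Claimed.Agent.R316.BR

/-- the curvature hypothesis of S0572. -/
def BisecHyp (n : ℕ) {N : ℕ} (M : Set (EN N)) (J : EN N → EN N →L[ℝ] EN N) : Prop :=
  ∀ (ψ : EuclideanSpace ℝ (Fin (2 * n)) → EuclideanSpace ℝ (Fin N))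
    (U : Set (EuclideanSpace ℝ (Fin (2 * n)))), IsLocalParam M ψ U → ∀ u ∈ U,
      ∀ v w v' w' : EuclideanSpace ℝ (Fin (2 * n)), v ≠ 0 → w ≠ 0 →
        fderiv ℝ ψ u v' = J (ψ u) (fderiv ℝ ψ u v) →
        fderiv ℝ ψ u w' = J (ψ u) (fderiv ℝ ψ u w) →
        0 < inner ℝ (secondFund ψ u v' w') (secondFund ψ u v w) -
          inner ℝ (secondFund ψ u v w') (secondFund ψ u v' w)

/-! ### Part 1 -/

section chain

variable {n N : ℕ} (Φ : CE (Fin n) → EN N) (z a b : CE (Fin n))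

theorem fderiv_comp_cr_symm_gen {F : Type} [NormedAddCommGroup F] [NormedSpace ℝ F]
    (f : CE (Fin n) → F) (x : EN (2 * n)) (a : CE (Fin n)) :
    fderiv ℝ (f ∘ (cr n).symm) x (cr n a) = fderiv ℝ f ((cr n).symm x) a := by
  rw [ContinuousLinearEquiv.comp_right_fderiv]
  simp

theorem fderiv_comp_cr_symm :
    fderiv ℝ (Φ ∘ (cr n).symm) (cr n z) (cr n a) = fderiv ℝ Φ z a := by
  rw [fderiv_comp_cr_symm_gen]
  simp

theorem secondDeriv_comp_cr_symm :
    secondDeriv (Φ ∘ (cr n).symm) (cr n z) (cr n a) (cr n b) = D2 Φ z a b := by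
  unfold secondDeriv D2
  have e : (fun x => fderiv ℝ (Φ ∘ (cr n).symm) x (cr n b)) =
      (fun y => fderiv ℝ Φ y b) ∘ (cr n).symm := by
    funext x
    exact fderiv_comp_cr_symm_gen Φ x b
  rw [e, fderiv_comp_cr_symm_gen]
  simp

theorem range_fderiv_comp_cr_symm :
    LinearMap.range (fderiv ℝ (Φ ∘ (cr n).symm) (cr n z)).toLinearMap =
      LinearMap.range (fderiv ℝ Φ z).toLinearMap := by
  ext y
  simp only [LinearMap.mem_range, ContinuousLinearMap.coe_coe]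
  constructor
  · rintro ⟨x, rfl⟩
    refine ⟨(cr n).symm x, ?_⟩
    rw [← fderiv_comp_cr_symm Φ z]
    simp
  · rintro ⟨c, rfl⟩
    exact ⟨cr n c, fderiv_comp_cr_symm Φ z c⟩

theorem tangentialPart_comp_cr_symm (x : EN N) :
    tangentialPart (Φ ∘ (cr n).symm) (cr n z) x = tanP Φ z x := by
  unfold tangentialPart tanP
  simp only [range_fderiv_comp_cr_symm]

theorem secondFund_comp_cr_symm :
    secondFund (Φ ∘ (cr n).symm) (cr n z) (cr n a) (cr n b) = sff Φ z a b := by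
  unfold secondFund sff
  rw [secondDeriv_comp_cr_symm, tangentialPart_comp_cr_symm]

end chain

/-! ### Part 2 -/

section tan

variable {ι : Type} [Fintype ι] {N : ℕ} (Φ : CE ι → EN N) (z : CE ι)

theorem exists_tanP_eq (x : EN N) : ∃ c : CE ι, tanP Φ z x = fderiv ℝ Φ z c := by
  have h := Submodule.starProjection_apply_mem (LinearMap.range (fderiv ℝ Φ z).toLinearMap) x
  obtain ⟨c, hc⟩ := LinearMap.mem_range.1 h
  exact ⟨c, hc.symm⟩

theorem tanP_fderiv (c : CE ι) : tanP Φ z (fderiv ℝ Φ z c) = fderiv ℝ Φ z c := by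
  unfold tanP
  rw [Submodule.starProjection_eq_self_iff]
  exact LinearMap.mem_range.2 ⟨c, rfl⟩

theorem inner_tanP_fderiv (x : EN N) (c : CE ι) :
    inner ℝ (tanP Φ z x) (fderiv ℝ Φ z c) = inner ℝ x (fderiv ℝ Φ z c) := by
  conv_rhs => rw [← tanP_fderiv Φ z c]
  unfold tanP
  rw [Submodule.inner_starProjection_left_eq_right]

theorem inner_sff_fderiv (a b c : CE ι) : inner ℝ (sff Φ z a b) (fderiv ℝ Φ z c) = 0 := by
  unfold sff
  rw [inner_sub_left, inner_tanP_fderiv, sub_self]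

/-- a tangent vector orthogonal to all tangent vectors vanishes. -/
theorem fderiv_eq_of_inner_eq {c c' : CE ι}
    (h : ∀ e : CE ι, inner ℝ (fderiv ℝ Φ z c) (fderiv ℝ Φ z e) =
      inner ℝ (fderiv ℝ Φ z c') (fderiv ℝ Φ z e)) : fderiv ℝ Φ z c = fderiv ℝ Φ z c' := by
  have h1 := h (c - c')
  rw [← sub_eq_zero, ← inner_sub_left, map_sub, inner_self_eq_zero] at h1
  exact sub_eq_zero.1 h1

variable {Φ z}

theorem D2_eq (h : ContDiffAt ℝ 2 Φ z) (a b : CE ι) :
    D2 Φ z a b = fderiv ℝ (fderiv ℝ Φ) z a b := by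
  have hd : DifferentiableAt ℝ (fderiv ℝ Φ) z :=
    (h.fderiv_right (m := 1) (by norm_num)).differentiableAt (by norm_num)
  unfold D2
  rw [fderiv_clm_apply hd (differentiableAt_const b)]
  simp

theorem D2_symm (h : ContDiffAt ℝ 2 Φ z) (a b : CE ι) : D2 Φ z a b = D2 Φ z b a := by
  rw [D2_eq h, D2_eq h]
  exact h.isSymmSndFDerivAt (by simp) a b

theorem sff_symm (h : ContDiffAt ℝ 2 Φ z) (a b : CE ι) : sff Φ z a b = sff Φ z b a := by
  unfold sff
  rw [D2_symm h]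

end tan

/-! ### Part 3 -/

section main

variable {n N : ℕ} {M : Set (EN N)} {J : EN N → EN N →L[ℝ] EN N}
variable {Φ : CE (Fin n) → EN N} {U : Set (CE (Fin n))}

theorem JHol.kimm (hK : IsKahlerEmbedded n M J) (h : JHol M J Φ U) : KImm Φ U := by
  have hP := isLocalParam_of_isParam h.1
  have key := fun (z : CE (Fin n)) (hz : z ∈ U) (a b : CE (Fin n)) =>
    hK.2 _ _ hP (cr n z) (by simpa using hz) (cr n a) (cr n b)
  simp only [fderiv_comp_cr_symm, Function.comp_apply, ContinuousLinearEquiv.symm_apply_apply,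
    secondDeriv_comp_cr_symm, tangentialPart_comp_cr_symm] at key
  refine ⟨h.1.isOpen, h.1.smooth, h.1.immersion, ?_, ?_⟩
  · intro z hz a b
    rw [h.2 z hz, h.2 z hz]
    exact (key z hz a b).2.2.1
  · intro z hz a b c
    have k4 := (key z hz a b).2.2.2
    have e : (fun x => J (Φ ((cr n).symm x)) (fderiv ℝ (Φ ∘ (cr n).symm) x (cr n b))) =ᶠ[𝓝 (cr n z)]
        (fun y => fderiv ℝ Φ y (Complex.I • b)) ∘ (cr n).symm := by
      have hU : (cr n).symm ⁻¹' U ∈ 𝓝 (cr n z) :=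
        (h.1.isOpen.preimage (cr n).symm.continuous).mem_nhds (by simpa using hz)
      filter_upwards [hU] with x hx
      rw [fderiv_comp_cr_symm_gen, Function.comp_apply, h.2 _ hx]
    rw [e.fderiv_eq, fderiv_comp_cr_symm_gen, ContinuousLinearEquiv.symm_apply_apply] at k4
    change tanP Φ z (D2 Φ z a (Complex.I • b)) = _ at k4
    obtain ⟨γ, hγ⟩ := exists_tanP_eq Φ z (D2 Φ z a b)
    rw [← inner_tanP_fderiv, k4, hγ, ← inner_tanP_fderiv Φ z (D2 Φ z a b), hγ, ← h.2 z hz,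
      ← (key z hz (Complex.I • γ) c).2.2.1, ← h.2 z hz, ← h.2 z hz, smul_smul,
      Complex.I_mul_I, neg_one_smul, map_neg, inner_neg_left]

theorem JHol.gaussB_pos (hB : BisecHyp n M J) (h : JHol M J Φ U) {z : CE (Fin n)} (hz : z ∈ U)
    {a b : CE (Fin n)} (ha : a ≠ 0) (hb : b ≠ 0) : 0 < gaussB Φ z a b := by
  have hP := isLocalParam_of_isParam h.1
  have key := hB _ _ hP (cr n z) (by simpa using hz) (cr n a) (cr n b) (cr n (Complex.I • a))
    (cr n (Complex.I • b)) (by simpa using ha) (by simpa using hb)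
  simp only [fderiv_comp_cr_symm, Function.comp_apply, ContinuousLinearEquiv.symm_apply_apply,
    secondFund_comp_cr_symm] at key
  exact key (h.2 z hz a) (h.2 z hz b)

end main

end Claimed.Agent.R316.BR
end

/- ===== packed: Claimed.Agent.R316.BR.Gram ===== -/
section
/-!
# Row 316, BR-3/BR-4: the induced metric `gram` of a Kaehler immersion: Hermitian, smooth, positive, tensorial, closed

Owner: helper193.

NOTATION.  `φ_a = cof Φ a` (real valued, cast to `ℂ`), `P_j^a = dz j φ_a`, `Q_j^a = dzb j φ_a = conj P_j^a`, `gram j k = 2 ∑_a Q_j^a P_k^a`.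

* `sum_dz_cof`: `∑_j P_j^a v_j = ½ (dΦ(v)_a - i dΦ(i v)_a)` (from `fderiv_eq_sum` of CW-1 applied to `v` and `i v`).
* `qf_gram_general`: `qf (gram Φ z) v = 2 ∑_a |∑_j P_j^a v_j|² = ½ (‖dΦ v‖² + ‖dΦ (i v)‖²)`.
* **Lemma K** (`KImm.sum_mixed_mul_fderiv`): the mixed second derivative `∂̄_m ∂_j Φ` is NORMAL: `∑_a ∂̄_m ∂_j φ_a · dΦ(c)_a = 0` for every `c`.
  Proof: `T(x,y;c) := ⟨D2 x y, dΦ c⟩` is symmetric in `x,y`, `T(x, i y; c) = - T(x,y; i c)` (`KImm.kahler`); hence `T(i x, i y; c) = - T(x,y;c)` and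
  `T(x, i y; c) = T(i x, y; c)`; and `∂̄_m ∂_j φ_a = ¼ [B(e_j,e_m) + B(i e_j, i e_m) + i (B(e_j, i e_m) - B(i e_j, e_m))]`, `B = D²φ_a` (`fderiv_dz_apply`, `dzb_def`).
* `KImm.dz_gram`: `∂_l gram_{q j} = 2 ∑_a Q_q^a ∂_l ∂_j φ_a` (the other term of the product rule vanishes by Lemma K) `⟹` closedness (`dz_dz_comm`).
-/

set_option autoImplicit false
set_option linter.unusedSectionVars false
open scoped ContDiff ComplexOrder ComplexConjugate Topology Matrix

namespace Claimed.Agent.R316.BR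

variable {ι : Type} [Fintype ι] [DecidableEq ι] {N : ℕ}
variable {Φ Ψ : CE ι → EN N} {U : Set (CE ι)} {z : CE ι}

/-! ### coordinates -/

/-- the `a`-th coordinate as a real linear map into `ℂ`. -/
noncomputable def cofL (N : ℕ) (a : Fin N) : EN N →L[ℝ] ℂ :=
  Complex.ofRealCLM.comp (EuclideanSpace.proj a : EN N →L[ℝ] ℝ)

theorem cofL_apply (a : Fin N) (x : EN N) : cofL N a x = ((x a : ℝ) : ℂ) := rfl

theorem cof_eq_comp (Φ : CE ι → EN N) (a : Fin N) : cof Φ a = cofL N a ∘ Φ := rfl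

theorem cof_contDiffOn (hs : ContDiffOn ℝ ∞ Φ U) (a : Fin N) : ContDiffOn ℝ ∞ (cof Φ a) U :=
  (cofL N a).contDiff.comp_contDiffOn hs

theorem cof_contDiffAt {m : WithTop ℕ∞} (hs : ContDiffAt ℝ m Φ z) (a : Fin N) :
    ContDiffAt ℝ m (cof Φ a) z :=
  (cofL N a).contDiff.contDiffAt.comp z hs

theorem KImm.contDiffAt (h : KImm Φ U) (hz : z ∈ U) : ContDiffAt ℝ ∞ Φ z :=
  (h.smooth z hz).contDiffAt (h.isOpen.mem_nhds hz)

theorem KImm.cof_contDiffAt (h : KImm Φ U) (hz : z ∈ U) (a : Fin N) :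
    ContDiffAt ℝ ∞ (cof Φ a) z :=
  BR.cof_contDiffAt (h.contDiffAt hz) a

theorem fderiv_cof (hd : DifferentiableAt ℝ Φ z) (a : Fin N) (v : CE ι) :
    fderiv ℝ (cof Φ a) z v = ((fderiv ℝ Φ z v a : ℝ) : ℂ) := by
  have h := ((cofL N a).hasFDerivAt.comp z hd.hasFDerivAt).fderiv
  rw [cof_eq_comp, h]
  rfl

/-- second derivatives of the coordinates. -/
theorem snd_fderiv_cof (hs : ContDiffAt ℝ 2 Φ z) (a : Fin N) (x y : CE ι) :
    fderiv ℝ (fderiv ℝ (cof Φ a)) z x y = ((D2 Φ z x y a : ℝ) : ℂ) := by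
  have hc : ContDiffAt ℝ 2 (cof Φ a) z := cof_contDiffAt hs a
  have hd : DifferentiableAt ℝ (fderiv ℝ (cof Φ a)) z :=
    (hc.fderiv_right (m := 1) (by norm_num)).differentiableAt (by norm_num)
  have hd' : DifferentiableAt ℝ (fderiv ℝ Φ) z :=
    (hs.fderiv_right (m := 1) (by norm_num)).differentiableAt (by norm_num)
  have e1 : fderiv ℝ (fderiv ℝ (cof Φ a)) z x y = fderiv ℝ (fun w => fderiv ℝ (cof Φ a) w y) z x := by
    rw [fderiv_clm_apply hd (differentiableAt_const y)]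
    simp
  have e2 : (fun w => fderiv ℝ (cof Φ a) w y) =ᶠ[𝓝 z] cofL N a ∘ fun w => fderiv ℝ Φ w y := by
    filter_upwards [hs.eventually (by simp)] with w hw
    exact fderiv_cof (hw.differentiableAt (by norm_num)) a y
  have hd2 : DifferentiableAt ℝ (fun w => fderiv ℝ Φ w y) z :=
    hd'.clm_apply (differentiableAt_const y)
  rw [e1, e2.fderiv_eq, ((cofL N a).hasFDerivAt.comp z hd2.hasFDerivAt).fderiv]
  rfl

theorem dzb_cof (Φ : CE ι → EN N) (a : Fin N) (j : ι) (z : CE ι) :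
    dzb j (cof Φ a) z = conj (dz j (cof Φ a) z) :=
  dzb_ofReal (fun w => Φ w a)

theorem dz_cof (Φ : CE ι → EN N) (a : Fin N) (j : ι) (z : CE ι) :
    dz j (cof Φ a) z = conj (dzb j (cof Φ a) z) :=
  dz_ofReal (fun w => Φ w a)

theorem dz_cof_eq (hd : DifferentiableAt ℝ Φ z) (a : Fin N) (j : ι) :
    dz j (cof Φ a) z = (1 / 2 : ℂ) * (((fderiv ℝ Φ z (eb j) a : ℝ) : ℂ) -
      Complex.I * ((fderiv ℝ Φ z (Complex.I • eb j) a : ℝ) : ℂ)) := by
  rw [dz_def, fderiv_cof hd, fderiv_cof hd]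

theorem sum_dz_cof (hd : DifferentiableAt ℝ Φ z) (a : Fin N) (v : CE ι) :
    ∑ j, dz j (cof Φ a) z * v j = (1 / 2 : ℂ) * (((fderiv ℝ Φ z v a : ℝ) : ℂ) -
      Complex.I * ((fderiv ℝ Φ z (Complex.I • v) a : ℝ) : ℂ)) := by
  rw [← fderiv_cof hd, ← fderiv_cof hd, fderiv_eq_sum, fderiv_eq_sum, Finset.mul_sum,
    ← Finset.sum_sub_distrib, Finset.mul_sum]
  refine Finset.sum_congr rfl fun j _ => ?_
  have hI : Complex.I * Complex.I = -1 := Complex.I_mul_I
  simp only [PiLp.smul_apply, smul_eq_mul, map_mul, Complex.conj_I]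
  linear_combination (dz j (cof Φ a) z * v j / 2 - dzb j (cof Φ a) z * conj (v j) / 2) * hI

/-! ### BR-3: algebraic and regularity properties of `gram` -/

theorem gram_apply (Φ : CE ι → EN N) (z : CE ι) (j k : ι) :
    gram Φ z j k = 2 * ∑ a, dzb j (cof Φ a) z * dz k (cof Φ a) z := rfl

theorem gram_isHermitian (Φ : CE ι → EN N) (z : CE ι) : (gram Φ z).IsHermitian := by
  ext j k
  rw [Matrix.conjTranspose_apply, gram_apply, gram_apply, Complex.star_def, map_mul, map_sum]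
  simp only [map_mul, ← dz_cof, ← dzb_cof, map_ofNat]
  congr 1
  exact Finset.sum_congr rfl fun a _ => mul_comm _ _

theorem gram_contDiffOn (hU : IsOpen U) (hs : ContDiffOn ℝ ∞ Φ U) (j k : ι) :
    ContDiffOn ℝ ∞ (fun z => gram Φ z j k) U := by
  simp only [gram_apply]
  refine contDiffOn_const.mul (ContDiffOn.sum fun a _ => ?_)
  exact (contDiffOn_dzb hU (cof_contDiffOn hs a)).mul (contDiffOn_dz hU (cof_contDiffOn hs a))

theorem gram_congr (h : Φ =ᶠ[𝓝 z] Ψ) : gram Φ z = gram Ψ z := by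
  have hc : ∀ a, cof Φ a =ᶠ[𝓝 z] cof Ψ a := fun a => by
    filter_upwards [h] with w hw
    simp only [cof, hw]
  ext j k
  simp only [gram_apply, dz_congr (hc _), dzb_congr (hc _)]

/-- tensoriality. -/
theorem gram_comp_hol (τ : CE ι → CE ι) (hτ : DifferentiableAt ℂ τ z)
    (hΨ : DifferentiableAt ℝ Ψ (τ z)) :
    gram (Ψ ∘ τ) z = (jac τ z)ᴴ * gram Ψ (τ z) * jac τ z := by
  have hc : ∀ a, DifferentiableAt ℝ (cof Ψ a) (τ z) := fun a =>
    (cofL N a).differentiableAt.comp (τ z) hΨ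
  have e : ∀ a, cof (Ψ ∘ τ) a = fun w => cof Ψ a (τ w) := fun a => rfl
  ext j k
  rw [gram_apply, Matrix.mul_apply]
  simp only [Matrix.mul_apply, Matrix.conjTranspose_apply, gram_apply, e,
    dz_comp_hol τ _ hτ (hc _), dzb_comp_hol τ _ hτ (hc _), Complex.star_def]
  simp only [Finset.sum_mul, Finset.mul_sum]
  rw [Finset.sum_comm]
  refine Finset.sum_congr rfl fun q _ => ?_
  rw [Finset.sum_comm]
  refine Finset.sum_congr rfl fun p _ => Finset.sum_congr rfl fun a _ => ?_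
  ring

theorem qf_gram_eq_sum (Φ : CE ι → EN N) (z : CE ι) (v : ι → ℂ) :
    qf (gram Φ z) v = 2 * ∑ a, ‖∑ k, dz k (cof Φ a) z * v k‖ ^ 2 := by
  rw [qf_eq_sum]
  have e : ∑ j, ∑ k, conj (v j) * gram Φ z j k * v k =
      ((2 * ∑ a, ‖∑ k, dz k (cof Φ a) z * v k‖ ^ 2 : ℝ) : ℂ) := by
    push_cast
    have e1 : ∀ a, ((‖∑ k, dz k (cof Φ a) z * v k‖ : ℝ) : ℂ) ^ 2 =
        (∑ j, dzb j (cof Φ a) z * conj (v j)) * ∑ k, dz k (cof Φ a) z * v k := by
      intro a
      rw [← Complex.conj_mul', map_sum]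
      simp only [map_mul, ← dzb_cof]
    have e2 : ∀ a, (∑ j, dzb j (cof Φ a) z * conj (v j)) * ∑ k, dz k (cof Φ a) z * v k =
        ∑ j, ∑ k, (dzb j (cof Φ a) z * conj (v j)) * (dz k (cof Φ a) z * v k) :=
      fun a => Finset.sum_mul_sum _ _ _ _
    simp only [e1, e2, gram_apply]
    conv_rhs => rw [Finset.sum_comm, Finset.mul_sum]
    refine Finset.sum_congr rfl fun j _ => ?_
    conv_rhs => rw [Finset.sum_comm, Finset.mul_sum]
    refine Finset.sum_congr rfl fun k _ => ?_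
    rw [Finset.mul_sum, Finset.mul_sum, Finset.sum_mul, Finset.mul_sum]
    exact Finset.sum_congr rfl fun a _ => by ring
  rw [e, Complex.ofReal_re]


theorem qf_gram_general (hd : DifferentiableAt ℝ Φ z) (v : CE ι) :
    qf (gram Φ z) v =
      (1 / 2 : ℝ) * (‖fderiv ℝ Φ z v‖ ^ 2 + ‖fderiv ℝ Φ z (Complex.I • v)‖ ^ 2) := by
  rw [qf_gram_eq_sum, EuclideanSpace.norm_sq_eq, EuclideanSpace.norm_sq_eq,
    ← Finset.sum_add_distrib, Finset.mul_sum, Finset.mul_sum]
  refine Finset.sum_congr rfl fun a _ => ?_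
  rw [sum_dz_cof hd, Complex.sq_norm, Complex.normSq_apply]
  simp only [Real.norm_eq_abs, sq_abs]
  simp
  ring

theorem KImm.qf_gram (h : KImm Φ U) (hz : z ∈ U) (v : CE ι) :
    qf (gram Φ z) v = ‖fderiv ℝ Φ z v‖ ^ 2 := by
  have hd : DifferentiableAt ℝ Φ z := (h.contDiffAt hz).differentiableAt (by simp)
  have hn : ‖fderiv ℝ Φ z (Complex.I • v)‖ ^ 2 = ‖fderiv ℝ Φ z v‖ ^ 2 := by
    rw [← real_inner_self_eq_norm_sq, ← real_inner_self_eq_norm_sq, h.isom z hz]
  rw [qf_gram_general hd, hn]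
  ring

theorem KImm.gram_posDef (h : KImm Φ U) (hz : z ∈ U) : (gram Φ z).PosDef := by
  rw [posDef_iff_qf (gram_isHermitian Φ z)]
  intro v hv
  have e := h.qf_gram hz (WithLp.toLp 2 v)
  change qf (gram Φ z) v = _ at e
  rw [e]
  have hne : fderiv ℝ Φ z (WithLp.toLp 2 v) ≠ 0 := by
    intro h0
    have := h.immersion z hz (h0.trans (map_zero _).symm)
    apply hv
    have h2 := congrArg (fun x : CE ι => x.ofLp) this
    simpa using h2
  positivity

/-- `(gram v)_q = 2 ∑_a Q_q^a ∑_p P_p^a v_p`. -/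
theorem gram_mulVec (Φ : CE ι → EN N) (z : CE ι) (v : ι → ℂ) (q : ι) :
    (gram Φ z *ᵥ v) q = 2 * ∑ a, dzb q (cof Φ a) z * ∑ p, dz p (cof Φ a) z * v p := by
  simp only [Matrix.mulVec, dotProduct, gram_apply, Finset.mul_sum, Finset.sum_mul]
  rw [Finset.sum_comm]
  exact Finset.sum_congr rfl fun a _ => Finset.sum_congr rfl fun p _ => by ring

/-! ### BR-4: Lemma K and closedness -/

/-- the mixed second derivative in real terms. -/
theorem dzb_dz_cof_eq (hs : ContDiffAt ℝ 2 Φ z) (a : Fin N) (j m : ι) :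
    dzb m (dz j (cof Φ a)) z = (1 / 4 : ℂ) *
      ((((D2 Φ z (eb j) (eb m) a + D2 Φ z (Complex.I • eb j) (Complex.I • eb m) a : ℝ)) : ℂ) +
        Complex.I * (((D2 Φ z (eb j) (Complex.I • eb m) a - D2 Φ z (Complex.I • eb j) (eb m) a : ℝ)) : ℂ)) := by
  have hf := cof_contDiffAt hs a
  have hI : Complex.I * Complex.I = -1 := Complex.I_mul_I
  rw [dzb_def, fderiv_dz_apply hf, fderiv_dz_apply hf]
  simp only [snd_fderiv_cof hs]
  rw [D2_symm hs (eb m) (eb j), D2_symm hs (eb m) (Complex.I • eb j),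
    D2_symm hs (Complex.I • eb m) (eb j), D2_symm hs (Complex.I • eb m) (Complex.I • eb j)]
  push_cast
  linear_combination (- (1 / 4 : ℂ) * ((D2 Φ z (Complex.I • eb j) (Complex.I • eb m) a : ℝ) : ℂ)) * hI

theorem KImm.inner_D2_II (h : KImm Φ U) (hz : z ∈ U) (x y c : CE ι) :
    inner ℝ (D2 Φ z (Complex.I • x) (Complex.I • y)) (fderiv ℝ Φ z c) =
      - inner ℝ (D2 Φ z x y) (fderiv ℝ Φ z c) := by
  have hs : ContDiffAt ℝ 2 Φ z := (h.contDiffAt hz).of_le (by
    have : ((2 : ℕ∞) : WithTop ℕ∞) ≤ ((⊤ : ℕ∞) : WithTop ℕ∞) := by exact_mod_cast le_top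
    exact this)
  rw [h.kahler z hz, D2_symm hs, h.kahler z hz, smul_smul, Complex.I_mul_I, neg_one_smul, map_neg,
    inner_neg_right, D2_symm hs]
  ring

theorem KImm.inner_D2_I_comm (h : KImm Φ U) (hz : z ∈ U) (x y c : CE ι) :
    inner ℝ (D2 Φ z (Complex.I • x) y) (fderiv ℝ Φ z c) =
      inner ℝ (D2 Φ z x (Complex.I • y)) (fderiv ℝ Φ z c) := by
  have hs : ContDiffAt ℝ 2 Φ z := (h.contDiffAt hz).of_le (by
    have : ((2 : ℕ∞) : WithTop ℕ∞) ≤ ((⊤ : ℕ∞) : WithTop ℕ∞) := by exact_mod_cast le_top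
    exact this)
  rw [D2_symm hs, h.kahler z hz, h.kahler z hz, D2_symm hs]

theorem sum_ofReal_mul_eq_inner (x y : EN N) :
    ∑ a, ((x a : ℝ) : ℂ) * ((y a : ℝ) : ℂ) = ((inner ℝ x y : ℝ) : ℂ) := by
  rw [PiLp.inner_apply]
  simp only [RCLike.inner_apply, conj_trivial]
  push_cast
  exact Finset.sum_congr rfl fun a _ => mul_comm _ _

/-- **Lemma K**: the mixed second derivative is normal. -/
theorem KImm.sum_mixed_mul_fderiv (h : KImm Φ U) (hz : z ∈ U) (j m : ι) (c : CE ι) :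
    ∑ a, dzb m (dz j (cof Φ a)) z * ((fderiv ℝ Φ z c a : ℝ) : ℂ) = 0 := by
  have hs : ContDiffAt ℝ 2 Φ z := (h.contDiffAt hz).of_le (by
    have : ((2 : ℕ∞) : WithTop ℕ∞) ≤ ((⊤ : ℕ∞) : WithTop ℕ∞) := by exact_mod_cast le_top
    exact this)
  have e : ∀ a, dzb m (dz j (cof Φ a)) z * ((fderiv ℝ Φ z c a : ℝ) : ℂ) =
      (1 / 4 : ℂ) * (((D2 Φ z (eb j) (eb m) a : ℝ) : ℂ) * ((fderiv ℝ Φ z c a : ℝ) : ℂ)) +
      (1 / 4 : ℂ) * (((D2 Φ z (Complex.I • eb j) (Complex.I • eb m) a : ℝ) : ℂ) *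
        ((fderiv ℝ Φ z c a : ℝ) : ℂ)) +
      (1 / 4 : ℂ) * Complex.I * (((D2 Φ z (eb j) (Complex.I • eb m) a : ℝ) : ℂ) *
        ((fderiv ℝ Φ z c a : ℝ) : ℂ)) -
      (1 / 4 : ℂ) * Complex.I * (((D2 Φ z (Complex.I • eb j) (eb m) a : ℝ) : ℂ) *
        ((fderiv ℝ Φ z c a : ℝ) : ℂ)) := by
    intro a
    rw [dzb_dz_cof_eq hs]
    push_cast
    ring
  simp only [e, Finset.sum_add_distrib, Finset.sum_sub_distrib, ← Finset.mul_sum,
    sum_ofReal_mul_eq_inner, h.inner_D2_II hz, h.inner_D2_I_comm hz]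
  push_cast
  ring

theorem KImm.sum_mixed_mul_dz (h : KImm Φ U) (hz : z ∈ U) (j m k : ι) :
    ∑ a, dzb m (dz j (cof Φ a)) z * dz k (cof Φ a) z = 0 := by
  have hd : DifferentiableAt ℝ Φ z := (h.contDiffAt hz).differentiableAt (by simp)
  have e : ∀ a, dzb m (dz j (cof Φ a)) z * dz k (cof Φ a) z =
      (1 / 2 : ℂ) * (dzb m (dz j (cof Φ a)) z * ((fderiv ℝ Φ z (eb k) a : ℝ) : ℂ)) -
      (1 / 2 : ℂ) * Complex.I *
        (dzb m (dz j (cof Φ a)) z * ((fderiv ℝ Φ z (Complex.I • eb k) a : ℝ) : ℂ)) := by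
    intro a
    rw [dz_cof_eq hd]
    ring
  simp only [e, Finset.sum_sub_distrib, ← Finset.mul_sum, h.sum_mixed_mul_fderiv hz]
  simp

theorem KImm.sum_mixed_mul_dzb (h : KImm Φ U) (hz : z ∈ U) (j m k : ι) :
    ∑ a, dzb m (dz j (cof Φ a)) z * dzb k (cof Φ a) z = 0 := by
  have hd : DifferentiableAt ℝ Φ z := (h.contDiffAt hz).differentiableAt (by simp)
  have e : ∀ a, dzb m (dz j (cof Φ a)) z * dzb k (cof Φ a) z =
      (1 / 2 : ℂ) * (dzb m (dz j (cof Φ a)) z * ((fderiv ℝ Φ z (eb k) a : ℝ) : ℂ)) +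
      (1 / 2 : ℂ) * Complex.I *
        (dzb m (dz j (cof Φ a)) z * ((fderiv ℝ Φ z (Complex.I • eb k) a : ℝ) : ℂ)) := by
    intro a
    rw [dzb_def k (cof Φ a), fderiv_cof hd, fderiv_cof hd]
    ring
  simp only [e, Finset.sum_add_distrib, ← Finset.mul_sum, h.sum_mixed_mul_fderiv hz]
  simp

theorem KImm.dz_gram (h : KImm Φ U) (hz : z ∈ U) (q j l : ι) :
    dz l (fun y => gram Φ y q j) z = 2 * ∑ a, dzb q (cof Φ a) z * dz l (dz j (cof Φ a)) z := by
  have hc : ∀ a, ContDiffAt ℝ ∞ (cof Φ a) z := fun a => h.cof_contDiffAt hz a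
  have hc2 : ∀ a, ContDiffAt ℝ 2 (cof Φ a) z := fun a => (hc a).of_le (by
    have : ((2 : ℕ∞) : WithTop ℕ∞) ≤ ((⊤ : ℕ∞) : WithTop ℕ∞) := by exact_mod_cast le_top
    exact this)
  have d1 : ∀ a k, DifferentiableAt ℝ (dz k (cof Φ a)) z := fun a k =>
    (contDiffAt_dz (m := 1) (hc2 a) (by norm_num)).differentiableAt (by norm_num)
  have d2 : ∀ a k, DifferentiableAt ℝ (dzb k (cof Φ a)) z := fun a k =>
    (contDiffAt_dzb (m := 1) (hc2 a) (by norm_num)).differentiableAt (by norm_num)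
  simp only [gram_apply]
  have dm : ∀ a, DifferentiableAt ℝ (fun w => dzb q (cof Φ a) w * dz j (cof Φ a) w) z :=
    fun a => (d2 a q).fun_mul (d1 a j)
  rw [dz_const_mul 2 (DifferentiableAt.fun_sum fun a _ => dm a), dz_sum _ _ (fun a _ => dm a)]
  congr 1
  have e : ∀ a, dz l (fun w => dzb q (cof Φ a) w * dz j (cof Φ a) w) z =
      dzb q (dz l (cof Φ a)) z * dz j (cof Φ a) z + dzb q (cof Φ a) z * dz l (dz j (cof Φ a)) z := by
    intro a
    rw [dz_mul (d2 a q) (d1 a j), dz_dzb_comm (hc2 a)]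
  simp only [e, Finset.sum_add_distrib, h.sum_mixed_mul_dz hz, zero_add]

theorem KImm.dzb_gram (h : KImm Φ U) (hz : z ∈ U) (k p m : ι) :
    dzb m (fun y => gram Φ y k p) z = 2 * ∑ a, dzb m (dzb k (cof Φ a)) z * dz p (cof Φ a) z := by
  have hc : ∀ a, ContDiffAt ℝ ∞ (cof Φ a) z := fun a => h.cof_contDiffAt hz a
  have hc2 : ∀ a, ContDiffAt ℝ 2 (cof Φ a) z := fun a => (hc a).of_le (by
    have : ((2 : ℕ∞) : WithTop ℕ∞) ≤ ((⊤ : ℕ∞) : WithTop ℕ∞) := by exact_mod_cast le_top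
    exact this)
  have d1 : ∀ a k, DifferentiableAt ℝ (dz k (cof Φ a)) z := fun a k =>
    (contDiffAt_dz (m := 1) (hc2 a) (by norm_num)).differentiableAt (by norm_num)
  have d2 : ∀ a k, DifferentiableAt ℝ (dzb k (cof Φ a)) z := fun a k =>
    (contDiffAt_dzb (m := 1) (hc2 a) (by norm_num)).differentiableAt (by norm_num)
  simp only [gram_apply]
  have dm : ∀ a, DifferentiableAt ℝ (fun w => dzb k (cof Φ a) w * dz p (cof Φ a) w) z :=
    fun a => (d2 a k).fun_mul (d1 a p)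
  rw [dzb_const_mul 2 (DifferentiableAt.fun_sum fun a _ => dm a), dzb_sum _ _ (fun a _ => dm a)]
  congr 1
  have e : ∀ a, dzb m (fun w => dzb k (cof Φ a) w * dz p (cof Φ a) w) z =
      dzb m (dzb k (cof Φ a)) z * dz p (cof Φ a) z + dzb m (dz p (cof Φ a)) z * dzb k (cof Φ a) z := by
    intro a
    rw [dzb_mul (d2 a k) (d1 a p)]
    ring
  simp only [e, Finset.sum_add_distrib, h.sum_mixed_mul_dzb hz, add_zero]

/-- the induced metric is Kaehler. -/
theorem KImm.gram_closed (h : KImm Φ U) (hz : z ∈ U) (j k l : ι) :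
    dz l (fun w => gram Φ w j k) z = dz k (fun w => gram Φ w j l) z := by
  have hc2 : ∀ a, ContDiffAt ℝ 2 (cof Φ a) z := fun a => (h.cof_contDiffAt hz a).of_le (by
    have : ((2 : ℕ∞) : WithTop ℕ∞) ≤ ((⊤ : ℕ∞) : WithTop ℕ∞) := by exact_mod_cast le_top
    exact this)
  rw [h.dz_gram hz, h.dz_gram hz]
  congr 1
  exact Finset.sum_congr rfl fun a _ => by rw [dz_dz_comm (hc2 a)]

end Claimed.Agent.R316.BR
end

/- ===== packed: Claimed.Agent.R316.S10.Par ===== -/
section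
/-!
# Row 316, S10: parameter order of Section 9 (`uniformization.tex` l.9-31, l.72-80) and the asymptotic toolbox

Owner: helper84.  Leaf S10-PAR (this file): PROVED, no open proof left here.

`Par T` = the choices (9.1), (9.2), (9.7) together with the polynomial models for these choices.
Order of the choices in `exists_par`: `σ := min T.σ (1/2)`, `c := min T.cγ 1`, `γ := min T.γ0 (σ/4)`, `γ' := 3σ/8`, `ν := cγ/20`,
`d := max 2 ⌈30/ν⌉₊`, `Cd` from `St81`, then `hw` small (`e^{hw} - 1 < min (1/10) (ν / (4 (max Cd 0 + 1)))`, `hw < 1`), then `P`.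
Every "eventually" of the section is `∀ᶠ k in atTop`; the toolbox below contains all the asymptotic facts which are needed.
-/

set_option autoImplicit false
open scoped ContDiff ComplexOrder Topology
open Filter

namespace Claimed.Agent.R316.S10

variable {n : ℕ}

/-- the parameters of Section 9. -/
structure Par (T : TransSystem n) where
  σ : ℝ
  c : ℝ
  γ : ℝ
  γ' : ℝ
  ν : ℝ
  d : ℕ
  hw : ℝ
  Cd : ℝ
  P : PolyModels T d hw Cd
  σ_pos : 0 < σ
  σ_le : σ ≤ T.σ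
  σ_lt : σ < 1
  c_pos : 0 < c
  c_le : c ≤ T.cγ
  c_le_one : c ≤ 1
  γ_pos : 0 < γ
  γ_le : γ ≤ T.γ0
  γ_lt : γ < γ'
  γ'_lt : γ' < σ / 2
  ν_pos : 0 < ν
  ν_lt : 10 * ν < c * γ
  jet : 30 < ((d : ℝ) + 1) * ν
  hw_pos : 0 < hw
  δ_lt : Real.exp hw - 1 < 1 / 10
  Cδ : max Cd 0 * (Real.exp hw - 1) < ν / 4

theorem exists_par (T : TransSystem n) (hn : 0 < n) (h : St81 T) : Nonempty (Par T) := by
  set σ : ℝ := min T.σ (1 / 2) with hσ
  have hσ0 : 0 < σ := lt_min T.σ_pos (by norm_num)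
  set c : ℝ := min T.cγ 1 with hc
  have hc0 : 0 < c := lt_min T.cγ_pos one_pos
  set γ : ℝ := min T.γ0 (σ / 4) with hγ
  have hγ0 : 0 < γ := lt_min T.γ0_pos (by positivity)
  have hγσ : γ ≤ σ / 4 := min_le_right _ _
  set ν : ℝ := c * γ / 20 with hν
  have hν0 : 0 < ν := by positivity
  set d : ℕ := max 2 ⌈30 / ν⌉₊ with hd
  obtain ⟨Cd, hCd⟩ := h hn d (le_max_left _ _)
  set ε : ℝ := min (1 / 20) (ν / (8 * (max Cd 0 + 1))) with hε
  have hM : 0 < max Cd 0 + 1 := by have := le_max_right Cd 0; linarith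
  have hε0 : 0 < ε := lt_min (by norm_num) (by positivity)
  have hε1 : ε ≤ 1 / 20 := min_le_left _ _
  have hε2 : ε ≤ ν / (8 * (max Cd 0 + 1)) := min_le_right _ _
  have hexp : Real.exp (Real.log (1 + ε)) - 1 = ε := by
    rw [Real.exp_log (by linarith)]; ring
  have hw0 : 0 < Real.log (1 + ε) := Real.log_pos (by linarith)
  have hw1 : Real.log (1 + ε) < 1 := by
    have := Real.log_le_sub_one_of_pos (show (0 : ℝ) < 1 + ε by linarith)
    linarith
  obtain ⟨P⟩ := hCd _ hw0 hw1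
  refine ⟨{ σ := σ, c := c, γ := γ, γ' := 3 * σ / 8, ν := ν, d := d, hw := Real.log (1 + ε), Cd := Cd, P := P
            σ_pos := hσ0, σ_le := min_le_left _ _
            σ_lt := lt_of_le_of_lt (min_le_right _ _) (by norm_num)
            c_pos := hc0, c_le := min_le_left _ _, c_le_one := min_le_right _ _
            γ_pos := hγ0, γ_le := min_le_left _ _
            γ_lt := by linarith
            γ'_lt := by linarith
            ν_pos := hν0
            ν_lt := by rw [hν]; nlinarith [mul_pos hc0 hγ0]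
            jet := ?_
            hw_pos := hw0
            δ_lt := by rw [hexp]; linarith
            Cδ := ?_ }⟩
  · have h1 : 30 / ν ≤ (d : ℝ) := (Nat.le_ceil _).trans (by exact_mod_cast le_max_right 2 ⌈30 / ν⌉₊)
    rw [div_le_iff₀ hν0] at h1
    nlinarith
  · rw [hexp]
    have h0 : 0 ≤ max Cd 0 := le_max_right _ _
    have h1 : max Cd 0 * ε ≤ max Cd 0 * (ν / (8 * (max Cd 0 + 1))) := mul_le_mul_of_nonneg_left hε2 h0
    have h2 : max Cd 0 * (ν / (8 * (max Cd 0 + 1))) ≤ ν / 8 := by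
      rw [mul_div_assoc', div_le_div_iff₀ (by positivity) (by norm_num)]
      nlinarith
    linarith

namespace Par

variable {T : TransSystem n} (X : Par T)

/-- the grid. -/
def s (k : ℕ) : ℝ := X.P.s k

/-- the steps. -/
def Δ (k : ℕ) : ℝ := X.s (k + 1) - X.s k

/-- the maps. -/
noncomputable def H (k : ℕ) : CE (Fin n) → CE (Fin n) := (X.P.H k).ev
noncomputable def G (k : ℕ) : CE (Fin n) → CE (Fin n) := (X.P.G k).ev
noncomputable def Gi (k : ℕ) : CE (Fin n) → CE (Fin n) := (X.P.Ginv k).ev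
noncomputable def Fk (k : ℕ) : CE (Fin n) → CE (Fin n) := T.F (X.s k) (X.s (k + 1))

/-! ### elementary facts -/

theorem ν_lt_γ : 10 * X.ν < X.γ := by
  have h1 := X.ν_lt
  have h2 : X.c * X.γ ≤ 1 * X.γ := mul_le_mul_of_nonneg_right X.c_le_one X.γ_pos.le
  linarith

theorem ν_lt_σ : 20 * X.ν < X.σ := by
  have h1 := X.ν_lt_γ
  have h2 := X.γ_lt
  have h3 := X.γ'_lt
  linarith

theorem ν_lt_one : X.ν < 1 / 20 := by
  have h1 := X.ν_lt_σ
  have h2 := X.σ_lt
  linarith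

theorem s0_le_s (k : ℕ) : T.s0 ≤ X.s k := X.P.s_ge k

theorem one_le_s (k : ℕ) : 1 ≤ X.s k := T.s0_ge.trans (X.P.s_ge k)

theorem Δ_nonneg (k : ℕ) : 0 ≤ X.Δ k := by
  have h1 := X.P.step_lower k
  have h2 : 0 ≤ X.P.ch * Real.sqrt (X.P.s k) := mul_nonneg X.P.ch_pos.le (Real.sqrt_nonneg _)
  exact h2.trans h1

theorem s_mono : Monotone X.s := by
  refine monotone_nat_of_le_succ fun k => ?_
  have := X.Δ_nonneg k
  unfold Δ at this
  linarith

theorem Δ_le (k : ℕ) : X.Δ k ≤ X.s k / 10 := by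
  have h1 : X.Δ k ≤ (Real.exp X.hw - 1) * X.s k := X.P.step_upper k
  have h2 := X.δ_lt
  have h3 := X.one_le_s k
  nlinarith

theorem CdΔ_le (k : ℕ) : X.Cd * X.Δ k ≤ X.ν / 4 * X.s k := by
  have h1 : X.Δ k ≤ (Real.exp X.hw - 1) * X.s k := X.P.step_upper k
  have h2 := X.Cδ
  have h3 := X.one_le_s k
  have h4 := X.Δ_nonneg k
  have h5 : X.Cd * X.Δ k ≤ max X.Cd 0 * X.Δ k := mul_le_mul_of_nonneg_right (le_max_left _ _) h4
  have h6 : max X.Cd 0 * X.Δ k ≤ max X.Cd 0 * ((Real.exp X.hw - 1) * X.s k) :=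
    mul_le_mul_of_nonneg_left h1 (le_max_right _ _)
  nlinarith

theorem tendsto_s : Tendsto X.s atTop atTop := X.P.s_tendsto

theorem tendsto_Δ : Tendsto X.Δ atTop atTop := by
  have h1 : Tendsto (fun k => X.P.ch * Real.sqrt (X.s k)) atTop atTop :=
    (Real.tendsto_sqrt_atTop.comp X.tendsto_s).const_mul_atTop X.P.ch_pos
  exact tendsto_atTop_mono (fun k => X.P.step_lower k) h1

theorem H_zero (k : ℕ) : X.H k 0 = 0 := X.P.H_zero k
theorem G_zero (k : ℕ) : X.G k 0 = 0 := X.P.G_zero k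
theorem Gi_zero (k : ℕ) : X.Gi k 0 = 0 := by
  have := X.P.G_left k 0
  rwa [X.P.G_zero k] at this
theorem G_left (k : ℕ) (z : CE (Fin n)) : X.Gi k (X.G k z) = z := X.P.G_left k z
theorem G_right (k : ℕ) (z : CE (Fin n)) : X.G k (X.Gi k z) = z := X.P.G_right k z
theorem H_differentiable (k : ℕ) : Differentiable ℂ (X.H k) := (X.P.H k).ev_differentiable
theorem G_differentiable (k : ℕ) : Differentiable ℂ (X.G k) := (X.P.G k).ev_differentiable
theorem Gi_differentiable (k : ℕ) : Differentiable ℂ (X.Gi k) := (X.P.Ginv k).ev_differentiable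

/-! ### asymptotic toolbox -/

/-- constants are `e^{o(s_k)}`. -/
theorem ev_const (C : ℝ) {ε : ℝ} (hε : 0 < ε) : ∀ᶠ k in atTop, C ≤ Real.exp (ε * X.s k) := by
  have h1 : Tendsto (fun k => Real.exp (ε * X.s k)) atTop atTop :=
    Real.tendsto_exp_atTop.comp (X.tendsto_s.const_mul_atTop hε)
  exact h1.eventually_ge_atTop C

theorem ev_s_ge (C : ℝ) : ∀ᶠ k in atTop, C ≤ X.s k := X.tendsto_s.eventually_ge_atTop C

theorem ev_Δ_ge (C : ℝ) : ∀ᶠ k in atTop, C ≤ X.Δ k := X.tendsto_Δ.eventually_ge_atTop C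

/-- `η_k s_k = o(s_k)`. -/
theorem ev_eta {ε : ℝ} (hε : 0 < ε) : ∀ᶠ k in atTop, |X.P.η k| * X.s k ≤ ε * X.s k := by
  have h1 : ∀ᶠ k in atTop, |X.P.η k| < ε := by
    have := X.P.η_tendsto.abs
    rw [abs_zero] at this
    exact this.eventually_lt_const hε
  filter_upwards [h1] with k hk
  exact mul_le_mul_of_nonneg_right hk.le (by have := X.one_le_s k; linarith)

theorem ev_eta_succ {ε : ℝ} (hε : 0 < ε) : ∀ᶠ k in atTop, |X.P.η (k + 1)| * X.s (k + 1) ≤ ε * X.s k := by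
  have h1 : ∀ᶠ k in atTop, |X.P.η (k + 1)| < ε / 2 := by
    have := (X.P.η_tendsto.comp (tendsto_add_atTop_nat 1)).abs
    rw [abs_zero] at this
    exact this.eventually_lt_const (by positivity)
  filter_upwards [h1] with k hk
  have h2 := X.Δ_le k
  have h3 := X.one_le_s k
  have h4 : X.s (k + 1) ≤ 2 * X.s k := by unfold Δ at h2; linarith
  have h5 : 0 ≤ X.s (k + 1) := by have := X.one_le_s (k + 1); linarith
  calc |X.P.η (k + 1)| * X.s (k + 1) ≤ ε / 2 * X.s (k + 1) := mul_le_mul_of_nonneg_right hk.le h5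
    _ ≤ ε / 2 * (2 * X.s k) := mul_le_mul_of_nonneg_left h4 (by positivity)
    _ = ε * X.s k := by ring

/-- `s_k^C = e^{o(Δ s_k)}` because `Δ s_k ≥ c_h √ s_k`. -/
theorem ev_rpow {ε : ℝ} (hε : 0 < ε) : ∀ᶠ k in atTop, X.s k ^ X.P.Cp ≤ Real.exp (ε * X.Δ k) := by
  -- `Cp log s ≤ ε ch √s`
  have h0 : Tendsto (fun x : ℝ => Real.log x / x ^ (1 / 2 : ℝ)) atTop (𝓝 0) := by
    have := (isLittleO_log_rpow_atTop (r := 1 / 2) (by norm_num)).tendsto_div_nhds_zero
    exact this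
  have hc : 0 < ε * X.P.ch / (|X.P.Cp| + 1) := by have := X.P.ch_pos; positivity
  have h1 : ∀ᶠ k in atTop, Real.log (X.s k) / X.s k ^ (1 / 2 : ℝ) < ε * X.P.ch / (|X.P.Cp| + 1) :=
    (h0.comp X.tendsto_s).eventually_lt_const hc
  filter_upwards [h1] with k hk
  have hs := X.one_le_s k
  have hs0 : 0 < X.s k := by linarith
  have hsq : 0 < X.s k ^ (1 / 2 : ℝ) := Real.rpow_pos_of_pos hs0 _
  rw [div_lt_iff₀ hsq, ← Real.sqrt_eq_rpow] at hk
  have hlog : 0 ≤ Real.log (X.s k) := Real.log_nonneg hs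
  rw [Real.rpow_def_of_pos hs0]
  refine Real.exp_le_exp.2 ?_
  have h2 : X.P.ch * Real.sqrt (X.s k) ≤ X.Δ k := X.P.step_lower k
  have h3 : Real.log (X.s k) * X.P.Cp ≤ Real.log (X.s k) * (|X.P.Cp| + 1) :=
    mul_le_mul_of_nonneg_left (by have := le_abs_self X.P.Cp; linarith) hlog
  have h4 : Real.log (X.s k) * (|X.P.Cp| + 1) ≤ ε * (X.P.ch * Real.sqrt (X.s k)) := by
    have hp : 0 < |X.P.Cp| + 1 := by positivity
    have := mul_le_mul_of_nonneg_right hk.le hp.le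
    calc Real.log (X.s k) * (|X.P.Cp| + 1) ≤ ε * X.P.ch / (|X.P.Cp| + 1) * Real.sqrt (X.s k) * (|X.P.Cp| + 1) := this
      _ = ε * (X.P.ch * Real.sqrt (X.s k)) := by field_simp
  have h5 : ε * (X.P.ch * Real.sqrt (X.s k)) ≤ ε * X.Δ k := mul_le_mul_of_nonneg_left h2 hε.le
  linarith

theorem ev_rpow' {ε : ℝ} (hε : 0 < ε) : ∀ᶠ k in atTop, X.s k ^ X.P.Cp ≤ Real.exp (ε * X.s k) := by
  filter_upwards [X.ev_rpow hε] with k hk
  refine hk.trans (Real.exp_le_exp.2 (mul_le_mul_of_nonneg_left ?_ hε.le))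
  have h2 := X.Δ_le k
  have h3 := X.one_le_s k
  linarith

/-- coefficient bounds in the form used below. -/
theorem ev_cnorm_H {ε : ℝ} (hε : 0 < ε) : ∀ᶠ k in atTop, (X.P.H k).cnorm ≤ Real.exp (ε * X.s k) := by
  filter_upwards [X.ev_eta hε] with k hk
  refine (X.P.H_coeff k).trans (Real.exp_le_exp.2 ?_)
  have h1 : X.P.η k * X.P.s k ≤ |X.P.η k| * X.s k :=
    mul_le_mul_of_nonneg_right (le_abs_self _) (by have := X.one_le_s k; unfold s at this; linarith)
  linarith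

theorem ev_cnorm_H_succ {ε : ℝ} (hε : 0 < ε) : ∀ᶠ k in atTop, (X.P.H (k + 1)).cnorm ≤ Real.exp (ε * X.s k) := by
  filter_upwards [X.ev_eta_succ hε] with k hk
  refine (X.P.H_coeff (k + 1)).trans (Real.exp_le_exp.2 ?_)
  have h1 : X.P.η (k + 1) * X.P.s (k + 1) ≤ |X.P.η (k + 1)| * X.s (k + 1) :=
    mul_le_mul_of_nonneg_right (le_abs_self _) (by have := X.one_le_s (k + 1); unfold s at this; linarith)
  linarith

theorem ev_cnorm_G {ε : ℝ} (hε : 0 < ε) :
    ∀ᶠ k in atTop, (X.P.G k).cnorm ≤ Real.exp ((X.ν / 4 + ε) * X.s k) ∧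
      (X.P.Ginv k).cnorm ≤ Real.exp ((X.ν / 4 + ε) * X.s k) := by
  filter_upwards [X.ev_eta hε] with k hk
  have h0 := X.P.G_coeff k
  have h1 : X.P.η k * X.P.s k ≤ |X.P.η k| * X.s k :=
    mul_le_mul_of_nonneg_right (le_abs_self _) (by have := X.one_le_s k; unfold s at this; linarith)
  have h2 : X.Cd * (X.P.s (k + 1) - X.P.s k) ≤ X.ν / 4 * X.s k := X.CdΔ_le k
  have h3 : Real.exp (X.Cd * (X.P.s (k + 1) - X.P.s k) + X.P.η k * X.P.s k) ≤ Real.exp ((X.ν / 4 + ε) * X.s k) :=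
    Real.exp_le_exp.2 (by linarith)
  have h4 := (X.P.G k).cnorm_nonneg
  have h5 := (X.P.Ginv k).cnorm_nonneg
  exact ⟨by linarith, by linarith⟩

end Par

end Claimed.Agent.R316.S10
end
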