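/- Packed by merge_tool.py (helper293): 3 modules of Claimed.Agent.R316 in one file, same declarations.
   Old modules, in this order: Base.Vol.Defs, Top.S5, B14.WM -/
import Claimed.Agent.R316.CW.Green
import Claimed.Agent.R316.B14.WMFactor
import Claimed.Agent.R316.B14.WMBounds
import Claimed.Agent.R316.Pack003
import Claimed.Agent.R316.Pack015

/- ===== packed: Claimed.Agent.R316.Base.Vol.Defs ===== -/
section
/-!
# Row 316, BP-G6 (volume measure, integration, Green identities): definitions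

Owner: helper55 (sub-captain G6).  DEFINITIONS only.

* `CMfd.CSupp φ`: `φ` vanishes on the carrier outside a compact subset of the carrier.
* `CMfd.CSuppST I F`: the same for a space-time function, uniformly for `t ∈ I`.
* `gradInnerF`, `gradInner`: the real pairing `⟨∂u,∂v⟩_h = Re (∂u)ᴴ (H⁻¹)ᵀ ∂v`, polarisation of `gradSq`:
  `Δ(uv) = uΔv + vΔu + 2⟨∂u,∂v⟩`, `∫ φ Δf = - ∫ ⟨∂φ,∂f⟩`.  It is a quarter of the Riemannian `⟨∇u,∇v⟩`.
  It is chart independent for ARBITRARY functions (`fderiv = 0` at points of non-differentiability).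
* `CMfd.DiffAt u x`, `CMfd.C2At u x`: pointwise regularity (in the chosen, hence in any parametrisation).
* `CMfd.LocLip u`: locally Lipschitz in every parametrisation.
* `IsVField X`: smooth `(1,0)`-vector field given by its coordinate components.
-/

set_option autoImplicit false
open scoped ContDiff ComplexOrder

namespace Claimed.Agent.R316

variable {V : Type} [NormedAddCommGroup V] [NormedSpace ℝ V]
variable {ι : Type} [Fintype ι]

/-- `φ` vanishes on the carrier outside a compact subset of the carrier. -/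
def CMfd.CSupp {E : Type} [Zero E] (𝓜 : CMfd V ι) (φ : V → E) : Prop :=
  ∃ K : Set V, IsCompact K ∧ K ⊆ 𝓜.carrier ∧ ∀ x ∈ 𝓜.carrier, x ∉ K → φ x = 0

/-- uniformly compactly supported space-time function (TIME FIRST). -/
def CMfd.CSuppST {E : Type} [Zero E] (𝓜 : CMfd V ι) (I : Set ℝ) (F : ℝ → V → E) : Prop :=
  ∃ K : Set V, IsCompact K ∧ K ⊆ 𝓜.carrier ∧ ∀ t ∈ I, ∀ x ∈ 𝓜.carrier, x ∉ K → F t x = 0

/-- differentiability at a point of the manifold. -/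
def CMfd.DiffAt (𝓜 : CMfd V ι) (u : V → ℝ) (x : V) : Prop :=
  DifferentiableAt ℝ (u ∘ 𝓜.pΦ x) (𝓜.co x)

/-- `C²` at (= near) a point of the manifold. -/
def CMfd.C2At (𝓜 : CMfd V ι) (u : V → ℝ) (x : V) : Prop :=
  ContDiffAt ℝ 2 (u ∘ 𝓜.pΦ x) (𝓜.co x)

/-- locally Lipschitz function on the manifold. -/
def CMfd.LocLip (𝓜 : CMfd V ι) (u : V → ℝ) : Prop :=
  ∀ (Φ : CE ι → V) (U : Set (CE ι)), 𝓜.IsHol Φ U → LocallyLipschitzOn U (u ∘ Φ)

variable [DecidableEq ι]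

/-- chartwise pairing `⟨∂u,∂v⟩_h`. -/
noncomputable def gradInnerF (h : HFam V ι) (u v : V → ℝ) : (CE ι → V) → CE ι → ℝ :=
  fun Φ z => dualIP (h Φ z) (grad10 (u ∘ Φ) z) (grad10 (v ∘ Φ) z)

/-- `⟨∂u,∂v⟩_h` as a function on the manifold. -/
noncomputable def gradInner (𝓜 : CMfd V ι) (h : HFam V ι) (u v : V → ℝ) : V → ℝ :=
  𝓜.scal (gradInnerF h u v)

/-- smooth `(1,0)`-vector field, given by its coordinate components `X Φ z k`:
`X_Ψ (τ z) = jac τ z · X_Φ z`. -/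
structure IsVField (𝓜 : CMfd V ι) (X : (CE ι → V) → CE ι → ι → ℂ) : Prop where
  smooth : ∀ {Φ : CE ι → V} {U : Set (CE ι)}, 𝓜.IsHol Φ U →
    ∀ k, ContDiffOn ℝ ∞ (fun z => X Φ z k) U
  compat : ∀ {Φ Ψ : CE ι → V} {U W : Set (CE ι)}, 𝓜.IsHol Φ U → 𝓜.IsHol Ψ W →
    ∀ z ∈ U, Φ z ∈ Ψ '' W →
      X Ψ (Function.invFunOn Ψ W (Φ z)) = (jac (Function.invFunOn Ψ W ∘ Φ) z).mulVec (X Φ z)

/-- the vector field vanishes outside a compact subset of the carrier. -/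
def VFieldCSupp (𝓜 : CMfd V ι) (X : (CE ι → V) → CE ι → ι → ℂ) : Prop :=
  ∃ K : Set V, IsCompact K ∧ K ⊆ 𝓜.carrier ∧
    ∀ (Φ : CE ι → V) (U : Set (CE ι)), 𝓜.IsHol Φ U → ∀ z ∈ U, Φ z ∉ K → X Φ z = 0

/-- `D` is the `h`-divergence of `X`: `D · det H = ∑_k ∂_k (det H · X^k)` in every parametrisation. -/
def IsDivOf (𝓜 : CMfd V ι) (h : HFam V ι) (X : (CE ι → V) → CE ι → ι → ℂ) (D : V → ℂ) : Prop :=
  ∀ (Φ : CE ι → V) (U : Set (CE ι)), 𝓜.IsHol Φ U → ∀ z ∈ U,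
    D (Φ z) * (h Φ z).det = ∑ k, dz k (fun w => (h Φ w).det * X Φ w k) z

/-- jointly smooth family of Hermitian forms (TIME FIRST). -/
def SmoothFam (𝓜 : CMfd V ι) (I : Set ℝ) (h : ℝ → HFam V ι) : Prop :=
  ∀ (Φ : CE ι → V) (U : Set (CE ι)), 𝓜.IsHol Φ U → ∀ j k,
    ContDiffOn ℝ ∞ (fun q : ℝ × CE ι => h q.1 Φ q.2 j k) (I ×ˢ U)

theorem gradSqF_eq_gradInnerF (h : HFam V ι) (u : V → ℝ) : gradSqF h u = gradInnerF h u u := rfl

theorem gradSq_eq_gradInner (𝓜 : CMfd V ι) (h : HFam V ι) (u : V → ℝ) :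
    gradSq 𝓜 h u = gradInner 𝓜 h u u := rfl

theorem trF_ddc_eq_lapP (h : HFam V ι) (u : V → ℝ) (Φ : CE ι → V) (z : CE ι) :
    trF h (ddc u) Φ z = lapP (h Φ z) (u ∘ Φ) z := rfl

end Claimed.Agent.R316
end

/- ===== packed: Claimed.Agent.R316.Top.S5 ===== -/
section
/-!
# Row 316, top level: the cotangent bundle `Y = T^{*(1,0)}M`, holomorphic discs, the disc envelope,
and the statement of Proposition 5.1 (differential inequality for the envelope)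

`Y` is realised in the ambient space `V × (V →L[ℝ] ℂ)`, `V` a real inner product space:
a point is `(x, ξ)`, `ξ` an `ℝ`-linear functional on `V` which vanishes on the normal space of `M`
at `x` and is complex linear on `T_x M`.  Pairing with an ambient tangent vector `a` is `ξ a`.
-/

set_option autoImplicit false
open scoped ContDiff ComplexOrder Topology
open MeasureTheory

namespace Claimed.Agent.R316

section Cotangent

variable {V : Type} [NormedAddCommGroup V] [InnerProductSpace ℝ V] [FiniteDimensional ℝ V]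
variable {ι : Type} [Fintype ι] [DecidableEq ι]

/-- ambient space of the cotangent bundle. -/
abbrev CotAmb (V : Type) [NormedAddCommGroup V] [InnerProductSpace ℝ V] := V × (V →L[ℝ] ℂ)

/-- components `ζ_k = ξ(∂Φ/∂z_k)` of a covector in the parametrisation `Φ` at `z`. -/
noncomputable def covComp (Φ : CE ι → V) (z : CE ι) (ξ : V →L[ℝ] ℂ) : ι → ℂ :=
  fun k => ξ (fderiv ℝ Φ z (eb k))

/-- `ξ` is a `(1,0)`-covector of `𝓜` at `x = Φ z` (normalised to vanish on the normal space). -/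
def IsCovecAt (Φ : CE ι → V) (z : CE ι) (ξ : V →L[ℝ] ℂ) : Prop :=
  (∀ a : V, (∀ v : CE ι, inner ℝ a (fderiv ℝ Φ z v) = 0) → ξ a = 0) ∧
  ∀ v : CE ι, ξ (fderiv ℝ Φ z (Complex.I • v)) = Complex.I * ξ (fderiv ℝ Φ z v)

/-- the set of points of `Y = T^{*(1,0)}M`. -/
def cotCarrier (𝓜 : CMfd V ι) : Set (CotAmb V) :=
  {y | y.1 ∈ 𝓜.carrier ∧ IsCovecAt (𝓜.pΦ y.1) (𝓜.co y.1) y.2}

/-- base part of a point of `ℂ^{ι ⊕ ι}`. -/
noncomputable def cBase (p : CE (ι ⊕ ι)) : CE ι := WithLp.toLp 2 fun j => p (Sum.inl j)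

/-- fibre part of a point of `ℂ^{ι ⊕ ι}`. -/
def cFib (p : CE (ι ⊕ ι)) : ι → ℂ := fun j => p (Sum.inr j)

/-- Moore-Penrose left inverse of an injective real linear map `A : ℂ^ι → V`. -/
noncomputable def pinv (A : CE ι →L[ℝ] V) : V →L[ℝ] CE ι :=
  ((ContinuousLinearMap.adjoint A).comp A).inverse.comp (ContinuousLinearMap.adjoint A)

/-- the real linear functional `v ↦ ∑ ζ_k v_k` on `ℂ^ι`. -/
noncomputable def pairL (ζ : ι → ℂ) : CE ι →L[ℝ] ℂ :=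
  ∑ k, (ζ k) • ((EuclideanSpace.proj k : CE ι →L[ℂ] ℂ).restrictScalars ℝ)

/-- the cotangent parametrisation over `Φ`: `(z, ζ) ↦ (Φ z, ζ ∘ (dΦ_z)^+)`. -/
noncomputable def cotParam (Φ : CE ι → V) (p : CE (ι ⊕ ι)) : CotAmb V :=
  (Φ (cBase p), (pairL (cFib p)).comp (pinv (fderiv ℝ Φ (cBase p))))

/-- its domain `U × ℂ^ι`. -/
def cotDom (U : Set (CE ι)) : Set (CE (ι ⊕ ι)) := {p | cBase p ∈ U}

/-- `𝒴` is (a realisation of) the holomorphic cotangent bundle of `𝓜`. -/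
structure IsCotangent (𝓜 : CMfd V ι) (𝒴 : CMfd (CotAmb V) (ι ⊕ ι)) : Prop where
  carrier_eq : 𝒴.carrier = cotCarrier 𝓜
  isHol : ∀ {Φ : CE ι → V} {U : Set (CE ι)}, 𝓜.IsHol Φ U → 𝒴.IsHol (cotParam Φ) (cotDom U)

/-- existence of the cotangent bundle (package S4-Y). -/
def StCotangentExists : Prop :=
  ∀ (V : Type) [NormedAddCommGroup V] [InnerProductSpace ℝ V] [FiniteDimensional ℝ V]
    (ι : Type) [Fintype ι] [DecidableEq ι] (𝓜 : CMfd V ι),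
    ∃ 𝒴 : CMfd (CotAmb V) (ι ⊕ ι), IsCotangent 𝓜 𝒴

/-- squared dual norm `|ξ|²_{h^{-1}}` of a covector at `x`. -/
noncomputable def covNormSq (𝓜 : CMfd V ι) (h : HFam V ι) (y : CotAmb V) : ℝ :=
  qf ((h (𝓜.pΦ y.1) (𝓜.co y.1))⁻¹).transpose (covComp (𝓜.pΦ y.1) (𝓜.co y.1) y.2)

end Cotangent

section Discs

variable {V' : Type} [NormedAddCommGroup V'] [NormedSpace ℝ V']
variable {κ : Type} [Fintype κ]

/-- `f` is a holomorphic map of the disc `|ζ| < r` into the complex manifold `𝓧`. -/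
def IsHolDisc (𝓧 : CMfd V' κ) (f : ℂ → V') (r : ℝ) : Prop :=
  (∀ ζ ∈ Metric.ball (0 : ℂ) r, f ζ ∈ 𝓧.carrier) ∧ ContinuousOn f (Metric.ball (0 : ℂ) r) ∧
  ∀ (Ψ : CE κ → V') (W : Set (CE κ)), 𝓧.IsHol Ψ W →
    DifferentiableOn ℂ (Function.invFunOn Ψ W ∘ f) (Metric.ball (0 : ℂ) r ∩ f ⁻¹' (Ψ '' W))

/-- normalised average over the unit circle. -/
noncomputable def cavg (F : ℂ → ℝ) : ℝ := Real.circleAverage F 0 1

end Discs

section Envelope

variable {V : Type} [NormedAddCommGroup V] [InnerProductSpace ℝ V] [FiniteDimensional ℝ V]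
variable [MeasurableSpace V] [BorelSpace V]
variable {n : ℕ} {𝓜 : CMfd V (Fin n)} {g : HFam V (Fin n)} {o : V}

/-- `N(y, t) = |ξ|²` in the dual metric of `h_t`. -/
noncomputable def FlowData.N (D : FlowData 𝓜 g o) (y : CotAmb V) (t : ℝ) : ℝ :=
  covNormSq 𝓜 (D.h t) y

/-- competitors of the envelope at `(y, s)` with horizon `T`: pairs `(f, w)` holomorphic on a
neighbourhood of the closed unit disc, `(f 0, w 0) = (y, 0)`, `s e^{w + \bar w} < T` on the closed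
disc. -/
def IsCompetitor (𝒴 : CMfd (CotAmb V) (Fin n ⊕ Fin n)) (T : ℝ) (y : CotAmb V) (s : ℝ)
    (f : ℂ → CotAmb V) (w : ℂ → ℂ) : Prop :=
  ∃ r : ℝ, 1 < r ∧ IsHolDisc 𝒴 f r ∧ DifferentiableOn ℂ w (Metric.ball 0 r) ∧
    f 0 = y ∧ w 0 = 0 ∧ ∀ ζ ∈ Metric.closedBall (0 : ℂ) 1, s * Real.exp (2 * (w ζ).re) < T

/-- the raw envelope `v^{raw}(y, s)`. -/
noncomputable def FlowData.vraw (D : FlowData 𝓜 g o) (𝒴 : CMfd (CotAmb V) (Fin n ⊕ Fin n))
    (T : ℝ) (y : CotAmb V) (s : ℝ) : ℝ :=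
  sInf {a : ℝ | ∃ (f : ℂ → CotAmb V) (w : ℂ → ℂ), IsCompetitor 𝒴 T y s f w ∧
    a = cavg fun ζ => D.N (f ζ) (s * Real.exp (2 * (w ζ).re))}

/-- the envelope `v`: lower semicontinuous regularisation of `v^{raw}` in `(y, s)`. -/
noncomputable def FlowData.venv (D : FlowData 𝓜 g o) (𝒴 : CMfd (CotAmb V) (Fin n ⊕ Fin n))
    (T : ℝ) (y : CotAmb V) (s : ℝ) : ℝ :=
  Filter.liminf (fun q : CotAmb V × ℝ => D.vraw 𝒴 T q.1 q.2)
    (𝓝[𝒴.carrier ×ˢ Set.Ioo 0 T] (y, s))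

/-- **Proposition 5.1** (differential inequality for the envelope), in cotangent coordinates over
an arbitrary holomorphic parametrisation `Φ` of `M`.  `φ s p` is a smooth lower test. -/
def FlowData.StDiscInequality (D : FlowData 𝓜 g o) (𝒴 : CMfd (CotAmb V) (Fin n ⊕ Fin n)) : Prop :=
  ∀ (T : ℝ) (Φ : CE (Fin n) → V) (U : Set (CE (Fin n))), 0 < T → 𝓜.IsHol Φ U →
  ∀ (φ : ℝ → CE (Fin n ⊕ Fin n) → ℝ) (s₀ : ℝ) (p₀ : CE (Fin n ⊕ Fin n)),
    0 < s₀ → s₀ < T → p₀ ∈ cotDom U →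
    ContDiff ℝ ∞ (fun q : ℝ × CE (Fin n ⊕ Fin n) => φ q.1 q.2) →
    φ s₀ p₀ = D.venv 𝒴 T (cotParam Φ p₀) s₀ →
    (∀ᶠ q : ℝ × CE (Fin n ⊕ Fin n) in 𝓝 (s₀, p₀), φ q.1 q.2 ≤ D.venv 𝒴 T (cotParam Φ q.2) q.1) →
    ((levi (φ s₀) p₀).toBlocks₂₂).PosDef →
    ∃ K : Matrix (Fin n) (Fin n) ℂ, K.PosSemidef ∧
      (K - ((levi (φ s₀) p₀).toBlocks₁₁ -
        (levi (φ s₀) p₀).toBlocks₁₂ * ((levi (φ s₀) p₀).toBlocks₂₂)⁻¹ *
          (levi (φ s₀) p₀).toBlocks₂₁)).PosSemidef ∧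
      ((((levi (φ s₀) p₀).toBlocks₂₂).transpose * K).trace).re ≤ deriv (fun s => φ s p₀) s₀

end Envelope

end Claimed.Agent.R316
end

/- ===== packed: Claimed.Agent.R316.B14.WM ===== -/
section
/-!
# B14: Lemma boundary-factorization (smooth Wiener-Masani factorisation with `H^{1/2}` bounds)

Glue of `wm_factor` (leaves W1, W2) and the bounds of leaf W3.
-/

set_option autoImplicit false
open scoped ContDiff ComplexOrder ComplexConjugate Matrix Real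
open MeasureTheory

namespace Claimed.Agent.R316.B14

open Claimed.Agent.R316

variable {ι : Type} [Fintype ι] [DecidableEq ι]

/-- **Lemma boundary-factorization.**  `L` smooth Hermitian on the circle, `m ≤ L ≤ M`, `0 < m`.  There are `H`, `Hi = H⁻¹`,
holomorphic on the disc and smooth on the closed disc, with `L = Hᴴ H` on the circle,
`‖H‖ ≤ √M`, `‖H⁻¹‖ ≤ m^{-1/2}` on the closed disc, `D(H)² ≤ M/(2m²) D(L)²`, `D(H⁻¹)² ≤ D(L)²/(2m³)`. -/
theorem boundary_factorization {L : ℝ → Matrix ι ι ℂ} {m M : ℝ} (hm : 0 < m)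
    (hL : ∀ i j, CSm fun θ => L θ i j) (hH : ∀ θ, (L θ).IsHermitian)
    (hlo : ∀ θ, (L θ - ((m : ℝ) : ℂ) • (1 : Matrix ι ι ℂ)).PosSemidef)
    (hhi : ∀ θ, (((M : ℝ) : ℂ) • (1 : Matrix ι ι ℂ) - L θ).PosSemidef) :
    ∃ H Hi : ℂ → Matrix ι ι ℂ,
      (∀ a b, HolSm fun ζ => H ζ a b) ∧ (∀ a b, HolSm fun ζ => Hi ζ a b) ∧
      (∀ ζ ∈ Metric.closedBall (0 : ℂ) 1, H ζ * Hi ζ = 1) ∧
      (∀ ζ ∈ Metric.closedBall (0 : ℂ) 1, Hi ζ * H ζ = 1) ∧
      (∀ θ, (bd H θ)ᴴ * bd H θ = L θ) ∧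
      (∀ ζ ∈ Metric.closedBall (0 : ℂ) 1,
        (((M : ℝ) : ℂ) • (1 : Matrix ι ι ℂ) - (H ζ)ᴴ * H ζ).PosSemidef) ∧
      (∀ ζ ∈ Metric.closedBall (0 : ℂ) 1,
        (((m⁻¹ : ℝ) : ℂ) • (1 : Matrix ι ι ℂ) - (Hi ζ)ᴴ * Hi ζ).PosSemidef) ∧
      hsqM (bd H) ≤ M / (2 * m ^ 2) * hsqM L ∧
      hsqM (bd Hi) ≤ 1 / (2 * m ^ 3) * hsqM L := by
  obtain ⟨H, Hi, h1, h2, h3, h4, h5⟩ := wm_factor hm hL hH hlo
  exact ⟨H, Hi, h1, h2, h3, h4, h5, fun ζ hζ => wm_sup_H h1 h5 hhi hζ,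
    fun ζ hζ => wm_sup_Hi hm h2 h3 h5 hlo hζ, wm_hsq_H hm h1 h2 h3 h4 h5 hlo hhi,
    wm_hsq_Hi hm h1 h2 h3 h4 h5 hlo⟩

end Claimed.Agent.R316.B14
end
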