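/- Packed by merge_tool.py (helper293): 2 modules of Claimed.Agent.R316 in one file, same declarations.
   Old modules, in this order: CM.FormsR, Base.Vol.Calc -/
import Claimed.Agent.R316.CM.SmoothAlg
import Claimed.Agent.R316.Pack011
import Claimed.Agent.R316.Pack022

/- ===== packed: Claimed.Agent.R316.CM.FormsR ===== -/
section
/-!
# Row 316, CM-2 (part 3): restriction to open submanifolds; rank one forms `∂u ⊗ \bar∂u`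

Owner: helper141.

* Part R: everything restricts to `𝓜.restr O hO`, and the scalars `tr`, `lap`, `gradSq`, `detRatio`, `scalCurv`,
  `canNormSq` of `𝓜.restr O hO` and of `𝓜` agree at the points of `𝓜.carrier ∩ O`, EVEN IF the data are forms / smooth
  functions on `𝓜.restr O hO` only.  (Route: `𝓜.pΦ x` restricted to `𝓜.pU x ∩ (𝓜.pΦ x) ⁻¹' O` is a parametrisation of
  `𝓜.restr O hO`; apply `tr_eq` etc. on `𝓜.restr O hO`; the right hand side is the definition of the scalar of `𝓜`.)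
* Part G: `gradF u = ∂u ⊗ \bar∂u` (matrix `conj (∂_j u) ∂_k u`), `crossF u v` (its polarisation); product and chain
  rules for `ddc` in terms of them; `tr_h (gradF u) = |∂u|²_h`; `0 ≤ gradF u ≤ |∂u|²_g g`.
-/

set_option autoImplicit false
set_option linter.unusedSectionVars false
open scoped ContDiff ComplexOrder ComplexConjugate Topology Matrix

namespace Claimed.Agent.R316

variable {V : Type} [NormedAddCommGroup V] [NormedSpace ℝ V]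
variable {ι : Type} [Fintype ι] [DecidableEq ι]
variable {𝓜 : CMfd V ι} {A B h g : HFam V ι} {u v f : V → ℝ}
variable {Φ Ψ : CE ι → V} {U W : Set (CE ι)} {z : CE ι} {O : Set V}

/-! ## Part R: restriction -/

section restr

/-- a parametrisation of `𝓜`, restricted to the preimage of `O`, is a parametrisation of `𝓜.restr O hO`. -/
theorem CMfd.isHol_restr_inter (hO : IsOpen O) (hΦ : 𝓜.IsHol Φ U) :
    (𝓜.restr O hO).IsHol Φ (U ∩ Φ ⁻¹' O) := by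
  refine ⟨𝓜.isHol_mono hΦ ((𝓜.isParam hΦ).isOpen_inter_preimage hO) Set.inter_subset_left, ?_⟩
  rintro _ ⟨w, hw, rfl⟩
  exact hw.2

theorem CMfd.IsHol.of_restr {hO : IsOpen O} (hΦ : (𝓜.restr O hO).IsHol Φ U) : 𝓜.IsHol Φ U := hΦ.1

theorem CMfd.Smooth.restr (hu : 𝓜.Smooth u) (hO : IsOpen O) : (𝓜.restr O hO).Smooth u := by
  exact fun Φ U hΦ => hu Φ U hΦ.1

theorem CMfd.SmoothST.restr {I : Set ℝ} {u : ℝ → V → ℝ} (hu : 𝓜.SmoothST I u) (hO : IsOpen O) :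
    (𝓜.restr O hO).SmoothST I u := by
  exact fun Φ U hΦ => hu Φ U hΦ.1

theorem CMfd.HolFun.restr {F : V → ℂ} (hF : 𝓜.HolFun F) (hO : IsOpen O) :
    (𝓜.restr O hO).HolFun F := by
  exact fun Φ U hΦ => hF Φ U hΦ.1

/-- smoothness on `𝓜.restr O hO` in terms of the parametrisations of `𝓜`. -/
theorem CMfd.smooth_restr_iff (hO : IsOpen O) : (𝓜.restr O hO).Smooth u ↔
    ∀ (Φ : CE ι → V) (U : Set (CE ι)), 𝓜.IsHol Φ U → ContDiffOn ℝ ∞ (u ∘ Φ) (U ∩ Φ ⁻¹' O) := by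
  constructor
  · exact fun h Φ U hΦ => h Φ _ (CMfd.isHol_restr_inter hO hΦ)
  · exact fun h Φ U hΦ => (h Φ U hΦ.1).mono (fun z hz => ⟨hz, hΦ.2 ⟨z, hz, rfl⟩⟩)

/-- a chartwise scalar which is invariant on `𝓜.restr O hO` only. -/
theorem CMfd.scal_restr_of_invariant {F : (CE ι → V) → CE ι → ℝ} (hO : IsOpen O)
    (hF : (𝓜.restr O hO).Invariant F) {x : V} (hx : x ∈ 𝓜.carrier ∩ O) :
    (𝓜.restr O hO).scal F x = 𝓜.scal F x := by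
  have hp := CMfd.isHol_restr_inter hO (CMfd.isHol_pΦ 𝓜 hx.1)
  have hc : 𝓜.co x ∈ 𝓜.pU x ∩ 𝓜.pΦ x ⁻¹' O :=
    ⟨CMfd.co_mem 𝓜 hx.1, by
      show 𝓜.pΦ x (𝓜.co x) ∈ O
      rw [CMfd.pΦ_co 𝓜 hx.1]
      exact hx.2⟩
  exact CMfd.scal_eq' hF hp hc (CMfd.pΦ_co 𝓜 hx.1)

/-- smoothness is local: an open cover. -/
theorem CMfd.smooth_of_restr_cover {α : Type} (Os : α → Set V) (hOs : ∀ a, IsOpen (Os a))
    (hcov : 𝓜.carrier ⊆ ⋃ a, Os a) (hu : ∀ a, (𝓜.restr (Os a) (hOs a)).Smooth u) : 𝓜.Smooth u := by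
  intro Φ U hΦ z hz
  obtain ⟨a, ha⟩ := Set.mem_iUnion.1 (hcov (CMfd.mem_carrier hΦ hz))
  have h1 := (CMfd.smooth_restr_iff (hOs a)).1 (hu a) Φ U hΦ
  have hop : IsOpen (U ∩ Φ ⁻¹' Os a) := (𝓜.isParam hΦ).isOpen_inter_preimage (hOs a)
  exact ((h1 z ⟨hz, ha⟩).contDiffAt (hop.mem_nhds ⟨hz, ha⟩)).contDiffWithinAt

theorem IsHForm.restr (hA : IsHForm 𝓜 A) (hO : IsOpen O) : IsHForm (𝓜.restr O hO) A := by
  exact ⟨fun hΦ => hA.herm hΦ.1, fun hΦ => hA.smooth hΦ.1, fun hΦ hΨ => hA.compat hΦ.1 hΨ.1⟩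

theorem IsClosedForm.restr (hA : IsClosedForm 𝓜 A) (hO : IsOpen O) :
    IsClosedForm (𝓜.restr O hO) A := by
  exact fun Φ U hΦ => hA Φ U hΦ.1

theorem IsMetric.restr (hh : IsMetric 𝓜 h) (hO : IsOpen O) : IsMetric (𝓜.restr O hO) h := by
  exact ⟨hh.toIsHForm.restr hO, fun hΦ => hh.posDef hΦ.1⟩

theorem IsKahler.restr (hh : IsKahler 𝓜 h) (hO : IsOpen O) : IsKahler (𝓜.restr O hO) h := by
  exact ⟨hh.toIsMetric.restr hO, hh.closed.restr hO⟩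

theorem leF.restr (hle : leF 𝓜 A B) (hO : IsOpen O) : leF (𝓜.restr O hO) A B := by
  exact fun Φ U hΦ => hle Φ U hΦ.1

theorem leF_restr_iff (hO : IsOpen O) : leF (𝓜.restr O hO) A B ↔ leFOn 𝓜 O A B := by
  constructor
  · exact fun h Φ U hΦ z hz hzO => h Φ _ (CMfd.isHol_restr_inter hO hΦ) z ⟨hz, hzO⟩
  · exact fun h Φ U hΦ z hz => h Φ U hΦ.1 z hz (hΦ.2 ⟨z, hz, rfl⟩)

theorem BisecPos.restr (hp : BisecPos 𝓜 h) (hO : IsOpen O) : BisecPos (𝓜.restr O hO) h := by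
  exact fun Φ U hΦ => hp Φ U hΦ.1

theorem BisecNonneg.restr (hp : BisecNonneg 𝓜 h) (hO : IsOpen O) :
    BisecNonneg (𝓜.restr O hO) h := by
  exact fun Φ U hΦ => hp Φ U hΦ.1

theorem IsCanSection.restr {S : (CE ι → V) → CE ι → ℂ} (hS : IsCanSection 𝓜 S) (hO : IsOpen O) :
    IsCanSection (𝓜.restr O hO) S := by
  exact ⟨fun hΦ => hS.hol hΦ.1, fun hΦ hΨ => hS.compat hΦ.1 hΨ.1⟩

/-! ### the scalars (data on `𝓜.restr O hO` only) -/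

theorem tr_restr (hO : IsOpen O) (hh : IsMetric (𝓜.restr O hO) h) (hA : IsHForm (𝓜.restr O hO) A)
    {x : V} (hx : x ∈ 𝓜.carrier ∩ O) : tr (𝓜.restr O hO) h A x = tr 𝓜 h A x := by
  exact CMfd.scal_restr_of_invariant hO (invariant_trF hh hA) hx

/-- (see also `lap_restr` in `Base/Vol/Calc.lean`: metric on `𝓜`, `u` of class `C²` at `x`.) -/
theorem lap_restr_of_smooth (hO : IsOpen O) (hh : IsMetric (𝓜.restr O hO) h) (hu : (𝓜.restr O hO).Smooth u)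
    {x : V} (hx : x ∈ 𝓜.carrier ∩ O) : lap (𝓜.restr O hO) h u x = lap 𝓜 h u x := by
  exact tr_restr hO hh (isHForm_ddc hu) hx

theorem gradSq_restr (hO : IsOpen O) (hh : IsMetric (𝓜.restr O hO) h) (u : V → ℝ)
    {x : V} (hx : x ∈ 𝓜.carrier ∩ O) : gradSq (𝓜.restr O hO) h u x = gradSq 𝓜 h u x := by
  exact CMfd.scal_restr_of_invariant hO (invariant_gradSqF hh u) hx

theorem detRatio_restr (hO : IsOpen O) (hh : IsHForm (𝓜.restr O hO) h)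
    (hg : IsMetric (𝓜.restr O hO) g) {x : V} (hx : x ∈ 𝓜.carrier ∩ O) :
    detRatio (𝓜.restr O hO) h g x = detRatio 𝓜 h g x := by
  exact CMfd.scal_restr_of_invariant hO (invariant_detF hh hg) hx

theorem scalCurv_restr (hO : IsOpen O) (hh : IsMetric (𝓜.restr O hO) h)
    {x : V} (hx : x ∈ 𝓜.carrier ∩ O) : scalCurv (𝓜.restr O hO) h x = scalCurv 𝓜 h x := by
  exact tr_restr hO hh (isHForm_ricF hh) hx

theorem canNormSq_restr {S : (CE ι → V) → CE ι → ℂ} (hO : IsOpen O)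
    (hg : IsMetric (𝓜.restr O hO) g) (hS : IsCanSection (𝓜.restr O hO) S)
    {x : V} (hx : x ∈ 𝓜.carrier ∩ O) : canNormSq (𝓜.restr O hO) g S x = canNormSq 𝓜 g S x := by
  exact CMfd.scal_restr_of_invariant hO (invariant_canNormSqF hg hS) hx

/-! ### the scalars of `𝓜` in any parametrisation of `𝓜`, for data which are good near the point only -/

theorem tr_eq_of_restr (hO : IsOpen O) (hh : IsMetric (𝓜.restr O hO) h)
    (hA : IsHForm (𝓜.restr O hO) A) (hΦ : 𝓜.IsHol Φ U) (hz : z ∈ U) (hzO : Φ z ∈ O) :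
    tr 𝓜 h A (Φ z) = ((h Φ z)⁻¹ * A Φ z).trace.re := by
  rw [← tr_restr hO hh hA ⟨CMfd.mem_carrier hΦ hz, hzO⟩]
  exact tr_eq hh hA (CMfd.isHol_restr_inter hO hΦ) ⟨hz, hzO⟩

theorem lap_eq_of_restr (hO : IsOpen O) (hh : IsMetric (𝓜.restr O hO) h)
    (hu : (𝓜.restr O hO).Smooth u) (hΦ : 𝓜.IsHol Φ U) (hz : z ∈ U) (hzO : Φ z ∈ O) :
    lap 𝓜 h u (Φ z) = ((h Φ z)⁻¹ * levi (u ∘ Φ) z).trace.re := by
  exact tr_eq_of_restr hO hh (isHForm_ddc hu) hΦ hz hzO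

theorem gradSq_eq_of_restr (hO : IsOpen O) (hh : IsMetric (𝓜.restr O hO) h) (u : V → ℝ)
    (hΦ : 𝓜.IsHol Φ U) (hz : z ∈ U) (hzO : Φ z ∈ O) :
    gradSq 𝓜 h u (Φ z) = qf ((h Φ z)⁻¹)ᵀ (grad10 (u ∘ Φ) z) := by
  rw [← gradSq_restr hO hh u ⟨CMfd.mem_carrier hΦ hz, hzO⟩]
  exact gradSq_eq hh u (CMfd.isHol_restr_inter hO hΦ) ⟨hz, hzO⟩

/-- germs (for `lap`, `gradSq`: `lap_congr`, `gradSq_congr` in `Base/Vol/Calc.lean`). -/
theorem ddc_congr_of_eventuallyEq (hΦ : 𝓜.IsHol Φ U) (hz : z ∈ U)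
    (he : u =ᶠ[𝓝[𝓜.carrier] (Φ z)] v) : ddc u Φ z = ddc v Φ z := by
  refine levi_congr ?_
  have h1 : ∀ᶠ y in Filter.map Φ (𝓝 z), u y = v y := by
    rw [(𝓜.isParam hΦ).map_nhds_eq hz]
    exact he
  exact Filter.eventually_map.1 h1

end restr

/-! ## Part G: rank one forms -/

section rankone

/-- the rank one form `∂u ⊗ \bar∂u`, matrix `(j,k) ↦ conj (∂_j u) ∂_k u`. -/
noncomputable def gradF (u : V → ℝ) : HFam V ι :=
  fun Φ z => Matrix.of fun j k => conj (grad10 (u ∘ Φ) z j) * grad10 (u ∘ Φ) z k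

/-- the polarisation `∂u ⊗ \bar∂v + ∂v ⊗ \bar∂u`. -/
noncomputable def crossF (u v : V → ℝ) : HFam V ι :=
  fun Φ z => Matrix.of fun j k => conj (grad10 (u ∘ Φ) z j) * grad10 (v ∘ Φ) z k
    + conj (grad10 (v ∘ Φ) z j) * grad10 (u ∘ Φ) z k

theorem gradF_apply (u : V → ℝ) (Φ : CE ι → V) (z : CE ι) (j k : ι) :
    gradF u Φ z j k = conj (grad10 (u ∘ Φ) z j) * grad10 (u ∘ Φ) z k := rfl

theorem crossF_apply (u v : V → ℝ) (Φ : CE ι → V) (z : CE ι) (j k : ι) :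
    crossF u v Φ z j k = conj (grad10 (u ∘ Φ) z j) * grad10 (v ∘ Φ) z k
      + conj (grad10 (v ∘ Φ) z j) * grad10 (u ∘ Φ) z k := rfl

theorem gradF_eq_vecMulVec (u : V → ℝ) (Φ : CE ι → V) (z : CE ι) :
    gradF u Φ z = Matrix.vecMulVec (star (grad10 (u ∘ Φ) z)) (grad10 (u ∘ Φ) z) := by
  ext j k
  rfl

theorem crossF_self (u : V → ℝ) (Φ : CE ι → V) (z : CE ι) :
    crossF u u Φ z = (2 : ℂ) • gradF u Φ z := by
  ext j k
  rw [crossF_apply, Matrix.smul_apply, gradF_apply, smul_eq_mul]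
  ring

theorem crossF_comm (u v : V → ℝ) : (crossF u v : HFam V ι) = crossF v u := by
  funext Φ z
  ext j k
  rw [crossF_apply, crossF_apply, add_comm]

theorem fr_outer_conj (T : Matrix ι ι ℂ) (ξ η : ι → ℂ) :
    Matrix.vecMulVec (star (Tᵀ *ᵥ ξ)) (Tᵀ *ᵥ η) = Tᴴ * Matrix.vecMulVec (star ξ) η * T := by
  rw [Matrix.mul_vecMulVec, Matrix.vecMulVec_mul, Matrix.mulVec_transpose, Matrix.mulVec_transpose,
    Matrix.star_vecMul]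

theorem fr_outer_eq (ξ η : ι → ℂ) :
    (Matrix.of fun j k => conj (ξ j) * η k : Matrix ι ι ℂ) = Matrix.vecMulVec (star ξ) η := by
  ext j k
  rfl

/-- transformation of the `(1,0)`-gradient of a smooth function. -/
theorem grad10_trans (hu : 𝓜.Smooth u) (hΦ : 𝓜.IsHol Φ U) (hΨ : 𝓜.IsHol Ψ W)
    (hz : z ∈ U ∩ Φ ⁻¹' (Ψ '' W)) :
    grad10 (u ∘ Φ) z = (jac (Function.invFunOn Ψ W ∘ Φ) z)ᵀ
      *ᵥ grad10 (u ∘ Ψ) ((Function.invFunOn Ψ W ∘ Φ) z) := by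
  rw [grad10_congr (CMfd.eventually_comp_eq u hΦ hΨ hz)]
  exact grad10_comp_hol' _ _ (CMfd.trans_differentiableAt hΦ hΨ hz)
    (hu.differentiableAt_comp hΨ (CMfd.trans_mem hΦ hΨ hz))

theorem fr_contDiffOn_conj {E : Type} [NormedAddCommGroup E] [NormedSpace ℝ E] {f : E → ℂ}
    {s : Set E} (hf : ContDiffOn ℝ ∞ f s) : ContDiffOn ℝ ∞ (fun q => conj (f q)) s :=
  Complex.conjCLE.contDiff.comp_contDiffOn hf

theorem isHForm_gradF (hu : 𝓜.Smooth u) : IsHForm 𝓜 (gradF u) := by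
  refine ⟨fun hΦ z hz => (posSemidef_grad10_outer _).isHermitian,
    fun {Φ U} hΦ j k => (fr_contDiffOn_conj (contDiffOn_grad10 (CMfd.isOpen_dom hΦ) (hu Φ U hΦ))).mul
      (contDiffOn_grad10 (CMfd.isOpen_dom hΦ) (hu Φ U hΦ)),
    fun {Φ Ψ U W} hΦ hΨ z hz hz' => ?_⟩
  rw [gradF_eq_vecMulVec, gradF_eq_vecMulVec, grad10_trans hu hΦ hΨ ⟨hz, hz'⟩, fr_outer_conj]
  rfl

theorem isHForm_crossF (hu : 𝓜.Smooth u) (hv : 𝓜.Smooth v) : IsHForm 𝓜 (crossF u v) := by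
  have e : ∀ (Φ : CE ι → V) (z : CE ι), crossF u v Φ z
      = Matrix.vecMulVec (star (grad10 (u ∘ Φ) z)) (grad10 (v ∘ Φ) z)
        + Matrix.vecMulVec (star (grad10 (v ∘ Φ) z)) (grad10 (u ∘ Φ) z) := by
    intro Φ z
    ext j k
    rfl
  refine ⟨fun hΦ z hz => ?_,
    fun {Φ U} hΦ j k =>
      ((fr_contDiffOn_conj (contDiffOn_grad10 (CMfd.isOpen_dom hΦ) (hu Φ U hΦ))).mul
        (contDiffOn_grad10 (CMfd.isOpen_dom hΦ) (hv Φ U hΦ))).add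
      ((fr_contDiffOn_conj (contDiffOn_grad10 (CMfd.isOpen_dom hΦ) (hv Φ U hΦ))).mul
        (contDiffOn_grad10 (CMfd.isOpen_dom hΦ) (hu Φ U hΦ))),
    fun {Φ Ψ U W} hΦ hΨ z hz hz' => ?_⟩
  · refine Matrix.IsHermitian.ext fun j k => ?_
    rw [crossF_apply, crossF_apply]
    simp only [star_add, star_mul', RCLike.star_def, Complex.conj_conj]
    ring
  · rw [e, e, grad10_trans hu hΦ hΨ ⟨hz, hz'⟩, grad10_trans hv hΦ hΨ ⟨hz, hz'⟩, fr_outer_conj,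
      fr_outer_conj, Matrix.mul_add, Matrix.add_mul]
    rfl

theorem qf_gradF (u : V → ℝ) (Φ : CE ι → V) (z : CE ι) (w : ι → ℂ) :
    qf (gradF u Φ z) w = ‖∑ k, grad10 (u ∘ Φ) z k * w k‖ ^ 2 := by
  exact qf_grad10_outer _ _

theorem gradF_posSemidef (u : V → ℝ) (Φ : CE ι → V) (z : CE ι) : (gradF u Φ z).PosSemidef := by
  exact posSemidef_grad10_outer _

theorem gradF_nonneg (𝓜 : CMfd V ι) (u : V → ℝ) : leF 𝓜 (fun _ _ => 0) (gradF u) := by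
  exact leF_zero_iff.2 fun Φ U _ z _ => gradF_posSemidef u Φ z

/-- `tr_h (∂u ⊗ \bar∂u) = |∂u|²_h` (by unfolding, no hypothesis). -/
theorem tr_gradF (𝓜 : CMfd V ι) (h : HFam V ι) (u : V → ℝ) (x : V) :
    tr 𝓜 h (gradF u) x = gradSq 𝓜 h u x := by
  exact trace_inv_mul_rankOne _ _

theorem tr_crossF (hh : IsMetric 𝓜 h) (u v : V → ℝ) {x : V} (hx : x ∈ 𝓜.carrier) :
    tr 𝓜 h (crossF u v) x = 2 * gradInner 𝓜 h u v x := by
  have hH := (hh.posDef (CMfd.isHol_pΦ 𝓜 hx) _ (CMfd.co_mem 𝓜 hx)).isHermitian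
  have e : crossF u v (𝓜.pΦ x) (𝓜.co x)
      = (Matrix.of fun j k => conj (grad10 (u ∘ 𝓜.pΦ x) (𝓜.co x) j) * grad10 (v ∘ 𝓜.pΦ x) (𝓜.co x) k)
        + (Matrix.of fun j k =>
          conj (grad10 (v ∘ 𝓜.pΦ x) (𝓜.co x) j) * grad10 (u ∘ 𝓜.pΦ x) (𝓜.co x) k) := by
    ext j k
    rfl
  show ((h (𝓜.pΦ x) (𝓜.co x))⁻¹ * crossF u v (𝓜.pΦ x) (𝓜.co x)).trace.re
    = 2 * dualIP (h (𝓜.pΦ x) (𝓜.co x)) (grad10 (u ∘ 𝓜.pΦ x) (𝓜.co x)) (grad10 (v ∘ 𝓜.pΦ x) (𝓜.co x))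
  rw [e, Matrix.mul_add, Matrix.trace_add, Complex.add_re, trace_inv_mul_outer,
    trace_inv_mul_outer, dualIP_comm hH (grad10 (v ∘ 𝓜.pΦ x) (𝓜.co x))]
  ring

/-- Cauchy-Schwarz: `∂u ⊗ \bar∂u ≤ |∂u|²_g g`. -/
theorem gradF_le (hg : IsMetric 𝓜 g) (u : V → ℝ) : leF 𝓜 (gradF u) (smulF (gradSq 𝓜 g u) g) := by
  intro Φ U hΦ z hz
  have h1 := le_trace_smul (hg.posDef hΦ z hz) (gradF_posSemidef u Φ z)
  have h2 : ((g Φ z)⁻¹ * gradF u Φ z).trace.re = gradSq 𝓜 g u (Φ z) := by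
    rw [gradSq_eq hg u hΦ hz]
    exact trace_inv_mul_rankOne _ _
  rw [h2] at h1
  exact h1

/-- `|∂u|²_h ≤ |∂u|²_g tr_h g`. -/
theorem gradSq_le_mul_tr (hh : IsMetric 𝓜 h) (hg : IsMetric 𝓜 g) (u : V → ℝ) {x : V}
    (hx : x ∈ 𝓜.carrier) : gradSq 𝓜 h u x ≤ gradSq 𝓜 g u x * tr 𝓜 h g x := by
  have h1 := leF.tr_le hh (gradF_le hg u) hx
  rwa [tr_gradF, tr_smulF _ _ _ hx] at h1

theorem fr_young (ξ η : ι → ℂ) {ε : ℝ} (hε : 0 < ε) (σ : ℝ) (hσ : σ ^ 2 = 1) :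
    (((ε : ℝ) : ℂ) • (Matrix.of fun j k => conj (ξ j) * ξ k : Matrix ι ι ℂ)
      + ((ε⁻¹ : ℝ) : ℂ) • (Matrix.of fun j k => conj (η j) * η k : Matrix ι ι ℂ)
      - ((σ : ℝ) : ℂ) • (Matrix.of fun j k => conj (ξ j) * η k + conj (η j) * ξ k :
        Matrix ι ι ℂ)).PosSemidef := by
  set s : ℝ := Real.sqrt ε with hs
  have hs0 : s ≠ 0 := (Real.sqrt_pos.2 hε).ne'
  have hs2 : s ^ 2 = ε := Real.sq_sqrt hε.le
  have e : (((ε : ℝ) : ℂ) • (Matrix.of fun j k => conj (ξ j) * ξ k : Matrix ι ι ℂ)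
      + ((ε⁻¹ : ℝ) : ℂ) • (Matrix.of fun j k => conj (η j) * η k : Matrix ι ι ℂ)
      - ((σ : ℝ) : ℂ) • (Matrix.of fun j k => conj (ξ j) * η k + conj (η j) * ξ k :
        Matrix ι ι ℂ))
      = Matrix.of fun j k => conj (((s : ℝ) : ℂ) * ξ j - ((σ * s⁻¹ : ℝ) : ℂ) * η j)
        * (((s : ℝ) : ℂ) * ξ k - ((σ * s⁻¹ : ℝ) : ℂ) * η k) := by
    ext j k
    simp only [Matrix.sub_apply, Matrix.add_apply, Matrix.smul_apply, Matrix.of_apply, smul_eq_mul,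
      map_sub, map_mul, Complex.conj_ofReal]
    have h1 : ((ε : ℝ) : ℂ) = ((s : ℝ) : ℂ) ^ 2 := by rw [← hs2]; push_cast; ring
    have h2 : ((ε⁻¹ : ℝ) : ℂ) = (((σ * s⁻¹ : ℝ)) : ℂ) ^ 2 := by
      rw [← Complex.ofReal_pow, mul_pow, hσ, one_mul, inv_pow, hs2]
    have h3 : ((σ : ℝ) : ℂ) = ((s : ℝ) : ℂ) * ((σ * s⁻¹ : ℝ) : ℂ) := by
      rw [← Complex.ofReal_mul]
      congr 1
      field_simp
    rw [h1, h2, h3]
    ring
  rw [e]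
  exact posSemidef_grad10_outer _

/-- Young: `± (∂u ⊗ \bar∂v + ∂v ⊗ \bar∂u) ≤ ε ∂u ⊗ \bar∂u + ε⁻¹ ∂v ⊗ \bar∂v`. -/
theorem crossF_le (𝓜 : CMfd V ι) (u v : V → ℝ) {ε : ℝ} (hε : 0 < ε) :
    leF 𝓜 (crossF u v)
      (fun Φ z => ((ε : ℝ) : ℂ) • gradF u Φ z + ((ε⁻¹ : ℝ) : ℂ) • gradF v Φ z) := by
  intro Φ U _ z _
  have h1 := fr_young (grad10 (u ∘ Φ) z) (grad10 (v ∘ Φ) z) hε 1 (by norm_num)
  simp only [Complex.ofReal_one, one_smul] at h1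
  exact h1

theorem neg_crossF_le (𝓜 : CMfd V ι) (u v : V → ℝ) {ε : ℝ} (hε : 0 < ε) :
    leF 𝓜 (fun Φ z => - crossF u v Φ z)
      (fun Φ z => ((ε : ℝ) : ℂ) • gradF u Φ z + ((ε⁻¹ : ℝ) : ℂ) • gradF v Φ z) := by
  intro Φ U _ z _
  have h1 := fr_young (grad10 (u ∘ Φ) z) (grad10 (v ∘ Φ) z) hε (-1) (by norm_num)
  simp only [Complex.ofReal_neg, Complex.ofReal_one, neg_smul, one_smul] at h1
  exact h1

/-! ### algebra of `gradF` -/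

theorem gradF_const (c : ℝ) (Φ : CE ι → V) (z : CE ι) : gradF (fun _ => c) Φ z = 0 := by
  ext j k
  have : grad10 ((fun _ => c) ∘ Φ) z = 0 := grad10_const c
  rw [gradF_apply, this]
  simp

theorem gradF_neg (u : V → ℝ) (Φ : CE ι → V) (z : CE ι) :
    gradF (fun x => - u x) Φ z = gradF u Φ z := by
  ext j k
  have : grad10 ((fun x => - u x) ∘ Φ) z = - grad10 (u ∘ Φ) z := grad10_neg
  rw [gradF_apply, gradF_apply, this]
  simp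

theorem grad10_add_const' (f : CE ι → ℝ) (c : ℝ) (z : CE ι) :
    grad10 (fun w => f w + c) z = grad10 f z := by
  funext k
  have e : (fun y => (((f y + c : ℝ)) : ℂ)) = fun y => ((f y : ℝ) : ℂ) + ((c : ℝ) : ℂ) := by
    funext y
    push_cast
    rfl
  simp only [grad10, dz]
  rw [e, fderiv_add_const]

theorem gradF_add_const (u : V → ℝ) (c : ℝ) (Φ : CE ι → V) (z : CE ι) :
    gradF (fun x => u x + c) Φ z = gradF u Φ z := by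
  ext j k
  have : grad10 ((fun x => u x + c) ∘ Φ) z = grad10 (u ∘ Φ) z := grad10_add_const' _ c z
  rw [gradF_apply, gradF_apply, this]

theorem gradF_const_mul (c : ℝ) (hu : 𝓜.Smooth u) (hΦ : 𝓜.IsHol Φ U) (hz : z ∈ U) :
    gradF (fun x => c * u x) Φ z = ((c ^ 2 : ℝ) : ℂ) • gradF u Φ z := by
  ext j k
  have : grad10 ((fun x => c * u x) ∘ Φ) z = (c : ℂ) • grad10 (u ∘ Φ) z :=
    grad10_const_mul c (hu.differentiableAt_comp hΦ hz)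
  rw [gradF_apply, this, Matrix.smul_apply, gradF_apply]
  simp only [Pi.smul_apply, smul_eq_mul, map_mul, Complex.conj_ofReal]
  push_cast
  ring

theorem gradF_add (hu : 𝓜.Smooth u) (hv : 𝓜.Smooth v) (hΦ : 𝓜.IsHol Φ U) (hz : z ∈ U) :
    gradF (fun x => u x + v x) Φ z = gradF u Φ z + gradF v Φ z + crossF u v Φ z := by
  ext j k
  have : grad10 ((fun x => u x + v x) ∘ Φ) z = grad10 (u ∘ Φ) z + grad10 (v ∘ Φ) z :=
    grad10_add (hu.differentiableAt_comp hΦ hz) (hv.differentiableAt_comp hΦ hz)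
  rw [gradF_apply, this, Matrix.add_apply, Matrix.add_apply, gradF_apply, gradF_apply, crossF_apply]
  simp only [Pi.add_apply, map_add]
  ring

theorem gradF_add_le (hu : 𝓜.Smooth u) (hv : 𝓜.Smooth v) :
    leF 𝓜 (gradF (fun x => u x + v x))
      (fun Φ z => (2 : ℂ) • gradF u Φ z + (2 : ℂ) • gradF v Φ z) := by
  intro Φ U hΦ z hz
  have h1 := crossF_le 𝓜 u v (ε := 1) one_pos Φ U hΦ z hz
  rw [gradF_add hu hv hΦ hz]
  have e : (2 : ℂ) • gradF u Φ z + (2 : ℂ) • gradF v Φ z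
      - (gradF u Φ z + gradF v Φ z + crossF u v Φ z)
      = ((1 : ℝ) : ℂ) • gradF u Φ z + (((1 : ℝ)⁻¹ : ℝ) : ℂ) • gradF v Φ z - crossF u v Φ z := by
    simp only [inv_one, Complex.ofReal_one, one_smul, two_smul]
    abel
  rw [e]
  exact h1

theorem gradF_comp_real (χ : ℝ → ℝ) (hu : 𝓜.Smooth u) (hΦ : 𝓜.IsHol Φ U) (hz : z ∈ U)
    (hχ : DifferentiableAt ℝ χ (u (Φ z))) :
    gradF (fun x => χ (u x)) Φ z = ((deriv χ (u (Φ z)) ^ 2 : ℝ) : ℂ) • gradF u Φ z := by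
  ext j k
  have h1 : ∀ l, grad10 ((fun x => χ (u x)) ∘ Φ) z l
      = ((deriv χ (u (Φ z)) : ℝ) : ℂ) * grad10 (u ∘ Φ) z l := fun l =>
    grad10_comp_real χ (u ∘ Φ) hχ (hu.differentiableAt_comp hΦ hz)
  rw [gradF_apply, h1, h1, Matrix.smul_apply, gradF_apply]
  simp only [smul_eq_mul, map_mul, Complex.conj_ofReal]
  push_cast
  ring

theorem gradF_congr (he : Set.EqOn u v 𝓜.carrier) (hΦ : 𝓜.IsHol Φ U) (hz : z ∈ U) :
    gradF u Φ z = gradF v Φ z := by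
  have : grad10 (u ∘ Φ) z = grad10 (v ∘ Φ) z :=
    grad10_congr (Filter.eventually_of_mem ((CMfd.isOpen_dom hΦ).mem_nhds hz)
      fun w hw => he (CMfd.mem_carrier hΦ hw))
  ext j k
  rw [gradF_apply, gradF_apply, this]

/-! ### product and chain rules for `ddc` -/

theorem ddc_mul (hu : 𝓜.Smooth u) (hv : 𝓜.Smooth v) (hΦ : 𝓜.IsHol Φ U) (hz : z ∈ U) :
    ddc (fun x => u x * v x) Φ z
      = ((u (Φ z) : ℝ) : ℂ) • ddc v Φ z + ((v (Φ z) : ℝ) : ℂ) • ddc u Φ z + crossF u v Φ z := by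
  ext j k
  have h1 : ddc (fun x => u x * v x) Φ z j k = _ :=
    levi_mul (f := u ∘ Φ) (g := v ∘ Φ) (j := j) (k := k) (hu.contDiffAt_comp_two hΦ hz) (hv.contDiffAt_comp_two hΦ hz)
  rw [h1]
  simp only [Matrix.add_apply, Matrix.smul_apply, smul_eq_mul, crossF_apply, R316.ddc,
    Function.comp_apply]
  ring

theorem ddc_comp (χ : ℝ → ℝ) (hu : 𝓜.Smooth u) (hΦ : 𝓜.IsHol Φ U) (hz : z ∈ U)
    (hχ : ContDiffAt ℝ 2 χ (u (Φ z))) :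
    ddc (fun x => χ (u x)) Φ z = ((deriv χ (u (Φ z)) : ℝ) : ℂ) • ddc u Φ z
      + ((deriv (deriv χ) (u (Φ z)) : ℝ) : ℂ) • gradF u Φ z := by
  ext j k
  rw [ddc_comp_real χ hu hΦ hz hχ j k]
  simp only [Matrix.add_apply, Matrix.smul_apply, smul_eq_mul, gradF_apply]

theorem ddc_exp (hu : 𝓜.Smooth u) (hΦ : 𝓜.IsHol Φ U) (hz : z ∈ U) :
    ddc (fun x => Real.exp (u x)) Φ z
      = ((Real.exp (u (Φ z)) : ℝ) : ℂ) • (ddc u Φ z + gradF u Φ z) := by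
  ext j k
  have h1 : ddc (fun x => Real.exp (u x)) Φ z j k = _ :=
    levi_exp (f := u ∘ Φ) (j := j) (k := k) (hu.contDiffAt_comp_two hΦ hz)
  rw [h1]
  simp only [Matrix.add_apply, Matrix.smul_apply, smul_eq_mul, gradF_apply, R316.ddc,
    Function.comp_apply]

theorem ddc_log (hu : 𝓜.Smooth u) (hΦ : 𝓜.IsHol Φ U) (hz : z ∈ U) (h0 : u (Φ z) ≠ 0) :
    ddc (fun x => Real.log (u x)) Φ z
      = (((u (Φ z))⁻¹ : ℝ) : ℂ) • ddc u Φ z - ((((u (Φ z)) ^ 2)⁻¹ : ℝ) : ℂ) • gradF u Φ z := by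
  ext j k
  have h1 : ddc (fun x => Real.log (u x)) Φ z j k = _ :=
    levi_log (f := u ∘ Φ) (j := j) (k := k) (hu.contDiffAt_comp_two hΦ hz) h0
  rw [h1]
  simp only [Matrix.sub_apply, Matrix.smul_apply, smul_eq_mul, gradF_apply, R316.ddc,
    Function.comp_apply]
  push_cast
  ring

theorem ddc_sq (hu : 𝓜.Smooth u) (hΦ : 𝓜.IsHol Φ U) (hz : z ∈ U) :
    ddc (fun x => u x ^ 2) Φ z
      = ((2 * u (Φ z) : ℝ) : ℂ) • ddc u Φ z + (2 : ℂ) • gradF u Φ z := by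
  ext j k
  have h1 : ddc (fun x => u x ^ 2) Φ z j k = _ :=
    levi_sq (f := u ∘ Φ) (j := j) (k := k) (hu.contDiffAt_comp_two hΦ hz)
  rw [h1]
  simp only [Matrix.add_apply, Matrix.smul_apply, smul_eq_mul, gradF_apply, R316.ddc,
    Function.comp_apply]
  push_cast
  ring

theorem ddc_sqrt (hu : 𝓜.Smooth u) (hΦ : 𝓜.IsHol Φ U) (hz : z ∈ U) (h0 : 0 < u (Φ z)) :
    ddc (fun x => Real.sqrt (u x)) Φ z
      = (((2 * Real.sqrt (u (Φ z)))⁻¹ : ℝ) : ℂ) • ddc u Φ z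
        - (((4 * u (Φ z) * Real.sqrt (u (Φ z)))⁻¹ : ℝ) : ℂ) • gradF u Φ z := by
  ext j k
  have h1 : ddc (fun x => Real.sqrt (u x)) Φ z j k = _ :=
    levi_sqrt (f := u ∘ Φ) (j := j) (k := k) (hu.contDiffAt_comp_two hΦ hz) h0
  rw [h1]
  simp only [Matrix.sub_apply, Matrix.smul_apply, smul_eq_mul, gradF_apply, R316.ddc,
    Function.comp_apply]
  push_cast
  ring

/-- convex nondecreasing outer functions preserve `dd ≥ 0`. -/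
theorem ddc_comp_nonneg (χ : ℝ → ℝ) (hχ : ContDiff ℝ 2 χ) (h1 : ∀ s, 0 ≤ deriv χ s)
    (h2 : ∀ s, 0 ≤ deriv (deriv χ) s) (hu : 𝓜.Smooth u) (h0 : leF 𝓜 (fun _ _ => 0) (ddc u)) :
    leF 𝓜 (fun _ _ => 0) (ddc (fun x => χ (u x))) := by
  refine leF_zero_iff.2 fun Φ U hΦ z hz => ?_
  exact levi_comp_real_posSemidef χ hχ.contDiffAt (hu.contDiffAt_comp_two hΦ hz) (h1 _) (h2 _)
    (leF_zero_iff.1 h0 Φ U hΦ z hz)

/-- `|F|²` for holomorphic `F`: `dd |F|² ≥ 0`. -/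
theorem ddc_normSq_holFun_nonneg {F : V → ℂ} (hF : 𝓜.HolFun F) :
    leF 𝓜 (fun _ _ => 0) (ddc (fun x => ‖F x‖ ^ 2)) := by
  refine leF_zero_iff.2 fun Φ U hΦ z hz => ?_
  exact levi_normSq_hol_posSemidef (F ∘ Φ)
    (hol_eventually_of_differentiableOn (CMfd.isOpen_dom hΦ) (hF Φ U hΦ) hz)

/-- pluriharmonicity of `Re F`. -/
theorem ddc_re_holFun {F : V → ℂ} (hF : 𝓜.HolFun F) (hΦ : 𝓜.IsHol Φ U) (hz : z ∈ U) :
    ddc (fun x => (F x).re) Φ z = 0 := by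
  exact levi_re_hol (F ∘ Φ)
    (hol_eventually_of_differentiableOn (CMfd.isOpen_dom hΦ) (hF Φ U hΦ) hz)

/-- `dd log |F|² = 0` off the zeros. -/
theorem ddc_log_normSq_holFun {F : V → ℂ} (hF : 𝓜.HolFun F) (hΦ : 𝓜.IsHol Φ U) (hz : z ∈ U)
    (h0 : F (Φ z) ≠ 0) : ddc (fun x => Real.log (‖F x‖ ^ 2)) Φ z = 0 := by
  exact levi_log_normSq_hol (F ∘ Φ)
    (hol_eventually_of_differentiableOn (CMfd.isOpen_dom hΦ) (hF Φ U hΦ) hz) h0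

end rankone

end Claimed.Agent.R316
end

/- ===== packed: Claimed.Agent.R316.Base.Vol.Calc ===== -/
section
/-!
# Row 316, G6-Calc: pointwise calculus of `lap`, `gradSq`, `gradInner` on the manifold

Statement file by helper55.

METHOD.  Every statement is at a point `x ∈ 𝓜.carrier`.  Unfold `lap`/`gradInner` = `scal` = the chartwise
expression in the CHOSEN parametrisation `(𝓜.pΦ x, 𝓜.co x)`:
`lap 𝓜 h u x = lapP (h (𝓜.pΦ x) (𝓜.co x)) (u ∘ 𝓜.pΦ x) (𝓜.co x)` and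
`gradInner 𝓜 h u v x = dualIP (h …) (grad10 (u ∘ 𝓜.pΦ x) (𝓜.co x)) (grad10 (v ∘ 𝓜.pΦ x) (𝓜.co x))` hold by `rfl`
(`lap_def`, `gradInner_def`), the regularity predicates `𝓜.DiffAt`, `𝓜.C2At` are stated in the same
parametrisation, so the RULES (section 3) follow at once from `CW/LapC.lean` and need NO invariance.
Invariance (section 2) is only needed to compute in another parametrisation.
-/

set_option autoImplicit false
set_option linter.unusedSectionVars false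
open scoped ContDiff ComplexOrder Topology

namespace Claimed.Agent.R316

variable {V : Type} [NormedAddCommGroup V] [NormedSpace ℝ V]
variable {ι : Type} [Fintype ι]
variable {𝓜 : CMfd V ι} {u v w : V → ℝ} {x : V} {Φ : CE ι → V} {U : Set (CE ι)} {z : CE ι}

/-! ### 1. the regularity predicates -/

section reg

theorem vc_differentiableAt_trans {Ψ : CE ι → V} {W : Set (CE ι)} {y : CE ι} (hΦ : 𝓜.IsHol Φ U)
    (hΨ : 𝓜.IsHol Ψ W) (hz : z ∈ U) (hy : y ∈ W) (h : Φ z = Ψ y)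
    (hd : DifferentiableAt ℝ (u ∘ Ψ) y) : DifferentiableAt ℝ (u ∘ Φ) z := by
  have hz' : z ∈ U ∩ Φ ⁻¹' (Ψ '' W) := ⟨hz, ⟨y, hy, h.symm⟩⟩
  have hτ : (Function.invFunOn Ψ W ∘ Φ) z = y := CMfd.trans_eq hΦ hΨ hy h
  have hc : DifferentiableAt ℝ ((u ∘ Ψ) ∘ (Function.invFunOn Ψ W ∘ Φ)) z :=
    DifferentiableAt.comp z (by rw [hτ]; exact hd)
      ((CMfd.trans_differentiableAt hΦ hΨ hz').restrictScalars ℝ)
  exact hc.congr_of_eventuallyEq (CMfd.eventually_comp_eq u hΦ hΨ hz')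

theorem vc_contDiffAt_trans {Ψ : CE ι → V} {W : Set (CE ι)} {y : CE ι} (hΦ : 𝓜.IsHol Φ U)
    (hΨ : 𝓜.IsHol Ψ W) (hz : z ∈ U) (hy : y ∈ W) (h : Φ z = Ψ y)
    (hd : ContDiffAt ℝ 2 (u ∘ Ψ) y) : ContDiffAt ℝ 2 (u ∘ Φ) z := by
  have hz' : z ∈ U ∩ Φ ⁻¹' (Ψ '' W) := ⟨hz, ⟨y, hy, h.symm⟩⟩
  have hτ : (Function.invFunOn Ψ W ∘ Φ) z = y := CMfd.trans_eq hΦ hΨ hy h
  have hc : ContDiffAt ℝ 2 ((u ∘ Ψ) ∘ (Function.invFunOn Ψ W ∘ Φ)) z :=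
    ContDiffAt.comp z (by rw [hτ]; exact hd)
      ((CMfd.trans_contDiffAt hΦ hΨ hz').of_le (WithTop.coe_le_coe.2 le_top))
  exact hc.congr_of_eventuallyEq (CMfd.eventually_comp_eq u hΦ hΨ hz')

theorem vc_eventuallyEq_chosen (hx : x ∈ 𝓜.carrier) (h : ∀ᶠ y in 𝓝[𝓜.carrier] x, u y = v y) :
    u ∘ 𝓜.pΦ x =ᶠ[𝓝 (𝓜.co x)] v ∘ 𝓜.pΦ x := by
  have h1 : ∀ᶠ y in Filter.map (𝓜.pΦ x) (𝓝 (𝓜.co x)), u y = v y := by
    rw [(𝓜.isParam (CMfd.isHol_pΦ 𝓜 hx)).map_nhds_eq (CMfd.co_mem 𝓜 hx), CMfd.pΦ_co 𝓜 hx]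
    exact h
  exact Filter.eventually_map.1 h1

theorem CMfd.diffAt_iff (hΦ : 𝓜.IsHol Φ U) (hz : z ∈ U) :
    𝓜.DiffAt u (Φ z) ↔ DifferentiableAt ℝ (u ∘ Φ) z := by
  have hx := CMfd.mem_carrier hΦ hz
  constructor
  · exact fun h => vc_differentiableAt_trans hΦ (CMfd.isHol_pΦ 𝓜 hx) hz (CMfd.co_mem 𝓜 hx)
      (CMfd.pΦ_co 𝓜 hx).symm h
  · exact fun h => vc_differentiableAt_trans (CMfd.isHol_pΦ 𝓜 hx) hΦ (CMfd.co_mem 𝓜 hx) hz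
      (CMfd.pΦ_co 𝓜 hx) h

theorem CMfd.c2At_iff (hΦ : 𝓜.IsHol Φ U) (hz : z ∈ U) :
    𝓜.C2At u (Φ z) ↔ ContDiffAt ℝ 2 (u ∘ Φ) z := by
  have hx := CMfd.mem_carrier hΦ hz
  constructor
  · exact fun h => vc_contDiffAt_trans hΦ (CMfd.isHol_pΦ 𝓜 hx) hz (CMfd.co_mem 𝓜 hx)
      (CMfd.pΦ_co 𝓜 hx).symm h
  · exact fun h => vc_contDiffAt_trans (CMfd.isHol_pΦ 𝓜 hx) hΦ (CMfd.co_mem 𝓜 hx) hz
      (CMfd.pΦ_co 𝓜 hx) h

theorem CMfd.C2At.diffAt (hu : 𝓜.C2At u x) : 𝓜.DiffAt u x :=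
  ContDiffAt.differentiableAt hu (by norm_num)

theorem CMfd.Smooth.c2At (hu : 𝓜.Smooth u) (hx : x ∈ 𝓜.carrier) : 𝓜.C2At u x := by
  exact ((hu _ _ (CMfd.isHol_pΦ 𝓜 hx) _ (CMfd.co_mem 𝓜 hx)).contDiffAt
    ((CMfd.isOpen_dom (CMfd.isHol_pΦ 𝓜 hx)).mem_nhds (CMfd.co_mem 𝓜 hx))).of_le
    (WithTop.coe_le_coe.2 le_top)

theorem CMfd.Smooth.diffAt (hu : 𝓜.Smooth u) (hx : x ∈ 𝓜.carrier) : 𝓜.DiffAt u x :=
  (hu.c2At hx).diffAt

/-- the predicates only depend on the germ of the function on the carrier. -/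
theorem CMfd.DiffAt.congr (hu : 𝓜.DiffAt u x) (hx : x ∈ 𝓜.carrier)
    (h : ∀ᶠ y in 𝓝[𝓜.carrier] x, u y = v y) : 𝓜.DiffAt v x := by
  exact DifferentiableAt.congr_of_eventuallyEq hu (vc_eventuallyEq_chosen hx h).symm

theorem CMfd.C2At.congr (hu : 𝓜.C2At u x) (hx : x ∈ 𝓜.carrier)
    (h : ∀ᶠ y in 𝓝[𝓜.carrier] x, u y = v y) : 𝓜.C2At v x := by
  exact ContDiffAt.congr_of_eventuallyEq hu (vc_eventuallyEq_chosen hx h).symm

theorem CMfd.diffAt_const (c : ℝ) : 𝓜.DiffAt (fun _ => c) x := by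
  exact differentiableAt_const c

theorem CMfd.DiffAt.add (hu : 𝓜.DiffAt u x) (hv : 𝓜.DiffAt v x) :
    𝓜.DiffAt (fun y => u y + v y) x := by
  exact DifferentiableAt.add hu hv

theorem CMfd.DiffAt.sub (hu : 𝓜.DiffAt u x) (hv : 𝓜.DiffAt v x) :
    𝓜.DiffAt (fun y => u y - v y) x := by
  exact DifferentiableAt.sub hu hv

theorem CMfd.DiffAt.neg (hu : 𝓜.DiffAt u x) : 𝓜.DiffAt (fun y => - u y) x := by
  exact DifferentiableAt.neg hu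

theorem CMfd.DiffAt.mul (hu : 𝓜.DiffAt u x) (hv : 𝓜.DiffAt v x) :
    𝓜.DiffAt (fun y => u y * v y) x := by
  exact DifferentiableAt.mul hu hv

theorem CMfd.DiffAt.const_mul (c : ℝ) (hu : 𝓜.DiffAt u x) : 𝓜.DiffAt (fun y => c * u y) x := by
  exact DifferentiableAt.const_mul hu c

theorem CMfd.DiffAt.sum {α : Type} (s : Finset α) {F : α → V → ℝ}
    (hF : ∀ a ∈ s, 𝓜.DiffAt (F a) x) : 𝓜.DiffAt (fun y => ∑ a ∈ s, F a y) x := by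
  exact DifferentiableAt.fun_sum hF

theorem CMfd.DiffAt.comp {χ : ℝ → ℝ} (hx : x ∈ 𝓜.carrier) (hχ : DifferentiableAt ℝ χ (u x))
    (hu : 𝓜.DiffAt u x) : 𝓜.DiffAt (fun y => χ (u y)) x := by
  have h1 : DifferentiableAt ℝ χ ((u ∘ 𝓜.pΦ x) (𝓜.co x)) := by
    rw [Function.comp_apply, CMfd.pΦ_co 𝓜 hx]; exact hχ
  exact h1.comp (𝓜.co x) hu

theorem CMfd.c2At_const (c : ℝ) : 𝓜.C2At (fun _ => c) x := by
  exact contDiffAt_const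

theorem CMfd.C2At.add (hu : 𝓜.C2At u x) (hv : 𝓜.C2At v x) : 𝓜.C2At (fun y => u y + v y) x := by
  exact ContDiffAt.add hu hv

theorem CMfd.C2At.sub (hu : 𝓜.C2At u x) (hv : 𝓜.C2At v x) : 𝓜.C2At (fun y => u y - v y) x := by
  exact ContDiffAt.sub hu hv

theorem CMfd.C2At.neg (hu : 𝓜.C2At u x) : 𝓜.C2At (fun y => - u y) x := by
  exact ContDiffAt.neg hu

theorem CMfd.C2At.mul (hu : 𝓜.C2At u x) (hv : 𝓜.C2At v x) : 𝓜.C2At (fun y => u y * v y) x := by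
  exact ContDiffAt.mul hu hv

theorem CMfd.C2At.const_mul (c : ℝ) (hu : 𝓜.C2At u x) : 𝓜.C2At (fun y => c * u y) x := by
  exact ContDiffAt.mul contDiffAt_const hu

theorem CMfd.C2At.sum {α : Type} (s : Finset α) {F : α → V → ℝ}
    (hF : ∀ a ∈ s, 𝓜.C2At (F a) x) : 𝓜.C2At (fun y => ∑ a ∈ s, F a y) x := by
  exact ContDiffAt.sum hF

theorem CMfd.C2At.comp {χ : ℝ → ℝ} (hx : x ∈ 𝓜.carrier) (hχ : ContDiffAt ℝ 2 χ (u x))
    (hu : 𝓜.C2At u x) : 𝓜.C2At (fun y => χ (u y)) x := by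
  have h1 : ContDiffAt ℝ 2 χ ((u ∘ 𝓜.pΦ x) (𝓜.co x)) := by
    rw [Function.comp_apply, CMfd.pΦ_co 𝓜 hx]; exact hχ
  exact h1.comp (𝓜.co x) hu

/-- restriction of an ambient `C²` function. -/
theorem CMfd.c2At_of_contDiffAt (hx : x ∈ 𝓜.carrier) (hu : ContDiffAt ℝ 2 u x) : 𝓜.C2At u x := by
  exact ContDiffAt.comp (𝓜.co x) (by rw [CMfd.pΦ_co 𝓜 hx]; exact hu)
    (((𝓜.isParam (CMfd.isHol_pΦ 𝓜 hx)).contDiffAt (CMfd.co_mem 𝓜 hx)).of_le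
      (WithTop.coe_le_coe.2 le_top))

theorem CMfd.diffAt_of_differentiableAt (hx : x ∈ 𝓜.carrier) (hu : DifferentiableAt ℝ u x) :
    𝓜.DiffAt u x := by
  exact DifferentiableAt.comp (𝓜.co x) (by rw [CMfd.pΦ_co 𝓜 hx]; exact hu)
    ((𝓜.isParam (CMfd.isHol_pΦ 𝓜 hx)).differentiableAt (CMfd.co_mem 𝓜 hx))

end reg

variable [DecidableEq ι] {h g : HFam V ι}

/-! ### 2. definitions unfolded, invariance, computation in any parametrisation -/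

section inv

theorem lap_def (𝓜 : CMfd V ι) (h : HFam V ι) (u : V → ℝ) (x : V) :
    lap 𝓜 h u x = lapP (h (𝓜.pΦ x) (𝓜.co x)) (u ∘ 𝓜.pΦ x) (𝓜.co x) := rfl

theorem gradInner_def (𝓜 : CMfd V ι) (h : HFam V ι) (u v : V → ℝ) (x : V) :
    gradInner 𝓜 h u v x = dualIP (h (𝓜.pΦ x) (𝓜.co x)) (grad10 (u ∘ 𝓜.pΦ x) (𝓜.co x))
      (grad10 (v ∘ 𝓜.pΦ x) (𝓜.co x)) := rfl

theorem gradSq_def (𝓜 : CMfd V ι) (h : HFam V ι) (u : V → ℝ) (x : V) :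
    gradSq 𝓜 h u x = dualIP (h (𝓜.pΦ x) (𝓜.co x)) (grad10 (u ∘ 𝓜.pΦ x) (𝓜.co x))
      (grad10 (u ∘ 𝓜.pΦ x) (𝓜.co x)) := rfl

/-- the metric matrix at the chosen parametrisation is positive definite. -/
theorem IsMetric.posDef_chosen (hh : IsMetric 𝓜 h) (hx : x ∈ 𝓜.carrier) :
    (h (𝓜.pΦ x) (𝓜.co x)).PosDef := by
  exact hh.posDef (CMfd.isHol_pΦ 𝓜 hx) _ (CMfd.co_mem 𝓜 hx)

/-- **invariance of the gradient pairing, for ARBITRARY functions** (at a point where `u ∘ Ψ` is not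
differentiable neither is `u ∘ Φ`, and both `grad10` vanish). -/
theorem invariant_gradInnerF (hh : IsMetric 𝓜 h) (u v : V → ℝ) :
    𝓜.Invariant (gradInnerF h u v) := by
  rw [CMfd.invariant_iff]
  intro Φ Ψ U W hΦ hΨ z hz
  have hy := CMfd.trans_mem hΦ hΨ hz
  have hs := (CMfd.trans_spec hΦ hΨ hz).symm
  have key : ∀ f : V → ℝ, ¬ DifferentiableAt ℝ (f ∘ Ψ) ((Function.invFunOn Ψ W ∘ Φ) z) →
      grad10 (f ∘ Ψ) ((Function.invFunOn Ψ W ∘ Φ) z) = 0 ∧ grad10 (f ∘ Φ) z = 0 := by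
    intro f hf
    refine ⟨grad10_of_not_differentiableAt hf, grad10_of_not_differentiableAt fun hd => hf ?_⟩
    exact vc_differentiableAt_trans hΨ hΦ hy hz.1 hs.symm hd
  simp only [gradInnerF]
  by_cases hu : DifferentiableAt ℝ (u ∘ Ψ) ((Function.invFunOn Ψ W ∘ Φ) z)
  · by_cases hv : DifferentiableAt ℝ (v ∘ Ψ) ((Function.invFunOn Ψ W ∘ Φ) z)
    · rw [grad10_congr (CMfd.eventually_comp_eq u hΦ hΨ hz),
        grad10_congr (CMfd.eventually_comp_eq v hΦ hΨ hz), hh.toIsHForm.compat_trans hΦ hΨ hz]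
      exact dualIP_grad10_comp_hol _ _ (CMfd.trans_differentiableAt hΦ hΨ hz)
        (CMfd.isUnit_jac_trans hΦ hΨ hz) hu hv
    · rw [(key v hv).1, (key v hv).2, dualIP_zero_right, dualIP_zero_right]
  · rw [(key u hu).1, (key u hu).2, dualIP_zero_left, dualIP_zero_left]

theorem gradInner_eq (hh : IsMetric 𝓜 h) (u v : V → ℝ) (hΦ : 𝓜.IsHol Φ U) (hz : z ∈ U) :
    gradInner 𝓜 h u v (Φ z) = dualIP (h Φ z) (grad10 (u ∘ Φ) z) (grad10 (v ∘ Φ) z) := by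
  exact CMfd.scal_eq (invariant_gradInnerF hh u v) hΦ hz

/-- the Laplacian in any parametrisation, `C²` at the point only. -/
theorem lap_eq_of_c2At (hh : IsMetric 𝓜 h) (hΦ : 𝓜.IsHol Φ U) (hz : z ∈ U)
    (hu : 𝓜.C2At u (Φ z)) : lap 𝓜 h u (Φ z) = lapP (h Φ z) (u ∘ Φ) z := by
  have hx := CMfd.mem_carrier hΦ hz
  have hP := CMfd.isHol_pΦ 𝓜 hx
  have hc : 𝓜.co (Φ z) ∈ 𝓜.pU (Φ z) ∩ 𝓜.pΦ (Φ z) ⁻¹' (Φ '' U) :=
    ⟨CMfd.co_mem 𝓜 hx, ⟨z, hz, (CMfd.pΦ_co 𝓜 hx).symm⟩⟩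
  have hτ : (Function.invFunOn Φ U ∘ 𝓜.pΦ (Φ z)) (𝓜.co (Φ z)) = z :=
    CMfd.trans_eq hP hΦ hz (CMfd.pΦ_co 𝓜 hx)
  rw [lap_def, lapP_congr _ (CMfd.eventually_comp_eq u hP hΦ hc),
    hh.toIsHForm.compat_trans hP hΦ hc]
  have h1 := lapP_comp_hol (f := u ∘ Φ) (h Φ ((Function.invFunOn Φ U ∘ 𝓜.pΦ (Φ z)) (𝓜.co (Φ z))))
    (Function.invFunOn Φ U ∘ 𝓜.pΦ (Φ z)) (CMfd.trans_eventually_differentiableAt hP hΦ hc)
    (CMfd.isUnit_jac_trans hP hΦ hc) (by rw [hτ]; exact (CMfd.c2At_iff hΦ hz).1 hu)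
  rw [hτ] at h1 ⊢
  exact h1

/-- germs. -/
theorem lap_congr (h : HFam V ι) (hx : x ∈ 𝓜.carrier)
    (huv : ∀ᶠ y in 𝓝[𝓜.carrier] x, u y = v y) : lap 𝓜 h u x = lap 𝓜 h v x := by
  exact lapP_congr _ (vc_eventuallyEq_chosen hx huv)

theorem lap_congr_of_eqOn (h : HFam V ι) (huv : Set.EqOn u v 𝓜.carrier) (hx : x ∈ 𝓜.carrier) :
    lap 𝓜 h u x = lap 𝓜 h v x := by
  exact lap_congr h hx (eventually_nhdsWithin_of_forall huv)

theorem gradInner_congr_left (h : HFam V ι) (hx : x ∈ 𝓜.carrier)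
    (huv : ∀ᶠ y in 𝓝[𝓜.carrier] x, u y = v y) :
    gradInner 𝓜 h u w x = gradInner 𝓜 h v w x := by
  rw [gradInner_def, gradInner_def, grad10_congr (vc_eventuallyEq_chosen hx huv)]

theorem gradInner_congr_right (h : HFam V ι) (hx : x ∈ 𝓜.carrier)
    (huv : ∀ᶠ y in 𝓝[𝓜.carrier] x, u y = v y) :
    gradInner 𝓜 h w u x = gradInner 𝓜 h w v x := by
  rw [gradInner_def, gradInner_def, grad10_congr (vc_eventuallyEq_chosen hx huv)]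

theorem gradSq_congr (h : HFam V ι) (hx : x ∈ 𝓜.carrier)
    (huv : ∀ᶠ y in 𝓝[𝓜.carrier] x, u y = v y) : gradSq 𝓜 h u x = gradSq 𝓜 h v x := by
  rw [gradSq_def, gradSq_def, grad10_congr (vc_eventuallyEq_chosen hx huv)]

theorem vc_co_mem_restr {O : Set V} (hx : x ∈ 𝓜.carrier ∩ O) :
    𝓜.co x ∈ 𝓜.pU x ∩ 𝓜.pΦ x ⁻¹' O :=
  ⟨CMfd.co_mem 𝓜 hx.1, by
    show 𝓜.pΦ x (𝓜.co x) ∈ O
    rw [CMfd.pΦ_co 𝓜 hx.1]
    exact hx.2⟩

/-- open submanifolds. -/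
theorem lap_restr (hh : IsMetric 𝓜 h) {O : Set V} (hO : IsOpen O) (hx : x ∈ 𝓜.carrier ∩ O)
    (hu : 𝓜.C2At u x) : lap (𝓜.restr O hO) h u x = lap 𝓜 h u x := by
  have hp := CMfd.isHol_restr_inter hO (CMfd.isHol_pΦ 𝓜 hx.1)
  have hc := vc_co_mem_restr hx
  have h1 := lap_eq_of_c2At (u := u) (hh.restr hO) hp hc ((CMfd.c2At_iff hp hc).2 hu)
  rw [CMfd.pΦ_co 𝓜 hx.1] at h1
  exact h1

theorem gradInner_restr (hh : IsMetric 𝓜 h) {O : Set V} (hO : IsOpen O)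
    (hx : x ∈ 𝓜.carrier ∩ O) (u v : V → ℝ) :
    gradInner (𝓜.restr O hO) h u v x = gradInner 𝓜 h u v x := by
  exact CMfd.scal_restr (invariant_gradInnerF hh u v) hO hx

theorem CMfd.c2At_restr {O : Set V} (hO : IsOpen O) (hx : x ∈ 𝓜.carrier ∩ O) :
    (𝓜.restr O hO).C2At u x ↔ 𝓜.C2At u x := by
  have hp := CMfd.isHol_restr_inter hO (CMfd.isHol_pΦ 𝓜 hx.1)
  have h1 := CMfd.c2At_iff (u := u) hp (vc_co_mem_restr hx)
  rw [CMfd.pΦ_co 𝓜 hx.1] at h1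
  exact h1

theorem CMfd.diffAt_restr {O : Set V} (hO : IsOpen O) (hx : x ∈ 𝓜.carrier ∩ O) :
    (𝓜.restr O hO).DiffAt u x ↔ 𝓜.DiffAt u x := by
  have hp := CMfd.isHol_restr_inter hO (CMfd.isHol_pΦ 𝓜 hx.1)
  have h1 := CMfd.diffAt_iff (u := u) hp (vc_co_mem_restr hx)
  rw [CMfd.pΦ_co 𝓜 hx.1] at h1
  exact h1

/-- smoothness. -/
theorem smooth_gradInner (hh : IsMetric 𝓜 h) (hu : 𝓜.Smooth u) (hv : 𝓜.Smooth v) :
    𝓜.Smooth (gradInner 𝓜 h u v) := by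
  exact CMfd.smooth_scal (invariant_gradInnerF hh u v) fun Φ U hΦ =>
    contDiffOn_dualIP_grad10 (CMfd.isOpen_dom hΦ) (fun j k => hh.smooth hΦ j k)
      (fun w hw => hh.det_ne_zero hΦ hw) (hu Φ U hΦ) (hv Φ U hΦ)

end inv

/-! ### 3. rules -/

section rules

/-! #### the pairing -/

theorem gradInner_self (𝓜 : CMfd V ι) (h : HFam V ι) (u : V → ℝ) (x : V) :
    gradInner 𝓜 h u u x = gradSq 𝓜 h u x := rfl

theorem gradInner_comm (hh : IsMetric 𝓜 h) (hx : x ∈ 𝓜.carrier) (u v : V → ℝ) :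
    gradInner 𝓜 h u v x = gradInner 𝓜 h v u x := by
  exact dualIP_comm (hh.posDef_chosen hx).isHermitian _ _

/-- Cauchy-Schwarz. -/
theorem gradInner_sq_le (hh : IsMetric 𝓜 h) (hx : x ∈ 𝓜.carrier) (u v : V → ℝ) :
    gradInner 𝓜 h u v x ^ 2 ≤ gradSq 𝓜 h u x * gradSq 𝓜 h v x := by
  exact dualIP_sq_le (hh.posDef_chosen hx) _ _

theorem abs_gradInner_le (hh : IsMetric 𝓜 h) (hx : x ∈ 𝓜.carrier) (u v : V → ℝ) :
    |gradInner 𝓜 h u v x| ≤ Real.sqrt (gradSq 𝓜 h u x) * Real.sqrt (gradSq 𝓜 h v x) := by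
  exact abs_dualIP_le (hh.posDef_chosen hx) _ _

/-- Young. -/
theorem two_abs_gradInner_le (hh : IsMetric 𝓜 h) (hx : x ∈ 𝓜.carrier) (u v : V → ℝ) {ε : ℝ}
    (hε : 0 < ε) :
    2 * |gradInner 𝓜 h u v x| ≤ ε * gradSq 𝓜 h u x + ε⁻¹ * gradSq 𝓜 h v x := by
  exact two_abs_dualIP_le (hh.posDef_chosen hx) _ _ hε

theorem gradInner_const_left (𝓜 : CMfd V ι) (h : HFam V ι) (c : ℝ) (v : V → ℝ) (x : V) :
    gradInner 𝓜 h (fun _ => c) v x = 0 := by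
  have e : grad10 ((fun _ : V => c) ∘ 𝓜.pΦ x) (𝓜.co x) = 0 := grad10_const c
  rw [gradInner_def, e, dualIP_zero_left]

theorem gradInner_const_right (𝓜 : CMfd V ι) (h : HFam V ι) (u : V → ℝ) (c : ℝ) (x : V) :
    gradInner 𝓜 h u (fun _ => c) x = 0 := by
  have e : grad10 ((fun _ : V => c) ∘ 𝓜.pΦ x) (𝓜.co x) = 0 := grad10_const c
  rw [gradInner_def, e, dualIP_zero_right]

theorem gradInner_add_left (h : HFam V ι) (hu : 𝓜.DiffAt u x) (hv : 𝓜.DiffAt v x) (w : V → ℝ) :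
    gradInner 𝓜 h (fun y => u y + v y) w x = gradInner 𝓜 h u w x + gradInner 𝓜 h v w x := by
  have e : grad10 ((fun y => u y + v y) ∘ 𝓜.pΦ x) (𝓜.co x) =
      grad10 (u ∘ 𝓜.pΦ x) (𝓜.co x) + grad10 (v ∘ 𝓜.pΦ x) (𝓜.co x) := grad10_add hu hv
  rw [gradInner_def, e, dualIP_add_left]
  rfl

theorem gradInner_add_right (h : HFam V ι) (hu : 𝓜.DiffAt u x) (hv : 𝓜.DiffAt v x) (w : V → ℝ) :
    gradInner 𝓜 h w (fun y => u y + v y) x = gradInner 𝓜 h w u x + gradInner 𝓜 h w v x := by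
  have e : grad10 ((fun y => u y + v y) ∘ 𝓜.pΦ x) (𝓜.co x) =
      grad10 (u ∘ 𝓜.pΦ x) (𝓜.co x) + grad10 (v ∘ 𝓜.pΦ x) (𝓜.co x) := grad10_add hu hv
  rw [gradInner_def, e, dualIP_add_right]
  rfl

theorem gradInner_sub_left (h : HFam V ι) (hu : 𝓜.DiffAt u x) (hv : 𝓜.DiffAt v x) (w : V → ℝ) :
    gradInner 𝓜 h (fun y => u y - v y) w x = gradInner 𝓜 h u w x - gradInner 𝓜 h v w x := by
  have e : grad10 ((fun y => u y - v y) ∘ 𝓜.pΦ x) (𝓜.co x) =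
      grad10 (u ∘ 𝓜.pΦ x) (𝓜.co x) - grad10 (v ∘ 𝓜.pΦ x) (𝓜.co x) := grad10_sub hu hv
  rw [gradInner_def, e, dualIP_sub_left]
  rfl

theorem gradInner_sub_right (h : HFam V ι) (hu : 𝓜.DiffAt u x) (hv : 𝓜.DiffAt v x) (w : V → ℝ) :
    gradInner 𝓜 h w (fun y => u y - v y) x = gradInner 𝓜 h w u x - gradInner 𝓜 h w v x := by
  have e : grad10 ((fun y => u y - v y) ∘ 𝓜.pΦ x) (𝓜.co x) =
      grad10 (u ∘ 𝓜.pΦ x) (𝓜.co x) - grad10 (v ∘ 𝓜.pΦ x) (𝓜.co x) := grad10_sub hu hv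
  rw [gradInner_def, e, dualIP_sub_right]
  rfl

theorem gradInner_neg_left (𝓜 : CMfd V ι) (h : HFam V ι) (u w : V → ℝ) (x : V) :
    gradInner 𝓜 h (fun y => - u y) w x = - gradInner 𝓜 h u w x := by
  have e : grad10 ((fun y => - u y) ∘ 𝓜.pΦ x) (𝓜.co x) = - grad10 (u ∘ 𝓜.pΦ x) (𝓜.co x) :=
    grad10_neg
  rw [gradInner_def, e, dualIP_neg_left]
  rfl

theorem gradInner_neg_right (𝓜 : CMfd V ι) (h : HFam V ι) (u w : V → ℝ) (x : V) :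
    gradInner 𝓜 h w (fun y => - u y) x = - gradInner 𝓜 h w u x := by
  have e : grad10 ((fun y => - u y) ∘ 𝓜.pΦ x) (𝓜.co x) = - grad10 (u ∘ 𝓜.pΦ x) (𝓜.co x) :=
    grad10_neg
  rw [gradInner_def, e, dualIP_neg_right]
  rfl

theorem gradInner_const_mul_left (h : HFam V ι) (c : ℝ) (hu : 𝓜.DiffAt u x) (w : V → ℝ) :
    gradInner 𝓜 h (fun y => c * u y) w x = c * gradInner 𝓜 h u w x := by
  have e : grad10 ((fun y => c * u y) ∘ 𝓜.pΦ x) (𝓜.co x) =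
      (c : ℂ) • grad10 (u ∘ 𝓜.pΦ x) (𝓜.co x) := grad10_const_mul c hu
  rw [gradInner_def, e, dualIP_smul_left]
  rfl

theorem gradInner_const_mul_right (h : HFam V ι) (c : ℝ) (hu : 𝓜.DiffAt u x) (w : V → ℝ) :
    gradInner 𝓜 h w (fun y => c * u y) x = c * gradInner 𝓜 h w u x := by
  have e : grad10 ((fun y => c * u y) ∘ 𝓜.pΦ x) (𝓜.co x) =
      (c : ℂ) • grad10 (u ∘ 𝓜.pΦ x) (𝓜.co x) := grad10_const_mul c hu
  rw [gradInner_def, e, dualIP_smul_right]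
  rfl

theorem gradInner_sum_left {α : Type} (h : HFam V ι) (s : Finset α) {F : α → V → ℝ}
    (hF : ∀ a ∈ s, 𝓜.DiffAt (F a) x) (w : V → ℝ) :
    gradInner 𝓜 h (fun y => ∑ a ∈ s, F a y) w x = ∑ a ∈ s, gradInner 𝓜 h (F a) w x := by
  have e : grad10 ((fun y => ∑ a ∈ s, F a y) ∘ 𝓜.pΦ x) (𝓜.co x) =
      ∑ a ∈ s, grad10 (F a ∘ 𝓜.pΦ x) (𝓜.co x) :=
    grad10_sum s (fun a => F a ∘ 𝓜.pΦ x) hF
  rw [gradInner_def, e, dualIP_sum_left]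
  rfl

theorem gradInner_sum_right {α : Type} (h : HFam V ι) (s : Finset α) {F : α → V → ℝ}
    (hF : ∀ a ∈ s, 𝓜.DiffAt (F a) x) (w : V → ℝ) :
    gradInner 𝓜 h w (fun y => ∑ a ∈ s, F a y) x = ∑ a ∈ s, gradInner 𝓜 h w (F a) x := by
  have e : grad10 ((fun y => ∑ a ∈ s, F a y) ∘ 𝓜.pΦ x) (𝓜.co x) =
      ∑ a ∈ s, grad10 (F a ∘ 𝓜.pΦ x) (𝓜.co x) :=
    grad10_sum s (fun a => F a ∘ 𝓜.pΦ x) hF
  rw [gradInner_def, e, dualIP_sum_right]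
  rfl

theorem gradInner_mul_left (h : HFam V ι) (hx : x ∈ 𝓜.carrier) (hu : 𝓜.DiffAt u x)
    (hv : 𝓜.DiffAt v x) (w : V → ℝ) :
    gradInner 𝓜 h (fun y => u y * v y) w x =
      u x * gradInner 𝓜 h v w x + v x * gradInner 𝓜 h u w x := by
  have e := dualIP_grad10_mul_left (u := u ∘ 𝓜.pΦ x) (v := v ∘ 𝓜.pΦ x) (h (𝓜.pΦ x) (𝓜.co x))
    hu hv (grad10 (w ∘ 𝓜.pΦ x) (𝓜.co x))
  simp only [Function.comp_apply, CMfd.pΦ_co 𝓜 hx] at e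
  exact e

theorem gradInner_mul_right (h : HFam V ι) (hx : x ∈ 𝓜.carrier) (hu : 𝓜.DiffAt u x)
    (hv : 𝓜.DiffAt v x) (w : V → ℝ) :
    gradInner 𝓜 h w (fun y => u y * v y) x =
      u x * gradInner 𝓜 h w v x + v x * gradInner 𝓜 h w u x := by
  have e := dualIP_grad10_mul_right (u := u ∘ 𝓜.pΦ x) (v := v ∘ 𝓜.pΦ x) (h (𝓜.pΦ x) (𝓜.co x))
    hu hv (grad10 (w ∘ 𝓜.pΦ x) (𝓜.co x))
  simp only [Function.comp_apply, CMfd.pΦ_co 𝓜 hx] at e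
  exact e

theorem gradInner_comp_left (h : HFam V ι) (hx : x ∈ 𝓜.carrier) {χ : ℝ → ℝ}
    (hχ : DifferentiableAt ℝ χ (u x)) (hu : 𝓜.DiffAt u x) (w : V → ℝ) :
    gradInner 𝓜 h (fun y => χ (u y)) w x = deriv χ (u x) * gradInner 𝓜 h u w x := by
  have e := dualIP_grad10_comp_left (u := u ∘ 𝓜.pΦ x) (h (𝓜.pΦ x) (𝓜.co x)) χ
    (by rw [Function.comp_apply, CMfd.pΦ_co 𝓜 hx]; exact hχ) hu (grad10 (w ∘ 𝓜.pΦ x) (𝓜.co x))
  simp only [Function.comp_apply, CMfd.pΦ_co 𝓜 hx] at e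
  exact e

theorem gradInner_comp_right (h : HFam V ι) (hx : x ∈ 𝓜.carrier) {χ : ℝ → ℝ}
    (hχ : DifferentiableAt ℝ χ (u x)) (hu : 𝓜.DiffAt u x) (w : V → ℝ) :
    gradInner 𝓜 h w (fun y => χ (u y)) x = deriv χ (u x) * gradInner 𝓜 h w u x := by
  have e := dualIP_grad10_comp_right (u := u ∘ 𝓜.pΦ x) (h (𝓜.pΦ x) (𝓜.co x)) χ
    (by rw [Function.comp_apply, CMfd.pΦ_co 𝓜 hx]; exact hχ) hu (grad10 (w ∘ 𝓜.pΦ x) (𝓜.co x))
  simp only [Function.comp_apply, CMfd.pΦ_co 𝓜 hx] at e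
  exact e

/-! #### the squared gradient -/

theorem gradSq_const (𝓜 : CMfd V ι) (h : HFam V ι) (c : ℝ) (x : V) :
    gradSq 𝓜 h (fun _ => c) x = 0 := by
  exact gradInner_const_left 𝓜 h c _ x

theorem gradSq_neg (𝓜 : CMfd V ι) (h : HFam V ι) (u : V → ℝ) (x : V) :
    gradSq 𝓜 h (fun y => - u y) x = gradSq 𝓜 h u x := by
  rw [← gradInner_self, gradInner_neg_left, gradInner_neg_right, neg_neg, gradInner_self]

theorem gradSq_const_mul (h : HFam V ι) (c : ℝ) (hu : 𝓜.DiffAt u x) :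
    gradSq 𝓜 h (fun y => c * u y) x = c ^ 2 * gradSq 𝓜 h u x := by
  rw [← gradInner_self, gradInner_const_mul_left h c hu, gradInner_const_mul_right h c hu,
    gradInner_self]
  ring

theorem gradSq_add_const (𝓜 : CMfd V ι) (h : HFam V ι) (u : V → ℝ) (c : ℝ) (x : V) :
    gradSq 𝓜 h (fun y => u y + c) x = gradSq 𝓜 h u x := by
  have e : grad10 ((fun y => u y + c) ∘ 𝓜.pΦ x) (𝓜.co x) = grad10 (u ∘ 𝓜.pΦ x) (𝓜.co x) :=
    grad10_add_const' _ c _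
  rw [gradSq_def, e]
  rfl

theorem gradSq_add (hh : IsMetric 𝓜 h) (hx : x ∈ 𝓜.carrier) (hu : 𝓜.DiffAt u x)
    (hv : 𝓜.DiffAt v x) :
    gradSq 𝓜 h (fun y => u y + v y) x =
      gradSq 𝓜 h u x + 2 * gradInner 𝓜 h u v x + gradSq 𝓜 h v x := by
  have e : grad10 ((fun y => u y + v y) ∘ 𝓜.pΦ x) (𝓜.co x) =
      grad10 (u ∘ 𝓜.pΦ x) (𝓜.co x) + grad10 (v ∘ 𝓜.pΦ x) (𝓜.co x) := grad10_add hu hv
  rw [gradSq_def, e, dualIP_add_self (hh.posDef_chosen hx).isHermitian]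
  rfl

theorem gradSq_add_le (hh : IsMetric 𝓜 h) (hx : x ∈ 𝓜.carrier) (hu : 𝓜.DiffAt u x)
    (hv : 𝓜.DiffAt v x) :
    gradSq 𝓜 h (fun y => u y + v y) x ≤ 2 * gradSq 𝓜 h u x + 2 * gradSq 𝓜 h v x := by
  rw [gradSq_add hh hx hu hv]
  have h1 := two_abs_gradInner_le hh hx u v one_pos
  have h2 := le_abs_self (gradInner 𝓜 h u v x)
  rw [inv_one, one_mul, one_mul] at h1
  linarith

/-- triangle inequality for `|∂u|`. -/
theorem sqrt_gradSq_add_le (hh : IsMetric 𝓜 h) (hx : x ∈ 𝓜.carrier) (hu : 𝓜.DiffAt u x)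
    (hv : 𝓜.DiffAt v x) :
    Real.sqrt (gradSq 𝓜 h (fun y => u y + v y) x) ≤
      Real.sqrt (gradSq 𝓜 h u x) + Real.sqrt (gradSq 𝓜 h v x) := by
  have hu0 : 0 ≤ gradSq 𝓜 h u x := dualIP_self_nonneg (hh.posDef_chosen hx) _
  have hv0 : 0 ≤ gradSq 𝓜 h v x := dualIP_self_nonneg (hh.posDef_chosen hx) _
  apply Real.sqrt_le_iff.2
  refine ⟨add_nonneg (Real.sqrt_nonneg _) (Real.sqrt_nonneg _), ?_⟩
  rw [gradSq_add hh hx hu hv, add_sq, Real.sq_sqrt hu0, Real.sq_sqrt hv0]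
  have h1 := abs_gradInner_le hh hx u v
  have h2 := le_abs_self (gradInner 𝓜 h u v x)
  nlinarith

theorem gradSq_mul (hh : IsMetric 𝓜 h) (hx : x ∈ 𝓜.carrier) (hu : 𝓜.DiffAt u x)
    (hv : 𝓜.DiffAt v x) :
    gradSq 𝓜 h (fun y => u y * v y) x =
      u x ^ 2 * gradSq 𝓜 h v x + 2 * (u x * v x) * gradInner 𝓜 h u v x
        + v x ^ 2 * gradSq 𝓜 h u x := by
  rw [← gradInner_self, gradInner_mul_left h hx hu hv, gradInner_mul_right h hx hu hv,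
    gradInner_mul_right h hx hu hv, gradInner_self, gradInner_self, gradInner_comm hh hx v u]
  ring

theorem gradSq_comp (h : HFam V ι) (hx : x ∈ 𝓜.carrier) {χ : ℝ → ℝ}
    (hχ : DifferentiableAt ℝ χ (u x)) (hu : 𝓜.DiffAt u x) :
    gradSq 𝓜 h (fun y => χ (u y)) x = deriv χ (u x) ^ 2 * gradSq 𝓜 h u x := by
  rw [← gradInner_self, gradInner_comp_left h hx hχ hu, gradInner_comp_right h hx hχ hu,
    gradInner_self]
  ring

theorem gradSq_exp (h : HFam V ι) (hx : x ∈ 𝓜.carrier) (hu : 𝓜.DiffAt u x) :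
    gradSq 𝓜 h (fun y => Real.exp (u y)) x = Real.exp (u x) ^ 2 * gradSq 𝓜 h u x := by
  rw [gradSq_comp h hx Real.differentiableAt_exp hu, Real.deriv_exp]

theorem gradSq_log (h : HFam V ι) (hx : x ∈ 𝓜.carrier) (hu : 𝓜.DiffAt u x) (h0 : u x ≠ 0) :
    gradSq 𝓜 h (fun y => Real.log (u y)) x = gradSq 𝓜 h u x / u x ^ 2 := by
  rw [gradSq_comp h hx (Real.differentiableAt_log h0) hu, Real.deriv_log]
  field_simp

theorem gradInner_smulF (h : HFam V ι) {c : V → ℝ} (hx : x ∈ 𝓜.carrier) (hc : c x ≠ 0)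
    (u v : V → ℝ) : gradInner 𝓜 (smulF c h) u v x = (c x)⁻¹ * gradInner 𝓜 h u v x := by
  have e := dualIP_smul_matrix (h (𝓜.pΦ x) (𝓜.co x)) (c := c (𝓜.pΦ x (𝓜.co x)))
    (by rw [CMfd.pΦ_co 𝓜 hx]; exact hc) (grad10 (u ∘ 𝓜.pΦ x) (𝓜.co x))
    (grad10 (v ∘ 𝓜.pΦ x) (𝓜.co x))
  rw [CMfd.pΦ_co 𝓜 hx] at e
  rw [gradInner_def, gradInner_def, ← e]
  simp only [smulF, CMfd.pΦ_co 𝓜 hx]

/-! #### the Laplacian -/

theorem lap_const (𝓜 : CMfd V ι) (h : HFam V ι) (c : ℝ) (x : V) :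
    lap 𝓜 h (fun _ => c) x = 0 := by
  exact lapP_const _ c

theorem lap_add (h : HFam V ι) (hu : 𝓜.C2At u x) (hv : 𝓜.C2At v x) :
    lap 𝓜 h (fun y => u y + v y) x = lap 𝓜 h u x + lap 𝓜 h v x := by
  exact lapP_add _ hu hv

theorem lap_sub (h : HFam V ι) (hu : 𝓜.C2At u x) (hv : 𝓜.C2At v x) :
    lap 𝓜 h (fun y => u y - v y) x = lap 𝓜 h u x - lap 𝓜 h v x := by
  exact lapP_sub _ hu hv

theorem lap_neg (𝓜 : CMfd V ι) (h : HFam V ι) (u : V → ℝ) (x : V) :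
    lap 𝓜 h (fun y => - u y) x = - lap 𝓜 h u x := by
  exact lapP_neg _

theorem lap_const_mul (h : HFam V ι) (c : ℝ) (hu : 𝓜.C2At u x) :
    lap 𝓜 h (fun y => c * u y) x = c * lap 𝓜 h u x := by
  exact lapP_const_mul _ c hu

theorem lap_add_const (𝓜 : CMfd V ι) (h : HFam V ι) (u : V → ℝ) (c : ℝ) (x : V) :
    lap 𝓜 h (fun y => u y + c) x = lap 𝓜 h u x := by
  exact lapP_add_const _ c

theorem lap_sum {α : Type} (h : HFam V ι) (s : Finset α) {F : α → V → ℝ}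
    (hF : ∀ a ∈ s, 𝓜.C2At (F a) x) :
    lap 𝓜 h (fun y => ∑ a ∈ s, F a y) x = ∑ a ∈ s, lap 𝓜 h (F a) x := by
  exact lapP_sum _ s (fun a => F a ∘ 𝓜.pΦ x) hF

/-- Leibniz rule. -/
theorem lap_mul (hh : IsMetric 𝓜 h) (hx : x ∈ 𝓜.carrier) (hu : 𝓜.C2At u x) (hv : 𝓜.C2At v x) :
    lap 𝓜 h (fun y => u y * v y) x =
      u x * lap 𝓜 h v x + v x * lap 𝓜 h u x + 2 * gradInner 𝓜 h u v x := by
  have e := lapP_mul (f := u ∘ 𝓜.pΦ x) (g := v ∘ 𝓜.pΦ x) (hh.posDef_chosen hx).isHermitian hu hv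
  simp only [Function.comp_apply, CMfd.pΦ_co 𝓜 hx] at e
  exact e

/-- chain rule. -/
theorem lap_comp (h : HFam V ι) (hx : x ∈ 𝓜.carrier) {χ : ℝ → ℝ} (hχ : ContDiffAt ℝ 2 χ (u x))
    (hu : 𝓜.C2At u x) :
    lap 𝓜 h (fun y => χ (u y)) x =
      deriv χ (u x) * lap 𝓜 h u x + deriv (deriv χ) (u x) * gradSq 𝓜 h u x := by
  have e := lapP_comp_real (f := u ∘ 𝓜.pΦ x) (h (𝓜.pΦ x) (𝓜.co x)) χ
    (by rw [Function.comp_apply, CMfd.pΦ_co 𝓜 hx]; exact hχ) hu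
  simp only [Function.comp_apply, CMfd.pΦ_co 𝓜 hx] at e
  exact e

theorem lap_exp (h : HFam V ι) (hx : x ∈ 𝓜.carrier) (hu : 𝓜.C2At u x) :
    lap 𝓜 h (fun y => Real.exp (u y)) x = Real.exp (u x) * (lap 𝓜 h u x + gradSq 𝓜 h u x) := by
  have e := lapP_exp (f := u ∘ 𝓜.pΦ x) (h (𝓜.pΦ x) (𝓜.co x)) hu
  simp only [Function.comp_apply, CMfd.pΦ_co 𝓜 hx] at e
  exact e

theorem lap_log (h : HFam V ι) (hx : x ∈ 𝓜.carrier) (hu : 𝓜.C2At u x) (h0 : u x ≠ 0) :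
    lap 𝓜 h (fun y => Real.log (u y)) x = lap 𝓜 h u x / u x - gradSq 𝓜 h u x / u x ^ 2 := by
  have e := lapP_log (f := u ∘ 𝓜.pΦ x) (h (𝓜.pΦ x) (𝓜.co x)) hu
    (by rw [Function.comp_apply, CMfd.pΦ_co 𝓜 hx]; exact h0)
  simp only [Function.comp_apply, CMfd.pΦ_co 𝓜 hx] at e
  exact e

theorem lap_sq (h : HFam V ι) (hx : x ∈ 𝓜.carrier) (hu : 𝓜.C2At u x) :
    lap 𝓜 h (fun y => u y ^ 2) x = 2 * u x * lap 𝓜 h u x + 2 * gradSq 𝓜 h u x := by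
  have e := lapP_sq (f := u ∘ 𝓜.pΦ x) (h (𝓜.pΦ x) (𝓜.co x)) hu
  simp only [Function.comp_apply, CMfd.pΦ_co 𝓜 hx] at e
  exact e

theorem lap_sqrt (h : HFam V ι) (hx : x ∈ 𝓜.carrier) (hu : 𝓜.C2At u x) (h0 : 0 < u x) :
    lap 𝓜 h (fun y => Real.sqrt (u y)) x =
      lap 𝓜 h u x / (2 * Real.sqrt (u x)) - gradSq 𝓜 h u x / (4 * u x * Real.sqrt (u x)) := by
  have e := lapP_sqrt (f := u ∘ 𝓜.pΦ x) (h (𝓜.pΦ x) (𝓜.co x)) hu
    (by rw [Function.comp_apply, CMfd.pΦ_co 𝓜 hx]; exact h0)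
  simp only [Function.comp_apply, CMfd.pΦ_co 𝓜 hx] at e
  exact e

theorem lap_rpow (h : HFam V ι) (hx : x ∈ 𝓜.carrier) (p : ℝ) (hu : 𝓜.C2At u x) (h0 : 0 < u x) :
    lap 𝓜 h (fun y => u y ^ p) x =
      p * u x ^ (p - 1) * lap 𝓜 h u x + p * (p - 1) * u x ^ (p - 2) * gradSq 𝓜 h u x := by
  have e := lapP_rpow (f := u ∘ 𝓜.pΦ x) (h (𝓜.pΦ x) (𝓜.co x)) p hu
    (by rw [Function.comp_apply, CMfd.pΦ_co 𝓜 hx]; exact h0)
  simp only [Function.comp_apply, CMfd.pΦ_co 𝓜 hx] at e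
  exact e

theorem lap_smulF (h : HFam V ι) {c : V → ℝ} (hx : x ∈ 𝓜.carrier) (hc : c x ≠ 0) (u : V → ℝ) :
    lap 𝓜 (smulF c h) u x = (c x)⁻¹ * lap 𝓜 h u x := by
  have e := lapP_smul_matrix (h (𝓜.pΦ x) (𝓜.co x)) (c := c (𝓜.pΦ x (𝓜.co x)))
    (by rw [CMfd.pΦ_co 𝓜 hx]; exact hc) (u ∘ 𝓜.pΦ x) (𝓜.co x)
  rw [CMfd.pΦ_co 𝓜 hx] at e
  rw [lap_def, lap_def, ← e]
  simp only [smulF, CMfd.pΦ_co 𝓜 hx]

/-- `dd u ≥ 0` at the point implies `Δu ≥ 0`. -/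
theorem lap_nonneg_of_ddc (hh : IsMetric 𝓜 h) (hx : x ∈ 𝓜.carrier)
    (hpsd : (ddc u (𝓜.pΦ x) (𝓜.co x)).PosSemidef) : 0 ≤ lap 𝓜 h u x := by
  exact lapP_nonneg (hh.posDef_chosen hx) hpsd

end rules

end Claimed.Agent.R316
end
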