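/- Packed by merge_tool.py (helper293): 4 modules of Claimed.Agent.R316 in one file, same declarations.
   Old modules, in this order: Base.Geod.Api, Base.Vol.Part, Base.Vol.Exist, S7.Trans.AbsPath -/
import Claimed.Agent.R316.Base.Geod.HR
import Claimed.Agent.R316.Base.Geod.Par
import Claimed.Agent.R316.CM.SmoothAlg
import Mathlib
import Claimed.Agent.R316.Pack022

/- ===== packed: Claimed.Agent.R316.Base.Geod.Api ===== -/
section
/-!
# Row 316 base layer, `BP-G4`: geodesics, Hopf-Rinow, rays, parallel transport (EXPORT FILE = aggregator)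

Statements written by helper97; sub-captain of the package: helper256.  Consumers (G5, G14, Section 7, S2): `import Claimed.Agent.R316.Base.Geod.Api`.

No completeness is assumed: compactness of ONE closed ball replaces it (needed for the incomplete metrics `Φ^* g` on a ball and for `h_t` before its completeness is known).
No closedness of the carrier is assumed anywhere in `Base/Geod/`.

ROUTE (no equality case of the Gauss lemma, no convexity radius, no manifold level exponential map): chart level exponential map and uniformly normal neighbourhoods (`BP-G1`, `RGeo/Exp.lean`) ⟹ calibration ⟹ radial geodesics are minimizing (`Ball.lean`)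
⟹ NO CORNER lemma (first order expansion of `hdist`, `Speed.lean`) + injectivity of `exp` ⟹ points between `x` and `y` lie on the minimizing geodesic ⟹ metric segments (`exists_metric_segment`, `BP-G0`) are geodesics (`HR.lean`).

WHERE THE STATEMENTS LIVE (leaves `G4-*` in the table `subtask`, recipes in the file headers):
* `Basic.lean`            `IsGeodesic.mono`, `IsGeodesic.comp_affine`
* `Amb.lean`   (G4-AMB)   `ambJ_param`, `ambD_param`, `ambBisec_param`, `exists_ambBisec_lower`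
* `Loc.lean`   (G4-LOC)   `IsGeodesic.congr/.of_local/.union/.contDiffAt/.differentiableAt/.eventually_mem/.deriv_mem_tangent/.contDiffOn_deriv/.coord/.ambQ_coord`, `isGeodesic_of_isGeod`, `geod_deriv_comp`
* `Uniq.lean`  (G4-UNIQ)  `geod_exists_chart_nhds`, `IsGeodesic.ambQ_const`, `exists_geodesic`, `IsGeodesic.eqOn/.glue/.shift/.reverse`
* `Ext.lean`   (G4-EXT, G4-UNIV) `geod_exists_uniform`, `geod_extend_right`, `IsGeodesic.extend`, `geod_union`, `geod_mem_hcball`, `exists_geodesic_univ`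
* `Speed.lean` (G4-SPEED) `geod_tendsto_hdist_div`, `ambQ_parallelogram`, `geod_no_corner`, `geod_speed_of_isometric`
* `Min.lean`   (G4-MIN)   `IsGeodesic.hdist_le`, `isMinGeod_of_unit`, `IsMinGeod.ambQ_eq_one/.mem_carrier/.deriv_mem_tangent/.sub/.reverse`
* `Ball.lean`  (G4-CALIB, G4-BALL-A, G4-BALL-B) `geod_calib`, `geod_isGeodesic_rexp`, `geod_eq_rexp`, `geod_hdist_rexp`, `geod_exists_normal`
* `HR.lean`    (G4-SEG, G4-RAY, G4-EXIT) `geod_between`, `geod_segment_local`, `isMinGeod_of_metric_segment`, `exists_minGeod(_of_proper)`, `geod_exists_metric_ray`, `exists_ray`, `exists_exit_segment`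
* `Par.lean`   (G4-PAR-A/B/C) `IsParallelAlong.mono/.congr/.of_local/.coord`, `gpar_contDiffOn_coVec`, `isParallelAlong_of_isParallel`, `IsParallelAlong.eqOn/.glue`, `gpar_exists_local`, `exists_parallelAlong`,
                          `IsParallelAlong.ambB_const/.ambJ/.add/.smul`, `IsGeodesic.isParallelAlong_deriv`
-/
end

/- ===== packed: Claimed.Agent.R316.Base.Vol.Part ===== -/
section
/-!
# Row 316, G6-Part: ambient bumps, finite partitions of unity on compact sets, algebra of `CSupp`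

Statement file by helper55.  `V` finite dimensional (ambient `ContDiffBump`s).

* `CMfd.exists_bump`: `CMfd.exists_centred_in` gives `Φ` on `ball 0 (2r)`; `Φ '' ball 0 r = carrier ∩ O'`
  (`IsParam.exists_isOpen_image`); take a `ContDiffBump` at `x` with `closedBall x rOut ⊆ O' ∩ O`.
* `CMfd.exists_finite_partition`: bumps `b_1 … b_m`, `b_i = 1` on open `N_i`, `K ⊆ ⋃ N_i`;
  `χ_i = b_i ∏_{j<i} (1 - b_j)`, `∑ χ_i = 1 - ∏ (1 - b_i)` (no division).
* supports: if `φ = 0` on `carrier \ K`, `K` compact, then near every point of `carrier \ K` (in any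
  parametrisation) `φ ∘ Φ` vanishes identically, so all derivatives vanish.
-/

set_option autoImplicit false
set_option linter.unusedSectionVars false
open scoped ContDiff ComplexOrder Topology

namespace Claimed.Agent.R316

variable {V : Type} [NormedAddCommGroup V] [NormedSpace ℝ V]
variable {ι : Type} [Fintype ι]
variable {𝓜 : CMfd V ι}

/-! ### algebra of `CSupp` -/

section csupp

variable {E : Type}

theorem CMfd.csupp_zero [Zero E] : 𝓜.CSupp (fun _ => (0 : E)) := by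
  exact ⟨∅, isCompact_empty, Set.empty_subset _, fun _ _ _ => rfl⟩

theorem CMfd.CSupp.congr [Zero E] {φ ψ : V → E} (hφ : 𝓜.CSupp φ)
    (h : ∀ x ∈ 𝓜.carrier, φ x = ψ x) : 𝓜.CSupp ψ := by
  obtain ⟨K, hK, hsub, h0⟩ := hφ
  exact ⟨K, hK, hsub, fun x hx hxK => (h x hx) ▸ h0 x hx hxK⟩

theorem CMfd.CSupp.add [AddZeroClass E] {φ ψ : V → E} (hφ : 𝓜.CSupp φ) (hψ : 𝓜.CSupp ψ) :
    𝓜.CSupp (fun x => φ x + ψ x) := by
  obtain ⟨K, hK, hsub, h0⟩ := hφ
  obtain ⟨K', hK', hsub', h0'⟩ := hψ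
  refine ⟨K ∪ K', hK.union hK', Set.union_subset hsub hsub', fun x hx hxK => ?_⟩
  rw [Set.mem_union, not_or] at hxK
  simp only [h0 x hx hxK.1, h0' x hx hxK.2, add_zero]

theorem CMfd.CSupp.sub [SubtractionMonoid E] {φ ψ : V → E} (hφ : 𝓜.CSupp φ) (hψ : 𝓜.CSupp ψ) :
    𝓜.CSupp (fun x => φ x - ψ x) := by
  obtain ⟨K, hK, hsub, h0⟩ := hφ
  obtain ⟨K', hK', hsub', h0'⟩ := hψ
  refine ⟨K ∪ K', hK.union hK', Set.union_subset hsub hsub', fun x hx hxK => ?_⟩
  rw [Set.mem_union, not_or] at hxK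
  simp only [h0 x hx hxK.1, h0' x hx hxK.2, sub_zero]

theorem CMfd.CSupp.neg [SubtractionMonoid E] {φ : V → E} (hφ : 𝓜.CSupp φ) :
    𝓜.CSupp (fun x => - φ x) := by
  obtain ⟨K, hK, hsub, h0⟩ := hφ
  exact ⟨K, hK, hsub, fun x hx hxK => by simp only [h0 x hx hxK, neg_zero]⟩

theorem CMfd.CSupp.mul_left [MulZeroClass E] {φ : V → E} (hφ : 𝓜.CSupp φ) (f : V → E) :
    𝓜.CSupp (fun x => f x * φ x) := by
  obtain ⟨K, hK, hsub, h0⟩ := hφ
  exact ⟨K, hK, hsub, fun x hx hxK => by simp only [h0 x hx hxK, mul_zero]⟩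

theorem CMfd.CSupp.mul_right [MulZeroClass E] {φ : V → E} (hφ : 𝓜.CSupp φ) (f : V → E) :
    𝓜.CSupp (fun x => φ x * f x) := by
  obtain ⟨K, hK, hsub, h0⟩ := hφ
  exact ⟨K, hK, hsub, fun x hx hxK => by simp only [h0 x hx hxK, zero_mul]⟩

theorem CMfd.CSupp.sum [AddCommMonoid E] {α : Type} (s : Finset α) {F : α → V → E}
    (hF : ∀ a ∈ s, 𝓜.CSupp (F a)) : 𝓜.CSupp (fun x => ∑ a ∈ s, F a x) := by
  classical
  induction s using Finset.induction_on with
  | empty => simpa using (CMfd.csupp_zero : 𝓜.CSupp (fun _ => (0 : E)))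
  | insert a s ha ih =>
    have h1 := (hF a (Finset.mem_insert_self a s)).add
      (ih fun b hb => hF b (Finset.mem_insert_of_mem hb))
    refine h1.congr fun x _ => ?_
    rw [Finset.sum_insert ha]

/-- outer function with `χ 0 = 0`. -/
theorem CMfd.CSupp.comp {E' : Type} [Zero E] [Zero E'] {φ : V → E} (hφ : 𝓜.CSupp φ) {χ : E → E'}
    (h0 : χ 0 = 0) : 𝓜.CSupp (fun x => χ (φ x)) := by
  obtain ⟨K, hK, hsub, h0'⟩ := hφ
  exact ⟨K, hK, hsub, fun x hx hxK => by simp only [h0' x hx hxK, h0]⟩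

theorem CMfd.CSupp.pow {φ : V → ℝ} (hφ : 𝓜.CSupp φ) {m : ℕ} (hm : m ≠ 0) :
    𝓜.CSupp (fun x => φ x ^ m) := by
  exact hφ.comp (χ := fun y => y ^ m) (zero_pow hm)

theorem CMfd.CSupp.abs {φ : V → ℝ} (hφ : 𝓜.CSupp φ) : 𝓜.CSupp (fun x => |φ x|) := by
  exact hφ.comp (χ := fun y => |y|) abs_zero

theorem CMfd.CSuppST.csupp [Zero E] {I : Set ℝ} {F : ℝ → V → E} (hF : 𝓜.CSuppST I F) {t : ℝ}
    (ht : t ∈ I) : 𝓜.CSupp (F t) := by
  obtain ⟨K, hK, hsub, h0⟩ := hF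
  exact ⟨K, hK, hsub, h0 t ht⟩

theorem CMfd.CSupp.toST [Zero E] {φ : V → E} (hφ : 𝓜.CSupp φ) (I : Set ℝ) :
    𝓜.CSuppST I (fun _ => φ) := by
  obtain ⟨K, hK, hsub, h0⟩ := hφ
  exact ⟨K, hK, hsub, fun _ _ => h0⟩

theorem CMfd.CSuppST.mul_left [MulZeroClass E] {I : Set ℝ} {F : ℝ → V → E} (hF : 𝓜.CSuppST I F)
    (G : ℝ → V → E) : 𝓜.CSuppST I (fun t x => G t x * F t x) := by
  obtain ⟨K, hK, hsub, h0⟩ := hF
  exact ⟨K, hK, hsub, fun t ht x hx hxK => by simp only [h0 t ht x hx hxK, mul_zero]⟩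

theorem CMfd.CSuppST.mul_right [MulZeroClass E] {I : Set ℝ} {F : ℝ → V → E} (hF : 𝓜.CSuppST I F)
    (G : ℝ → V → E) : 𝓜.CSuppST I (fun t x => F t x * G t x) := by
  obtain ⟨K, hK, hsub, h0⟩ := hF
  exact ⟨K, hK, hsub, fun t ht x hx hxK => by simp only [h0 t ht x hx hxK, zero_mul]⟩

theorem CMfd.CSuppST.add [AddZeroClass E] {I : Set ℝ} {F G : ℝ → V → E} (hF : 𝓜.CSuppST I F)
    (hG : 𝓜.CSuppST I G) : 𝓜.CSuppST I (fun t x => F t x + G t x) := by
  obtain ⟨K, hK, hsub, h0⟩ := hF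
  obtain ⟨K', hK', hsub', h0'⟩ := hG
  refine ⟨K ∪ K', hK.union hK', Set.union_subset hsub hsub', fun t ht x hx hxK => ?_⟩
  rw [Set.mem_union, not_or] at hxK
  simp only [h0 t ht x hx hxK.1, h0' t ht x hx hxK.2, add_zero]

/-- a function on a compact carrier has compact support. -/
theorem CMfd.csupp_of_isCompact [Zero E] (hc : IsCompact 𝓜.carrier) (φ : V → E) : 𝓜.CSupp φ := by
  exact ⟨𝓜.carrier, hc, Set.Subset.rfl, fun x hx hxK => absurd hx hxK⟩

/-- a continuous compactly supported function is bounded on the carrier. -/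
theorem CMfd.CSupp.exists_bound [NormedAddCommGroup E] {φ : V → E} (hφ : 𝓜.CSupp φ)
    (hc : ContinuousOn φ 𝓜.carrier) : ∃ C : ℝ, ∀ x ∈ 𝓜.carrier, ‖φ x‖ ≤ C := by
  obtain ⟨K, hK, hsub, h0⟩ := hφ
  obtain ⟨C, hC⟩ := hK.exists_bound_of_continuousOn (hc.mono hsub)
  refine ⟨max C 0, fun x hx => ?_⟩
  by_cases hxK : x ∈ K
  · exact (hC x hxK).trans (le_max_left _ _)
  · rw [h0 x hx hxK, norm_zero]
    exact le_max_right _ _

/-- vanishing near the points outside the compact set, in any parametrisation. -/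
theorem CMfd.eventually_eq_zero_of_notMem [Zero E] {φ : V → E} {K : Set V} (hK : IsClosed K)
    (h0 : ∀ x ∈ 𝓜.carrier, x ∉ K → φ x = 0) {Φ : CE ι → V} {U : Set (CE ι)} (hΦ : 𝓜.IsHol Φ U)
    {z : CE ι} (hz : z ∈ U) (hzK : Φ z ∉ K) : ∀ᶠ w in 𝓝 z, φ (Φ w) = 0 := by
  have hc : ContinuousAt Φ z := ((𝓜.isParam hΦ).differentiableAt hz).continuousAt
  have h1 : ∀ᶠ w in 𝓝 z, Φ w ∈ Kᶜ := hc (hK.isOpen_compl.mem_nhds hzK)
  filter_upwards [h1, (CMfd.isOpen_dom hΦ).mem_nhds hz] with w hw hwU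
  exact h0 _ (CMfd.mem_carrier hΦ hwU) hw

/-- in a parametrisation, a compactly supported function vanishes outside a RELATIVELY closed subset
`U ∩ Φ ⁻¹' K`; if moreover it is supported in `Φ '' C`, `C ⊆ U` compact, outside `C`. -/
theorem CMfd.comp_eq_zero_of_notMem [Zero E] {φ : V → E} {Φ : CE ι → V} {U C : Set (CE ι)}
    (hΦ : 𝓜.IsHol Φ U) (h0 : ∀ x ∈ 𝓜.carrier, x ∉ Φ '' C → φ x = 0) (hC : C ⊆ U) :
    ∀ z ∈ U, z ∉ C → φ (Φ z) = 0 := by
  intro z hz hzC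
  refine h0 _ (CMfd.mem_carrier hΦ hz) ?_
  rintro ⟨w, hw, hwz⟩
  exact hzC ((𝓜.isParam hΦ).injOn (hC hw) hz hwz ▸ hw)

variable [DecidableEq ι]

/-- precise form: the same compact set works. -/
theorem lap_eq_zero_of_notMem {φ : V → ℝ} {K : Set V} (hK : IsClosed K)
    (h0 : ∀ x ∈ 𝓜.carrier, x ∉ K → φ x = 0) (h : HFam V ι) {x : V} (hx : x ∈ 𝓜.carrier)
    (hxK : x ∉ K) : lap 𝓜 h φ x = 0 := by
  have hz := 𝓜.co_mem hx
  have hzK : 𝓜.pΦ x (𝓜.co x) ∉ K := by rw [𝓜.pΦ_co hx]; exact hxK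
  have hev : (φ ∘ 𝓜.pΦ x) =ᶠ[𝓝 (𝓜.co x)] fun _ => (0 : ℝ) :=
    CMfd.eventually_eq_zero_of_notMem hK h0 (𝓜.isHol_pΦ hx) hz hzK
  show lapP (h (𝓜.pΦ x) (𝓜.co x)) (φ ∘ 𝓜.pΦ x) (𝓜.co x) = 0
  rw [lapP_congr _ hev, lapP_const]

theorem gradInner_eq_zero_of_notMem_left {φ : V → ℝ} {K : Set V} (hK : IsClosed K)
    (h0 : ∀ x ∈ 𝓜.carrier, x ∉ K → φ x = 0) (h : HFam V ι) (f : V → ℝ) {x : V}
    (hx : x ∈ 𝓜.carrier) (hxK : x ∉ K) : gradInner 𝓜 h φ f x = 0 := by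
  have hz := 𝓜.co_mem hx
  have hzK : 𝓜.pΦ x (𝓜.co x) ∉ K := by rw [𝓜.pΦ_co hx]; exact hxK
  have hev : (φ ∘ 𝓜.pΦ x) =ᶠ[𝓝 (𝓜.co x)] fun _ => (0 : ℝ) :=
    CMfd.eventually_eq_zero_of_notMem hK h0 (𝓜.isHol_pΦ hx) hz hzK
  show dualIP (h (𝓜.pΦ x) (𝓜.co x)) (grad10 (φ ∘ 𝓜.pΦ x) (𝓜.co x))
    (grad10 (f ∘ 𝓜.pΦ x) (𝓜.co x)) = 0
  rw [grad10_congr hev, grad10_const, dualIP_zero_left]

theorem gradInner_eq_zero_of_notMem_right {φ : V → ℝ} {K : Set V} (hK : IsClosed K)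
    (h0 : ∀ x ∈ 𝓜.carrier, x ∉ K → φ x = 0) (h : HFam V ι) (f : V → ℝ) {x : V}
    (hx : x ∈ 𝓜.carrier) (hxK : x ∉ K) : gradInner 𝓜 h f φ x = 0 := by
  have hz := 𝓜.co_mem hx
  have hzK : 𝓜.pΦ x (𝓜.co x) ∉ K := by rw [𝓜.pΦ_co hx]; exact hxK
  have hev : (φ ∘ 𝓜.pΦ x) =ᶠ[𝓝 (𝓜.co x)] fun _ => (0 : ℝ) :=
    CMfd.eventually_eq_zero_of_notMem hK h0 (𝓜.isHol_pΦ hx) hz hzK
  show dualIP (h (𝓜.pΦ x) (𝓜.co x)) (grad10 (f ∘ 𝓜.pΦ x) (𝓜.co x))
    (grad10 (φ ∘ 𝓜.pΦ x) (𝓜.co x)) = 0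
  rw [grad10_congr hev, grad10_const, dualIP_zero_right]

theorem CMfd.CSupp.lap {φ : V → ℝ} (hφ : 𝓜.CSupp φ) (h : HFam V ι) :
    𝓜.CSupp (lap 𝓜 h φ) := by
  obtain ⟨K, hK, hsub, h0⟩ := hφ
  exact ⟨K, hK, hsub, fun x hx hxK => lap_eq_zero_of_notMem hK.isClosed h0 h hx hxK⟩

theorem CMfd.CSupp.gradInner_left {φ : V → ℝ} (hφ : 𝓜.CSupp φ) (h : HFam V ι) (f : V → ℝ) :
    𝓜.CSupp (gradInner 𝓜 h φ f) := by
  obtain ⟨K, hK, hsub, h0⟩ := hφ
  exact ⟨K, hK, hsub, fun x hx hxK => gradInner_eq_zero_of_notMem_left hK.isClosed h0 h f hx hxK⟩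

theorem CMfd.CSupp.gradInner_right {φ : V → ℝ} (hφ : 𝓜.CSupp φ) (h : HFam V ι) (f : V → ℝ) :
    𝓜.CSupp (gradInner 𝓜 h f φ) := by
  obtain ⟨K, hK, hsub, h0⟩ := hφ
  exact ⟨K, hK, hsub, fun x hx hxK => gradInner_eq_zero_of_notMem_right hK.isClosed h0 h f hx hxK⟩

theorem CMfd.CSupp.gradSq {φ : V → ℝ} (hφ : 𝓜.CSupp φ) (h : HFam V ι) :
    𝓜.CSupp (gradSq 𝓜 h φ) := by
  exact hφ.gradInner_left h φ

end csupp

/-! ### bumps, partitions of unity, cutoffs -/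

section bump

variable [FiniteDimensional ℝ V]

/-- ambient bump adapted to a centred parametrisation. -/
theorem CMfd.exists_bump (𝓜 : CMfd V ι) {x : V} (hx : x ∈ 𝓜.carrier) {O : Set V} (hO : O ∈ 𝓝 x) :
    ∃ (b : V → ℝ) (Φ : CE ι → V) (r : ℝ), ContDiff ℝ ∞ b ∧ (∀ y, 0 ≤ b y ∧ b y ≤ 1) ∧
      (∀ᶠ y in 𝓝 x, b y = 1) ∧ HasCompactSupport b ∧ tsupport b ⊆ O ∧ 0 < r ∧
      𝓜.IsHol Φ (Metric.ball 0 (2 * r)) ∧ Φ 0 = x ∧ Φ '' Metric.ball 0 (2 * r) ⊆ O ∧
      ∀ y ∈ 𝓜.carrier, y ∉ Φ '' Metric.closedBall 0 r → b y = 0 := by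
  obtain ⟨Φ, r, hr, hΦ, hΦ0, hΦO⟩ := 𝓜.exists_centred_in hx hO
  obtain ⟨O', hO', hO'eq⟩ := (𝓜.isParam hΦ).exists_isOpen_image (U' := Metric.ball 0 r)
    Metric.isOpen_ball (Metric.ball_subset_ball (by linarith))
  have hxO' : x ∈ O' := by
    have : x ∈ Φ '' Metric.ball 0 r := ⟨0, Metric.mem_ball_self hr, hΦ0⟩
    rw [hO'eq] at this
    exact this.2
  have hnh : O' ∩ O ∈ 𝓝 x := Filter.inter_mem (hO'.mem_nhds hxO') hO
  obtain ⟨ε, hε, hεsub⟩ := Metric.nhds_basis_closedBall.mem_iff.1 hnh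
  let b : ContDiffBump x := ⟨ε / 2, ε, by positivity, by linarith⟩
  refine ⟨b, Φ, r, b.contDiff, fun y => ⟨b.nonneg, b.le_one⟩, b.eventuallyEq_one,
    b.hasCompactSupport, ?_, hr, hΦ, hΦ0, hΦO, ?_⟩
  · rw [b.tsupport_eq]
    exact hεsub.trans Set.inter_subset_right
  · intro y hy hyn
    by_contra hne
    have h1 : y ∈ Function.support b := hne
    rw [b.support_eq] at h1
    have h2 : y ∈ O' := (hεsub (Metric.ball_subset_closedBall h1)).1
    have h3 : y ∈ Φ '' Metric.ball 0 r := by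
      rw [hO'eq]; exact ⟨hy, h2⟩
    exact hyn (Set.image_mono Metric.ball_subset_closedBall h3)

/-- **finite partition of unity** near a compact subset `K` of the carrier, inside the open set `O`. -/
theorem CMfd.exists_finite_partition (𝓜 : CMfd V ι) {K : Set V} (hK : IsCompact K)
    (hsub : K ⊆ 𝓜.carrier) {O : Set V} (hO : IsOpen O) (hKO : K ⊆ O) :
    ∃ (m : ℕ) (χ : Fin m → V → ℝ) (Φ : Fin m → CE ι → V) (r : Fin m → ℝ) (N : Set V),
      (∀ i, ContDiff ℝ ∞ (χ i)) ∧ (∀ i y, 0 ≤ χ i y) ∧ (∀ y, ∑ i, χ i y ≤ 1) ∧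
      (∀ i, 0 < r i) ∧ (∀ i, 𝓜.IsHol (Φ i) (Metric.ball 0 (2 * r i))) ∧
      (∀ i, Φ i '' Metric.ball 0 (2 * r i) ⊆ O) ∧
      (∀ i, ∀ y ∈ 𝓜.carrier, y ∉ Φ i '' Metric.closedBall 0 (r i) → χ i y = 0) ∧
      IsOpen N ∧ K ⊆ N ∧ ∀ y ∈ N, ∑ i, χ i y = 1 := by
  choose b Φ r hb1 hb2 hb3 _hb4 _hb5 hr hΦ _hΦ0 hΦO hb0 using
    fun x : K => 𝓜.exists_bump (hsub x.2) (hO.mem_nhds (hKO x.2))
  obtain ⟨t, ht⟩ := hK.elim_nhds_subcover' (fun x hx => interior {y | b ⟨x, hx⟩ y = 1})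
    (fun x hx => interior_mem_nhds.2 (hb3 ⟨x, hx⟩))
  let e : t ≃ Fin t.card := t.equivFin
  let p : Fin t.card → K := fun i => (e.symm i).1
  have hsum : ∀ y, ∑ i, b (p i) y * ∏ j ∈ Finset.univ with j < i, (1 - b (p j) y)
      = 1 - ∏ i, (1 - b (p i) y) := by
    intro y
    rw [Finset.prod_one_sub_ordered]
    ring
  refine ⟨t.card, fun i y => b (p i) y * ∏ j ∈ Finset.univ with j < i, (1 - b (p j) y),
    fun i => Φ (p i), fun i => r (p i), ⋃ x ∈ t, interior {y | b x y = 1}, ?_, ?_, ?_,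
    fun i => hr _, fun i => hΦ _, fun i => hΦO _, ?_, ?_, ht, ?_⟩
  · intro i
    exact (hb1 _).mul (contDiff_prod fun j _ => contDiff_const.sub (hb1 _))
  · intro i y
    exact mul_nonneg (hb2 _ y).1 (Finset.prod_nonneg fun j _ => sub_nonneg.2 (hb2 _ y).2)
  · intro y
    rw [hsum y]
    have : 0 ≤ ∏ i, (1 - b (p i) y) := Finset.prod_nonneg fun j _ => sub_nonneg.2 (hb2 _ y).2
    linarith
  · intro i y hy hyn
    simp only [hb0 (p i) y hy hyn, zero_mul]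
  · exact isOpen_biUnion fun x _ => isOpen_interior
  · intro y hy
    rw [hsum y]
    obtain ⟨x, hx, hyx⟩ := Set.mem_iUnion₂.1 hy
    have h1 : y ∈ {y | b x y = 1} := interior_subset hyx
    have h1 : b x y = 1 := h1
    have h2 : p (e ⟨x, hx⟩) = x := by simp [p]
    have h3 : ∏ i, (1 - b (p i) y) = 0 := by
      refine Finset.prod_eq_zero (Finset.mem_univ (e ⟨x, hx⟩)) ?_
      rw [h2, h1, sub_self]
    rw [h3, sub_zero]

/-- **cutoff**: ambient smooth, `= 1` near `K`, compactly supported in `carrier ∩ O`. -/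
theorem CMfd.exists_cutoff (𝓜 : CMfd V ι) {K : Set V} (hK : IsCompact K)
    (hsub : K ⊆ 𝓜.carrier) {O : Set V} (hO : IsOpen O) (hKO : K ⊆ O) :
    ∃ χ : V → ℝ, ContDiff ℝ ∞ χ ∧ (∀ y, 0 ≤ χ y ∧ χ y ≤ 1) ∧
      (∃ N : Set V, IsOpen N ∧ K ⊆ N ∧ ∀ y ∈ N, χ y = 1) ∧
      ∃ K' : Set V, IsCompact K' ∧ K' ⊆ 𝓜.carrier ∩ O ∧ ∀ y ∈ 𝓜.carrier, y ∉ K' → χ y = 0 := by
  obtain ⟨m, χ, Φ, r, N, h1, h2, h3, hr, hΦ, hΦO, h0, hN, hKN, hN1⟩ :=
    𝓜.exists_finite_partition hK hsub hO hKO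
  have hcb : ∀ i, Metric.closedBall (0 : CE ι) (r i) ⊆ Metric.ball 0 (2 * r i) := fun i =>
    Metric.closedBall_subset_ball (by linarith [hr i])
  refine ⟨fun y => ∑ i, χ i y, ContDiff.sum fun i _ => h1 i,
    fun y => ⟨Finset.sum_nonneg fun i _ => h2 i y, h3 y⟩, ⟨N, hN, hKN, hN1⟩,
    ⋃ i, Φ i '' Metric.closedBall 0 (r i), ?_, ?_, ?_⟩
  · refine isCompact_iUnion fun i => ?_
    exact (isCompact_closedBall _ _).image_of_continuousOn
      ((𝓜.isParam (hΦ i)).continuousOn.mono (hcb i))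
  · refine Set.iUnion_subset fun i => ?_
    intro y hy
    have hy' : y ∈ Φ i '' Metric.ball 0 (2 * r i) := Set.image_mono (hcb i) hy
    exact ⟨(𝓜.isParam (hΦ i)).image_subset hy', hΦO i hy'⟩
  · intro y hy hyn
    refine Finset.sum_eq_zero fun i _ => h0 i y hy fun hyi => hyn ?_
    exact Set.mem_iUnion.2 ⟨i, hyi⟩

/-- decomposition of a compactly supported function into pieces supported in one parametrisation. -/
theorem CMfd.CSupp.exists_decomp {φ : V → ℝ} (hφ : 𝓜.CSupp φ) :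
    ∃ (m : ℕ) (χ : Fin m → V → ℝ) (Φ : Fin m → CE ι → V) (r : Fin m → ℝ),
      (∀ i, ContDiff ℝ ∞ (χ i)) ∧ (∀ i y, 0 ≤ χ i y ∧ χ i y ≤ 1) ∧
      (∀ i, 0 < r i) ∧ (∀ i, 𝓜.IsHol (Φ i) (Metric.ball 0 (2 * r i))) ∧
      (∀ i, ∀ y ∈ 𝓜.carrier, y ∉ Φ i '' Metric.closedBall 0 (r i) → χ i y = 0) ∧
      ∀ y ∈ 𝓜.carrier, φ y = ∑ i, χ i y * φ y := by
  obtain ⟨K, hK, hsub, hφ0⟩ := hφ
  obtain ⟨m, χ, Φ, r, N, h1, h2, h3, hr, hΦ, _hΦO, h0, _hN, hKN, hN1⟩ :=
    𝓜.exists_finite_partition hK hsub isOpen_univ (Set.subset_univ K)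
  refine ⟨m, χ, Φ, r, h1, fun i y => ⟨h2 i y, ?_⟩, hr, hΦ, h0, ?_⟩
  · exact (Finset.single_le_sum (f := fun i => χ i y) (fun j _ => h2 j y)
      (Finset.mem_univ i)).trans (h3 y)
  · intro y hy
    rw [← Finset.sum_mul]
    by_cases hyK : y ∈ K
    · rw [hN1 y (hKN hyK), one_mul]
    · rw [hφ0 y hy hyK, mul_zero]

/-- extension by zero: a function which is smooth in one parametrisation and vanishes outside the image of a
compact subset of the domain is smooth on the manifold. -/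
theorem CMfd.smooth_of_support {u : V → ℝ} {Φ : CE ι → V} {U C : Set (CE ι)} (hΦ : 𝓜.IsHol Φ U)
    (hC : IsCompact C) (hCU : C ⊆ U) (hu : ContDiffOn ℝ ∞ (u ∘ Φ) U)
    (h0 : ∀ y ∈ 𝓜.carrier, y ∉ Φ '' C → u y = 0) : 𝓜.Smooth u := by
  have hcl : IsClosed (Φ '' C) :=
    (hC.image_of_continuousOn ((𝓜.isParam hΦ).continuousOn.mono hCU)).isClosed
  refine CMfd.smooth_of_cover fun x hx => ?_
  by_cases hxU : x ∈ Φ '' U
  · exact ⟨Φ, U, hΦ, hxU, hu⟩
  · obtain ⟨Ψ, W, hΨ, w, hw, rfl⟩ := 𝓜.cover x hx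
    have hopen : IsOpen (W ∩ Ψ ⁻¹' (Φ '' C)ᶜ) :=
      (𝓜.isParam hΨ).isOpen_inter_preimage hcl.isOpen_compl
    refine ⟨Ψ, W ∩ Ψ ⁻¹' (Φ '' C)ᶜ, 𝓜.isHol_mono hΨ hopen Set.inter_subset_left,
      ⟨w, ⟨hw, fun h => hxU (Set.image_mono hCU h)⟩, rfl⟩, ?_⟩
    refine (contDiffOn_const (c := (0 : ℝ))).congr fun z hz => ?_
    exact h0 _ (CMfd.mem_carrier hΨ hz.1) hz.2

/-- transplanting a function from a chart: `f` smooth on `U`, vanishing on `U \ C`. -/
theorem CMfd.exists_smooth_of_chart {Φ : CE ι → V} {U C : Set (CE ι)} (hΦ : 𝓜.IsHol Φ U)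
    (hC : IsCompact C) (hCU : C ⊆ U) {f : CE ι → ℝ} (hf : ContDiffOn ℝ ∞ f U)
    (h0 : ∀ z ∈ U, z ∉ C → f z = 0) :
    ∃ u : V → ℝ, 𝓜.Smooth u ∧ (∀ z ∈ U, u (Φ z) = f z) ∧ ∀ y, y ∉ Φ '' C → u y = 0 := by
  classical
  have hp := 𝓜.isParam hΦ
  let u : V → ℝ := fun y => if y ∈ Φ '' C then f (Function.invFunOn Φ U y) else 0
  have hu1 : ∀ z ∈ U, u (Φ z) = f z := by
    intro z hz
    by_cases hzC : z ∈ C
    · have : Φ z ∈ Φ '' C := ⟨z, hzC, rfl⟩
      simp only [u, if_pos this, hp.leftInv hz]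
    · have : Φ z ∉ Φ '' C := by
        rintro ⟨z', hz', he⟩
        exact hzC (hp.injOn (hCU hz') hz he ▸ hz')
      simp only [u, if_neg this, h0 z hz hzC]
  have hu0 : ∀ y, y ∉ Φ '' C → u y = 0 := fun y hy => by simp only [u, if_neg hy]
  refine ⟨u, CMfd.smooth_of_support hΦ hC hCU (hf.congr fun z hz => hu1 z hz)
    (fun y _ hy => hu0 y hy), hu1, hu0⟩

end bump

end Claimed.Agent.R316
end

/- ===== packed: Claimed.Agent.R316.Base.Vol.Exist ===== -/
section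
/-!
# Row 316, G6-Exist: existence and uniqueness of the volume measure

Statement file by helper55.

CONSTRUCTION.  If the carrier is empty take `μ = 0`.  Otherwise take a sequence atlas `(Φ i, U i)`
(`CMfd.exists_seq_atlas`), `E i = disjointed (fun i => Φ i '' U i) i` (measurable, pairwise disjoint, union = carrier),
`A i = U i ∩ Φ i ⁻¹' E i`, `ν i = (volume.restrict (A i)).withDensity (ofReal det (h (Φ i)))`,
`μ = Measure.sum fun i => (ν i).map (Φ i)` (`Φ i` is a.e. measurable for `volume.restrict (U i)`: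
`ContinuousOn.aemeasurable`).  For a measurable set `S`: `μ S = ∑' i, ∫⁻ z in A i ∩ Φ i ⁻¹' S, dens`.
For `S = Φ '' A`: `A i ∩ Φ i ⁻¹' (Φ '' A) = τ i '' (A ∩ Φ ⁻¹' E i)` (`CMfd.trans_image`) and
`lintegral_dens_trans` turns the `i`-th term into `∫⁻ z in A ∩ Φ ⁻¹' E i, dens Φ`; sum over `i`
(`lintegral_iUnion`).
UNIQUENESS.  `μ S = ∑' i, μ (S ∩ E i)`, `S ∩ E i = Φ i '' (U i ∩ Φ i ⁻¹' (S ∩ E i))`.
-/

set_option autoImplicit false
set_option linter.unusedSectionVars false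
open scoped ContDiff ComplexOrder ENNReal
open MeasureTheory

namespace Claimed.Agent.R316

variable {V : Type} [NormedAddCommGroup V] [NormedSpace ℝ V] [MeasurableSpace V] [BorelSpace V]
variable {ι : Type} [Fintype ι] [DecidableEq ι]
variable {𝓜 : CMfd V ι} {h : HFam V ι} {Φ Ψ : CE ι → V} {U W : Set (CE ι)}

/-! ### measurability -/

theorem CMfd.measurableSet_image (hΦ : 𝓜.IsHol Φ U) {A : Set (CE ι)} (hA : A ⊆ U)
    (hm : MeasurableSet A) : MeasurableSet (Φ '' A) := by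
  exact hm.image_of_continuousOn_injOn ((𝓜.isParam hΦ).continuousOn.mono hA)
    ((𝓜.isParam hΦ).injOn.mono hA)

theorem CMfd.measurableEmbedding_param (hΦ : 𝓜.IsHol Φ U) :
    MeasurableEmbedding (fun z : U => Φ z) := by
  exact (𝓜.isParam hΦ).continuousOn.measurableEmbedding (CMfd.isOpen_dom hΦ).measurableSet
    (𝓜.isParam hΦ).injOn

theorem CMfd.measurableSet_inter_preimage (hΦ : 𝓜.IsHol Φ U) {S : Set V} (hS : MeasurableSet S) :
    MeasurableSet (U ∩ Φ ⁻¹' S) := by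
  have h1 : MeasurableSet ((fun z : U => Φ z) ⁻¹' S) :=
    (CMfd.measurableEmbedding_param hΦ).measurable hS
  have h2 := (MeasurableEmbedding.subtype_coe (CMfd.isOpen_dom hΦ).measurableSet).measurableSet_image.2 h1
  convert h2 using 1
  ext z
  constructor
  · rintro ⟨hz, hzS⟩
    exact ⟨⟨z, hz⟩, hzS, rfl⟩
  · rintro ⟨⟨w, hw⟩, hwS, rfl⟩
    exact ⟨hw, hwS⟩

theorem CMfd.measurableSet_carrier [SecondCountableTopology V] (𝓜 : CMfd V ι) :
    MeasurableSet 𝓜.carrier := by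
  obtain ⟨S, hSc, hS, hcov⟩ := 𝓜.exists_countable_atlas
  rw [hcov]
  exact MeasurableSet.biUnion hSc fun p hp =>
    CMfd.measurableSet_image (hS p hp) subset_rfl (CMfd.isOpen_dom (hS p hp)).measurableSet

theorem CMfd.aemeasurable_param (hΦ : 𝓜.IsHol Φ U) : AEMeasurable Φ (volume.restrict U) := by
  exact (𝓜.isParam hΦ).continuousOn.aemeasurable (CMfd.isOpen_dom hΦ).measurableSet

/-! ### the density -/

theorem IsHForm.contDiffOn_det_re (hh : IsHForm 𝓜 h) (hΦ : 𝓜.IsHol Φ U) :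
    ContDiffOn ℝ ∞ (fun z => (h Φ z).det.re) U := by
  have h1 : ContDiffOn ℝ ∞ (fun z => (h Φ z).det) U := by
    simp only [Matrix.det_apply]
    refine ContDiffOn.sum fun σ _ => ?_
    refine ContDiffOn.const_smul _ ?_
    exact contDiffOn_prod fun i _ => hh.smooth hΦ _ _
  exact Complex.reCLM.contDiff.comp_contDiffOn h1

theorem IsHForm.continuousOn_det_re (hh : IsHForm 𝓜 h) (hΦ : 𝓜.IsHol Φ U) :
    ContinuousOn (fun z => (h Φ z).det.re) U := by
  exact (hh.contDiffOn_det_re hΦ).continuousOn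

theorem IsMetric.det_re_pos (hh : IsMetric 𝓜 h) (hΦ : 𝓜.IsHol Φ U) {z : CE ι} (hz : z ∈ U) :
    0 < (h Φ z).det.re := by
  have := (hh.posDef hΦ z hz).det_pos
  exact (Complex.lt_def.1 this).1

/-- transformation law of the determinant. -/
theorem IsHForm.det_re_compat (hh : IsHForm 𝓜 h) (hΦ : 𝓜.IsHol Φ U) (hΨ : 𝓜.IsHol Ψ W) {z : CE ι}
    (hz : z ∈ U ∩ Φ ⁻¹' (Ψ '' W)) :
    (h Φ z).det.re = ‖(jac (Function.invFunOn Ψ W ∘ Φ) z).det‖ ^ 2 *
      (h Ψ ((Function.invFunOn Ψ W ∘ Φ) z)).det.re := by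
  rw [hh.compat hΦ hΨ z hz.1 hz.2, Matrix.det_mul, Matrix.det_mul, Matrix.det_conjTranspose]
  set d := (jac (Function.invFunOn Ψ W ∘ Φ) z).det
  have h1 : star d * (h Ψ (Function.invFunOn Ψ W (Φ z))).det * d
      = ((‖d‖ ^ 2 : ℝ) : ℂ) * (h Ψ (Function.invFunOn Ψ W (Φ z))).det := by
    have : star d * d = ((‖d‖ ^ 2 : ℝ) : ℂ) := by
      rw [Complex.star_def, ← Complex.normSq_eq_conj_mul_self, Complex.normSq_eq_norm_sq]
    rw [← this]; ring
  rw [h1, Complex.re_ofReal_mul]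
  rfl

/-- the density `det H dλ` is compatible with the transition maps. -/
theorem lintegral_dens_trans (hh : IsHForm 𝓜 h) (hΦ : 𝓜.IsHol Φ U) (hΨ : 𝓜.IsHol Ψ W)
    {B : Set (CE ι)} (hB : B ⊆ U ∩ Φ ⁻¹' (Ψ '' W)) (hm : MeasurableSet B) :
    ∫⁻ w in (Function.invFunOn Ψ W ∘ Φ) '' B, ENNReal.ofReal (h Ψ w).det.re
      = ∫⁻ z in B, ENNReal.ofReal (h Φ z).det.re := by
  rw [lintegral_image_hol hm (fun z hz => CMfd.trans_differentiableAt hΦ hΨ (hB hz))
    ((CMfd.trans_injOn hΦ hΨ).mono hB)]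
  refine setLIntegral_congr_fun hm fun z hz => ?_
  rw [hh.det_re_compat hΦ hΨ (hB hz), ENNReal.ofReal_mul (by positivity)]

/-! ### existence, uniqueness -/

/-- a disjoint measurable decomposition of the carrier adapted to a sequence atlas. -/
theorem CMfd.exists_seq_pieces [SecondCountableTopology V] (𝓜 : CMfd V ι)
    (hne : 𝓜.carrier.Nonempty) :
    ∃ (Φ : ℕ → CE ι → V) (U : ℕ → Set (CE ι)) (E : ℕ → Set V), (∀ i, 𝓜.IsHol (Φ i) (U i)) ∧
      (∀ i, MeasurableSet (E i)) ∧ (∀ i, E i ⊆ Φ i '' U i) ∧ Pairwise (Function.onFun Disjoint E) ∧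
      𝓜.carrier = ⋃ i, E i := by
  obtain ⟨Φ, U, hΦ, hcov⟩ := 𝓜.exists_seq_atlas hne
  refine ⟨Φ, U, disjointed fun i => Φ i '' U i, hΦ, ?_, ?_, disjoint_disjointed _, ?_⟩
  · exact fun i => MeasurableSet.disjointed (fun j =>
      CMfd.measurableSet_image (hΦ j) subset_rfl (CMfd.isOpen_dom (hΦ j)).measurableSet) i
  · exact fun i => disjointed_subset _ i
  · rw [iUnion_disjointed, hcov]

theorem exists_isVol [SecondCountableTopology V] (hh : IsHForm 𝓜 h) :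
    ∃ μ : Measure V, IsVol 𝓜 h μ := by
  rcases 𝓜.carrier.eq_empty_or_nonempty with hemp | hne
  · refine ⟨0, by simp, fun Φ U hΦ A hA _ => ?_⟩
    have : A = ∅ := by
      rw [Set.eq_empty_iff_forall_notMem]
      intro z hz
      have := CMfd.mem_carrier hΦ (hA hz)
      rw [hemp] at this
      exact this
    simp [this]
  obtain ⟨Φ, U, E, hΦ, hEm, hEsub, hEd, hcov⟩ := 𝓜.exists_seq_pieces hne
  let A : ℕ → Set (CE ι) := fun i => U i ∩ Φ i ⁻¹' E i
  have hAm : ∀ i, MeasurableSet (A i) := fun i => CMfd.measurableSet_inter_preimage (hΦ i) (hEm i)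
  let ν : ℕ → Measure (CE ι) := fun i =>
    (volume.restrict (A i)).withDensity (fun z => ENNReal.ofReal (h (Φ i) z).det.re)
  have hae : ∀ i, AEMeasurable (Φ i) (ν i) := by
    intro i
    refine AEMeasurable.mono_ac ?_ (withDensity_absolutelyContinuous _ _)
    exact (CMfd.aemeasurable_param (hΦ i)).mono_measure
      (Measure.restrict_mono Set.inter_subset_left le_rfl)
  have hμ : ∀ S : Set V, MeasurableSet S → (Measure.sum fun i => (ν i).map (Φ i)) S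
      = ∑' i, ∫⁻ z in Φ i ⁻¹' S ∩ A i, ENNReal.ofReal (h (Φ i) z).det.re := by
    intro S hS
    rw [Measure.sum_apply _ hS]
    refine tsum_congr fun i => ?_
    rw [Measure.map_apply_of_aemeasurable (hae i) hS, withDensity_apply',
      Measure.restrict_restrict' (hAm i)]
  refine ⟨Measure.sum fun i => (ν i).map (Φ i), ?_, ?_⟩
  · rw [hμ _ 𝓜.measurableSet_carrier.compl]
    have : ∀ i, Φ i ⁻¹' 𝓜.carrierᶜ ∩ A i = ∅ := by
      intro i
      rw [Set.eq_empty_iff_forall_notMem]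
      rintro z ⟨hz1, hz2⟩
      exact hz1 (CMfd.mem_carrier (hΦ i) hz2.1)
    simp only [this, Measure.restrict_empty, lintegral_zero_measure, tsum_zero]
  · intro Ψ W hΨ B hB hBm
    rw [hμ _ (CMfd.measurableSet_image hΨ hB hBm)]
    let C : ℕ → Set (CE ι) := fun i => B ∩ Ψ ⁻¹' E i
    have hCm : ∀ i, MeasurableSet (C i) := by
      intro i
      have : C i = B ∩ (W ∩ Ψ ⁻¹' E i) := by
        ext z
        simp only [C, Set.mem_inter_iff, Set.mem_preimage]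
        constructor
        · rintro ⟨h1, h2⟩; exact ⟨h1, hB h1, h2⟩
        · rintro ⟨h1, _, h2⟩; exact ⟨h1, h2⟩
      rw [this]
      exact hBm.inter (CMfd.measurableSet_inter_preimage hΨ (hEm i))
    have hCsub : ∀ i, C i ⊆ W ∩ Ψ ⁻¹' (Φ i '' U i) := fun i z hz => ⟨hB hz.1, hEsub i hz.2⟩
    have hterm : ∀ i, ∫⁻ z in Φ i ⁻¹' (Ψ '' B) ∩ A i, ENNReal.ofReal (h (Φ i) z).det.re
        = ∫⁻ z in C i, ENNReal.ofReal (h Ψ z).det.re := by
      intro i
      rw [← lintegral_dens_trans hh hΨ (hΦ i) (hCsub i) (hCm i),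
        CMfd.trans_image hΨ (hΦ i) (hCsub i)]
      congr 2
      ext w
      constructor
      · rintro ⟨⟨b, hb, hbw⟩, hwU, hwE⟩
        refine ⟨hwU, b, ⟨hb, ?_⟩, hbw⟩
        show Ψ b ∈ E i
        rw [hbw]; exact hwE
      · rintro ⟨hwU, b, ⟨hb, hbE⟩, hbw⟩
        refine ⟨⟨b, hb, hbw⟩, hwU, ?_⟩
        show Φ i w ∈ E i
        rw [← hbw]; exact hbE
    rw [tsum_congr hterm, ← lintegral_iUnion hCm]
    · congr 2
      ext z
      simp only [C, Set.mem_iUnion, Set.mem_inter_iff, Set.mem_preimage]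
      constructor
      · rintro ⟨i, h1, _⟩; exact h1
      · intro hz
        have : Ψ z ∈ ⋃ i, E i := hcov ▸ CMfd.mem_carrier hΨ (hB hz)
        obtain ⟨i, hi⟩ := Set.mem_iUnion.1 this
        exact ⟨i, hz, hi⟩
    · intro i j hij
      exact ((hEd hij).preimage Ψ).mono Set.inter_subset_right Set.inter_subset_right

theorem IsVol.unique [SecondCountableTopology V] {μ ν : Measure V} (hμ : IsVol 𝓜 h μ)
    (hν : IsVol 𝓜 h ν) : μ = ν := by
  rcases 𝓜.carrier.eq_empty_or_nonempty with hemp | hne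
  · have h1 := hμ.1
    have h2 := hν.1
    rw [hemp, Set.compl_empty, Measure.measure_univ_eq_zero] at h1 h2
    rw [h1, h2]
  obtain ⟨Φ, U, E, hΦ, hEm, hEsub, hEd, hcov⟩ := 𝓜.exists_seq_pieces hne
  have key : ∀ (ρ : Measure V), IsVol 𝓜 h ρ → ∀ S, MeasurableSet S →
      ρ S = ∑' i, ∫⁻ z in U i ∩ Φ i ⁻¹' (S ∩ E i), ENNReal.ofReal (h (Φ i) z).det.re := by
    intro ρ hρ S hS
    have h1 : ρ S = ρ (S ∩ 𝓜.carrier) := by
      refine le_antisymm ?_ (measure_mono Set.inter_subset_left)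
      calc ρ S ≤ ρ (S ∩ 𝓜.carrier ∪ 𝓜.carrierᶜ) := measure_mono (by
            intro x hx
            by_cases hxc : x ∈ 𝓜.carrier
            · exact Or.inl ⟨hx, hxc⟩
            · exact Or.inr hxc)
        _ ≤ ρ (S ∩ 𝓜.carrier) + ρ 𝓜.carrierᶜ := measure_union_le _ _
        _ = ρ (S ∩ 𝓜.carrier) := by rw [hρ.1, add_zero]
    rw [h1, hcov, Set.inter_iUnion, measure_iUnion]
    · refine tsum_congr fun i => ?_
      rw [← hρ.2 (Φ i) (U i) (hΦ i) _ Set.inter_subset_left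
        (CMfd.measurableSet_inter_preimage (hΦ i) (hS.inter (hEm i)))]
      congr 1
      ext x
      constructor
      · rintro ⟨hxS, hxE⟩
        obtain ⟨z, hz, rfl⟩ := hEsub i hxE
        exact ⟨z, ⟨hz, hxS, hxE⟩, rfl⟩
      · rintro ⟨z, ⟨_, hz⟩, rfl⟩
        exact hz
    · intro i j hij
      exact (hEd hij).mono Set.inter_subset_right Set.inter_subset_right
    · exact fun i => hS.inter (hEm i)
  ext S hS
  rw [key μ hμ S hS, key ν hν S hS]

theorem isVol_hvol [SecondCountableTopology V] (hh : IsHForm 𝓜 h) : IsVol 𝓜 h (hvol 𝓜 h) := by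
  have H := exists_isVol hh
  unfold hvol
  rw [dif_pos H]
  exact H.choose_spec

theorem IsVol.eq_hvol [SecondCountableTopology V] {μ : Measure V} (hμ : IsVol 𝓜 h μ) :
    μ = hvol 𝓜 h := by
  have H : ∃ μ : Measure V, IsVol 𝓜 h μ := ⟨μ, hμ⟩
  refine hμ.unique ?_
  unfold hvol
  rw [dif_pos H]
  exact H.choose_spec

end Claimed.Agent.R316
end

/- ===== packed: Claimed.Agent.R316.S7.Trans.AbsPath ===== -/
section
/-!
# Row 316, BP-S7-7a, leaf L-S7-7a-1: path lifting through a local homeomorphism under an a priori compactness bound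

Sub-captain: helper248.  PURE TOPOLOGY (only Mathlib).  DONE (the proof below is simpler than the sketch: no uniqueness of lifts is needed, the end points
`Γ_t t` of arbitrarily chosen partial lifts have a cluster point in `C`, and one glues ONE partial lift with the local inverse there).

`tr7_path_lift`: `p : E → X` a local homeomorphism of Hausdorff spaces, `γ` a path in `X`, `p e0 = γ 0`.  If every PARTIAL lift of `γ`
(continuous on `[0, τ]`, starting at `e0`) stays in a fixed compact set `C ⊆ E`, then `γ` has a lift on all of `[0,1]`.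

PROOF.  `S = {τ : I | ∃ Γ : I → E, ContinuousOn Γ (Iic τ) ∧ Γ 0 = e0 ∧ ∀ t ≤ τ, p (Γ t) = γ t}`.
(0) `0 ∈ S` (constant map); `S` is a lower set.
(1) uniqueness: two partial lifts on `Iic τ` agree there (`IsSeparatedMap.eqOn_of_comp_eqOn`, `T2Space.isSeparatedMap`,
    `IsLocalHomeomorph.isLocallyInjective`, `Iic τ` is preconnected: `isPreconnected_Iic`).
(2) `S` is a neighbourhood of each of its points: let `q` be the `OpenPartialHomeomorph` of `hp (Γ τ)`; for `t` in a connected neighbourhood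
    `J` (an interval) of `τ` with `γ '' J ⊆ q.target` put `Γ' t = if t ≤ τ then Γ t else q.symm (γ t)`; both pieces agree at `τ`
    (`q.left_inv`); `ContinuousOn.if` / `ContinuousOn.piecewise` or glue on the two closed sets `Iic τ`, `Icc τ τ'`
    (`ContinuousOn.union_of_isClosed`-type lemma).
(3) `S` is closed: let `T ∈ closure S`, `T ∉ S`, so `[0,T) ⊆ S`, `0 < T`.  Choose lifts `Γ_τ` (`τ < T`), put `Γ t = Γ_t t`.  By (1) `Γ = Γ_τ` on `Iic τ`, so `Γ` is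
    continuous on `Iio T`, lifts `γ`, and has values in `C` (`apriori`).  `𝓝[<] T` is nontrivial, `C` compact: there is a cluster point
    `e ∈ C` of `Γ` along `𝓝[<] T` (`IsCompact.exists_clusterPt` applied to `map Γ (𝓝[<] T)`).  `p e = γ T` (`X` Hausdorff: `p e` is a cluster point of
    `p ∘ Γ = γ`, which converges to `γ T`).  Let `q` be the partial homeomorphism at `e`, `J ∋ T` an interval with `γ '' J ⊆ q.target`,
    `λ = q.symm ∘ γ` on `J`.  As `e` is a cluster point there is `t₁ ∈ J`, `t₁ < T`, with `Γ t₁ ∈ q.source`, hence `Γ t₁ = λ t₁`; by uniqueness on the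
    preconnected `Ico t₁ T`, `Γ = λ` there; so `if t < T then Γ t else λ t` is a lift on `Iic T`: contradiction.
(4) `S` clopen nonempty in the connected `I`: `S = univ` (`IsClopen.eq_univ`); take the lift for `τ = 1`.
An alternative for (2)-(4): `IsClosed.Icc_subset_of_forall_mem_nhdsWithin`.
-/

set_option autoImplicit false
open scoped Topology unitInterval
open Filter

namespace Claimed.Agent.R316

/-- gluing two continuous pieces at a common end point. -/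
theorem tr7_glue_Icc {E : Type} [TopologicalSpace E] {a b c : ℝ} (hab : a ≤ b) (hbc : b ≤ c)
    {f g : ℝ → E} (hf : ContinuousOn f (Set.Icc a b)) (hg : ContinuousOn g (Set.Icc b c))
    (h : f b = g b) : ContinuousOn (fun t => if t ≤ b then f t else g t) (Set.Icc a c) := by
  rw [← Set.Icc_union_Icc_eq_Icc hab hbc]
  refine ContinuousOn.union_of_isClosed (hf.congr fun t ht => if_pos ht.2) (hg.congr fun t ht => ?_)
    isClosed_Icc isClosed_Icc
  by_cases htb : t ≤ b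
  · have : t = b := le_antisymm htb ht.1
    simp [this, h]
  · simp [htb]

theorem tr7_path_lift {E X : Type} [TopologicalSpace E] [T2Space E] [TopologicalSpace X] [T2Space X]
    {p : E → X} (hp : IsLocalHomeomorph p) (γ : C(I, X)) (e0 : E) (h0 : p e0 = γ 0) (C : Set E)
    (hC : IsCompact C)
    (apriori : ∀ (τ : I) (Γ : I → E), ContinuousOn Γ (Set.Iic τ) → Γ 0 = e0 →
      (∀ t ≤ τ, p (Γ t) = γ t) → ∀ t ≤ τ, Γ t ∈ C) :
    ∃ Γ : C(I, E), Γ 0 = e0 ∧ ∀ t, p (Γ t) = γ t := by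
  classical
  let γ' : ℝ → X := fun t => γ (Set.projIcc 0 1 zero_le_one t)
  have hγ' : Continuous γ' := γ.continuous.comp continuous_projIcc
  have hγ'I : ∀ t : I, γ' t = γ t := fun t => by
    show γ (Set.projIcc 0 1 zero_le_one (t : ℝ)) = γ t
    rw [Set.projIcc_val]
  let Good : ℝ → Prop := fun τ => ∃ Γ : ℝ → E, ContinuousOn Γ (Set.Icc 0 τ) ∧ Γ 0 = e0 ∧
    ∀ t ∈ Set.Icc 0 τ, p (Γ t) = γ' t
  have hmono : ∀ τ τ' : ℝ, τ' ≤ τ → Good τ → Good τ' := by
    rintro τ τ' h ⟨Γ, h1, h2, h3⟩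
    exact ⟨Γ, h1.mono (Set.Icc_subset_Icc_right h), h2, fun t ht => h3 t ⟨ht.1, ht.2.trans h⟩⟩
  have glue : ∀ (t₁ τ : ℝ) (Γ : ℝ → E) (q : OpenPartialHomeomorph E X), 0 ≤ t₁ → t₁ ≤ τ →
      ContinuousOn Γ (Set.Icc 0 t₁) → Γ 0 = e0 → (∀ t ∈ Set.Icc 0 t₁, p (Γ t) = γ' t) → p = q →
      Γ t₁ ∈ q.source → (∀ t ∈ Set.Icc t₁ τ, γ' t ∈ q.target) → Good τ := by
    intro t₁ τ Γ q h0 h1 hc hΓ0 hl hpq hsrc htgt
    have hval : Γ t₁ = q.symm (γ' t₁) := by
      rw [← hl t₁ ⟨h0, le_rfl⟩, hpq, q.left_inv hsrc]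
    refine ⟨fun t => if t ≤ t₁ then Γ t else q.symm (γ' t), ?_, ?_, ?_⟩
    · exact tr7_glue_Icc h0 h1 hc (q.continuousOn_symm.comp hγ'.continuousOn htgt) hval
    · simp [h0, hΓ0]
    · intro t ht
      by_cases htt : t ≤ t₁
      · simp only [htt, if_true]
        exact hl t ⟨ht.1, htt⟩
      · simp only [htt, if_false]
        rw [hpq, q.right_inv (htgt t ⟨(not_le.1 htt).le, ht.2⟩)]
  have hgood0 : Good 0 := by
    refine ⟨fun _ => e0, continuousOn_const, rfl, fun t ht => ?_⟩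
    have : t = 0 := le_antisymm ht.2 ht.1
    subst this
    show p e0 = γ (Set.projIcc 0 1 zero_le_one 0)
    rw [Set.projIcc_left, h0]
    rfl
  -- values of partial lifts lie in `C`
  have hinC : ∀ (τ : ℝ) (Γ : ℝ → E), τ ∈ Set.Icc (0 : ℝ) 1 → ContinuousOn Γ (Set.Icc 0 τ) → Γ 0 = e0 →
      (∀ t ∈ Set.Icc 0 τ, p (Γ t) = γ' t) → Γ τ ∈ C := by
    intro τ Γ hτ hc hΓ0 hl
    refine apriori ⟨τ, hτ⟩ (fun t => Γ t) ?_ hΓ0 ?_ ⟨τ, hτ⟩ le_rfl
    · exact hc.comp continuous_subtype_val.continuousOn fun t ht => ⟨t.2.1, ht⟩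
    · intro t ht
      rw [← hγ'I]
      exact hl t ⟨t.2.1, ht⟩
  -- the limit step
  have hlim : ∀ τ : ℝ, 0 < τ → τ ≤ 1 → (∀ τ', 0 ≤ τ' → τ' < τ → Good τ') → Good τ := by
    intro τ hτ0 hτ1 hall
    have : Nonempty E := ⟨e0⟩
    choose! Γ hΓc hΓ0 hΓl using hall
    let ε : ℝ → E := fun t => Γ t t
    have hev : ∀ᶠ t in 𝓝[<] τ, 0 ≤ t ∧ t < τ := by
      filter_upwards [Ioo_mem_nhdsLT hτ0] with t ht using ⟨ht.1.le, ht.2⟩
    have hle : map ε (𝓝[<] τ) ≤ 𝓟 C := by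
      rw [le_principal_iff, mem_map]
      filter_upwards [hev] with t ht
      exact hinC t (Γ t) ⟨ht.1, (ht.2.trans_le hτ1).le⟩ (hΓc t ht.1 ht.2) (hΓ0 t ht.1 ht.2)
        (hΓl t ht.1 ht.2)
    obtain ⟨e, _, he⟩ := hC.exists_clusterPt hle
    obtain ⟨q, hq, hpq⟩ := hp e
    have hpe : p e = γ' τ := by
      have h1 : ClusterPt (p e) (map p (map ε (𝓝[<] τ))) :=
        he.map hp.continuous.continuousAt tendsto_map
      have h2 : map p (map ε (𝓝[<] τ)) ≤ 𝓝 (γ' τ) := by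
        rw [map_map]
        have h3 : Tendsto γ' (𝓝[<] τ) (𝓝 (γ' τ)) := hγ'.continuousAt.tendsto.mono_left nhdsWithin_le_nhds
        refine (Tendsto.congr' ?_ h3 : Tendsto (p ∘ ε) (𝓝[<] τ) (𝓝 (γ' τ)))
        filter_upwards [hev] with t ht
        exact (hΓl t ht.1 ht.2 t ⟨ht.1, le_rfl⟩).symm
      exact eq_of_nhds_neBot (h1.mono h2)
    have htgt : ∀ᶠ t in 𝓝 τ, γ' t ∈ q.target := by
      refine hγ'.continuousAt (q.open_target.mem_nhds ?_)
      rw [← hpe, hpq]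
      exact q.map_source hq
    obtain ⟨δ, hδ, hball⟩ := Metric.eventually_nhds_iff_ball.1 htgt
    have hfreq : ∃ᶠ t in 𝓝[<] τ, ε t ∈ q.source := by
      have := he.frequently (q.open_source.mem_nhds hq)
      exact this
    have hev2 : ∀ᶠ t in 𝓝[<] τ, τ - δ < t := by
      filter_upwards [Ioo_mem_nhdsLT (show τ - δ < τ by linarith)] with t ht using ht.1
    obtain ⟨t₁, hsrc, ⟨h01, h1τ⟩, hδt⟩ := (hfreq.and_eventually (hev.and hev2)).exists
    refine glue t₁ τ (Γ t₁) q h01 h1τ.le (hΓc t₁ h01 h1τ) (hΓ0 t₁ h01 h1τ) (hΓl t₁ h01 h1τ) hpq hsrc ?_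
    intro t ht
    refine hball t ?_
    rw [Metric.mem_ball, Real.dist_eq, abs_lt]
    constructor <;> linarith [ht.1, ht.2]
  have hsub : Set.Icc (0 : ℝ) 1 ⊆ {τ | Good τ} := by
    refine IsClosed.Icc_subset_of_forall_mem_nhdsWithin ?_ hgood0 ?_
    · -- closedness
      rw [← closure_subset_iff_isClosed]
      intro τ hτ
      have hτI : τ ∈ Set.Icc (0 : ℝ) 1 :=
        (closure_minimal Set.inter_subset_right isClosed_Icc) hτ
      refine ⟨?_, hτI⟩
      rcases hτI.1.eq_or_lt with h | h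
      · rw [← h]; exact hgood0
      · refine hlim τ h hτI.2 fun τ' _ hτ' => ?_
        obtain ⟨σ', hσ1, hσ2⟩ := mem_closure_iff.1 hτ (Set.Ioi τ') isOpen_Ioi hτ'
        exact hmono σ' τ' (le_of_lt hσ1) hσ2.1
    · rintro x ⟨⟨Γ, hc, hΓ0, hl⟩, hx⟩
      obtain ⟨q, hq, hpq⟩ := hp (Γ x)
      have htgt : ∀ᶠ t in 𝓝 x, γ' t ∈ q.target := by
        refine hγ'.continuousAt (q.open_target.mem_nhds ?_)
        rw [← hl x ⟨hx.1, le_rfl⟩, hpq]
        exact q.map_source hq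
      obtain ⟨δ, hδ, hball⟩ := Metric.eventually_nhds_iff_ball.1 htgt
      filter_upwards [Ioo_mem_nhdsGT (show x < x + δ by linarith)] with τ hτ
      refine glue x τ Γ q hx.1 hτ.1.le hc hΓ0 hl hpq hq fun t ht => hball t ?_
      rw [Metric.mem_ball, Real.dist_eq, abs_lt]
      constructor <;> linarith [ht.1, ht.2, hτ.2]
  obtain ⟨Γ, hc, hΓ0, hl⟩ := hsub ⟨zero_le_one, le_rfl⟩
  refine ⟨⟨fun t => Γ t, ?_⟩, hΓ0, fun t => ?_⟩
  · exact hc.comp_continuous continuous_subtype_val fun t => t.2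
  · show p (Γ t) = γ t
    rw [← hγ'I]
    exact hl t t.2
end Claimed.Agent.R316
end
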