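/- Packed by merge_tool.py (helper293): 7 modules of Claimed.Agent.R316 in one file, same declarations.
   Old modules, in this order: Base.Rich.Defs, Base.Rich.Elem, Base.Rich.RegMax, S7.Trans.Local, S7.Trans.Lift, S7.Trans.AbsChain, S7.Trans.AbsSec -/
import Claimed.Agent.R316.Base.SV.Api
import Claimed.Agent.R316.Base.Metric.Api
import Claimed.Agent.R316.CM.MaxP
import Claimed.Agent.R316.CW.MatAlg
import Claimed.Agent.R316.Pack016
import Claimed.Agent.R316.Pack011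
import Claimed.Agent.R316.Pack003
import Claimed.Agent.R316.Pack022_2

/- ===== packed: Claimed.Agent.R316.Base.Rich.Defs ===== -/
section
/-!
# Row 316 base layer, `BP-G13`: DEFINITIONS (viscosity Hessian inequalities, local Lipschitz bounds, germs)

Sub-captain of `BP-G13`: helper16.  The four exported definitions `DdGe`, `DdLe`, `LocLipBound`, `GoodDist` are those of helper97
(moved VERBATIM from `Rich/Api.lean`, which imports this file).  The other definitions are internal to `Base/Rich/`.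

All properties used in the proof of Richberg's theorem are properties of the GERM of the function at a point:
* `DdGeAt 𝓜 v A x` : every smooth upper test function `q` of `v` at `x` has `dd q (x) ≥ A (x)`;
* `LocLipAt 𝓜 g v L x` : for every `η > 0`, `v` is `(L + η)`-Lipschitz for `hdist 𝓜 g` on a neighbourhood of `x`;
* `SmoothAt 𝓜 v x` : `v ∘ Φ` is `C^∞` at `z` for every holomorphic parametrisation with `Φ z = x`;
* `IsCForm 𝓜 A` : CONTINUOUS Hermitian form field (`IsHForm` with `ContinuousOn` entries).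
Chart level:
* `ChVisc U f a` : `levi f ≥ a` on `U ⊆ ℂ^ι` in the viscosity sense (test functions: `C^∞` on all of `ℂ^ι`);
* `ChLipAt G f L z` : for every `η > 0`, `|f y - f y'| ≤ (L + η) |y - y'|_G` for `y, y'` near `z` (`G` a constant matrix).
-/

set_option autoImplicit false
open scoped ContDiff ComplexOrder Topology
open Filter

namespace Claimed.Agent.R316

variable {V : Type} [NormedAddCommGroup V] [NormedSpace ℝ V]
variable {ι : Type} [Fintype ι] [DecidableEq ι]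

/-- `dd v ≥ A` over the points of `Ω`, in the viscosity sense. -/
def DdGe (𝓜 : CMfd V ι) (Ω : Set V) (v : V → ℝ) (A : HFam V ι) : Prop :=
  ∀ x ∈ 𝓜.carrier ∩ Ω, ∀ q : V → ℝ, UpperSupp 𝓜 v q x → leFOn 𝓜 {x} A (ddc q)

/-- `dd v ≤ A` over the points of `Ω`, in the viscosity sense. -/
def DdLe (𝓜 : CMfd V ι) (Ω : Set V) (v : V → ℝ) (A : HFam V ι) : Prop :=
  ∀ x ∈ 𝓜.carrier ∩ Ω, ∀ q : V → ℝ, LowerSupp 𝓜 v q x → leFOn 𝓜 {x} (ddc q) A

/-- `Λ` bounds the local Lipschitz constant of `v` (for the distance of `g`). -/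
def LocLipBound (𝓜 : CMfd V ι) (g : HFam V ι) (v Λ : V → ℝ) : Prop :=
  ∀ x ∈ 𝓜.carrier, ∀ η : ℝ, 0 < η → ∃ N ∈ 𝓝[𝓜.carrier] x, ∀ y ∈ N, ∀ y' ∈ N,
    |v y - v y'| ≤ (Λ x + η) * hdist 𝓜 g y y'

/-- **the geometric input of the analysis on `(M,g)`**: smooth approximate squared distance functions. -/
def GoodDist (𝓜 : CMfd V ι) (g : HFam V ι) : Prop :=
  ∀ x₀ ∈ 𝓜.carrier, ∀ ε : ℝ, 0 < ε → ∃ ρ : V → ℝ, 𝓜.Smooth ρ ∧
    (∀ y ∈ 𝓜.carrier, |ρ y - hdist 𝓜 g x₀ y ^ 2| ≤ ε) ∧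
    leF 𝓜 (ddc ρ) (smulF (fun _ => 2) g) ∧
    ∀ y ∈ 𝓜.carrier, gradSq 𝓜 g ρ y ≤ (hdist 𝓜 g x₀ y + ε) ^ 2

/-! ### internal definitions of `Base/Rich/` -/

/-- `dd v ≥ A` at the point `x`, in the viscosity sense. -/
def DdGeAt (𝓜 : CMfd V ι) (v : V → ℝ) (A : HFam V ι) (x : V) : Prop :=
  ∀ q : V → ℝ, UpperSupp 𝓜 v q x → leFOn 𝓜 {x} A (ddc q)

/-- the local Lipschitz constant of `v` at `x` is `≤ L`. -/
def LocLipAt (𝓜 : CMfd V ι) (g : HFam V ι) (v : V → ℝ) (L : ℝ) (x : V) : Prop :=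
  ∀ η : ℝ, 0 < η → ∃ N ∈ 𝓝[𝓜.carrier] x, ∀ y ∈ N, ∀ y' ∈ N,
    |v y - v y'| ≤ (L + η) * hdist 𝓜 g y y'

omit [DecidableEq ι] in
/-- `v` is smooth at `x` (in every holomorphic parametrisation). -/
def SmoothAt (𝓜 : CMfd V ι) (v : V → ℝ) (x : V) : Prop :=
  ∀ (Φ : CE ι → V) (U : Set (CE ι)), 𝓜.IsHol Φ U → ∀ z ∈ U, Φ z = x → ContDiffAt ℝ ∞ (v ∘ Φ) z

/-- `A` is a CONTINUOUS Hermitian form field on `𝓜`. -/
structure IsCForm (𝓜 : CMfd V ι) (A : HFam V ι) : Prop where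
  herm : ∀ {Φ : CE ι → V} {U : Set (CE ι)}, 𝓜.IsHol Φ U → ∀ z ∈ U, (A Φ z).IsHermitian
  cont : ∀ {Φ : CE ι → V} {U : Set (CE ι)}, 𝓜.IsHol Φ U →
    ∀ j k, ContinuousOn (fun z => A Φ z j k) U
  compat : ∀ {Φ Ψ : CE ι → V} {U W : Set (CE ι)}, 𝓜.IsHol Φ U → 𝓜.IsHol Ψ W →
    ∀ z ∈ U, Φ z ∈ Ψ '' W →
      A Φ z = (jac (Function.invFunOn Ψ W ∘ Φ) z).conjTranspose *
        A Ψ (Function.invFunOn Ψ W (Φ z)) * jac (Function.invFunOn Ψ W ∘ Φ) z

/-- `levi f ≥ a` on `U ⊆ ℂ^ι`, in the viscosity sense. -/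
def ChVisc (U : Set (CE ι)) (f : CE ι → ℝ) (a : CE ι → Matrix ι ι ℂ) : Prop :=
  ∀ z ∈ U, ∀ q : CE ι → ℝ, ContDiff ℝ ∞ q → (∀ᶠ y in 𝓝 z, f y ≤ q y) → q z = f z →
    (levi q z - a z).PosSemidef

omit [DecidableEq ι] in
/-- the local Lipschitz constant of `f` at `z`, for the norm `|a|² = aᴴ G a`, is `≤ L`. -/
def ChLipAt (G : Matrix ι ι ℂ) (f : CE ι → ℝ) (L : ℝ) (z : CE ι) : Prop :=
  ∀ η : ℝ, 0 < η → ∀ᶠ p in 𝓝 ((z, z) : CE ι × CE ι),
    |f p.1 - f p.2| ≤ (L + η) * Real.sqrt (qf G (p.1 - p.2))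

end Claimed.Agent.R316
end

/- ===== packed: Claimed.Agent.R316.Base.Rich.Elem ===== -/
section
/-!
# Row 316, `BP-G13`, file `Rich/Elem.lean`: elementary facts on viscosity inequalities, germs, continuous forms

Sub-captain: helper16.  PAPER FREE.  Definitions: `Rich/Defs.lean`, `Base/Geod/Defs.lean` (`UpperSupp`, `LowerSupp`), `Core/Basic.lean`
(`leFOn`, `ddc`, `smulF`).  `A - B`, `-A`, `A + B`, `0` on `HFam V ι` are the pointwise (`Pi`) operations: `(A - B) Φ z = A Φ z - B Φ z` is `rfl`.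

LEAVES.
* **G13-ELEM-A** = section `germ` + section `cform`.
* **G13-ELEM-B** = section `api1` (the statements of helper97's export file, VERBATIM; they are re-exported by `Rich/Api.lean`).

HINTS.
* germs: `h : v =ᶠ[𝓝[𝓜.carrier] x] v'`, `hx : x ∈ 𝓜.carrier` give `v x = v' x` (`h.eq_of_nhdsWithin hx`).
  In a parametrisation: `(𝓜.isParam hΦ).map_nhds_eq hz : map Φ (𝓝 z) = 𝓝[𝓜.carrier] (Φ z)` turns `∀ᶠ y in 𝓝[𝓜.carrier] (Φ z), P y` into
  `∀ᶠ w in 𝓝 z, P (Φ w)` (`Filter.eventually_map`).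
* `leFOn_singleton_of_chart`: for another parametrisation `(Ψ, W)`, `w ∈ W`, `Ψ w = Φ z`: `compat hΨ hΦ w hw ⟨z, hz, _⟩` for `A` and `B`, with
  `invFunOn Φ U (Ψ w) = z` (`IsParam.leftInv`), so `B Ψ w - A Ψ w = Jᴴ (B Φ z - A Φ z) J`; `Matrix.PosSemidef.conjTranspose_mul_mul_same`.
* second derivative test: `CM/MaxP.lean` `ddc_nonpos_of_localMax` applied to `-q` (`ddc_neg`), or `CW/Levi.lean` directly.
* `ddGe_of_smooth`: `q - v` has a local minimum at `x`; `ddc_sub`.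
* `ddGe_of_lowerSupp`: `q - s` has a local minimum, so `dd q ≥ dd s ≥ A - ε g` for all `ε > 0`; a Hermitian matrix `P` with `P + ε H ≥ 0` for all `ε > 0`
  is `≥ 0` (`lv_posSemidef_iff_qf`, `lv_qf_add`, `lv_qf_smul`, let `ε → 0`: `le_of_forall_pos_le_add`-type argument).
* `DdGe.const_mul`: `c = 0` (second derivative test) and `c > 0` (test function `c⁻¹ q`) separately.
* `DdGe.max`: at `x` one of the two functions equals the maximum; `q` is an upper test function for it.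
-/

set_option autoImplicit false
set_option linter.unusedSectionVars false
open scoped ContDiff ComplexOrder Topology
open Filter

namespace Claimed.Agent.R316

variable {V : Type} [NormedAddCommGroup V] [NormedSpace ℝ V]
variable {ι : Type} [Fintype ι] [DecidableEq ι]
variable [FiniteDimensional ℝ V]
variable {𝓜 : CMfd V ι} {g A B : HFam V ι} {Ω : Set V} {v v' w q : V → ℝ} {x : V} {L L' : ℝ}

/-! ### germs -/

section germ

theorem ddGe_iff_at : DdGe 𝓜 Ω v A ↔ ∀ x ∈ 𝓜.carrier ∩ Ω, DdGeAt 𝓜 v A x := Iff.rfl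

theorem locLipBound_iff_at {Λ : V → ℝ} :
    LocLipBound 𝓜 g v Λ ↔ ∀ x ∈ 𝓜.carrier, LocLipAt 𝓜 g v (Λ x) x := Iff.rfl

theorem UpperSupp.congr_germ (hx : x ∈ 𝓜.carrier) (h : v =ᶠ[𝓝[𝓜.carrier] x] v')
    (hq : UpperSupp 𝓜 v q x) : UpperSupp 𝓜 v' q x :=
  ⟨hq.smooth, by filter_upwards [hq.le, h] with y h1 h2; rw [← h2]; exact h1,
    by rw [hq.eq]; exact h.eq_of_nhdsWithin hx⟩

theorem DdGeAt.congr_germ (hx : x ∈ 𝓜.carrier) (h : v =ᶠ[𝓝[𝓜.carrier] x] v')
    (hv : DdGeAt 𝓜 v A x) : DdGeAt 𝓜 v' A x :=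
  fun q hq => hv q (hq.congr_germ hx h.symm)

theorem DdGeAt.mono (hv : DdGeAt 𝓜 v A x) (hBA : leFOn 𝓜 {x} B A) : DdGeAt 𝓜 v B x := by
  intro q hq Φ U hΦ z hz hzx
  exact loewner_trans (hBA Φ U hΦ z hz hzx) (hv q hq Φ U hΦ z hz hzx)

theorem LocLipAt.congr_germ (h : v =ᶠ[𝓝[𝓜.carrier] x] v') (hv : LocLipAt 𝓜 g v L x) :
    LocLipAt 𝓜 g v' L x := by
  intro η hη
  obtain ⟨N, hN, hNs⟩ := hv η hη
  refine ⟨N ∩ {y | v y = v' y}, Filter.inter_mem hN h, fun y hy y' hy' => ?_⟩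
  have e1 : v y = v' y := hy.2
  have e2 : v y' = v' y' := hy'.2
  rw [← e1, ← e2]
  exact hNs y hy.1 y' hy'.1

theorem LocLipAt.mono (hv : LocLipAt 𝓜 g v L x) (hL : L ≤ L') : LocLipAt 𝓜 g v L' x := by
  intro η hη
  obtain ⟨N, hN, hNs⟩ := hv η hη
  refine ⟨N, hN, fun y hy y' hy' => (hNs y hy y' hy').trans ?_⟩
  exact mul_le_mul_of_nonneg_right (by linarith) (hdist_nonneg 𝓜 g y y')

theorem LocLipAt.add (hv : LocLipAt 𝓜 g v L x) (hw : LocLipAt 𝓜 g w L' x) :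
    LocLipAt 𝓜 g (fun y => v y + w y) (L + L') x := by
  intro η hη
  obtain ⟨N, hN, hNs⟩ := hv (η / 2) (half_pos hη)
  obtain ⟨N', hN', hNs'⟩ := hw (η / 2) (half_pos hη)
  refine ⟨N ∩ N', Filter.inter_mem hN hN', fun y hy y' hy' => ?_⟩
  have h1 := hNs y hy.1 y' hy'.1
  have h2 := hNs' y hy.2 y' hy'.2
  have e : v y + w y - (v y' + w y') = (v y - v y') + (w y - w y') := by ring
  rw [e]
  refine (abs_add_le _ _).trans ?_
  have e2 : (L + L' + η) * hdist 𝓜 g y y' =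
      (L + η / 2) * hdist 𝓜 g y y' + (L' + η / 2) * hdist 𝓜 g y y' := by ring
  rw [e2]
  exact add_le_add h1 h2

theorem LocLipAt.neg (hv : LocLipAt 𝓜 g v L x) : LocLipAt 𝓜 g (fun y => - v y) L x := by
  intro η hη
  obtain ⟨N, hN, hNs⟩ := hv η hη
  refine ⟨N, hN, fun y hy y' hy' => ?_⟩
  have e : - v y - - v y' = - (v y - v y') := by ring
  rw [e, abs_neg]
  exact hNs y hy y' hy'

/-- a function with a local Lipschitz bound is continuous. -/
theorem LocLipAt.continuousWithinAt (hg : IsMetric 𝓜 g) (_hconn : IsConnected 𝓜.carrier)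
    (hx : x ∈ 𝓜.carrier) (hv : LocLipAt 𝓜 g v L x) : ContinuousWithinAt v 𝓜.carrier x := by
  obtain ⟨N, hN, hNs⟩ := hv 1 one_pos
  have hxN : x ∈ N := mem_of_mem_nhdsWithin hx hN
  have h0 : Tendsto (fun y => v y - v x) (𝓝[𝓜.carrier] x) (𝓝 0) := by
    refine squeeze_zero_norm' (a := fun y => (L + 1) * hdist 𝓜 g x y) ?_ ?_
    · filter_upwards [hN] with y hy
      rw [Real.norm_eq_abs, hdist_comm hg x y]
      exact hNs y hy x hxN
    · simpa using (g0_tendsto_hdist_self hg hx).const_mul (L + 1)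
  exact tendsto_sub_nhds_zero_iff.1 h0

theorem SmoothAt.congr_germ (h : v =ᶠ[𝓝[𝓜.carrier] x] v') (hv : SmoothAt 𝓜 v x) :
    SmoothAt 𝓜 v' x := by
  intro Φ U hΦ z hz hzx
  subst hzx
  refine (hv Φ U hΦ z hz rfl).congr_of_eventuallyEq ?_
  rw [← (𝓜.isParam hΦ).map_nhds_eq hz] at h
  exact (Filter.eventually_map.1 h).mono fun y hy => hy.symm

theorem CMfd.Smooth.smoothAt (hv : 𝓜.Smooth v) (x : V) : SmoothAt 𝓜 v x :=
  fun Φ U hΦ _ hz _ => (hv Φ U hΦ).contDiffAt ((𝓜.isParam hΦ).isOpen.mem_nhds hz)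

theorem smooth_of_forall_smoothAt (h : ∀ x ∈ 𝓜.carrier, SmoothAt 𝓜 v x) : 𝓜.Smooth v :=
  fun Φ U hΦ z hz => (h (Φ z) (CMfd.mem_carrier hΦ hz) Φ U hΦ z hz rfl).contDiffWithinAt

theorem SmoothAt.comp₂ {χ : ℝ × ℝ → ℝ} (hχ : ContDiff ℝ ∞ χ) (hv : SmoothAt 𝓜 v x)
    (hw : SmoothAt 𝓜 w x) : SmoothAt 𝓜 (fun y => χ (v y, w y)) x :=
  fun Φ U hΦ z hz hzx => hχ.contDiffAt.comp z ((hv Φ U hΦ z hz hzx).prodMk (hw Φ U hΦ z hz hzx))

/-- the complement of the image of a compact set is a neighbourhood (within the carrier) of each of its points. -/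
theorem eventually_notMem_image_of_isCompact {Φ : CE ι → V} {U C : Set (CE ι)} (hΦ : 𝓜.IsHol Φ U)
    (hC : IsCompact C) (hCU : C ⊆ U) (hx : x ∉ Φ '' C) : ∀ᶠ y in 𝓝[𝓜.carrier] x, y ∉ Φ '' C := by
  have hcl : IsClosed (Φ '' C) :=
    (hC.image_of_continuousOn ((𝓜.isParam hΦ).continuousOn.mono hCU)).isClosed
  exact mem_nhdsWithin_of_mem_nhds (hcl.isOpen_compl.mem_nhds hx)

/-- the image of an open subset of the domain is a neighbourhood (within the carrier) of each of its points. -/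
theorem eventually_mem_image_of_isOpen {Φ : CE ι → V} {U O : Set (CE ι)} (hΦ : 𝓜.IsHol Φ U)
    (hO : IsOpen O) (hOU : O ⊆ U) (hx : x ∈ Φ '' O) : ∀ᶠ y in 𝓝[𝓜.carrier] x, y ∈ Φ '' O := by
  obtain ⟨z, hz, rfl⟩ := hx
  filter_upwards [(𝓜.isParam hΦ).eventually_mem_image (hOU hz) (hO.mem_nhds hz)] with y hy
  exact Set.image_mono Set.inter_subset_left hy

end germ

/-! ### continuous Hermitian forms -/

section cform

theorem IsHForm.isCForm (hA : IsHForm 𝓜 A) : IsCForm 𝓜 A :=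
  ⟨hA.herm, fun hΦ j k => (hA.smooth hΦ j k).continuousOn, hA.compat⟩

theorem IsCForm.sub (hA : IsCForm 𝓜 A) (hB : IsCForm 𝓜 B) : IsCForm 𝓜 (A - B) := by
  refine ⟨fun hΦ z hz => (hA.herm hΦ z hz).sub (hB.herm hΦ z hz),
    fun hΦ j k => (hA.cont hΦ j k).sub (hB.cont hΦ j k), fun {Φ Ψ U W} hΦ hΨ z hz hz' => ?_⟩
  simp only [Pi.sub_apply]
  rw [hA.compat hΦ hΨ z hz hz', hB.compat hΦ hΨ z hz hz', Matrix.mul_sub, Matrix.sub_mul]

theorem IsCForm.smulF {f : V → ℝ} (hf : ContinuousOn f 𝓜.carrier) (hA : IsCForm 𝓜 A) :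
    IsCForm 𝓜 (smulF f A) := by
  refine ⟨fun hΦ z hz => isHermitian_smul_real _ (hA.herm hΦ z hz),
    fun {Φ U} hΦ j k => ?_, fun {Φ Ψ U W} hΦ hΨ z hz hz' => ?_⟩
  · have h1 : ContinuousOn (fun z => ((f (Φ z) : ℝ) : ℂ)) U :=
      Complex.continuous_ofReal.comp_continuousOn
        (hf.comp (𝓜.isParam hΦ).continuousOn fun z hz => CMfd.mem_carrier hΦ hz)
    exact h1.mul (hA.cont hΦ j k)
  · have e : Ψ (Function.invFunOn Ψ W (Φ z)) = Φ z := Function.invFunOn_eq hz'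
    simp only [R316.smulF]
    rw [hA.compat hΦ hΨ z hz hz', Matrix.mul_smul, Matrix.smul_mul, e]

/-- an inequality between (continuous) forms at one point may be checked in ONE parametrisation. -/
theorem leFOn_singleton_of_chart (hA : IsCForm 𝓜 A) (hB : IsCForm 𝓜 B) {Φ : CE ι → V}
    {U : Set (CE ι)} (hΦ : 𝓜.IsHol Φ U) {z : CE ι} (hz : z ∈ U)
    (h : (B Φ z - A Φ z).PosSemidef) : leFOn 𝓜 {Φ z} A B := by
  intro Ψ W hΨ w hw hwx
  rw [Set.mem_singleton_iff] at hwx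
  have hmem : Ψ w ∈ Φ '' U := ⟨z, hz, hwx.symm⟩
  have hinv : Function.invFunOn Φ U (Ψ w) = z := by
    rw [hwx]
    exact (𝓜.isParam hΦ).leftInv hz
  rw [hA.compat hΨ hΦ w hw hmem, hB.compat hΨ hΦ w hw hmem, hinv, ← Matrix.sub_mul,
    ← Matrix.mul_sub]
  exact h.conjTranspose_mul_mul_same _

/-- `(a - b) g ≥ 0` if `b ≤ a`: comparison of the losses. -/
theorem leFOn_sub_smulF_of_le (hg : IsMetric 𝓜 g) {a b : V → ℝ} (hab : b x ≤ a x) :
    leFOn 𝓜 {x} (A - smulF a g) (A - smulF b g) := by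
  intro Φ U hΦ z hz hzx
  rw [Set.mem_singleton_iff] at hzx
  have e : (A - smulF b g) Φ z - (A - smulF a g) Φ z = ((a x - b x : ℝ) : ℂ) • g Φ z := by
    simp only [Pi.sub_apply, smulF, hzx]
    push_cast
    module
  rw [e]
  exact posSemidef_smul_real (by linarith) (hg.posDef hΦ z hz).posSemidef

end cform

/-! ### 1. Elementary facts (export statements of helper97, verbatim) -/

section api1

theorem ddLe_iff_ddGe_neg : DdLe 𝓜 Ω v A ↔ DdGe 𝓜 Ω (fun x => - v x) (-A) := by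
  constructor
  · intro h x hx q hq Φ U hΦ z hz hzx
    have hl : LowerSupp 𝓜 v (fun y => - q y) x :=
      ⟨hq.smooth.neg, by filter_upwards [hq.le] with y hy; linarith, by rw [hq.eq]; ring⟩
    have h1 := h x hx _ hl Φ U hΦ z hz hzx
    rw [ddc_neg] at h1
    have e : ddc q Φ z - (-A) Φ z = A Φ z - - ddc q Φ z := by
      simp only [Pi.neg_apply]
      abel
    rw [e]
    exact h1
  · intro h x hx q hq Φ U hΦ z hz hzx
    have hl : UpperSupp 𝓜 (fun y => - v y) (fun y => - q y) x :=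
      ⟨hq.smooth.neg, by filter_upwards [hq.le] with y hy; linarith, by rw [hq.eq]⟩
    have h1 := h x hx _ hl Φ U hΦ z hz hzx
    rw [ddc_neg] at h1
    have e : A Φ z - ddc q Φ z = - ddc q Φ z - (-A) Φ z := by
      simp only [Pi.neg_apply]
      abel
    rw [e]
    exact h1

theorem DdGe.mono_set {Ω' : Set V} (h : DdGe 𝓜 Ω v A) (hsub : Ω' ⊆ Ω) : DdGe 𝓜 Ω' v A :=
  fun x hx => h x ⟨hx.1, hsub hx.2⟩

theorem DdGe.mono_form (h : DdGe 𝓜 Ω v A) (hBA : leFOn 𝓜 Ω B A) : DdGe 𝓜 Ω v B :=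
  fun x hx => DdGeAt.mono (h x hx) (hBA.mono (Set.singleton_subset_iff.2 hx.2))

/-- locality. -/
theorem ddGe_of_forall_nhds (h : ∀ x ∈ 𝓜.carrier ∩ Ω, ∃ O : Set V, x ∈ O ∧ DdGe 𝓜 O v A) :
    DdGe 𝓜 Ω v A := by
  intro x hx
  obtain ⟨O, hxO, hO⟩ := h x hx
  exact hO x ⟨hx.1, hxO⟩

/-- second derivative test: at a local minimum of a smooth function the complex Hessian is `≥ 0`. -/
theorem ddc_posSemidef_of_isLocalMin {q : V → ℝ} (hq : 𝓜.Smooth q) {x : V} (hx : x ∈ 𝓜.carrier)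
    (hmin : ∀ᶠ y in 𝓝[𝓜.carrier] x, q x ≤ q y) : leFOn 𝓜 {x} 0 (ddc q) := by
  intro Φ U hΦ z hz hzx
  rw [Set.mem_singleton_iff] at hzx
  subst hzx
  have h1 := (ddc_nonpos_of_localMax (u := fun y => - q y) hq.neg hΦ hz
    (by filter_upwards [hmin] with y hy; linarith)).2
  rw [ddc_neg, neg_neg] at h1
  simpa using h1

/-- smooth functions. -/
theorem ddGe_of_smooth (hv : 𝓜.Smooth v) (h : leFOn 𝓜 Ω A (ddc v)) : DdGe 𝓜 Ω v A := by
  intro x hx q hq Φ U hΦ z hz hzx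
  have h1 := ddc_posSemidef_of_isLocalMin (q := fun y => q y - v y) (hq.smooth.sub hv) hx.1
    (by filter_upwards [hq.le] with y hy; rw [hq.eq]; linarith) Φ U hΦ z hz hzx
  rw [ddc_sub hq.smooth hv hΦ hz] at h1
  have h2 : (ddc q Φ z - ddc v Φ z).PosSemidef := by simpa using h1
  rw [Set.mem_singleton_iff] at hzx
  exact loewner_trans (h Φ U hΦ z hz (hzx ▸ hx.2)) h2

theorem DdGe.leFOn_of_smooth (hv : 𝓜.Smooth v) (h : DdGe 𝓜 Ω v A) : leFOn 𝓜 Ω A (ddc v) :=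
  fun Φ U hΦ z hz hzΩ => h (Φ z) ⟨CMfd.mem_carrier hΦ hz, hzΩ⟩ v
    ⟨hv, Filter.Eventually.of_forall fun _ => le_rfl, rfl⟩ Φ U hΦ z hz rfl

/-- a matrix `P` with `P + ε G ≥ 0` for all `ε > 0` is `≥ 0`. -/
theorem rich_posSemidef_of_forall_add {P G : Matrix ι ι ℂ} (hG : G.IsHermitian)
    (h : ∀ ε : ℝ, 0 < ε → (P + ((ε : ℝ) : ℂ) • G).PosSemidef) : P.PosSemidef := by
  have hP : P.IsHermitian := by
    have h1 := ((h 1 one_pos).isHermitian).sub hG
    simpa using h1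
  rw [posSemidef_iff_qf hP]
  intro a
  have key : ∀ ε : ℝ, 0 < ε → 0 ≤ qf P a + ε * qf G a := fun ε hε => by
    have := qf_nonneg (h ε hε) a
    rwa [qf_add, qf_smul] at this
  by_contra hneg
  rw [not_le] at hneg
  rcases le_or_gt (qf G a) 0 with hb | hb
  · have := key 1 one_pos
    linarith
  · have h1 := key (- qf P a / (2 * qf G a)) (div_pos (by linarith) (by linarith))
    have e : - qf P a / (2 * qf G a) * qf G a = - qf P a / 2 := by field_simp
    rw [e] at h1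
    linarith

/-- **support functions give viscosity inequalities** (with an `ε` of room). -/
theorem ddGe_of_lowerSupp (hg : IsMetric 𝓜 g)
    (h : ∀ x ∈ 𝓜.carrier ∩ Ω, ∀ ε : ℝ, 0 < ε → ∃ s : V → ℝ, LowerSupp 𝓜 v s x ∧
      leFOn 𝓜 {x} (A - smulF (fun _ => ε) g) (ddc s)) : DdGe 𝓜 Ω v A := by
  intro x hx q hq Φ U hΦ z hz hzx
  refine rich_posSemidef_of_forall_add (hg.herm hΦ z hz) fun ε hε => ?_
  obtain ⟨s, hs, hsA⟩ := h x hx ε hε
  have h1 := ddc_posSemidef_of_isLocalMin (q := fun y => q y - s y) (hq.smooth.sub hs.smooth) hx.1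
    (by filter_upwards [hq.le, hs.le] with y hy hy'; rw [hq.eq, hs.eq]; linarith) Φ U hΦ z hz hzx
  rw [ddc_sub hq.smooth hs.smooth hΦ hz] at h1
  have h2 : (ddc q Φ z - ddc s Φ z).PosSemidef := by simpa using h1
  have h3 := loewner_trans (hsA Φ U hΦ z hz hzx) h2
  have e : ddc q Φ z - A Φ z + ((ε : ℝ) : ℂ) • g Φ z =
      ddc q Φ z - (A - smulF (fun _ => ε) g) Φ z := by
    simp only [Pi.sub_apply, smulF]
    abel
  rw [e]
  exact h3

theorem ddLe_of_upperSupp (hg : IsMetric 𝓜 g)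
    (h : ∀ x ∈ 𝓜.carrier ∩ Ω, ∀ ε : ℝ, 0 < ε → ∃ s : V → ℝ, UpperSupp 𝓜 v s x ∧
      leFOn 𝓜 {x} (ddc s) (A + smulF (fun _ => ε) g)) : DdLe 𝓜 Ω v A := by
  rw [ddLe_iff_ddGe_neg]
  refine ddGe_of_lowerSupp hg fun x hx ε hε => ?_
  obtain ⟨s, hs, hsA⟩ := h x hx ε hε
  refine ⟨fun y => - s y, ⟨hs.smooth.neg, by filter_upwards [hs.le] with y hy; linarith,
    by rw [hs.eq]⟩, fun Φ U hΦ z hz hzx => ?_⟩
  have h1 := hsA Φ U hΦ z hz hzx
  rw [ddc_neg]
  have e : - ddc s Φ z - (-A - smulF (fun _ => ε) g) Φ z =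
      (A + smulF (fun _ => ε) g) Φ z - ddc s Φ z := by
    simp only [Pi.sub_apply, Pi.neg_apply, Pi.add_apply]
    abel
  rw [e]
  exact h1

/-- adding a smooth function. -/
theorem DdGe.add_smooth (h : DdGe 𝓜 Ω v A) (hw : 𝓜.Smooth w) :
    DdGe 𝓜 Ω (fun x => v x + w x) (A + ddc w) := by
  intro x hx q hq Φ U hΦ z hz hzx
  have hu : UpperSupp 𝓜 v (fun y => q y - w y) x :=
    ⟨hq.smooth.sub hw, by filter_upwards [hq.le] with y hy; linarith, by rw [hq.eq]; ring⟩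
  have h1 := h x hx _ hu Φ U hΦ z hz hzx
  rw [ddc_sub hq.smooth hw hΦ hz] at h1
  have e : ddc q Φ z - (A + ddc w : HFam V ι) Φ z = ddc q Φ z - ddc w Φ z - A Φ z := by
    simp only [Pi.add_apply]
    abel
  rw [e]
  exact h1

theorem DdGe.const_mul (h : DdGe 𝓜 Ω v A) {c : ℝ} (hc : 0 ≤ c) :
    DdGe 𝓜 Ω (fun x => c * v x) (smulF (fun _ => c) A) := by
  intro x hx q hq Φ U hΦ z hz hzx
  rcases hc.eq_or_lt with rfl | hc
  · have h1 := ddc_posSemidef_of_isLocalMin hq.smooth hx.1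
      (by filter_upwards [hq.le] with y hy; rw [hq.eq]; linarith) Φ U hΦ z hz hzx
    simpa [smulF] using h1
  · have hu : UpperSupp 𝓜 v (fun y => c⁻¹ * q y) x :=
      ⟨hq.smooth.const_mul _, by
        filter_upwards [hq.le] with y hy
        rw [← mul_le_mul_iff_right₀ hc, ← mul_assoc, mul_inv_cancel₀ hc.ne', one_mul]
        exact hy, by rw [hq.eq]; field_simp⟩
    have h1 := h x hx _ hu Φ U hΦ z hz hzx
    rw [ddc_const_mul _ hq.smooth hΦ hz] at h1
    have h2 := posSemidef_smul_real hc.le h1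
    have e : ddc q Φ z - smulF (fun _ => c) A Φ z =
        ((c : ℝ) : ℂ) • (((c⁻¹ : ℝ) : ℂ) • ddc q Φ z - A Φ z) := by
      have hc' : ((c : ℝ) : ℂ) ≠ 0 := by exact_mod_cast hc.ne'
      simp only [smulF]
      rw [smul_sub, smul_smul]
      push_cast
      rw [mul_inv_cancel₀ hc', one_smul]
    rw [e]
    exact h2

/-- maximum of two functions. -/
theorem DdGe.max (h : DdGe 𝓜 Ω v A) (h' : DdGe 𝓜 Ω w A) : DdGe 𝓜 Ω (fun x => max (v x) (w x)) A := by
  intro x hx q hq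
  rcases le_total (w x) (v x) with hvw | hvw
  · exact h x hx q ⟨hq.smooth, by filter_upwards [hq.le] with y hy using (le_max_left _ _).trans hy,
      by rw [hq.eq]; exact max_eq_left hvw⟩
  · exact h' x hx q ⟨hq.smooth, by filter_upwards [hq.le] with y hy using (le_max_right _ _).trans hy,
      by rw [hq.eq]; exact max_eq_right hvw⟩

end api1

end Claimed.Agent.R316
end

/- ===== packed: Claimed.Agent.R316.Base.Rich.RegMax ===== -/
section
/-!
# Row 316, `BP-G13`, file `Rich/RegMax.lean`: the regularised maximum of two functions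

Sub-captain: helper16.  PAPER FREE.

`richM d = ∫_{-1}^d S((t+1)/2) dt`, `S = Real.smoothTransition` (smooth, monotone, `0` on `(-∞,0]`, `1` on `[1,∞)`, `S x + S (1-x) = 1`):
a smooth convex function with `richM = 0` on `(-∞,-1]`, `richM d = d` on `[1,∞)`.
`regMax κ s t = s + κ richM ((t - s)/κ)`: smooth, convex, `= max s t` if `|s - t| ≥ κ`.

LEAVES.
* **G13-RMAX-A** = section `real` (Mathlib only, ~250 lines).
* **G13-RMAX-B** = section `mfd` (~250 lines).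

PLANS.
* `richM_hasDerivAt`: `intervalIntegral.integral_hasDerivAt_right` (continuous integrand).  `richM_contDiff`: `contDiff_infty_iff_deriv` / `contDiff_succ_iff_deriv`: `deriv richM = S ∘ affine` is `C^∞`.
* `richM_of_le`: the integrand vanishes on `[d,-1]` (`Real.smoothTransition.zero_of_nonpos`).
* `richM_one : richM 1 = 1`: `I = ∫_{-1}^1 S((t+1)/2)`; substitution `t ↦ -t` and `S x + S (1 - x) = 1` (unfold `Real.smoothTransition`, `Real.smoothTransition.pos_denom`) give `I = 2 - I`.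
  `richM_of_ge`: `richM d = richM 1 + ∫_1^d 1`.
* `richM_subgrad`: `μ = S((d₀+1)/2)`; `richM d - richM d₀ = ∫_{d₀}^d S(..) ≥ μ (d - d₀)` for `d ≥ d₀` and for `d ≤ d₀` (`Real.smoothTransition.monotone`, `intervalIntegral.integral_mono_on`).
* `richM_nonneg`, `richM_ge_self`: subgradient inequality at `d₀ = -1` with... simpler: `richM` is monotone with `richM (-1) = 0`; `d - richM d` is monotone (derivative `1 - S ≥ 0`) ... or integrate `0 ≤ S ≤ 1`.
  `richM_le`: `d ≤ -1`: `0`; `d ≥ 1`: `d`; `-1 ≤ d ≤ 1`: `richM d ≤ richM 1 = 1`.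
* `regMax_support`: `μ` from `richM_subgrad ((t₀ - s₀)/κ)`; multiply by `κ > 0`.   `regMax_lip`: from `regMax_support` at both points:
  `regMax s t - regMax s' t' ≤ (1-μ)(s - s') + μ (t - t') ≤ max |s - s'| |t - t'|`.
* `DdGeAt.regMax`.  `q` an upper test function of `W = regMax κ v u` at `x`; `μ` from `regMax_support (v x) (u x)`; near `x`: `q y ≥ W y ≥ W x + (1-μ)(v y - v x) + μ (u y - u x)`, equality at `x`.
  `μ = 1`: `q - u` has a local minimum at `x`: `ddc_posSemidef_of_isLocalMin`, `ddc_sub`, so `dd q ≥ dd u ≥ A`.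
  `μ < 1`: `q̃ := (1-μ)⁻¹ (q - μ u - c)`, `c := W x - (1-μ) v x - μ u x`, is an upper test function of `v` at `x`; `dd q - A = (1-μ)(dd q̃ - A) + μ (dd u - A)`
  (`ddc_sub`, `ddc_const_mul`, `ddc_add_const`; `Matrix.PosSemidef.add`, `Matrix.PosSemidef.smul` with nonnegative real scalars).
* `LocLipAt.regMax`: intersect the two neighbourhoods, `regMax_lip`, `hdist_nonneg`.
-/

set_option autoImplicit false
set_option linter.unusedSectionVars false
open scoped ContDiff ComplexOrder Topology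
open Filter

namespace Claimed.Agent.R316

/-! ### the real functions -/

section real

/-- smooth convex function, `0` on `(-∞,-1]`, the identity on `[1,∞)`. -/
noncomputable def richM (d : ℝ) : ℝ := ∫ t in (-1 : ℝ)..d, Real.smoothTransition ((t + 1) / 2)

/-- regularised maximum at scale `κ`. -/
noncomputable def regMax (κ s t : ℝ) : ℝ := s + κ * richM ((t - s) / κ)

theorem richM_cont : Continuous fun t : ℝ => Real.smoothTransition ((t + 1) / 2) :=
  Real.smoothTransition.continuous.comp (by fun_prop)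

theorem richM_int (a b : ℝ) :
    IntervalIntegrable (fun t : ℝ => Real.smoothTransition ((t + 1) / 2)) MeasureTheory.volume a b :=
  richM_cont.intervalIntegrable a b

theorem richM_sub (a b : ℝ) :
    richM b - richM a = ∫ t in a..b, Real.smoothTransition ((t + 1) / 2) :=
  intervalIntegral.integral_interval_sub_left (richM_int _ _) (richM_int _ _)

theorem richM_hasDerivAt (d : ℝ) : HasDerivAt richM (Real.smoothTransition ((d + 1) / 2)) d :=
  (richM_cont.integral_hasStrictDerivAt (-1) d).hasDerivAt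

theorem richM_contDiff : ContDiff ℝ ∞ richM := by
  rw [contDiff_infty_iff_deriv]
  refine ⟨fun d => (richM_hasDerivAt d).differentiableAt, ?_⟩
  have h : deriv richM = fun t : ℝ => Real.smoothTransition ((t + 1) / 2) :=
    funext fun d => (richM_hasDerivAt d).deriv
  rw [h]
  exact Real.smoothTransition.contDiff.comp ((contDiff_id.add contDiff_const).div_const 2)

theorem richM_of_le {d : ℝ} (h : d ≤ -1) : richM d = 0 := by
  unfold richM
  rw [intervalIntegral.integral_congr (g := fun _ => (0 : ℝ)), intervalIntegral.integral_zero]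
  intro t ht
  rw [Set.uIcc_of_ge h] at ht
  exact Real.smoothTransition.zero_of_nonpos (by linarith [ht.2])

theorem richM_symm (t : ℝ) :
    Real.smoothTransition ((t + 1) / 2) + Real.smoothTransition ((-t + 1) / 2) = 1 := by
  have e : (-t + 1) / 2 = 1 - (t + 1) / 2 := by ring
  rw [e]
  generalize (t + 1) / 2 = x
  have h1 := Real.smoothTransition.pos_denom x
  unfold Real.smoothTransition
  rw [sub_sub_cancel, add_comm (expNegInvGlue (1 - x)) (expNegInvGlue x), ← add_div,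
    div_self h1.ne']

theorem richM_one : richM 1 = 1 := by
  have h1 : ∫ t in (-1 : ℝ)..1, Real.smoothTransition ((-t + 1) / 2) = richM 1 := by
    have := intervalIntegral.integral_comp_neg (a := (-1 : ℝ)) (b := 1)
      (fun t : ℝ => Real.smoothTransition ((t + 1) / 2))
    simpa [richM] using this
  have hc : Continuous fun t : ℝ => Real.smoothTransition ((-t + 1) / 2) :=
    Real.smoothTransition.continuous.comp (by fun_prop)
  have h2 : richM 1 + ∫ t in (-1 : ℝ)..1, Real.smoothTransition ((-t + 1) / 2) = 2 := by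
    unfold richM
    rw [← intervalIntegral.integral_add (richM_int _ _) (hc.intervalIntegrable _ _)]
    simp only [richM_symm]
    simp
    norm_num
  rw [h1] at h2
  linarith

theorem richM_of_ge {d : ℝ} (h : 1 ≤ d) : richM d = d := by
  have h1 := richM_sub 1 d
  rw [intervalIntegral.integral_congr (g := fun _ => (1 : ℝ)), richM_one] at h1
  · simp at h1
    linarith
  · intro t ht
    rw [Set.uIcc_of_le h] at ht
    exact Real.smoothTransition.one_of_one_le (by linarith [ht.1])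

theorem richM_subgrad (d₀ : ℝ) : ∃ μ : ℝ, 0 ≤ μ ∧ μ ≤ 1 ∧ ∀ d, richM d₀ + μ * (d - d₀) ≤ richM d := by
  refine ⟨Real.smoothTransition ((d₀ + 1) / 2), Real.smoothTransition.nonneg _,
    Real.smoothTransition.le_one _, fun d => ?_⟩
  rcases le_total d₀ d with h | h
  · have h1 := richM_sub d₀ d
    have h2 : ∫ _t in d₀..d, Real.smoothTransition ((d₀ + 1) / 2) ≤
        ∫ t in d₀..d, Real.smoothTransition ((t + 1) / 2) :=
      intervalIntegral.integral_mono_on h intervalIntegrable_const (richM_int _ _) fun t ht =>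
        Real.smoothTransition.monotone (by linarith [ht.1])
    rw [intervalIntegral.integral_const, smul_eq_mul] at h2
    linarith
  · have h1 := richM_sub d d₀
    have h2 : ∫ t in d..d₀, Real.smoothTransition ((t + 1) / 2) ≤
        ∫ _t in d..d₀, Real.smoothTransition ((d₀ + 1) / 2) :=
      intervalIntegral.integral_mono_on h (richM_int _ _) intervalIntegrable_const fun t ht =>
        Real.smoothTransition.monotone (by linarith [ht.2])
    rw [intervalIntegral.integral_const, smul_eq_mul] at h2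
    linarith

theorem richM_nonneg (d : ℝ) : 0 ≤ richM d := by
  rcases le_total d (-1) with h | h
  · rw [richM_of_le h]
  · exact intervalIntegral.integral_nonneg h fun t _ => Real.smoothTransition.nonneg _

theorem richM_ge_self (d : ℝ) : d ≤ richM d := by
  rcases le_total 1 d with h | h
  · rw [richM_of_ge h]
  · have h1 := richM_sub d 1
    have h2 : ∫ t in d..1, Real.smoothTransition ((t + 1) / 2) ≤ ∫ _t in d..1, (1 : ℝ) :=
      intervalIntegral.integral_mono_on h (richM_int _ _) intervalIntegrable_const fun t _ =>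
        Real.smoothTransition.le_one _
    rw [intervalIntegral.integral_const, smul_eq_mul, mul_one] at h2
    rw [richM_one] at h1
    linarith

theorem richM_le (d : ℝ) : richM d ≤ max 0 d + 1 := by
  rcases le_total d (-1) with h | h
  · rw [richM_of_le h]
    have := le_max_left 0 d
    linarith
  · have h2 : ∫ t in (-1 : ℝ)..d, Real.smoothTransition ((t + 1) / 2) ≤ ∫ _t in (-1 : ℝ)..d, (1 : ℝ) :=
      intervalIntegral.integral_mono_on h (richM_int _ _) intervalIntegrable_const fun t _ =>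
        Real.smoothTransition.le_one _
    rw [intervalIntegral.integral_const, smul_eq_mul, mul_one] at h2
    have := le_max_right 0 d
    unfold richM
    linarith

variable {κ s t s' t' : ℝ}

theorem regMax_contDiff (κ : ℝ) : ContDiff ℝ ∞ (fun p : ℝ × ℝ => regMax κ p.1 p.2) :=
  contDiff_fst.add (contDiff_const.mul
    (richM_contDiff.comp ((contDiff_snd.sub contDiff_fst).div_const κ)))

theorem regMax_eq_left (hκ : 0 < κ) (h : t ≤ s - κ) : regMax κ s t = s := by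
  unfold regMax
  rw [richM_of_le, mul_zero, add_zero]
  rw [div_le_iff₀ hκ]
  linarith

theorem regMax_eq_right (hκ : 0 < κ) (h : s + κ ≤ t) : regMax κ s t = t := by
  unfold regMax
  rw [richM_of_ge, mul_div_cancel₀ _ hκ.ne']
  · ring
  · rw [le_div_iff₀ hκ]
    linarith

theorem le_regMax_left (hκ : 0 < κ) (s t : ℝ) : s ≤ regMax κ s t := by
  unfold regMax
  have := mul_nonneg hκ.le (richM_nonneg ((t - s) / κ))
  linarith

theorem le_regMax_right (hκ : 0 < κ) (s t : ℝ) : t ≤ regMax κ s t := by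
  unfold regMax
  have h1 := mul_le_mul_of_nonneg_left (richM_ge_self ((t - s) / κ)) hκ.le
  rw [mul_div_cancel₀ _ hκ.ne'] at h1
  linarith

theorem regMax_le (hκ : 0 < κ) (s t : ℝ) : regMax κ s t ≤ max s t + κ := by
  unfold regMax
  have h1 := mul_le_mul_of_nonneg_left (richM_le ((t - s) / κ)) hκ.le
  have h2 : κ * (max 0 ((t - s) / κ) + 1) = max 0 (t - s) + κ := by
    rw [mul_add, mul_one, mul_max_of_nonneg _ _ hκ.le, mul_zero, mul_div_cancel₀ _ hκ.ne']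
  rw [h2] at h1
  have h3 : s + max 0 (t - s) = max s t := by
    rw [← max_add_add_left]
    simp
  linarith

/-- supporting affine function with slopes in the simplex. -/
theorem regMax_support (hκ : 0 < κ) (s₀ t₀ : ℝ) : ∃ μ : ℝ, 0 ≤ μ ∧ μ ≤ 1 ∧
    ∀ s t, regMax κ s₀ t₀ + (1 - μ) * (s - s₀) + μ * (t - t₀) ≤ regMax κ s t := by
  obtain ⟨μ, h0, h1, h⟩ := richM_subgrad ((t₀ - s₀) / κ)
  refine ⟨μ, h0, h1, fun s t => ?_⟩
  unfold regMax
  have h2 := mul_le_mul_of_nonneg_left (h ((t - s) / κ)) hκ.le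
  have e : κ * (richM ((t₀ - s₀) / κ) + μ * ((t - s) / κ - (t₀ - s₀) / κ)) =
      κ * richM ((t₀ - s₀) / κ) + μ * ((t - s) - (t₀ - s₀)) := by
    field_simp
  rw [e] at h2
  linarith

theorem regMax_lip (hκ : 0 < κ) (s t s' t' : ℝ) :
    |regMax κ s t - regMax κ s' t'| ≤ max |s - s'| |t - t'| := by
  obtain ⟨μ, h0, h1, h⟩ := regMax_support hκ s' t'
  obtain ⟨μ', h0', h1', h'⟩ := regMax_support hκ s t
  have a1 := h s t
  have a2 := h' s' t'
  set m := max |s - s'| |t - t'| with hm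
  have b1 : |s - s'| ≤ m := le_max_left _ _
  have b2 : |t - t'| ≤ m := le_max_right _ _
  have c1 := abs_le.1 b1
  have c2 := abs_le.1 b2
  rw [abs_le]
  constructor
  · nlinarith [mul_le_mul_of_nonneg_left c1.1 (sub_nonneg.2 h1), mul_le_mul_of_nonneg_left c2.1 h0]
  · nlinarith [mul_le_mul_of_nonneg_left c1.2 (sub_nonneg.2 h1'), mul_le_mul_of_nonneg_left c2.2 h0']

end real

/-! ### on the manifold -/

section mfd

variable {V : Type} [NormedAddCommGroup V] [NormedSpace ℝ V]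
variable {ι : Type} [Fintype ι] [DecidableEq ι]
variable [FiniteDimensional ℝ V]
variable {𝓜 : CMfd V ι} {g A : HFam V ι} {v u : V → ℝ} {x : V} {κ L L' : ℝ}

/-- **the regularised maximum of a viscosity subsolution and a smooth subsolution is a viscosity subsolution.** -/
theorem DdGeAt.regMax (hκ : 0 < κ) (hx : x ∈ 𝓜.carrier) (hv : DdGeAt 𝓜 v A x) (hu : 𝓜.Smooth u)
    (hA : leFOn 𝓜 {x} A (ddc u)) : DdGeAt 𝓜 (fun y => regMax κ (v y) (u y)) A x := by
  intro q hq Φ U hΦ z hz hzx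
  obtain ⟨μ, h0, h1, hs⟩ := regMax_support hκ (v x) (u x)
  have hqx : q x = Claimed.Agent.R316.regMax κ (v x) (u x) := hq.eq
  have hle : ∀ᶠ y in 𝓝[𝓜.carrier] x,
      q x + (1 - μ) * (v y - v x) + μ * (u y - u x) ≤ q y := by
    filter_upwards [hq.le] with y hy
    rw [hqx]
    exact (hs (v y) (u y)).trans hy
  have hAu := hA Φ U hΦ z hz hzx
  rcases h1.eq_or_lt with rfl | h1
  · have h2 := ddc_posSemidef_of_isLocalMin (q := fun y => q y - u y) (hq.smooth.sub hu) hx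
      (by filter_upwards [hle] with y hy; linarith) Φ U hΦ z hz hzx
    rw [ddc_sub hq.smooth hu hΦ hz] at h2
    have h3 : (ddc q Φ z - ddc u Φ z).PosSemidef := by simpa using h2
    exact loewner_trans hAu h3
  · have hμ : 0 < 1 - μ := by linarith
    have hsm : 𝓜.Smooth fun y => q y - μ * u y := hq.smooth.sub (hu.const_mul μ)
    have hsupp : UpperSupp 𝓜 v
        (fun y => (1 - μ)⁻¹ * ((q y - μ * u y) + -(q x - (1 - μ) * v x - μ * u x))) x := by
      refine ⟨(hsm.add_const _).const_mul _, ?_, ?_⟩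
      · filter_upwards [hle] with y hy
        rw [← mul_le_mul_iff_right₀ hμ, ← mul_assoc, mul_inv_cancel₀ hμ.ne', one_mul]
        linarith
      · field_simp
        ring
    have h2 := hv _ hsupp Φ U hΦ z hz hzx
    rw [ddc_const_mul _ (hsm.add_const _) hΦ hz, ddc_add_const, ddc_sub hq.smooth (hu.const_mul μ) hΦ hz,
      ddc_const_mul _ hu hΦ hz] at h2
    have h3 := (posSemidef_smul_real hμ.le h2).add (posSemidef_smul_real h0 hAu)
    have e : ddc q Φ z - A Φ z =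
        ((1 - μ : ℝ) : ℂ) • ((((1 - μ)⁻¹ : ℝ) : ℂ) • (ddc q Φ z - ((μ : ℝ) : ℂ) • ddc u Φ z) - A Φ z) +
          ((μ : ℝ) : ℂ) • (ddc u Φ z - A Φ z) := by
      have hμ' : ((1 - μ : ℝ) : ℂ) ≠ 0 := by exact_mod_cast hμ.ne'
      rw [smul_sub, smul_smul, Complex.ofReal_inv, mul_inv_cancel₀ hμ', one_smul]
      push_cast
      module
    rw [e]
    exact h3

theorem LocLipAt.regMax (hκ : 0 < κ) (hv : LocLipAt 𝓜 g v L x) (hu : LocLipAt 𝓜 g u L' x) :
    LocLipAt 𝓜 g (fun y => regMax κ (v y) (u y)) (max L L') x := by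
  intro η hη
  obtain ⟨N, hN, hNs⟩ := hv η hη
  obtain ⟨N', hN', hNs'⟩ := hu η hη
  refine ⟨N ∩ N', Filter.inter_mem hN hN', fun y hy y' hy' => ?_⟩
  have hd := hdist_nonneg 𝓜 g y y'
  refine (regMax_lip hκ _ _ _ _).trans (max_le ?_ ?_)
  · exact (hNs y hy.1 y' hy'.1).trans
      (mul_le_mul_of_nonneg_right (by linarith [le_max_left L L']) hd)
  · exact (hNs' y hy.2 y' hy'.2).trans
      (mul_le_mul_of_nonneg_right (by linarith [le_max_right L L']) hd)

theorem SmoothAt.regMax (κ : ℝ) (hv : SmoothAt 𝓜 v x) (hu : SmoothAt 𝓜 u x) :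
    SmoothAt 𝓜 (fun y => regMax κ (v y) (u y)) x :=
  SmoothAt.comp₂ (regMax_contDiff κ) hv hu

theorem continuousWithinAt_regMax {S : Set V} (κ : ℝ) (hv : ContinuousWithinAt v S x)
    (hu : ContinuousWithinAt u S x) : ContinuousWithinAt (fun y => regMax κ (v y) (u y)) S x := by
  have h1 : ContinuousAt (fun p : ℝ × ℝ => Claimed.Agent.R316.regMax κ p.1 p.2) (v x, u x) :=
    (regMax_contDiff κ).continuous.continuousAt
  exact h1.comp_continuousWithinAt (f := fun y => (v y, u y)) (hv.prodMk hu)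

end mfd

end Claimed.Agent.R316
end

/- ===== packed: Claimed.Agent.R316.S7.Trans.Local ===== -/
section
/-!
# Row 316, BP-S7-7a, leaf L-S7-7a-4: continuous lifts through an immersed chart (local theory)

Sub-captain: helper248.  DONE (no `sorry` of its own; uses statements of `CW/`, `CM/`).

`Tr7Lift Φ B f A F`: `F : A → B ⊆ ℂ^ι` is a CONTINUOUS lift of `f : A → V` through the immersed chart `Φ : B → M`
(`A` a subset of an arbitrary topological space `α`).  Three instances: `α = ℂ^ι`, `f = Ψ` another immersed chart (transition maps);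
`α = V`, `f = id` (inverse branches); `α = ℝ` (paths).

RECIPES.
* `Tr7Lift.eventually_eq`: `F a' ∈ U` for `a'` near `a` in `A` (`cont`, `U` is an open set: `CMfd.isOpen_dom`), then `IsParam.leftInv` and `eq`.
* `Tr7Lift.eqOn`: `{a ∈ A | F₁ a = F₂ a}` is relatively clopen.  Either pass to `tr7_sub` and use
  `IsSeparatedMap.eqOn_of_comp_eqOn` (`T2Space.isSeparatedMap`, `IsLocalHomeomorph.isLocallyInjective`), or directly:
  at a point of equality choose `U ∋ F₁ a` with `𝓜.IsHol Φ U`: both are `invFunOn Φ U ∘ f` near `a` (`eventually_eq`).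
* `Tr7Lift.eventuallyEq_trans`: `A` is an open set (`hΨ.1`), so `𝓝[A] z = 𝓝 z`.
* `differentiableOn`, `det_jac_ne_zero`, `pull`: choose `U_Ψ ∋ z`, `U_Φ ∋ F z`; `F =ᶠ[𝓝 z] invFunOn Φ U_Φ ∘ Ψ`; `CMfd.trans_differentiableAt`,
  `CMfd.det_jac_trans_ne_zero`, `IsHForm.compat`, `jac_congr`, `Filter.EventuallyEq.differentiableAt_iff`.
* `tr7_norm_le_of_pull`: `c |J v|² ≤ qf H' (J v) = qf (Jᴴ H' J) v = qf H v ≤ C |v|²` (`qf_conj`, `qf_mono`, `qf_smul`, `qf_one`,
  `EuclideanSpace.norm_eq`, `jac_mulVec`).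
* `Tr7Lift.norm_fderiv_le`: `ContinuousLinearMap.opNorm_le_bound`.
* `Tr7Lift.path_bound` (a priori estimate): at `t₀ ∈ Icc 0 T`, `Γ t = τ (z₁ + t • v)` for `t ∈ Icc 0 T` near `t₀`, `τ = invFunOn Φ U_Φ ∘ Ψ`;
  so `HasDerivWithinAt Γ (fderiv ℂ τ _ v) (Icc 0 T) t₀` and its norm is `≤ L ‖v‖` (`tr7_norm_le_of_pull` with `IsHForm.compat`);
  `norm_image_sub_le_of_norm_deriv_le_segment'`.
* `tr7_sub_isLocalHomeomorph`: `isLocalHomeomorph_iff_isOpenEmbedding_restrict`, or build the `OpenPartialHomeomorph` from `IsParam`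
  (`injOn`, `exists_isOpen_image`, `cont_inv`).
-/

set_option autoImplicit false
set_option linter.unusedSectionVars false
open scoped ContDiff ComplexOrder Topology Matrix

namespace Claimed.Agent.R316

variable {V : Type} [NormedAddCommGroup V] [NormedSpace ℝ V]
variable {ι : Type} [Fintype ι]

/-! ### 0. immersed charts -/

section basic

variable {𝓜 : CMfd V ι} {Φ : CE ι → V} {B : Set (CE ι)}

theorem tr7_mem_carrier (hΦ : IsLocBihol 𝓜 Φ B) {z : CE ι} (hz : z ∈ B) : Φ z ∈ 𝓜.carrier := by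
  obtain ⟨U, _, hzU, hU⟩ := hΦ.2 z hz
  exact CMfd.mem_carrier hU hzU

theorem tr7_continuousOn (hΦ : IsLocBihol 𝓜 Φ B) : ContinuousOn Φ B := by
  intro z hz
  obtain ⟨U, _, hzU, hU⟩ := hΦ.2 z hz
  exact (((𝓜.isParam hU).continuousOn z hzU).continuousAt
    ((𝓜.isParam hU).isOpen.mem_nhds hzU)).continuousWithinAt

theorem tr7_locBihol_of_isHol {U : Set (CE ι)} (h : 𝓜.IsHol Φ U) : IsLocBihol 𝓜 Φ U :=
  ⟨CMfd.isOpen_dom h, fun _ hz => ⟨U, subset_rfl, hz, h⟩⟩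

theorem tr7_locBihol_mono (hΦ : IsLocBihol 𝓜 Φ B) {B' : Set (CE ι)} (hB' : IsOpen B')
    (hsub : B' ⊆ B) : IsLocBihol 𝓜 Φ B' := by
  refine ⟨hB', fun z hz => ?_⟩
  obtain ⟨U, _, hzU, hU⟩ := hΦ.2 z (hsub hz)
  exact ⟨U ∩ B', Set.inter_subset_right, ⟨hzU, hz⟩,
    𝓜.isHol_mono hU ((CMfd.isOpen_dom hU).inter hB') Set.inter_subset_left⟩

end basic

/-! ### 1. continuous lifts -/

/-- `F` is a continuous lift of `f|A` through `Φ|B`. -/
structure Tr7Lift {α : Type} [TopologicalSpace α] (Φ : CE ι → V) (B : Set (CE ι)) (f : α → V)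
    (A : Set α) (F : α → CE ι) : Prop where
  cont : ContinuousOn F A
  maps : Set.MapsTo F A B
  eq : ∀ a ∈ A, Φ (F a) = f a

section lift

variable {𝓜 : CMfd V ι} {Φ : CE ι → V} {B : Set (CE ι)}
variable {α : Type} [TopologicalSpace α] {f : α → V} {A : Set α} {F F₁ F₂ : α → CE ι}

theorem Tr7Lift.mono (h : Tr7Lift Φ B f A F) {A' : Set α} (hA : A' ⊆ A) : Tr7Lift Φ B f A' F :=
  ⟨h.cont.mono hA, h.maps.mono_left hA, fun a ha => h.eq a (hA ha)⟩

theorem Tr7Lift.congr (h : Tr7Lift Φ B f A F₁) (he : Set.EqOn F₂ F₁ A) : Tr7Lift Φ B f A F₂ :=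
  ⟨h.cont.congr he, fun a ha => by rw [he ha]; exact h.maps ha,
    fun a ha => by rw [he ha]; exact h.eq a ha⟩

/-- local form of a lift. -/
theorem Tr7Lift.eventually_eq (h : Tr7Lift Φ B f A F) {a : α} (ha : a ∈ A) {U : Set (CE ι)}
    (hU : 𝓜.IsHol Φ U) (hFa : F a ∈ U) : ∀ᶠ a' in 𝓝[A] a, F a' = Function.invFunOn Φ U (f a') := by
  have h1 : ∀ᶠ a' in 𝓝[A] a, F a' ∈ U := (h.cont a ha) ((CMfd.isOpen_dom hU).mem_nhds hFa)
  filter_upwards [h1, self_mem_nhdsWithin] with a' h2 h3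
  rw [← h.eq a' h3, (𝓜.isParam hU).leftInv h2]

/-- **uniqueness of lifts** on preconnected sets. -/
theorem Tr7Lift.eqOn (hΦ : IsLocBihol 𝓜 Φ B) (h₁ : Tr7Lift Φ B f A F₁) (h₂ : Tr7Lift Φ B f A F₂)
    (hA : IsPreconnected A) {a : α} (ha : a ∈ A) (h : F₁ a = F₂ a) : Set.EqOn F₁ F₂ A := by
  have : PreconnectedSpace A := isPreconnected_iff_preconnectedSpace.1 hA
  have hc1 : Continuous (fun x : A => F₁ x) := continuousOn_iff_continuous_domRestrict.1 h₁.cont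
  have hc2 : Continuous (fun x : A => F₂ x) := continuousOn_iff_continuous_domRestrict.1 h₂.cont
  have hclosed : IsClosed {x : A | F₁ x = F₂ x} := isClosed_eq hc1 hc2
  have hopen : IsOpen {x : A | F₁ x = F₂ x} := by
    rw [isOpen_iff_mem_nhds]
    intro x hx
    obtain ⟨U, _, hU1, hU⟩ := hΦ.2 (F₁ x) (h₁.maps x.2)
    have hU2 : F₂ x ∈ U := by
      have : F₁ x = F₂ x := hx
      rwa [← this]
    have e1 : ∀ᶠ y : A in 𝓝 x, F₁ y ∈ U := hc1.continuousAt ((CMfd.isOpen_dom hU).mem_nhds hU1)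
    have e2 : ∀ᶠ y : A in 𝓝 x, F₂ y ∈ U := hc2.continuousAt ((CMfd.isOpen_dom hU).mem_nhds hU2)
    filter_upwards [e1, e2] with y h1 h2
    exact (𝓜.isParam hU).injOn h1 h2 ((h₁.eq y y.2).trans (h₂.eq y y.2).symm)
  have huniv := IsClopen.eq_univ ⟨hclosed, hopen⟩ ⟨⟨a, ha⟩, h⟩
  intro x hx
  have : (⟨x, hx⟩ : A) ∈ {x : A | F₁ x = F₂ x} := huniv ▸ Set.mem_univ _
  exact this

/-- composition of a lift with a continuous map. -/
theorem Tr7Lift.comp (h : Tr7Lift Φ B f A F) {β : Type} [TopologicalSpace β] {k : β → α}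
    {A' : Set β} (hk : ContinuousOn k A') (hm : Set.MapsTo k A' A) :
    Tr7Lift Φ B (f ∘ k) A' (F ∘ k) :=
  ⟨h.cont.comp hk hm, fun _ hb => h.maps (hm hb), fun b hb => h.eq (k b) (hm hb)⟩

end lift

/-! ### 2. lifts of an immersed chart are holomorphic, nonsingular, and pull back Hermitian forms -/

section hol

variable [DecidableEq ι]
variable {𝓜 : CMfd V ι} {Φ Ψ : CE ι → V} {A B : Set (CE ι)} {F : CE ι → CE ι}

theorem Tr7Lift.eventuallyEq_trans (hΨ : IsLocBihol 𝓜 Ψ A) (h : Tr7Lift Φ B Ψ A F) {z : CE ι}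
    (hz : z ∈ A) {U : Set (CE ι)} (hU : 𝓜.IsHol Φ U) (hFz : F z ∈ U) :
    F =ᶠ[𝓝 z] Function.invFunOn Φ U ∘ Ψ := by
  have := h.eventually_eq hz hU hFz
  rwa [hΨ.1.nhdsWithin_eq hz] at this

/-- the local model of a lift of an immersed chart. -/
theorem tr7_lift_local (hΦ : IsLocBihol 𝓜 Φ B) (hΨ : IsLocBihol 𝓜 Ψ A)
    (h : Tr7Lift Φ B Ψ A F) {z : CE ι} (hz : z ∈ A) :
    ∃ UΨ UΦ : Set (CE ι), 𝓜.IsHol Ψ UΨ ∧ 𝓜.IsHol Φ UΦ ∧ z ∈ UΨ ∩ Ψ ⁻¹' (Φ '' UΦ) ∧ F z ∈ UΦ ∧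
      F =ᶠ[𝓝 z] Function.invFunOn Φ UΦ ∘ Ψ := by
  obtain ⟨UΨ, _, hzU, hUΨ⟩ := hΨ.2 z hz
  obtain ⟨UΦ, _, hFU, hUΦ⟩ := hΦ.2 (F z) (h.maps hz)
  exact ⟨UΨ, UΦ, hUΨ, hUΦ, ⟨hzU, ⟨F z, hFU, h.eq z hz⟩⟩, hFU, h.eventuallyEq_trans hΨ hz hUΦ hFU⟩

theorem Tr7Lift.differentiableOn (hΦ : IsLocBihol 𝓜 Φ B) (hΨ : IsLocBihol 𝓜 Ψ A)
    (h : Tr7Lift Φ B Ψ A F) : DifferentiableOn ℂ F A := by
  intro z hz
  obtain ⟨UΨ, UΦ, hUΨ, hUΦ, hov, _, he⟩ := tr7_lift_local hΦ hΨ h hz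
  exact (he.differentiableAt_iff.2 (CMfd.trans_differentiableAt hUΨ hUΦ hov)).differentiableWithinAt

theorem Tr7Lift.det_jac_ne_zero (hΦ : IsLocBihol 𝓜 Φ B) (hΨ : IsLocBihol 𝓜 Ψ A)
    (h : Tr7Lift Φ B Ψ A F) {z : CE ι} (hz : z ∈ A) : (jac F z).det ≠ 0 := by
  obtain ⟨UΨ, UΦ, hUΨ, hUΦ, hov, _, he⟩ := tr7_lift_local hΦ hΨ h hz
  rw [jac_congr he]
  exact CMfd.det_jac_trans_ne_zero hUΨ hUΦ hov

/-- `Ψ^* h = F^* Φ^* h`. -/
theorem Tr7Lift.pull (hΦ : IsLocBihol 𝓜 Φ B) (hΨ : IsLocBihol 𝓜 Ψ A) (h : Tr7Lift Φ B Ψ A F)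
    {H : HFam V ι} (hH : IsHForm 𝓜 H) {z : CE ι} (hz : z ∈ A) :
    H Ψ z = (jac F z)ᴴ * H Φ (F z) * jac F z := by
  obtain ⟨UΨ, UΦ, hUΨ, hUΦ, hov, _, he⟩ := tr7_lift_local hΦ hΨ h hz
  rw [jac_congr he, he.eq_of_nhds]
  exact hH.compat_trans hUΨ hUΦ hov

theorem tr7_norm_sq_eq_qf_one (v : CE ι) : ‖v‖ ^ 2 = qf (1 : Matrix ι ι ℂ) (fun j => v j) := by
  rw [qf_one, EuclideanSpace.norm_eq, Real.sq_sqrt (Finset.sum_nonneg fun _ _ => sq_nonneg _)]

/-- linear algebra: `H = Jᴴ H' J`, `c ≤ H'`, `H ≤ C` imply `|J v| ≤ √(C/c) |v|`. -/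
theorem tr7_norm_le_of_pull {H H' J : Matrix ι ι ℂ} {c C : ℝ} (hc : 0 < c) (hpull : H = Jᴴ * H' * J)
    (hlow : leM (cI c) H') (hup : leM H (cI C)) (v : CE ι) :
    ‖(WithLp.toLp 2 (J.mulVec (fun j => v j)) : CE ι)‖ ≤ Real.sqrt (C / c) * ‖v‖ := by
  set w : CE ι := WithLp.toLp 2 (J.mulVec (fun j => v j)) with hw
  have h1 : c * ‖w‖ ^ 2 ≤ C * ‖v‖ ^ 2 := by
    rw [tr7_norm_sq_eq_qf_one, tr7_norm_sq_eq_qf_one, ← qf_smul, ← qf_smul]
    calc qf (((c : ℝ) : ℂ) • (1 : Matrix ι ι ℂ)) (fun j => w j)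
        ≤ qf H' (fun j => w j) := qf_mono hlow _
      _ = qf H (fun j => v j) := by rw [hpull, qf_conj]
      _ ≤ _ := qf_mono hup _
  have h2 : ‖w‖ ^ 2 ≤ C / c * ‖v‖ ^ 2 := by
    rw [div_mul_eq_mul_div, le_div_iff₀ hc]
    linarith
  calc ‖w‖ = Real.sqrt (‖w‖ ^ 2) := (Real.sqrt_sq (norm_nonneg _)).symm
    _ ≤ Real.sqrt (C / c * ‖v‖ ^ 2) := Real.sqrt_le_sqrt h2
    _ = Real.sqrt (C / c) * ‖v‖ := by
      rw [Real.sqrt_mul' _ (sq_nonneg _), Real.sqrt_sq (norm_nonneg _)]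

theorem tr7_fderiv_eq_mulVec (F : CE ι → CE ι) (z v : CE ι) :
    fderiv ℂ F z v = WithLp.toLp 2 ((jac F z).mulVec (fun j => v j)) := by
  ext k
  exact (jac_mulVec F v k).symm

theorem Tr7Lift.norm_fderiv_le (hΦ : IsLocBihol 𝓜 Φ B) (hΨ : IsLocBihol 𝓜 Ψ A)
    (h : Tr7Lift Φ B Ψ A F) {H : HFam V ι} (hH : IsHForm 𝓜 H) {c C : ℝ} (hc : 0 < c)
    (hlow : ∀ w ∈ B, leM (cI c) (H Φ w)) (hup : ∀ z ∈ A, leM (H Ψ z) (cI C)) {z : CE ι}
    (hz : z ∈ A) : ‖fderiv ℂ F z‖ ≤ Real.sqrt (C / c) := by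
  refine ContinuousLinearMap.opNorm_le_bound _ (Real.sqrt_nonneg _) fun v => ?_
  rw [tr7_fderiv_eq_mulVec]
  exact tr7_norm_le_of_pull hc (h.pull hΦ hΨ hH hz) (hlow _ (h.maps hz)) (hup z hz) v

/-- **a priori estimate** for lifts of straight segments. -/
theorem Tr7Lift.path_bound (hΦ : IsLocBihol 𝓜 Φ B) (hΨ : IsLocBihol 𝓜 Ψ A) {H : HFam V ι}
    (hH : IsHForm 𝓜 H) {c C : ℝ} (hc : 0 < c) (hlow : ∀ w ∈ B, leM (cI c) (H Φ w))
    (hup : ∀ z ∈ A, leM (H Ψ z) (cI C)) {z₁ v : CE ι} {T : ℝ}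
    (hseg : ∀ t ∈ Set.Icc (0 : ℝ) T, z₁ + t • v ∈ A) {Γ : ℝ → CE ι}
    (h : Tr7Lift Φ B (fun t : ℝ => Ψ (z₁ + t • v)) (Set.Icc 0 T) Γ) :
    ∀ t ∈ Set.Icc (0 : ℝ) T, ‖Γ t - Γ 0‖ ≤ Real.sqrt (C / c) * ‖v‖ * t := by
  have key : ∀ t₀ ∈ Set.Icc (0 : ℝ) T, ∃ d : CE ι, HasDerivWithinAt Γ d (Set.Icc 0 T) t₀ ∧
      ‖d‖ ≤ Real.sqrt (C / c) * ‖v‖ := by
    intro t₀ ht₀
    obtain ⟨UΨ, _, hzU, hUΨ⟩ := hΨ.2 _ (hseg t₀ ht₀)
    obtain ⟨UΦ, _, hFU, hUΦ⟩ := hΦ.2 (Γ t₀) (h.maps ht₀)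
    have hov : z₁ + t₀ • v ∈ UΨ ∩ Ψ ⁻¹' (Φ '' UΦ) := ⟨hzU, ⟨Γ t₀, hFU, h.eq t₀ ht₀⟩⟩
    have he := h.eventually_eq ht₀ hUΦ hFU
    have hval : (Function.invFunOn Φ UΦ ∘ Ψ) (z₁ + t₀ • v) = Γ t₀ :=
      (he.self_of_nhdsWithin ht₀).symm
    have hc1 : HasDerivAt (fun t : ℝ => z₁ + t • v) v t₀ := by
      simpa using ((hasDerivAt_id t₀).smul_const v).const_add z₁
    have hd := (CMfd.trans_hasFDerivAt_real hUΨ hUΦ hov).comp_hasDerivAt t₀ hc1
    refine ⟨_, hd.hasDerivWithinAt.congr_of_eventuallyEq he (he.self_of_nhdsWithin ht₀), ?_⟩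
    show ‖fderiv ℂ (Function.invFunOn Φ UΦ ∘ Ψ) (z₁ + t₀ • v) v‖ ≤ _
    rw [tr7_fderiv_eq_mulVec]
    refine tr7_norm_le_of_pull hc (hH.compat_trans hUΨ hUΦ hov) ?_ (hup _ (hseg t₀ ht₀)) v
    rw [hval]
    exact hlow _ (h.maps ht₀)
  choose! d hd1 hd2 using key
  intro t ht
  have := norm_image_sub_le_of_norm_deriv_le_segment' hd1
    (fun x hx => hd2 x (Set.Ico_subset_Icc_self hx)) t ht
  simpa using this

end hol

/-! ### 3. inverse branches are holomorphic -/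

section sec

variable {𝓜 : CMfd V ι} {Φ : CE ι → V} {B : Set (CE ι)}

/-- a continuous section of an immersed chart over `𝓜.carrier ∩ Ω` is holomorphic. -/
theorem Tr7Lift.holTo (hΦ : IsLocBihol 𝓜 Φ B) {Ω : Set V} (hΩ : IsOpen Ω) {σ : V → CE ι}
    (h : Tr7Lift Φ B id (𝓜.carrier ∩ Ω) σ) : 𝓜.HolTo Ω σ := by
  classical
  intro Ψ U hΨ
  have hopen : IsOpen (U ∩ Ψ ⁻¹' Ω) := (𝓜.isParam hΨ).isOpen_inter_preimage hΩ
  have hloc : IsLocBihol 𝓜 Ψ (U ∩ Ψ ⁻¹' Ω) :=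
    tr7_locBihol_mono (tr7_locBihol_of_isHol hΨ) hopen Set.inter_subset_left
  have hL : Tr7Lift Φ B Ψ (U ∩ Ψ ⁻¹' Ω) (σ ∘ Ψ) :=
    h.comp (tr7_continuousOn hloc) fun z hz => ⟨CMfd.mem_carrier hΨ hz.1, hz.2⟩
  exact hL.differentiableOn hΦ hloc

end sec

/-! ### 4. the immersed chart as a local homeomorphism of subtypes -/

section sub

variable {𝓜 : CMfd V ι} {Φ : CE ι → V} {B : Set (CE ι)}

/-- the immersed chart as a map of subtypes. -/
def tr7_sub (hΦ : IsLocBihol 𝓜 Φ B) : B → 𝓜.carrier := fun e => ⟨Φ e, tr7_mem_carrier hΦ e.2⟩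

theorem tr7_sub_coe (hΦ : IsLocBihol 𝓜 Φ B) (e : B) : ((tr7_sub hΦ e : 𝓜.carrier) : V) = Φ e := rfl

theorem tr7_sub_isLocalHomeomorph (hΦ : IsLocBihol 𝓜 Φ B) : IsLocalHomeomorph (tr7_sub hΦ) := by
  have hcont : Continuous (tr7_sub hΦ) :=
    Continuous.subtype_mk (continuousOn_iff_continuous_domRestrict.1 (tr7_continuousOn hΦ)) _
  rw [isLocalHomeomorph_iff_isOpenEmbedding_restrict]
  intro x
  obtain ⟨U, hUB, hxU, hU⟩ := hΦ.2 x x.2
  have hUo := CMfd.isOpen_dom hU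
  let U' : Set B := Subtype.val ⁻¹' U
  have hU'o : IsOpen U' := hUo.preimage continuous_subtype_val
  refine ⟨U', hU'o.mem_nhds hxU, ?_⟩
  refine Topology.IsOpenEmbedding.of_continuous_injective_isOpenMap
    (hcont.comp continuous_subtype_val) ?_ ?_
  · intro a b hab
    have : Φ a.1.1 = Φ b.1.1 := congrArg Subtype.val hab
    exact Subtype.ext (Subtype.ext ((𝓜.isParam hU).injOn a.2 b.2 this))
  · intro S hS
    have hemb : Topology.IsOpenEmbedding (fun a : U' => (a.1.1 : CE ι)) :=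
      (hΦ.1.isOpenEmbedding_subtypeVal).comp (hU'o.isOpenEmbedding_subtypeVal)
    have hS'' : IsOpen ((fun a : U' => (a.1.1 : CE ι)) '' S) := hemb.isOpenMap S hS
    have hsub : (fun a : U' => (a.1.1 : CE ι)) '' S ⊆ U := by
      rintro _ ⟨a, _, rfl⟩; exact a.2
    obtain ⟨O, hO, himg⟩ := (𝓜.isParam hU).exists_isOpen_image hS'' hsub
    have : (U'.domRestrict (tr7_sub hΦ)) '' S = Subtype.val ⁻¹' O := by
      ext y
      constructor
      · rintro ⟨a, ha, rfl⟩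
        have : Φ a.1.1 ∈ 𝓜.carrier ∩ O := himg ▸ ⟨a.1.1, ⟨a, ha, rfl⟩, rfl⟩
        exact this.2
      · intro hy
        have : (y : V) ∈ Φ '' ((fun a : U' => (a.1.1 : CE ι)) '' S) := himg ▸ ⟨y.2, hy⟩
        obtain ⟨_, ⟨a, ha, rfl⟩, hay⟩ := this
        exact ⟨a, ha, Subtype.ext hay⟩
    rw [this]
    exact hO.preimage continuous_subtype_val

end sub

end Claimed.Agent.R316
end

/- ===== packed: Claimed.Agent.R316.S7.Trans.Lift ===== -/
section
/-!
# Row 316, BP-S7-7a, leaf L-S7-7a-5: the lifting theorem for immersed charts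

Sub-captain: helper248.  DONE (nothing left open here).  Uses `Local.lean`, `AbsPath.lean` and
`IsLocalHomeomorph.continuous_lift` (Mathlib/Topology/Homotopy/Lifting.lean).

`tr7_lift`: `Φ : ball 0 r0 → M` an immersed chart with `Φ^* H ≥ c`, `Ψ : A → M` an immersed chart on a CONVEX domain with `Ψ^* H ≤ C`, `Φ w₁ = Ψ z₁`, and
`|w₁| + √(C/c) diam < r0`.  Then `Ψ` lifts through `Φ` to `F : A → ball 0 r0`, `F z₁ = w₁`, `|F z - w₁| ≤ √(C/c) |z - z₁|`.
(This is the "short path lifting" of charts.tex l.925-950: radial paths, no homotopies by hand.)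

PROOF.  `L = √(C/c)`, `ρ = |w₁| + L d < r0`.  `E = ↥(ball 0 r0)`, `X = ↥𝓜.carrier`, `p = tr7_sub hΦ` (local homeomorphism; `E`, `X` metric spaces, so Hausdorff).
1. For `z ∈ A` the path `γ_z : C(I, X)`, `t ↦ Ψ (z₁ + t • (z - z₁))` (in `A` by convexity: `hA.add_smul_sub_mem`; continuity: `tr7_continuousOn hΨ`).
2. `tr7_path_lift` with `C = {e : E | ‖(e:CE ι)‖ ≤ ρ}`.  It is compact: it is the preimage of `closedBall 0 ρ ⊆ ball 0 r0` under the embedding `Subtype.val`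
   (`isCompact_closedBall`; `Topology.IsEmbedding.subtypeVal.isCompact_iff` + image = `closedBall 0 ρ`).
   A priori bound: a partial lift `Γ : I → E` on `Iic τ` gives `Γ' : ℝ → CE ι`, `Γ' t = Γ (Set.projIcc 0 1 _ t)`, a `Tr7Lift` on `Icc 0 τ` of `t ↦ Ψ (z₁ + t • (z - z₁))`;
   `Tr7Lift.path_bound`: `‖Γ' t - w₁‖ ≤ L ‖z - z₁‖ t ≤ L d`.
3. `g : I × ↥A → E`, `g (t, z) = Γ_z t`; `f : C(I × ↥A, X)`, `f (t, z) = Ψ (z₁ + t • (z - z₁))`.  `IsLocalHomeomorph.continuous_lift` (`cont_0`: `g (0, z) = w₁` constant;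
   `cont_A`: each `Γ_z` is continuous): `g` is continuous.
4. `F z = if h : z ∈ A then g (1, ⟨z, h⟩) else 0`: continuous on `A` (`continuousOn_iff_continuous_restrict`), `Φ (F z) = Ψ z`.  `F z₁ = w₁`: the lift of the constant path
   `γ_{z₁}` has `‖Γ t - w₁‖ ≤ L * 0 * t` by `path_bound`.  The last estimate is `path_bound` at `t = 1`.
-/

set_option autoImplicit false
set_option linter.unusedSectionVars false
open scoped ContDiff ComplexOrder Topology Matrix unitInterval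

namespace Claimed.Agent.R316

variable {V : Type} [NormedAddCommGroup V] [NormedSpace ℝ V]
variable {ι : Type} [Fintype ι] [DecidableEq ι]
variable {𝓜 : CMfd V ι} {Φ Ψ : CE ι → V}

/-- **the lifting theorem**. -/
theorem tr7_lift {H : HFam V ι} (hH : IsHForm 𝓜 H) {r0 c C d : ℝ} {A : Set (CE ι)}
    (hΦ : IsLocBihol 𝓜 Φ (Metric.ball 0 r0)) (hΨ : IsLocBihol 𝓜 Ψ A) (hA : Convex ℝ A) (hc : 0 < c)
    (hlow : ∀ w ∈ Metric.ball (0 : CE ι) r0, leM (cI c) (H Φ w)) (hup : ∀ z ∈ A, leM (H Ψ z) (cI C))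
    {z₁ w₁ : CE ι} (hz₁ : z₁ ∈ A) (h1 : Φ w₁ = Ψ z₁) (hd : ∀ z ∈ A, ‖z - z₁‖ ≤ d)
    (hsmall : ‖w₁‖ + Real.sqrt (C / c) * d < r0) :
    ∃ F : CE ι → CE ι, Tr7Lift Φ (Metric.ball 0 r0) Ψ A F ∧ F z₁ = w₁ ∧
      ∀ z ∈ A, ‖F z - w₁‖ ≤ Real.sqrt (C / c) * ‖z - z₁‖ := by
  classical
  set L := Real.sqrt (C / c) with hL
  have hL0 : 0 ≤ L := Real.sqrt_nonneg _
  have hd0 : 0 ≤ d := by simpa using hd z₁ hz₁
  have hLd : 0 ≤ L * d := mul_nonneg hL0 hd0
  have hw₁ : w₁ ∈ Metric.ball (0 : CE ι) r0 := by rw [mem_ball_zero_iff]; linarith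
  have hp : IsLocalHomeomorph (tr7_sub hΦ) := tr7_sub_isLocalHomeomorph hΦ
  have hseg : ∀ z ∈ A, ∀ t ∈ Set.Icc (0 : ℝ) 1, z₁ + t • (z - z₁) ∈ A :=
    fun z hz t ht => hA.add_smul_sub_mem hz₁ hz ht
  let e0 : Metric.ball (0 : CE ι) r0 := ⟨w₁, hw₁⟩
  let f : C(I × A, 𝓜.carrier) :=
    ⟨fun q => ⟨Ψ (z₁ + (q.1 : ℝ) • ((q.2 : CE ι) - z₁)), tr7_mem_carrier hΨ (hseg _ q.2.2 _ q.1.2)⟩,
      Continuous.subtype_mk ((tr7_continuousOn hΨ).comp_continuous (by fun_prop)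
        (fun q => hseg _ q.2.2 _ q.1.2)) _⟩
  -- the a priori estimate
  have apr : ∀ (z : A) (τ : I) (Γ : I → Metric.ball (0 : CE ι) r0), ContinuousOn Γ (Set.Iic τ) →
      Γ 0 = e0 → (∀ t ≤ τ, tr7_sub hΦ (Γ t) = f (t, z)) →
      ∀ t ≤ τ, ‖(Γ t : CE ι) - w₁‖ ≤ L * ‖(z : CE ι) - z₁‖ * t := by
    intro z τ Γ hΓc hΓ0 hΓl t ht
    have hproj : ∀ x ∈ Set.Icc (0 : ℝ) τ, ∃ hx : x ∈ Set.Icc (0 : ℝ) 1,
        Set.projIcc (0 : ℝ) 1 zero_le_one x = ⟨x, hx⟩ := fun x hx =>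
      ⟨⟨hx.1, hx.2.trans τ.2.2⟩, Set.projIcc_of_mem _ ⟨hx.1, hx.2.trans τ.2.2⟩⟩
    have hlift : Tr7Lift Φ (Metric.ball 0 r0) (fun x : ℝ => Ψ (z₁ + x • ((z : CE ι) - z₁)))
        (Set.Icc 0 τ) (fun x => (Γ (Set.projIcc (0 : ℝ) 1 zero_le_one x) : CE ι)) := by
      refine ⟨continuous_subtype_val.comp_continuousOn
        (hΓc.comp continuous_projIcc.continuousOn ?_), fun x _ => (Γ _).2, ?_⟩
      · intro x hx
        obtain ⟨hx1, hx2⟩ := hproj x hx
        rw [hx2]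
        exact hx.2
      · intro x hx
        obtain ⟨hx1, hx2⟩ := hproj x hx
        have := congrArg Subtype.val (hΓl ⟨x, hx1⟩ hx.2)
        rw [hx2]
        exact this
    have hb := hlift.path_bound hΦ hΨ hH hc hlow hup
      (fun x hx => hseg _ z.2 x ⟨hx.1, hx.2.trans τ.2.2⟩) t ⟨t.2.1, ht⟩
    have e1 : Set.projIcc (0 : ℝ) 1 zero_le_one (t : ℝ) = t := Set.projIcc_val _ t
    have e2 : Set.projIcc (0 : ℝ) 1 zero_le_one (0 : ℝ) = 0 := Set.projIcc_left _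
    simp only [e1, e2, hΓ0] at hb
    exact hb
  -- the compact set
  let Cc : Set (Metric.ball (0 : CE ι) r0) := {e | ‖(e : CE ι)‖ ≤ ‖w₁‖ + L * d}
  have hCc : IsCompact Cc := by
    rw [Topology.IsEmbedding.subtypeVal.isCompact_iff]
    have : Subtype.val '' Cc = Metric.closedBall (0 : CE ι) (‖w₁‖ + L * d) := by
      ext x
      constructor
      · rintro ⟨e, he, rfl⟩
        exact mem_closedBall_zero_iff.2 he
      · intro hx
        rw [mem_closedBall_zero_iff] at hx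
        exact ⟨⟨x, mem_ball_zero_iff.2 (hx.trans_lt hsmall)⟩, hx, rfl⟩
    rw [this]
    exact isCompact_closedBall _ _
  have hex : ∀ z : A, ∃ Γ : C(I, Metric.ball (0 : CE ι) r0), Γ 0 = e0 ∧
      ∀ t, tr7_sub hΦ (Γ t) = f (t, z) := by
    intro z
    refine tr7_path_lift hp ⟨fun t => f (t, z), by fun_prop⟩ e0 ?_ Cc hCc ?_
    · apply Subtype.ext
      show Φ w₁ = Ψ (z₁ + ((0 : I) : ℝ) • ((z : CE ι) - z₁))
      simp [h1]
    · intro τ Γ hΓc hΓ0 hΓl t ht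
      have hb := apr z τ Γ hΓc hΓ0 hΓl t ht
      show ‖(Γ t : CE ι)‖ ≤ ‖w₁‖ + L * d
      have h2 : L * ‖(z : CE ι) - z₁‖ * t ≤ L * d := by
        have h3 : L * ‖(z : CE ι) - z₁‖ ≤ L * d := mul_le_mul_of_nonneg_left (hd z z.2) hL0
        have h4 : L * ‖(z : CE ι) - z₁‖ * t ≤ L * ‖(z : CE ι) - z₁‖ * 1 :=
          mul_le_mul_of_nonneg_left t.2.2 (mul_nonneg hL0 (norm_nonneg _))
        linarith
      have h5 : ‖(Γ t : CE ι)‖ ≤ ‖w₁‖ + ‖(Γ t : CE ι) - w₁‖ := by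
        have := norm_add_le w₁ ((Γ t : CE ι) - w₁)
        simpa using this
      linarith
  choose Γ hΓ0 hΓl using hex
  let gg : I × A → Metric.ball (0 : CE ι) r0 := fun q => Γ q.2 q.1
  have hcont : Continuous gg := by
    refine hp.continuous_lift (T2Space.isSeparatedMap _) f (g := gg) (funext fun q => hΓl q.2 q.1)
      ?_ (fun z => (Γ z).continuous)
    have : (fun z : A => gg (0, z)) = fun _ => e0 := funext fun z => hΓ0 z
    rw [this]
    exact continuous_const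
  have hbound : ∀ z : A, ‖(gg (1, z) : CE ι) - w₁‖ ≤ L * ‖(z : CE ι) - z₁‖ := by
    intro z
    have := apr z 1 (Γ z) (Γ z).continuous.continuousOn (hΓ0 z) (fun t _ => hΓl z t) 1 le_rfl
    simpa using this
  let F : CE ι → CE ι := fun z => if hz : z ∈ A then (gg (1, ⟨z, hz⟩) : CE ι) else 0
  have hF : ∀ z : A, F z = (gg (1, z) : CE ι) := fun z => by simp [F, z.2]
  refine ⟨F, ⟨?_, ?_, ?_⟩, ?_, ?_⟩
  · rw [continuousOn_iff_continuous_domRestrict]
    have : A.domRestrict F = fun z : A => (gg (1, z) : CE ι) := funext fun z => hF z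
    rw [this]
    exact continuous_subtype_val.comp (hcont.comp (by fun_prop))
  · intro z hz
    rw [hF ⟨z, hz⟩]
    exact (gg (1, ⟨z, hz⟩)).2
  · intro z hz
    rw [hF ⟨z, hz⟩]
    have := congrArg Subtype.val (hΓl ⟨z, hz⟩ 1)
    have e : (f (1, ⟨z, hz⟩) : V) = Ψ z := by
      show Ψ (z₁ + ((1 : I) : ℝ) • (z - z₁)) = Ψ z
      simp
    rw [e] at this
    exact this
  · have := hbound ⟨z₁, hz₁⟩
    rw [hF ⟨z₁, hz₁⟩]
    simp only [sub_self, norm_zero, mul_zero] at this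
    exact sub_eq_zero.1 (norm_le_zero_iff.1 this)
  · intro z hz
    rw [hF ⟨z, hz⟩]
    exact hbound ⟨z, hz⟩

end Claimed.Agent.R316
end

/- ===== packed: Claimed.Agent.R316.S7.Trans.AbsChain ===== -/
section
/-!
# Row 316, BP-S7-7a, leaf L-S7-7a-2: evenly covered sets with displacement control, chain lifting, monodromy

Sub-captain: helper248.  PURE TOPOLOGY (only Mathlib + `tr7_glue_Icc`).  DONE (nothing left open here).

* `Tr7Even p e0 R δ W`: every `e : E` over `W` which is `δ`-deep in the ball of radius `R` about `e0` lies on a continuous section of `p` over `W`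
  which moves by at most `δ`.  (In the application `p = Φ_s`, `E = ball 0 r0`, `δ = C e^{-a s}`.)
* `Tr7Chain G T N γ`: each of the `N` pieces `γ [k/N, (k+1)/N]` lies in one of the sets `G x`, `x ∈ T`.

RECIPES.
* `tr7_chain_lift`: induction on `k ≤ N`: `∃ Γ : I → E, ContinuousOn Γ {t | (t:ℝ) ≤ k/N} ∧ Γ 0 = e0 ∧ (∀ t, (t:ℝ) ≤ k/N → p (Γ t) = γ t ∧ dist (Γ t) e0 ≤ k δ)`.
  Step: `e = Γ (k/N)`, `dist e e0 + δ ≤ (k+1) δ ≤ N δ < R`; `sg` the section over `G x` through `e`;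
  `Γ' t = if (t:ℝ) ≤ k/N then Γ t else sg (γ t)`; the pieces agree at `k/N` because `sg (p e) = e`.  No property of `p` is used.
* `tr7_exists_chain`: `I × I` compact; finite subcover of the sets `H ⁻¹' (G x)`; `lebesgue_number_lemma_of_metric` gives `ε`; `N > 1/ε`; the piece
  `{t} × [k/N,(k+1)/N]` lies in `ball (t, k/N) ε` (sup metric).
* `tr7_monodromy`: `H : γ₀.Homotopy γ₁` (`hom.some`); `tr7_exists_chain` for `H.toContinuousMap`; each `H (t, ·)` starts at `x0`; lift it by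
  `tr7_chain_lift`; `IsLocalHomeomorph.monodromy_theorem` (`T2Space.isSeparatedMap`) gives `Γ_t 1 = Γ_0 1`; use `t = 1`.
-/

set_option autoImplicit false
open scoped Topology unitInterval

namespace Claimed.Agent.R316

/-- evenly covered with displacement `≤ δ`, for points which are `δ`-deep in the `R`-ball about `e0`. -/
def Tr7Even {E X : Type} [MetricSpace E] [TopologicalSpace X] (p : E → X) (e0 : E) (R δ : ℝ)
    (W : Set X) : Prop :=
  ∀ e : E, dist e e0 + δ < R → p e ∈ W →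
    ∃ sg : X → E, ContinuousOn sg W ∧ (∀ y ∈ W, p (sg y) = y) ∧ sg (p e) = e ∧ ∀ y ∈ W, dist (sg y) e ≤ δ

theorem Tr7Even.mono_set {E X : Type} [MetricSpace E] [TopologicalSpace X] {p : E → X} {e0 : E}
    {R δ : ℝ} {W W' : Set X} (h : Tr7Even p e0 R δ W) (hW : W' ⊆ W) : Tr7Even p e0 R δ W' := by
  intro e he hpe
  obtain ⟨sg, h1, h2, h3, h4⟩ := h e he (hW hpe)
  exact ⟨sg, h1.mono hW, fun y hy => h2 y (hW hy), h3, fun y hy => h4 y (hW hy)⟩

theorem Tr7Even.mono_delta {E X : Type} [MetricSpace E] [TopologicalSpace X] {p : E → X} {e0 : E}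
    {R δ δ' : ℝ} {W : Set X} (h : Tr7Even p e0 R δ W) (hδ : δ ≤ δ') : Tr7Even p e0 R δ' W := by
  intro e he hpe
  obtain ⟨sg, h1, h2, h3, h4⟩ := h e (by linarith) hpe
  exact ⟨sg, h1, h2, h3, fun y hy => (h4 y hy).trans hδ⟩

/-- the path `γ` is cut into `N` equal pieces, each inside one of the sets `G x`, `x ∈ T`. -/
def Tr7Chain {X : Type} (G : X → Set X) (T : Finset X) (N : ℕ) (γ : I → X) : Prop :=
  ∀ k : ℕ, k < N → ∃ x ∈ T, ∀ t : I, (k : ℝ) / N ≤ t → (t : ℝ) ≤ (k + 1) / N → γ t ∈ G x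

/-- **chain lifting**. -/
theorem tr7_chain_lift {E X : Type} [MetricSpace E] [TopologicalSpace X] {p : E → X} {e0 : E}
    {R δ : ℝ} {G : X → Set X} {T : Finset X} {N : ℕ} (hN0 : 0 < N) (γ : C(I, X))
    (hγ : Tr7Chain G T N γ) (h0 : p e0 = γ 0) (hδ : 0 ≤ δ) (hN : N * δ < R)
    (hE : ∀ x ∈ T, Tr7Even p e0 R δ (G x)) :
    ∃ Γ : C(I, E), Γ 0 = e0 ∧ (∀ t, p (Γ t) = γ t) ∧ ∀ t, dist (Γ t) e0 ≤ N * δ := by
  classical
  have hNpos : (0 : ℝ) < N := by exact_mod_cast hN0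
  let γ' : ℝ → X := fun t => γ (Set.projIcc 0 1 zero_le_one t)
  have hγ' : Continuous γ' := γ.continuous.comp continuous_projIcc
  have hγ'I : ∀ t : I, γ' t = γ t := fun t => by
    show γ (Set.projIcc 0 1 zero_le_one (t : ℝ)) = γ t
    rw [Set.projIcc_val]
  have key : ∀ k : ℕ, k ≤ N → ∃ Γ : ℝ → E, ContinuousOn Γ (Set.Icc 0 ((k : ℝ) / N)) ∧ Γ 0 = e0 ∧
      ∀ t ∈ Set.Icc 0 ((k : ℝ) / N), p (Γ t) = γ' t ∧ dist (Γ t) e0 ≤ k * δ := by
    intro k
    induction k with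
    | zero =>
      intro _
      refine ⟨fun _ => e0, continuousOn_const, rfl, fun t ht => ?_⟩
      simp only [Nat.cast_zero, zero_div, Set.Icc_self, Set.mem_singleton_iff] at ht
      subst ht
      refine ⟨?_, by simp⟩
      have := hγ'I 0
      rw [h0, ← this]
      rfl
    | succ k ih =>
      intro hk
      obtain ⟨Γ, hc, hΓ0, hl⟩ := ih (Nat.le_of_succ_le hk)
      have hkN : k < N := hk
      set a : ℝ := (k : ℝ) / N with ha
      set b : ℝ := ((k + 1 : ℕ) : ℝ) / N with hb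
      have hb' : b = ((k : ℝ) + 1) / N := by rw [hb]; push_cast; ring
      have ha0 : 0 ≤ a := by positivity
      have hab : a ≤ b := by
        rw [ha, hb']
        gcongr
        linarith
      have hb1 : b ≤ 1 := by
        rw [hb, div_le_one hNpos]
        exact_mod_cast hk
      obtain ⟨x, hxT, hx⟩ := hγ k hkN
      have hGx : ∀ t ∈ Set.Icc a b, γ' t ∈ G x := by
        intro t ht
        have htI : t ∈ Set.Icc (0 : ℝ) 1 := ⟨ha0.trans ht.1, ht.2.trans hb1⟩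
        have := hx ⟨t, htI⟩ ht.1 (by rw [← hb']; exact ht.2)
        rw [← hγ'I] at this
        exact this
      have haa : a ∈ Set.Icc 0 a := ⟨ha0, le_rfl⟩
      have hdeep : dist (Γ a) e0 + δ < R := by
        have h1 := (hl a haa).2
        have h2 : ((k : ℝ) + 1) * δ ≤ N * δ := by
          apply mul_le_mul_of_nonneg_right _ hδ
          exact_mod_cast hk
        linarith
      have hpa : p (Γ a) = γ' a := (hl a haa).1
      obtain ⟨sg, hs1, hs2, hs3, hs4⟩ := hE x hxT (Γ a) hdeep (by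
        rw [hpa]; exact hGx a ⟨le_rfl, hab⟩)
      refine ⟨fun t => if t ≤ a then Γ t else sg (γ' t), ?_, ?_, ?_⟩
      · exact tr7_glue_Icc ha0 hab hc (hs1.comp hγ'.continuousOn hGx) (by rw [← hpa, hs3])
      · simp [ha0, hΓ0]
      · intro t ht
        by_cases hta : t ≤ a
        · simp only [hta, if_true]
          refine ⟨(hl t ⟨ht.1, hta⟩).1, (hl t ⟨ht.1, hta⟩).2.trans ?_⟩
          apply mul_le_mul_of_nonneg_right _ hδ
          push_cast
          linarith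
        · simp only [hta, if_false]
          have htab : t ∈ Set.Icc a b := ⟨(not_le.1 hta).le, ht.2⟩
          refine ⟨hs2 _ (hGx t htab), ?_⟩
          have h1 := dist_triangle (sg (γ' t)) (Γ a) e0
          have h2 := hs4 _ (hGx t htab)
          have h3 := (hl a haa).2
          push_cast
          linarith
  obtain ⟨Γ, hc, hΓ0, hl⟩ := key N le_rfl
  rw [div_self hNpos.ne'] at hc hl
  refine ⟨⟨fun t => Γ t, hc.comp_continuous continuous_subtype_val fun t => t.2⟩, hΓ0,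
    fun t => ?_, fun t => (hl t t.2).2⟩
  show p (Γ t) = γ t
  rw [← hγ'I]
  exact (hl t t.2).1

/-- all the paths of a homotopy are chains with the same `N` and the same finite family. -/
theorem tr7_exists_chain {X : Type} [TopologicalSpace X] (G : X → Set X)
    (hG : ∀ x, IsOpen (G x) ∧ x ∈ G x) (H : C(I × I, X)) :
    ∃ (N : ℕ) (T : Finset X), 0 < N ∧ ∀ t : I, Tr7Chain G T N (fun s => H (t, s)) := by
  classical
  let U : I × I → Set (I × I) := fun q => H ⁻¹' G (H q)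
  have hUo : ∀ q, IsOpen (U q) := fun q => (hG (H q)).1.preimage H.continuous
  obtain ⟨t, _, ht⟩ := isCompact_univ.elim_nhds_subcover U
    fun q _ => (hUo q).mem_nhds (hG (H q)).2
  obtain ⟨ε, hε, hleb⟩ := lebesgue_number_lemma_of_metric (s := (Set.univ : Set (I × I)))
    (c := fun i : t => U i) isCompact_univ (fun i => hUo i) (by
      intro q hq
      obtain ⟨i, hi, hqi⟩ := Set.mem_iUnion₂.1 (ht hq)
      exact Set.mem_iUnion.2 ⟨⟨i, hi⟩, hqi⟩)
  obtain ⟨m, hm⟩ := exists_nat_one_div_lt hε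
  refine ⟨m + 1, t.image H, Nat.succ_pos m, fun τ k hk => ?_⟩
  have hNpos : (0 : ℝ) < ((m + 1 : ℕ) : ℝ) := by positivity
  have hkI : (k : ℝ) / ((m + 1 : ℕ) : ℝ) ∈ Set.Icc (0 : ℝ) 1 := by
    refine ⟨by positivity, ?_⟩
    rw [div_le_one hNpos]
    exact_mod_cast hk.le
  obtain ⟨i, hi⟩ := hleb (τ, ⟨_, hkI⟩) (Set.mem_univ _)
  refine ⟨H i, Finset.mem_image_of_mem _ i.2, fun s hs1 hs2 => ?_⟩
  have : (τ, s) ∈ U i := by
    apply hi
    rw [Metric.mem_ball, Prod.dist_eq, dist_self, max_lt_iff]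
    refine ⟨hε, ?_⟩
    rw [Subtype.dist_eq, Real.dist_eq, abs_of_nonneg (by simpa using hs1)]
    have h1 : (s : ℝ) - (k : ℝ) / ((m + 1 : ℕ) : ℝ) ≤ 1 / ((m : ℝ) + 1) := by
      have : ((k : ℝ) + 1) / ((m + 1 : ℕ) : ℝ) = (k : ℝ) / ((m + 1 : ℕ) : ℝ) + 1 / ((m : ℝ) + 1) := by
        push_cast
        ring
      linarith
    exact h1.trans_lt hm
  exact this

/-- **monodromy**: homotopic paths have lifts with the same end point, as soon as finitely many sets `G x` are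
evenly covered with a small displacement. -/
theorem tr7_monodromy {X : Type} [TopologicalSpace X] (G : X → Set X)
    (hG : ∀ x, IsOpen (G x) ∧ x ∈ G x) {x0 y : X} (γ₀ γ₁ : Path x0 y) (hom : γ₀.Homotopic γ₁) :
    ∃ (N : ℕ) (T : Finset X), ∀ (E : Type) [MetricSpace E] (p : E → X) (e0 : E) (R δ : ℝ),
      IsLocalHomeomorph p → p e0 = x0 → 0 ≤ δ → N * δ < R → (∀ x ∈ T, Tr7Even p e0 R δ (G x)) →
      ∃ Γ₀ Γ₁ : C(I, E), Γ₀ 0 = e0 ∧ Γ₁ 0 = e0 ∧ (∀ t, p (Γ₀ t) = γ₀ t) ∧ (∀ t, p (Γ₁ t) = γ₁ t) ∧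
        Γ₀ 1 = Γ₁ 1 ∧ (∀ t, dist (Γ₀ t) e0 ≤ N * δ) ∧ ∀ t, dist (Γ₁ t) e0 ≤ N * δ := by
  obtain ⟨Hh⟩ := hom
  obtain ⟨N, T, hN0, hch⟩ := tr7_exists_chain G hG Hh.toContinuousMap
  refine ⟨N, T, fun E _ p e0 R δ hp hpe hδ hN hE => ?_⟩
  have hex : ∀ t : I, ∃ Γ : C(I, E), Γ 0 = e0 ∧ (∀ s, p (Γ s) = Hh (t, s)) ∧
      ∀ s, dist (Γ s) e0 ≤ N * δ := by
    intro t
    refine tr7_chain_lift hN0 ⟨fun s => Hh (t, s), by fun_prop⟩ (hch t) ?_ hδ hN hE
    show p e0 = Hh (t, 0)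
    rw [hpe]
    simp
  choose Γ hΓ0 hΓl hΓd using hex
  have hmon := hp.monodromy_theorem (T2Space.isSeparatedMap p) Hh Γ hΓl
    (fun t => by rw [hΓ0, hΓ0]) 1
  refine ⟨Γ 0, Γ 1, hΓ0 0, hΓ0 1, fun s => ?_, fun s => ?_, hmon.symm, hΓd 0, hΓd 1⟩
  · rw [hΓl]; simp
  · rw [hΓl]; simp

end Claimed.Agent.R316
end

/- ===== packed: Claimed.Agent.R316.S7.Trans.AbsSec ===== -/
section
/-!
# Row 316, BP-S7-7a, leaf L-S7-7a-3: sections of local homeomorphisms over compact subsets of a simply connected space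

Sub-captain: helper248.  PURE TOPOLOGY (Mathlib + `AbsChain.lean`).  DONE (nothing left open here).

`tr7_sec`: `X` simply connected, locally path connected metric space, `G x` a neighbourhood of `x` for every `x`, `K` compact.  There are
`N`, a finite `T ⊆ X` and a neighbourhood `O` of `K ∪ {x0}` (all INDEPENDENT of the local homeomorphism) such that every local homeomorphism `p : E → X`
for which the finitely many sets `G x`, `x ∈ T`, are evenly covered with displacement `δ`, `N δ < R`, has a continuous section over `O` through `e0`,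
which stays within `N δ` of `e0`.

PROOF.
1. `K' = K ∪ {x0}` compact.  `lebesgue_number_lemma_of_metric`: `lam > 0` with `∀ x ∈ K', ∃ d, ball x lam ⊆ G d`; choose `d x`.
   For `x : X` choose `W x ∋ x`, an open set, path connected, `W x ⊆ ball x (lam/3)` (`LocallyPathConnectedSpace`: `path_connected_basis` / `isOpen_isPathConnected_basis`).
   Finite `T0 ⊆ K'` with `K' ⊆ ⋃ x ∈ T0, W x`, and `x0 ∈ T0` (insert it).  `O = ⋃ x ∈ T0, W x`.
   KEY: `x, x' ∈ T0`, `W x ∩ W x' ≠ ∅` imply `W x ∪ W x' ⊆ ball x lam ⊆ G (d x)`.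
2. paths `c x : Path x0 x` with `c x0 = Path.refl x0` (`PathConnectedSpace.somePath`; `dite` + `Path.cast`).  For `x, x' ∈ T0` with `y0 ∈ W x ∩ W x'`: a path `a` from `x` to `y0` in `W x`,
   a path `b` from `y0` to `x'` in `W x'` (`IsPathConnected.joinedIn`), `e x x' = a.trans b`, with range in `G (d x)`.
   `SimplyConnectedSpace.paths_homotopic ((c x).trans (e x x')) (c x')`; `tr7_monodromy` gives `N x x'`, `T x x'`.
3. `N = 1 + ∑/sup N x x'`, `T = image d T0 ∪ ⋃ T x x'`.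
4. Given `(E, p, e0, R, δ)`.  Path lifts from `e0` are unique (`IsSeparatedMap.eq_of_comp_eq`).  The pair `(x, x)` gives a lift `Γ x` of `c x`; `ε x = Γ x 1`, `dist (ε x) e0 ≤ (N-1) δ`,
   `ε x0 = e0` (the lift of the constant path is constant, by uniqueness).  `S x` = the section over `G (d x)` through `ε x` (`Tr7Even`).
5. CLAIM: `W x ∩ W x' ≠ ∅ → EqOn (S x) (S x') (W x')`.  Both are continuous sections over the preconnected `W x'` (`IsSeparatedMap.eqOn_of_comp_eqOn`), so it suffices that they agree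
   at `x'`: `S x' x' = ε x'`; `(Γ x).trans (S x ∘ e x x')` is a lift of `(c x).trans (e x x')` from `e0` with end point `S x x'`; by uniqueness of lifts it is the `Γ₀` of
   `tr7_monodromy`, and `Γ₁ = Γ x'`; so `S x x' = ε x'`.
6. `sg y = S (i y) y`, `i y ∈ T0` chosen with `y ∈ W (i y)`.  On `W x`: `sg = S x` by 5 (applied to the pair `(i y, x)`... both orders are available).  So `sg` is continuous on `O`,
   a section, `dist (sg y) e0 ≤ δ + (N-1) δ`, and `sg x0 = S x0 x0 = ε x0 = e0`.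
-/

set_option autoImplicit false
open scoped Topology unitInterval

namespace Claimed.Agent.R316

/-- uniqueness of path lifts. -/
theorem tr7_lift_unique {E X : Type} [TopologicalSpace E] [T2Space E] [TopologicalSpace X] {p : E → X}
    (hp : IsLocalHomeomorph p) {Γ Γ' : I → E} (h1 : Continuous Γ) (h2 : Continuous Γ')
    (h : ∀ t, p (Γ t) = p (Γ' t)) (h0 : Γ 0 = Γ' 0) : Γ = Γ' :=
  (T2Space.isSeparatedMap p).eq_of_comp_eq hp.isLocallyInjective h1 h2 (funext h) 0 h0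

/-- one overlapping pair. -/
theorem tr7_pair {X : Type} [TopologicalSpace X] [SimplyConnectedSpace X] (G : X → Set X)
    (hG : ∀ x, IsOpen (G x) ∧ x ∈ G x) {x0 x x' : X} (cx : Path x0 x) (cx' : Path x0 x')
    (e : Path x x') :
    ∃ (N : ℕ) (T : Finset X), ∀ (E : Type) [MetricSpace E] (p : E → X) (e0 : E) (R δ : ℝ),
      IsLocalHomeomorph p → p e0 = x0 → 0 ≤ δ → N * δ < R → (∀ z ∈ T, Tr7Even p e0 R δ (G z)) →
      ∀ (Γ Γ' : C(I, E)) (S : X → E), Γ 0 = e0 → Γ' 0 = e0 → (∀ t, p (Γ t) = cx t) →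
        (∀ t, p (Γ' t) = cx' t) → ContinuousOn S (Set.range e) → (∀ t, p (S (e t)) = e t) →
        S x = Γ 1 → S x' = Γ' 1 := by
  obtain ⟨N, T, h⟩ := tr7_monodromy G hG (cx.trans e) cx'
    (SimplyConnectedSpace.paths_homotopic _ _)
  refine ⟨N, T, fun E _ p e0 R δ hp hpe hδ hN hE Γ Γ' S hΓ0 hΓ'0 hΓl hΓ'l hSc hSl hSx => ?_⟩
  obtain ⟨Γ₀, Γ₁, h00, h10, h0l, h1l, hend, _, _⟩ := h E p e0 R δ hp hpe hδ hN hE
  have e1 : (Γ₁ : I → E) = Γ' := tr7_lift_unique hp Γ₁.continuous Γ'.continuous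
    (fun t => by rw [h1l, hΓ'l]) (by rw [h10, hΓ'0])
  let P1 : Path e0 (S x) := ⟨Γ, hΓ0, hSx.symm⟩
  let Λ : Path e0 (S x') := P1.trans (e.map' hSc)
  have e2 : (Γ₀ : I → E) = Λ := by
    refine tr7_lift_unique hp Γ₀.continuous Λ.continuous (fun t => ?_) (by rw [h00]; simp)
    rw [h0l]
    simp only [Λ, Path.trans_apply]
    split_ifs
    · exact (hΓl _).symm
    · exact (hSl _).symm
  have e3 : Γ₀ 1 = S x' := by
    have := congrFun e2 1
    simpa using this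
  rw [← e3, hend]
  exact congrFun e1 1

theorem tr7_sec {X : Type} [MetricSpace X] [SimplyConnectedSpace X] [LocallyPathConnectedSpace X]
    (G : X → Set X) (hG : ∀ x, IsOpen (G x) ∧ x ∈ G x) (x0 : X) (K : Set X) (hK : IsCompact K) :
    ∃ (N : ℕ) (T : Finset X) (O : Set X), IsOpen O ∧ K ⊆ O ∧ x0 ∈ O ∧
      ∀ (E : Type) [MetricSpace E] (p : E → X) (e0 : E) (R δ : ℝ), IsLocalHomeomorph p → p e0 = x0 →
        0 ≤ δ → N * δ < R → (∀ x ∈ T, Tr7Even p e0 R δ (G x)) →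
        ∃ sg : X → E, ContinuousOn sg O ∧ (∀ y ∈ O, p (sg y) = y) ∧ sg x0 = e0 ∧
          ∀ y ∈ O, dist (sg y) e0 ≤ N * δ := by
  classical
  have hK' : IsCompact (insert x0 K) := hK.insert x0
  obtain ⟨lam, hlam, hleb⟩ := lebesgue_number_lemma_of_metric hK' (fun x => (hG x).1)
    (fun x _ => Set.mem_iUnion.2 ⟨x, (hG x).2⟩)
  choose! d hd using hleb
  have hW : ∀ x : X, ∃ W : Set X, (IsOpen W ∧ x ∈ W ∧ IsPathConnected W) ∧
      W ⊆ Metric.ball x (lam / 3) := fun x =>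
    (isOpen_isPathConnected_basis x).mem_iff.1 (Metric.ball_mem_nhds x (by positivity))
  choose W hW1 hW2 using hW
  have hWo : ∀ x, IsOpen (W x) := fun x => (hW1 x).1
  have hxW : ∀ x, x ∈ W x := fun x => (hW1 x).2.1
  have hWpc : ∀ x, IsPathConnected (W x) := fun x => (hW1 x).2.2
  obtain ⟨t, htK, htc⟩ := hK'.elim_nhds_subcover W (fun x _ => (hWo x).mem_nhds (hxW x))
  set T0 : Finset X := insert x0 t with hT0
  have hT0K : ∀ x ∈ T0, x ∈ insert x0 K := by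
    intro x hx
    rcases Finset.mem_insert.1 hx with rfl | hx
    · exact Set.mem_insert _ _
    · exact htK x hx
  set O : Set X := ⋃ x ∈ T0, W x with hOdef
  have hOo : IsOpen O := isOpen_biUnion fun x _ => hWo x
  have hKO : insert x0 K ⊆ O := by
    intro y hy
    obtain ⟨x, hx, hyx⟩ := Set.mem_iUnion₂.1 (htc hy)
    exact Set.mem_iUnion₂.2 ⟨x, Finset.mem_insert_of_mem hx, hyx⟩
  have key : ∀ x ∈ T0, ∀ x', (W x ∩ W x').Nonempty → W x ∪ W x' ⊆ G (d x) := by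
    rintro x hx x' ⟨y0, hy1, hy2⟩ y hy
    apply hd x (hT0K x hx)
    rw [Metric.mem_ball]
    rcases hy with hy | hy
    · have := hW2 x hy
      rw [Metric.mem_ball] at this
      linarith
    · have h1 := hW2 x' hy
      have h2 := hW2 x' hy2
      have h3 := hW2 x hy1
      rw [Metric.mem_ball] at h1 h2 h3
      have h4 := dist_triangle y x' x
      have h5 := dist_triangle x' y0 x
      rw [dist_comm x' y0] at h5
      linarith
  let c : ∀ x, Path x0 x := fun x =>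
    if h : x = x0 then (Path.refl x0).cast rfl h else PathConnectedSpace.somePath x0 x
  have hc0 : ∀ t, c x0 t = x0 := by
    intro t
    simp [c]
  have hLift : ∀ x, ∃ (N : ℕ) (T : Finset X), ∀ (E : Type) [MetricSpace E] (p : E → X) (e0 : E)
      (R δ : ℝ), IsLocalHomeomorph p → p e0 = x0 → 0 ≤ δ → N * δ < R →
      (∀ z ∈ T, Tr7Even p e0 R δ (G z)) →
      ∃ Γ : C(I, E), Γ 0 = e0 ∧ (∀ t, p (Γ t) = c x t) ∧ ∀ t, dist (Γ t) e0 ≤ N * δ := by
    intro x
    obtain ⟨N, T, h⟩ := tr7_monodromy G hG (c x) (c x) (Path.Homotopic.refl _)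
    refine ⟨N, T, fun E _ p e0 R δ h1 h2 h3 h4 h5 => ?_⟩
    obtain ⟨Γ, _, a, _, b, _, _, cc, _⟩ := h E p e0 R δ h1 h2 h3 h4 h5
    exact ⟨Γ, a, b, cc⟩
  choose Nl Tl hl using hLift
  have hPair : ∀ x x', ∃ (N : ℕ) (T : Finset X), (W x ∩ W x').Nonempty →
      ∀ (E : Type) [MetricSpace E] (p : E → X) (e0 : E) (R δ : ℝ),
      IsLocalHomeomorph p → p e0 = x0 → 0 ≤ δ → N * δ < R → (∀ z ∈ T, Tr7Even p e0 R δ (G z)) →
      ∀ (Γ Γ' : C(I, E)) (S : X → E), Γ 0 = e0 → Γ' 0 = e0 → (∀ t, p (Γ t) = c x t) →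
        (∀ t, p (Γ' t) = c x' t) → ContinuousOn S (W x ∪ W x') → (∀ y ∈ W x ∪ W x', p (S y) = y) →
        S x = Γ 1 → S x' = Γ' 1 := by
    intro x x'
    by_cases hne : (W x ∩ W x').Nonempty
    · obtain ⟨y0, hy1, hy2⟩ := hne
      have ja := (hWpc x).joinedIn x (hxW x) y0 hy1
      have jb := (hWpc x').joinedIn y0 hy2 x' (hxW x')
      let e : Path x x' := ja.somePath.trans jb.somePath
      have he : Set.range e ⊆ W x ∪ W x' := by
        rw [Path.trans_range]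
        exact Set.union_subset_union (Set.range_subset_iff.2 ja.somePath_mem)
          (Set.range_subset_iff.2 jb.somePath_mem)
      obtain ⟨N, T, h⟩ := tr7_pair G hG (c x) (c x') e
      exact ⟨N, T, fun _ E _ p e0 R δ h1 h2 h3 h4 h5 Γ Γ' S a b cc dd hSc hSl hSx =>
        h E p e0 R δ h1 h2 h3 h4 h5 Γ Γ' S a b cc dd (hSc.mono he)
          (fun t => hSl _ (he ⟨t, rfl⟩)) hSx⟩
    · exact ⟨0, ∅, fun h => absurd h hne⟩
  choose Np Tp hp using hPair
  set N : ℕ := 1 + ∑ x ∈ T0, Nl x + ∑ q ∈ T0 ×ˢ T0, Np q.1 q.2 with hNdef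
  set T : Finset X := T0.image d ∪ T0.biUnion Tl ∪ (T0 ×ˢ T0).biUnion (fun q => Tp q.1 q.2) with hTdef
  refine ⟨N, T, O, hOo, (Set.subset_insert _ _).trans hKO, hKO (Set.mem_insert _ _), ?_⟩
  intro E _ p e0 R δ hpL hpe hδ hN hE
  have hNl : ∀ x ∈ T0, (Nl x : ℝ) * δ + δ ≤ N * δ := by
    intro x hx
    have h1 : Nl x + 1 ≤ N := by
      have := Finset.single_le_sum (f := Nl) (fun _ _ => Nat.zero_le _) hx
      omega
    have h2 : ((Nl x : ℝ) + 1) * δ ≤ N * δ := by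
      apply mul_le_mul_of_nonneg_right _ hδ
      exact_mod_cast h1
    linarith
  have hNp : ∀ x ∈ T0, ∀ x' ∈ T0, (Np x x' : ℝ) * δ ≤ N * δ := by
    intro x hx x' hx'
    have h1 : Np x x' ≤ N := by
      have := Finset.single_le_sum (f := fun q : X × X => Np q.1 q.2) (fun _ _ => Nat.zero_le _)
        (Finset.mk_mem_product hx hx')
      simp only at this
      omega
    apply mul_le_mul_of_nonneg_right _ hδ
    exact_mod_cast h1
  have hEd : ∀ x ∈ T0, Tr7Even p e0 R δ (G (d x)) := fun x hx =>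
    hE _ (Finset.mem_union_left _ (Finset.mem_union_left _ (Finset.mem_image_of_mem _ hx)))
  have hEl : ∀ x ∈ T0, ∀ z ∈ Tl x, Tr7Even p e0 R δ (G z) := fun x hx z hz =>
    hE _ (Finset.mem_union_left _ (Finset.mem_union_right _ (Finset.mem_biUnion.2 ⟨x, hx, hz⟩)))
  have hEp : ∀ x ∈ T0, ∀ x' ∈ T0, ∀ z ∈ Tp x x', Tr7Even p e0 R δ (G z) := fun x hx x' hx' z hz =>
    hE _ (Finset.mem_union_right _ (Finset.mem_biUnion.2 ⟨(x, x'), Finset.mk_mem_product hx hx', hz⟩))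
  have hΓ : ∀ x ∈ T0, ∃ Γ : C(I, E), Γ 0 = e0 ∧ (∀ t, p (Γ t) = c x t) ∧
      ∀ t, dist (Γ t) e0 ≤ Nl x * δ := fun x hx =>
    hl x E p e0 R δ hpL hpe hδ (by linarith [hNl x hx]) (hEl x hx)
  have : Nonempty C(I, E) := ⟨ContinuousMap.const _ e0⟩
  choose! Γ hΓ0 hΓl hΓd using hΓ
  have hself : ∀ x ∈ T0, W x ⊆ G (d x) := fun x hx y hy =>
    key x hx x ⟨x, hxW x, hxW x⟩ (Or.inl hy)
  have hS : ∀ x ∈ T0, ∃ S : X → E, ContinuousOn S (G (d x)) ∧ (∀ y ∈ G (d x), p (S y) = y) ∧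
      S x = Γ x 1 ∧ ∀ y ∈ G (d x), dist (S y) (Γ x 1) ≤ δ := by
    intro x hx
    have hpx : p (Γ x 1) = x := by rw [hΓl x hx]; simp
    obtain ⟨S, a, b, cc, dd⟩ := hEd x hx (Γ x 1) (by linarith [hNl x hx, hΓd x hx 1])
      (by rw [hpx]; exact hself x hx (hxW x))
    rw [hpx] at cc
    exact ⟨S, a, b, cc, dd⟩
  have : Nonempty E := ⟨e0⟩
  choose! S hSc hSl hSx hSd using hS
  have hagree : ∀ x ∈ T0, ∀ x' ∈ T0, (W x ∩ W x').Nonempty → Set.EqOn (S x) (S x') (W x') := by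
    intro x hx x' hx' hne
    have hsub := key x hx x' hne
    have hval : S x x' = Γ x' 1 := hp x x' hne E p e0 R δ hpL hpe hδ
      ((hNp x hx x' hx').trans_lt hN) (hEp x hx x' hx') (Γ x) (Γ x') (S x) (hΓ0 x hx) (hΓ0 x' hx')
      (hΓl x hx) (hΓl x' hx') ((hSc x hx).mono hsub) (fun y hy => hSl x hx y (hsub hy)) (hSx x hx)
    refine (T2Space.isSeparatedMap p).eqOn_of_comp_eqOn hpL.isLocallyInjective
      (hWpc x').isConnected.isPreconnected
      ((hSc x hx).mono (Set.subset_union_right.trans hsub)) ((hSc x' hx').mono (hself x' hx'))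
      (fun y hy => ?_) (hxW x') (by rw [hval, hSx x' hx'])
    show p (S x y) = p (S x' y)
    rw [hSl x hx y (hsub (Or.inr hy)), hSl x' hx' y (hself x' hx' hy)]
  have hidx : ∀ y ∈ O, ∃ x, x ∈ T0 ∧ y ∈ W x := fun y hy => by
    obtain ⟨x, hx, hyx⟩ := Set.mem_iUnion₂.1 hy
    exact ⟨x, hx, hyx⟩
  choose! i hiT hiW using hidx
  let sg : X → E := fun y => S (i y) y
  have hsg : ∀ x ∈ T0, Set.EqOn sg (S x) (W x) := by
    intro x hx y hy
    have hyO : y ∈ O := Set.mem_iUnion₂.2 ⟨x, hx, hy⟩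
    exact hagree (i y) (hiT y hyO) x hx ⟨y, hiW y hyO, hy⟩ hy
  refine ⟨sg, ?_, ?_, ?_, ?_⟩
  · intro y hy
    have hx := hiT y hy
    have hyx := hiW y hy
    have h1 : ContinuousAt (S (i y)) y :=
      ((hSc _ hx).mono (hself _ hx)).continuousAt ((hWo _).mem_nhds hyx)
    have h2 : sg =ᶠ[𝓝 y] S (i y) := Filter.eventuallyEq_of_mem ((hWo _).mem_nhds hyx) (hsg _ hx)
    exact (h1.congr h2.symm).continuousWithinAt
  · intro y hy
    exact hSl _ (hiT y hy) y (hself _ (hiT y hy) (hiW y hy))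
  · have hx0 : x0 ∈ T0 := Finset.mem_insert_self _ _
    rw [hsg x0 hx0 (hxW x0), hSx x0 hx0]
    have : (Γ x0 : I → E) = fun _ => e0 := tr7_lift_unique hpL (Γ x0).continuous continuous_const
      (fun t => by rw [hΓl x0 hx0, hc0, hpe]) (hΓ0 x0 hx0)
    exact congrFun this 1
  · intro y hy
    have hx := hiT y hy
    have h1 := hSd _ hx y (hself _ hx (hiW y hy))
    have h2 := hΓd _ hx 1
    have h3 := dist_triangle (S (i y) y) (Γ (i y) 1) e0
    have h4 := hNl _ hx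
    show dist (S (i y) y) e0 ≤ _
    linarith
end Claimed.Agent.R316
end
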