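/- Packed by merge_tool.py (helper293): 8 modules of Claimed.Agent.R316 in one file, same declarations.
   Old modules, in this order: Base.Rich.Local, Base.Rich.Main, Base.Rich.Api, Base.Heat.Defs, Base.Vol.Api, Base.NiTam.Defs, Base.L2M.Defs, S3.CutoffDefs -/
import Claimed.Agent.R316.Base.Rich.Moll
import Claimed.Agent.R316.Base.Rich.Cover
import Claimed.Agent.R316.Base.Vol.Green
import Claimed.Agent.R316.Base.Vol.Time
import Claimed.Agent.R316.Base.Metric.Api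
import Claimed.Agent.R316.CM.FormsST
import Claimed.Agent.R316.CM.Normal
import Claimed.Agent.R316.CM.MaxP
import Claimed.Agent.R316.S3.Defs
import Claimed.Agent.R316.Pack024
import Claimed.Agent.R316.Pack015
import Claimed.Agent.R316.Pack011

/- ===== packed: Claimed.Agent.R316.Base.Rich.Local ===== -/
section
/-!
# Row 316, `BP-G13`, file `Rich/Local.lean`: the local modification lemma of Richberg's theorem

Sub-captain: helper16 (GLUE FILE, owner helper16).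

`rich_local_mod`: a continuous `v` with `dd v ≥ A` (viscosity), local Lipschitz bound `Λ`, is modified inside `Φ '' C` so that it becomes smooth near `Φ '' K`, stays smooth where it was,
and loses at most `η` in all estimates.

PROOF.  `C ⊆ interior C₁`, `C₁ ⊆ U` compact, `U₁ := interior C₁`, `f := C₁.indicator (v ∘ Φ)` (locally integrable, `= v ∘ Φ` on `U₁`).
`c > 0` with `g_Φ ≥ c` on `C`; bump `β` (`= 1` near `K`, `= 0` off `K' ⊆ interior C`), `levi β ≥ - b`, Lipschitz constant `Lβ` on `C`.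
`δ := min (η/2) (min (c η / (4 b + 4)) (η / (4 Lβ + 4)))`, `κ := δ/3`; `k` large: on `C`: `|F - f| ≤ δ/3`, `levi F ≥ A_Φ - (c η/2)`, `ChLipAt F (Λ + η/2)`, `F := wsMol k f`.
`q := F + δ (2 β - 1)`; `ū` global smooth with `ū ∘ Φ = q` near `C`;  `v' := regMax κ v ū` on `Φ '' C`, `v' := v` elsewhere.
Off `Φ '' K'`: `v' = v`.  On `Φ '' interior C`: `v' = regMax κ v ū`.  Near `Φ '' K`: `v' = ū`.
-/

set_option autoImplicit false
set_option linter.unusedSectionVars false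
open scoped ContDiff ComplexOrder Topology
open Filter MeasureTheory

namespace Claimed.Agent.R316

variable {V : Type} [NormedAddCommGroup V] [NormedSpace ℝ V]
variable {ι : Type} [Fintype ι] [DecidableEq ι]
variable [FiniteDimensional ℝ V]
variable {𝓜 : CMfd V ι} {g A : HFam V ι} {v Λ : V → ℝ}

theorem rich_leFOn_sub_smulF (hg : IsMetric 𝓜 g) (A : HFam V ι) {a : V → ℝ} {x : V} (ha : 0 ≤ a x) :
    leFOn 𝓜 {x} (A - smulF a g) A := by
  intro Φ U hΦ z hz hzx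
  have e : A Φ z - (A - smulF a g) Φ z = ((a x : ℝ) : ℂ) • g Φ z := by
    rw [Set.mem_singleton_iff] at hzx
    simp only [Pi.sub_apply, smulF, hzx]
    abel
  rw [e]
  exact posSemidef_smul_real ha (hg.posDef hΦ z hz).posSemidef

/-- the matrix inequality behind the Levi bound of the local smoothing. -/
theorem rich_matrix_ineq {X Y a G : Matrix ι ι ℂ} {c η δ b : ℝ} (hη : 0 ≤ η) (hδ : 0 ≤ δ)
    (h1 : (X - a + cI (c * η / 2)).PosSemidef) (h2 : (Y + cI b).PosSemidef)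
    (h3 : (G - cI c).PosSemidef) (h4 : 2 * δ * b ≤ c * η / 2) :
    (X + ((2 * δ : ℝ) : ℂ) • Y - (a - ((η : ℝ) : ℂ) • G)).PosSemidef := by
  have h5 : (cI (c * η / 2 - 2 * δ * b) : Matrix ι ι ℂ).PosSemidef :=
    posSemidef_smul_real (by linarith) Matrix.PosSemidef.one
  have h := (h1.add (posSemidef_smul_real (c := 2 * δ) (by positivity) h2)).add
    ((posSemidef_smul_real hη h3).add h5)
  have e : X + ((2 * δ : ℝ) : ℂ) • Y - (a - ((η : ℝ) : ℂ) • G) =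
      X - a + cI (c * η / 2) + ((2 * δ : ℝ) : ℂ) • (Y + cI b) +
        (((η : ℝ) : ℂ) • (G - cI c) + cI (c * η / 2 - 2 * δ * b)) := by
    simp only [cI]
    push_cast
    module
  rw [e]
  exact h

/-- **local modification lemma.** -/
theorem rich_local_mod (hg : IsMetric 𝓜 g) (_hconn : IsConnected 𝓜.carrier) (hA : IsCForm 𝓜 A)
    (hv : ContinuousOn v 𝓜.carrier) (hdd : DdGe 𝓜 Set.univ v A)
    (hΛc : ContinuousOn Λ 𝓜.carrier) (hΛ0 : ∀ x ∈ 𝓜.carrier, 0 ≤ Λ x) (hlip : LocLipBound 𝓜 g v Λ)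
    {Φ : CE ι → V} {U K C : Set (CE ι)} (hΦ : 𝓜.IsHol Φ U) (hK : IsCompact K) (hC : IsCompact C)
    (hKC : K ⊆ interior C) (hCU : C ⊆ U) {η : ℝ} (hη : 0 < η) :
    ∃ v' : V → ℝ, ContinuousOn v' 𝓜.carrier ∧ (∀ x ∈ 𝓜.carrier, |v' x - v x| ≤ η) ∧
      (∀ x ∈ 𝓜.carrier, x ∉ Φ '' C → v' x = v x) ∧
      (∀ x ∈ 𝓜.carrier, DdGeAt 𝓜 v' (A - smulF (fun _ => η) g) x) ∧
      (∀ x ∈ 𝓜.carrier, LocLipAt 𝓜 g v' (Λ x + η) x) ∧
      (∀ x ∈ Φ '' K, SmoothAt 𝓜 v' x) ∧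
      ∀ x ∈ 𝓜.carrier, SmoothAt 𝓜 v x → SmoothAt 𝓜 v' x := by
  classical
  have hp := 𝓜.isParam hΦ
  have hUo : IsOpen U := hp.isOpen
  have hmem : ∀ z ∈ U, Φ z ∈ 𝓜.carrier := fun z hz => hp.mem hz
  -- Step 0: the function in the chart
  obtain ⟨C₁, hC₁, hCC₁, hC₁U⟩ := exists_compact_between hC hUo hCU
  have hU₁o : IsOpen (interior C₁) := isOpen_interior
  have hU₁U : interior C₁ ⊆ U := interior_subset.trans hC₁U
  have hvΦ : ContinuousOn (v ∘ Φ) U := hv.comp hp.continuousOn hmem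
  obtain ⟨f, hfdef⟩ : ∃ f : CE ι → ℝ, f = C₁.indicator (v ∘ Φ) := ⟨_, rfl⟩
  have hfint : LocallyIntegrable f volume := by
    have h : IntegrableOn (v ∘ Φ) C₁ volume := (hvΦ.mono hC₁U).integrableOn_compact hC₁
    rw [hfdef]
    exact ((integrable_indicator_iff hC₁.measurableSet).2 h).locallyIntegrable
  have hfeq : Set.EqOn (v ∘ Φ) f (interior C₁) := fun z hz => by
    rw [hfdef, Set.indicator_of_mem (interior_subset hz)]
  have hfC : ∀ y ∈ C, f y = v (Φ y) := fun y hy => (hfeq (hCC₁ hy)).symm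
  have hfc : ContinuousOn f (interior C₁) := (hvΦ.mono hU₁U).congr hfeq.symm
  have hvisc : ChVisc (interior C₁) f (A Φ) :=
    (DdGe.chVisc hΦ hdd).congr_of_isOpen hU₁o (fun z hz => ⟨hU₁U hz, Set.mem_univ _⟩) hfeq
  have hAc : ∀ j k, ContinuousOn (fun z => A Φ z j k) (interior C₁) := fun j k =>
    (hA.cont hΦ j k).mono hU₁U
  have hAh : ∀ z ∈ interior C₁, (A Φ z).IsHermitian := fun z hz => hA.herm hΦ z (hU₁U hz)
  have hGc : ∀ j k, ContinuousOn (fun z => g Φ z j k) (interior C₁) := fun j k =>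
    (hg.smooth hΦ j k).continuousOn.mono hU₁U
  have hGp : ∀ z ∈ interior C₁, (g Φ z).PosDef := fun z hz => hg.posDef hΦ z (hU₁U hz)
  have hlam : ContinuousOn (fun z => Λ (Φ z)) (interior C₁) :=
    (hΛc.comp hp.continuousOn hmem).mono hU₁U
  have hlam0 : ∀ z ∈ interior C₁, 0 ≤ Λ (Φ z) := fun z hz => hΛ0 _ (hmem z (hU₁U hz))
  have hflip : ∀ z ∈ interior C₁, ChLipAt (g Φ z) f (Λ (Φ z)) z := fun z hz =>
    (LocLipAt.chLipAt hg hΦ (hU₁U hz) (hlam0 z hz) (hlip _ (hmem z (hU₁U hz)))).congr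
      (hfeq.eventuallyEq_of_mem (hU₁o.mem_nhds hz))
  -- Step 1: constants
  obtain ⟨c, hc, hcG⟩ := exists_cI_le hC hCC₁ hGc hGp
  obtain ⟨β, hβ, hβ01, ⟨O, hO, hKO, hβ1⟩, K', hK', hK'C, hβ0⟩ := exists_chart_bump hK hKC
  obtain ⟨b, hb, hbβ⟩ := exists_levi_lower hC hβ
  obtain ⟨Lβ, hLβ, hLβs⟩ := exists_chLipAt_of_contDiff hC hCC₁ hGc hGp hβ
  obtain ⟨δ, hδ, hδ1, hδ2, hδ3⟩ : ∃ δ : ℝ, 0 < δ ∧ δ ≤ η / 2 ∧ 2 * δ * b ≤ c * η / 2 ∧
      2 * δ * Lβ ≤ η / 2 := by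
    refine ⟨min (η / 2) (min (c * η / (4 * b + 4)) (η / (4 * Lβ + 4))), ?_, min_le_left _ _, ?_, ?_⟩
    · exact lt_min (by positivity) (lt_min (by positivity) (by positivity))
    · have h1 : min (η / 2) (min (c * η / (4 * b + 4)) (η / (4 * Lβ + 4))) ≤ c * η / (4 * b + 4) :=
        (min_le_right _ _).trans (min_le_left _ _)
      have h2 : c * η / (4 * b + 4) * (4 * b + 4) = c * η := by field_simp
      have h3 : 0 < c * η / (4 * b + 4) := by positivity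
      nlinarith
    · have h1 : min (η / 2) (min (c * η / (4 * b + 4)) (η / (4 * Lβ + 4))) ≤ η / (4 * Lβ + 4) :=
        (min_le_right _ _).trans (min_le_right _ _)
      have h2 : η / (4 * Lβ + 4) * (4 * Lβ + 4) = η := by field_simp
      have h3 : 0 < η / (4 * Lβ + 4) := by positivity
      nlinarith
  have hκ : 0 < δ / 3 := by positivity
  -- Step 2: the mollification
  obtain ⟨k, hk1, hk2, hk3⟩ := ((wsMol_sub_le hU₁o hC hCC₁ hfint hfc hκ).and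
    ((levi_wsMol_ge_of_chVisc hU₁o hC hCC₁ hfint hfc hAc hAh hvisc
      (η := c * η / 2) (by positivity)).and
    (chLipAt_wsMol hU₁o hC hCC₁ hfint hfc hGc hGp hlam hlam0 hflip (half_pos hη)))).exists
  have hF : ContDiff ℝ ∞ (B6E.wsMol k f) := B6E.wsMol_contDiff k hfint
  obtain ⟨q, hqdef⟩ : ∃ q : CE ι → ℝ, q = fun y => (B6E.wsMol k f y + (2 * δ) * β y) + (-δ) :=
    ⟨_, rfl⟩
  have hq : ContDiff ℝ ∞ q := by
    rw [hqdef]
    exact (hF.add (contDiff_const.mul hβ)).add contDiff_const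
  -- Step 3: the global smooth function
  obtain ⟨ub, O', hub, hO', hCO', hO'U, hubq⟩ := exists_global_test' hΦ hC hCU hq
  have hubC : ∀ y ∈ C, ub (Φ y) = B6E.wsMol k f y + (2 * δ) * β y + (-δ) := fun y hy => by
    rw [hubq y (hCO' hy), hqdef]
  -- Step 4: gluing
  have hICU : interior C ⊆ U := interior_subset.trans hCU
  have hK'CC : K' ⊆ C := hK'C.trans interior_subset
  have hinj : ∀ y ∈ U, ∀ y' ∈ U, Φ y = Φ y' → y = y' := fun y hy y' hy' h => hp.injOn hy hy' h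
  obtain ⟨W, hWdef⟩ : ∃ W : V → ℝ, W = fun x => regMax (δ / 3) (v x) (ub x) := ⟨_, rfl⟩
  obtain ⟨v', hv'def⟩ : ∃ v' : V → ℝ, v' = fun x => if x ∈ Φ '' C then W x else v x := ⟨_, rfl⟩
  have hv'in : ∀ x ∈ Φ '' C, v' x = W x := fun x hx => by rw [hv'def]; exact if_pos hx
  have hv'out : ∀ x, x ∉ Φ '' C → v' x = v x := fun x hx => by rw [hv'def]; exact if_neg hx
  -- (F1) outside `K'` nothing changes
  have hF1 : ∀ y ∈ C, y ∉ K' → W (Φ y) = v (Φ y) := by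
    intro y hy hyK
    rw [hWdef]
    refine regMax_eq_left hκ ?_
    have h1 := abs_le.1 (hk1 y hy)
    rw [hubC y hy, hβ0 y hyK, ← hfC y hy]
    linarith [h1.2]
  have hv'K : ∀ x, x ∉ Φ '' K' → v' x = v x := by
    intro x hx
    by_cases hxC : x ∈ Φ '' C
    · obtain ⟨y, hy, rfl⟩ := hxC
      rw [hv'in _ ⟨y, hy, rfl⟩]
      exact hF1 y hy fun hyK => hx ⟨y, hyK, rfl⟩
    · exact hv'out x hxC
  have germ1 : ∀ x, x ∉ Φ '' K' → v =ᶠ[𝓝[𝓜.carrier] x] v' := by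
    intro x hx
    filter_upwards [eventually_notMem_image_of_isCompact hΦ hK' (hK'CC.trans hCU) hx] with y hy
    exact (hv'K y hy).symm
  have germ2 : ∀ x ∈ Φ '' interior C, W =ᶠ[𝓝[𝓜.carrier] x] v' := by
    intro x hx
    filter_upwards [eventually_mem_image_of_isOpen hΦ isOpen_interior hICU hx] with y hy
    exact (hv'in y (Set.image_mono interior_subset hy)).symm
  have hcase : ∀ x, x ∉ Φ '' K' ∨ x ∈ Φ '' interior C := by
    intro x
    by_cases hx : x ∈ Φ '' K'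
    · exact Or.inr (Set.image_mono hK'C hx)
    · exact Or.inl hx
  -- the smooth function `ub` at the points of `Φ '' interior C`
  have hubgerm : ∀ y ∈ C, (ub ∘ Φ) =ᶠ[𝓝 y] q := fun y hy => by
    filter_upwards [hO'.mem_nhds (hCO' hy)] with y' hy'
    exact hubq y' hy'
  have h2 : ∀ {φ : CE ι → ℝ} (y : CE ι), ContDiff ℝ ∞ φ → ContDiffAt ℝ 2 φ y := fun y hφ =>
    (hφ.of_le lv_two_le_infty).contDiffAt
  have hublevi : ∀ y ∈ C, leFOn 𝓜 {Φ y} (A - smulF (fun _ => η) g) (ddc ub) := by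
    intro y hy
    refine leFOn_singleton_of_chart (hA.sub (IsCForm.smulF continuousOn_const hg.toIsHForm.isCForm))
      (isHForm_ddc hub).isCForm hΦ (hCU hy) ?_
    have e1 : ddc ub Φ y = levi (B6E.wsMol k f) y + ((2 * δ : ℝ) : ℂ) • levi β y := by
      have : ddc ub Φ y = levi q y := levi_congr (hubgerm y hy)
      rw [this, hqdef, levi_add_const, levi_add (h2 y hF) (h2 y (contDiff_const.mul hβ)),
        levi_const_mul _ (h2 y hβ)]
    have e2 : (A - smulF (fun _ => η) g) Φ y = A Φ y - ((η : ℝ) : ℂ) • g Φ y := rfl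
    rw [e1, e2]
    exact rich_matrix_ineq hη.le hδ.le (hk2 y hy) (hbβ y hy) (hcG y hy) hδ2
  have hublip : ∀ y ∈ C, LocLipAt 𝓜 g ub (Λ (Φ y) + η) (Φ y) := by
    intro y hy
    have hL0 : 0 ≤ Λ (Φ y) := hΛ0 _ (hmem y (hCU hy))
    refine LocLipAt.of_chLipAt hg hΦ (hCU hy) (by linarith) ?_
    have h1 : ChLipAt (g Φ y) q (Λ (Φ y) + η / 2 + |2 * δ| * Lβ) y := by
      rw [hqdef]
      exact ((hk3 y hy).add ((hLβs y hy).const_mul hLβ (2 * δ))).add_const (-δ)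
    refine (h1.mono ?_).congr (hubgerm y hy).symm
    rw [abs_of_pos (by positivity)]
    linarith
  have hWv : ∀ y ∈ C, |W (Φ y) - v (Φ y)| ≤ η := by
    intro y hy
    have h1 := abs_le.1 (hk1 y hy)
    have h3 : v (Φ y) ≤ W (Φ y) := by rw [hWdef]; exact le_regMax_left hκ _ _
    have h4 : W (Φ y) ≤ max (v (Φ y)) (ub (Φ y)) + δ / 3 := by rw [hWdef]; exact regMax_le hκ _ _
    have h5 : ub (Φ y) ≤ v (Φ y) + δ / 3 + δ := by
      rw [hubC y hy, ← hfC y hy]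
      nlinarith [(hβ01 y).2, h1.2]
    have h6 : max (v (Φ y)) (ub (Φ y)) ≤ v (Φ y) + δ / 3 + δ := max_le (by linarith) h5
    rw [abs_of_nonneg (by linarith)]
    linarith
  refine ⟨v', ?_, ?_, ?_, ?_, ?_, ?_, ?_⟩
  · -- continuity
    intro x hx
    rcases hcase x with h | h
    · exact (hv x hx).congr_of_eventuallyEq (germ1 x h).symm ((germ1 x h).symm.eq_of_nhdsWithin hx)
    · have hW : ContinuousWithinAt W 𝓜.carrier x := by
        rw [hWdef]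
        exact continuousWithinAt_regMax _ (hv x hx) (hub.continuousOn x hx)
      exact hW.congr_of_eventuallyEq (germ2 x h).symm ((germ2 x h).symm.eq_of_nhdsWithin hx)
  · intro x hx
    by_cases hxC : x ∈ Φ '' C
    · obtain ⟨y, hy, rfl⟩ := hxC
      rw [hv'in _ ⟨y, hy, rfl⟩]
      exact hWv y hy
    · rw [hv'out x hxC, sub_self, abs_zero]
      exact hη.le
  · exact fun x _ hxC => hv'out x hxC
  · intro x hx
    have hvx : DdGeAt 𝓜 v (A - smulF (fun _ => η) g) x :=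
      DdGeAt.mono (hdd x ⟨hx, Set.mem_univ _⟩) (rich_leFOn_sub_smulF hg A hη.le)
    rcases hcase x with h | h
    · exact hvx.congr_germ hx (germ1 x h)
    · obtain ⟨y, hy, rfl⟩ := h
      have hW : DdGeAt 𝓜 W (A - smulF (fun _ => η) g) (Φ y) := by
        rw [hWdef]
        exact DdGeAt.regMax hκ hx hvx hub (hublevi y (interior_subset hy))
      exact hW.congr_germ hx (germ2 _ ⟨y, hy, rfl⟩)
  · intro x hx
    have hvx : LocLipAt 𝓜 g v (Λ x + η) x := LocLipAt.mono (hlip x hx) (by linarith)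
    rcases hcase x with h | h
    · exact hvx.congr_germ (germ1 x h)
    · obtain ⟨y, hy, rfl⟩ := h
      have hW : LocLipAt 𝓜 g W (max (Λ (Φ y) + η) (Λ (Φ y) + η)) (Φ y) := by
        rw [hWdef]
        exact LocLipAt.regMax hκ hvx (hublip y (interior_subset hy))
      rw [max_self] at hW
      exact hW.congr_germ (germ2 _ ⟨y, hy, rfl⟩)
  · -- smooth near `Φ '' K`
    rintro x ⟨y, hy, rfl⟩
    have hyO : y ∈ O ∩ interior C := ⟨hKO hy, hKC hy⟩
    have hOo : IsOpen (O ∩ interior C) := hO.inter isOpen_interior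
    have hgerm : ub =ᶠ[𝓝[𝓜.carrier] (Φ y)] v' := by
      filter_upwards [eventually_mem_image_of_isOpen hΦ hOo (Set.inter_subset_right.trans hICU)
        ⟨y, hyO, rfl⟩] with x' hx'
      obtain ⟨y', hy', rfl⟩ := hx'
      have hy'C : y' ∈ C := interior_subset hy'.2
      rw [hv'in _ ⟨y', hy'C, rfl⟩, hWdef]
      refine (regMax_eq_right hκ ?_).symm
      have h1 := abs_le.1 (hk1 y' hy'C)
      rw [hubC y' hy'C, hβ1 y' hy'.1, ← hfC y' hy'C]
      linarith [h1.1]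
    exact (hub.smoothAt _).congr_germ hgerm
  · intro x hx hsm
    rcases hcase x with h | h
    · exact hsm.congr_germ (germ1 x h)
    · have hW : SmoothAt 𝓜 W x := by
        rw [hWdef]
        exact SmoothAt.regMax _ hsm (hub.smoothAt x)
      exact hW.congr_germ (germ2 x h)

end Claimed.Agent.R316
end

/- ===== packed: Claimed.Agent.R316.Base.Rich.Main ===== -/
section
/-!
# Row 316, `BP-G13`, file `Rich/Main.lean`: Richberg / Greene-Wu smoothing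

Sub-captain: helper16 (GLUE FILE, owner helper16).

* `rich_main`: the induction over a locally finite cover (`exists_locallyFinite_cover`) with `rich_local_mod`; continuous form `A`, `Λ ≥ 0`; the gradient control is kept in the form `LocLipBound`.
  Step `i` is run with `η_i > 0`, `η_i ≤ 2^{-(i+2)} ε` on `Φ_i '' C_i`; invariants with `c_k = ∑_{i<k} 2^{-(i+2)} < 1/2`:
  `|v_k - v| ≤ c_k ε`, `dd v_k ≥ A - c_k ε g`, `LocLipBound v_k (Λ + c_k ε)`, `v_k` smooth at the points of `Φ_i '' K_i`, `i < k`; `v_{k+1} = v_k` off `Φ_k '' C_k`.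
  By local finiteness the sequence is locally eventually constant; the limit has all properties because they are properties of germs.
* `richberg`, `richberg_le`, `richberg_strict`: the export statements of helper97 (verbatim).
-/

set_option autoImplicit false
set_option linter.unusedSectionVars false
open scoped ContDiff ComplexOrder Topology
open Filter

namespace Claimed.Agent.R316

variable {V : Type} [NormedAddCommGroup V] [NormedSpace ℝ V]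
variable {ι : Type} [Fintype ι] [DecidableEq ι]
variable [FiniteDimensional ℝ V]
variable {𝓜 : CMfd V ι} {g A B : HFam V ι} {Ω : Set V} {v w : V → ℝ}

/-! ### bookkeeping of the losses -/

/-- the accumulated loss factor `c_k = ∑_{i<k} 2^{-(i+2)} = (1 - 2^{-k})/2`. -/
noncomputable def richC (k : ℕ) : ℝ := (1 - (1 / 2 : ℝ) ^ k) / 2

theorem richC_zero : richC 0 = 0 := by simp [richC]

theorem richC_succ (k : ℕ) : richC (k + 1) = richC k + (1 / 2 : ℝ) ^ (k + 2) := by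
  unfold richC
  ring

theorem richC_nonneg (k : ℕ) : 0 ≤ richC k := by
  unfold richC
  have : (1 / 2 : ℝ) ^ k ≤ 1 := pow_le_one₀ (by norm_num) (by norm_num)
  linarith

theorem richC_lt (k : ℕ) : richC k < 1 / 2 := by
  unfold richC
  have : (0 : ℝ) < (1 / 2 : ℝ) ^ k := by positivity
  linarith

theorem richC_le_succ (k : ℕ) : richC k ≤ richC (k + 1) := by
  rw [richC_succ]
  have : (0 : ℝ) < (1 / 2 : ℝ) ^ (k + 2) := by positivity
  linarith

theorem rich_sub_smulF_sub_smulF (A g : HFam V ι) (a b : V → ℝ) :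
    A - smulF a g - smulF b g = A - smulF (fun x => a x + b x) g := by
  funext Φ z
  simp only [Pi.sub_apply, smulF, Complex.ofReal_add, add_smul]
  abel

theorem rich_exists_eta {S : Set V} (hS : IsCompact S) (hSM : S ⊆ 𝓜.carrier) {ε : V → ℝ}
    (hεc : ContinuousOn ε 𝓜.carrier) (hε : ∀ x ∈ 𝓜.carrier, 0 < ε x) {a : ℝ} (ha : 0 < a) :
    ∃ η > 0, ∀ x ∈ S, η ≤ a * ε x := by
  rcases S.eq_empty_or_nonempty with rfl | hne
  · exact ⟨1, one_pos, fun x hx => absurd hx (Set.notMem_empty x)⟩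
  · obtain ⟨x₀, hx₀, hmin⟩ := hS.exists_isMinOn hne (hεc.mono hSM)
    exact ⟨a * ε x₀, mul_pos ha (hε x₀ (hSM hx₀)), fun x hx =>
      mul_le_mul_of_nonneg_left (hmin hx) ha.le⟩

/-- the invariants of the induction. -/
structure RichInv (𝓜 : CMfd V ι) (g A : HFam V ι) (v ε Λ : V → ℝ) (Φ : ℕ → CE ι → V)
    (K : ℕ → Set (CE ι)) (k : ℕ) (u : V → ℝ) : Prop where
  cont : ContinuousOn u 𝓜.carrier
  close : ∀ x ∈ 𝓜.carrier, |u x - v x| ≤ richC k * ε x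
  dd : ∀ x ∈ 𝓜.carrier, DdGeAt 𝓜 u (A - smulF (fun y => richC k * ε y) g) x
  lip : ∀ x ∈ 𝓜.carrier, LocLipAt 𝓜 g u (Λ x + richC k * ε x) x
  smooth : ∀ i < k, ∀ x ∈ Φ i '' K i, SmoothAt 𝓜 u x

theorem rich_step (hg : IsMetric 𝓜 g) (hconn : IsConnected 𝓜.carrier) (hA : IsCForm 𝓜 A)
    {ε Λ : V → ℝ} (hεc : ContinuousOn ε 𝓜.carrier) (hε : ∀ x ∈ 𝓜.carrier, 0 < ε x)
    (hΛc : ContinuousOn Λ 𝓜.carrier) (hΛ0 : ∀ x ∈ 𝓜.carrier, 0 ≤ Λ x)
    {Φ : ℕ → CE ι → V} {U K C : ℕ → Set (CE ι)} (hΦ : ∀ i, 𝓜.IsHol (Φ i) (U i))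
    (hK : ∀ i, IsCompact (K i)) (hC : ∀ i, IsCompact (C i)) (hKC : ∀ i, K i ⊆ interior (C i))
    (hCU : ∀ i, C i ⊆ U i) (k : ℕ) {u : V → ℝ} (hu : RichInv 𝓜 g A v ε Λ Φ K k u) :
    ∃ u' : V → ℝ, RichInv 𝓜 g A v ε Λ Φ K (k + 1) u' ∧
      ∀ x ∈ 𝓜.carrier, x ∉ Φ k '' C k → u' x = u x := by
  have himg : Φ k '' C k ⊆ 𝓜.carrier := by
    rintro _ ⟨z, hz, rfl⟩
    exact CMfd.mem_carrier (hΦ k) (hCU k hz)
  have hcpt : IsCompact (Φ k '' C k) :=
    (hC k).image_of_continuousOn ((𝓜.isParam (hΦ k)).continuousOn.mono (hCU k))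
  obtain ⟨η, hη, hηle⟩ := rich_exists_eta hcpt himg hεc hε
    (a := (1 / 2 : ℝ) ^ (k + 2)) (by positivity)
  have hcε : ContinuousOn (fun y => richC k * ε y) 𝓜.carrier := hεc.const_mul _ |>.congr
    (fun _ _ => rfl)
  have hAk : IsCForm 𝓜 (A - smulF (fun y => richC k * ε y) g) :=
    hA.sub (hg.toIsHForm.isCForm.smulF hcε)
  obtain ⟨u', h1, h2, h3, h4, h5, h6, h7⟩ := rich_local_mod hg hconn hAk hu.cont
    (fun x hx => hu.dd x hx.1) (Λ := fun x => Λ x + richC k * ε x) (hΛc.add hcε)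
    (fun x hx => add_nonneg (hΛ0 x hx) (mul_nonneg (richC_nonneg k) (hε x hx).le))
    hu.lip (hΦ k) (hK k) (hC k) (hKC k) (hCU k) hη
  have hgerm : ∀ x ∈ 𝓜.carrier, x ∉ Φ k '' C k → u =ᶠ[𝓝[𝓜.carrier] x] u' := by
    intro x _ hxC
    filter_upwards [eventually_notMem_image_of_isCompact (hΦ k) (hC k) (hCU k) hxC,
      self_mem_nhdsWithin] with y hy hyM
    exact (h3 y hyM hy).symm
  have hmono : ∀ x ∈ 𝓜.carrier, richC k * ε x ≤ richC (k + 1) * ε x := fun x hx =>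
    mul_le_mul_of_nonneg_right (richC_le_succ k) (hε x hx).le
  have hsucc : ∀ x ∈ Φ k '' C k, richC k * ε x + η ≤ richC (k + 1) * ε x := by
    intro x hx
    rw [richC_succ, add_mul]
    linarith [hηle x hx]
  refine ⟨u', ⟨h1, ?_, ?_, ?_, ?_⟩, h3⟩
  · intro x hx
    by_cases hxC : x ∈ Φ k '' C k
    · have e : u' x - v x = (u' x - u x) + (u x - v x) := by ring
      rw [e]
      refine (abs_add_le _ _).trans ?_
      linarith [h2 x hx, hu.close x hx, hsucc x hxC]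
    · rw [h3 x hx hxC]
      exact (hu.close x hx).trans (hmono x hx)
  · intro x hx
    by_cases hxC : x ∈ Φ k '' C k
    · have h := h4 x hx
      rw [rich_sub_smulF_sub_smulF] at h
      exact h.mono (leFOn_sub_smulF_of_le hg (hsucc x hxC))
    · exact ((hu.dd x hx).congr_germ hx (hgerm x hx hxC)).mono
        (leFOn_sub_smulF_of_le hg (hmono x hx))
  · intro x hx
    by_cases hxC : x ∈ Φ k '' C k
    · exact (h5 x hx).mono (by linarith [hsucc x hxC])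
    · exact ((hu.lip x hx).congr_germ (hgerm x hx hxC)).mono (by linarith [hmono x hx])
  · intro i hi x hx
    rcases Nat.lt_succ_iff_lt_or_eq.1 hi with hlt | rfl
    · have hxM : x ∈ 𝓜.carrier := by
        obtain ⟨z, hz, rfl⟩ := hx
        exact CMfd.mem_carrier (hΦ i) (hCU i (interior_subset (hKC i hz)))
      exact h7 x hxM (hu.smooth i hlt x hx)
    · exact h6 x hx

/-- **Richberg's theorem**, internal form. -/
theorem rich_main (hg : IsMetric 𝓜 g) (hconn : IsConnected 𝓜.carrier) (hA : IsCForm 𝓜 A)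
    (hv : ContinuousOn v 𝓜.carrier) (hdd : DdGe 𝓜 Set.univ v A) {ε Λ : V → ℝ}
    (hεc : ContinuousOn ε 𝓜.carrier) (hε : ∀ x ∈ 𝓜.carrier, 0 < ε x)
    (hΛc : ContinuousOn Λ 𝓜.carrier) (hΛ0 : ∀ x ∈ 𝓜.carrier, 0 ≤ Λ x) (hlip : LocLipBound 𝓜 g v Λ) :
    ∃ w : V → ℝ, 𝓜.Smooth w ∧ (∀ x ∈ 𝓜.carrier, |w x - v x| < ε x) ∧
      leF 𝓜 (A - smulF ε g) (ddc w) ∧ LocLipBound 𝓜 g w (fun x => Λ x + ε x) := by
  obtain ⟨Φ, U, K, C, hΦ, hK, hC, hKC, hCU, hcov, hlf⟩ :=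
    exists_locallyFinite_cover 𝓜 hconn.nonempty
  -- the sequence
  have h0 : RichInv 𝓜 g A v ε Λ Φ K 0 v := by
    refine ⟨hv, fun x hx => ?_, fun x hx => ?_, fun x hx => ?_, fun i hi => absurd hi (Nat.not_lt_zero i)⟩
    · simp [richC_zero]
    · exact DdGeAt.mono (hdd x ⟨hx, Set.mem_univ x⟩)
        (rich_leFOn_sub_smulF hg A (by simp [richC_zero]))
    · have h : LocLipAt 𝓜 g v (Λ x) x := hlip x hx
      simpa [richC_zero] using h
  let S : (k : ℕ) → {u : V → ℝ // RichInv 𝓜 g A v ε Λ Φ K k u} := fun k =>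
    Nat.rec ⟨v, h0⟩ (fun k p => ⟨(rich_step hg hconn hA hεc hε hΛc hΛ0 hΦ hK hC hKC hCU k p.2).choose,
      (rich_step hg hconn hA hεc hε hΛc hΛ0 hΦ hK hC hKC hCU k p.2).choose_spec.1⟩) k
  have hinv : ∀ k, RichInv 𝓜 g A v ε Λ Φ K k (S k).1 := fun k => (S k).2
  have hstep : ∀ k, ∀ x ∈ 𝓜.carrier, x ∉ Φ k '' C k → (S (k + 1)).1 x = (S k).1 x := fun k =>
    (rich_step hg hconn hA hεc hε hΛc hΛ0 hΦ hK hC hKC hCU k (S k).2).choose_spec.2
  -- local stabilisation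
  have hstab : ∀ x ∈ 𝓜.carrier, ∃ n : ℕ, ∃ N ∈ 𝓝[𝓜.carrier] x, ∀ y ∈ N, y ∈ 𝓜.carrier →
      ∀ k, n ≤ k → (S k).1 y = (S n).1 y := by
    intro x hx
    obtain ⟨N, hN, hfin⟩ := hlf x hx
    obtain ⟨n, hn⟩ := hfin.bddAbove
    refine ⟨n + 1, N, hN, fun y hy hyM k hk => ?_⟩
    induction k, hk using Nat.le_induction with
    | base => rfl
    | succ k hk ih =>
      rw [hstep k y hyM, ih]
      intro hyC
      have : k ≤ n := hn (⟨y, hyC, hy⟩ : (Φ k '' C k ∩ N).Nonempty)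
      omega
  classical
  let n : V → ℕ := fun x => if hx : x ∈ 𝓜.carrier then (hstab x hx).choose else 0
  have hn : ∀ x ∈ 𝓜.carrier, ∃ N ∈ 𝓝[𝓜.carrier] x, ∀ y ∈ N, y ∈ 𝓜.carrier →
      ∀ k, n x ≤ k → (S k).1 y = (S (n x)).1 y := by
    intro x hx
    have hnx : n x = (hstab x hx).choose := dif_pos hx
    rw [hnx]
    exact (hstab x hx).choose_spec
  let w : V → ℝ := fun x => (S (n x)).1 x
  have hgerm : ∀ x ∈ 𝓜.carrier, ∀ k, n x ≤ k → (S k).1 =ᶠ[𝓝[𝓜.carrier] x] w := by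
    intro x hx k hk
    obtain ⟨N, hN, hNs⟩ := hn x hx
    filter_upwards [hN, self_mem_nhdsWithin] with y hy hyM
    obtain ⟨N', hN', hNs'⟩ := hn y hyM
    have hy' : y ∈ N' := mem_of_mem_nhdsWithin hyM hN'
    have e1 := hNs' y hy' hyM (max (n y) k) (le_max_left _ _)
    have e2 := hNs y hy hyM (max (n y) k) (hk.trans (le_max_right _ _))
    have e3 := hNs y hy hyM k hk
    show (S k).1 y = (S (n y)).1 y
    rw [← e1, e2, e3]
  have hsm : 𝓜.Smooth w := by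
    refine smooth_of_forall_smoothAt fun x hx => ?_
    obtain ⟨i, hi⟩ := Set.mem_iUnion.1 (hcov hx)
    exact ((hinv (max (n x) (i + 1))).smooth i
      (lt_of_lt_of_le (Nat.lt_succ_self i) (le_max_right _ _)) x hi).congr_germ
      (hgerm x hx _ (le_max_left _ _))
  have hle : ∀ k, ∀ x ∈ 𝓜.carrier, richC k * ε x ≤ ε x := fun k x hx => by
    have := richC_lt k
    nlinarith [hε x hx]
  refine ⟨w, hsm, fun x hx => ?_, ?_, fun x hx => ?_⟩
  · refine ((hinv (n x)).close x hx).trans_lt ?_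
    have := richC_lt (n x)
    nlinarith [hε x hx]
  · rw [← leFOn_univ]
    refine DdGe.leFOn_of_smooth hsm fun x hx => ?_
    exact (((hinv (n x)).dd x hx.1).congr_germ hx.1 (hgerm x hx.1 _ le_rfl)).mono
      (leFOn_sub_smulF_of_le hg (hle _ x hx.1))
  · exact (((hinv (n x)).lip x hx).congr_germ (hgerm x hx _ le_rfl)).mono
      (by linarith [hle (n x) x hx])

/-- a negative local Lipschitz constant is only possible at an isolated point. -/
theorem LocLipAt.of_neg (hg : IsMetric 𝓜 g) (hconn : IsConnected 𝓜.carrier) {x : V}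
    (hx : x ∈ 𝓜.carrier) {L : ℝ} (hL : L < 0)
    (h : LocLipAt 𝓜 g v L x) (u : V → ℝ) (L' : ℝ) : LocLipAt 𝓜 g u L' x := by
  obtain ⟨N, hN, hNs⟩ := h (-L / 2) (by linarith)
  have hxN : x ∈ N := mem_of_mem_nhdsWithin hx hN
  have hiso : ∀ y ∈ N ∩ 𝓜.carrier, y = x := by
    rintro y ⟨hy, hyM⟩
    have h1 := hNs y hy x hxN
    have h2 : 0 ≤ hdist 𝓜 g y x := hdist_nonneg 𝓜 g y x
    have h3 : hdist 𝓜 g y x = 0 := by
      by_contra hne
      have hpos : 0 < hdist 𝓜 g y x := lt_of_le_of_ne h2 (Ne.symm hne)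
      have : (L + -L / 2) * hdist 𝓜 g y x < 0 := mul_neg_of_neg_of_pos (by linarith) hpos
      linarith [abs_nonneg (v y - v x)]
    exact (hdist_eq_zero_iff hg hconn hyM hx).1 h3
  intro η _
  refine ⟨N ∩ 𝓜.carrier, Filter.inter_mem hN self_mem_nhdsWithin, fun y hy y' hy' => ?_⟩
  rw [hiso y hy, hiso y' hy', sub_self, abs_zero, hdist_self hx, mul_zero]

/-- a local Lipschitz bound gives a gradient bound. -/
theorem gradSq_le_of_locLipAt (hg : IsMetric 𝓜 g) (hconn : IsConnected 𝓜.carrier) {x : V}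
    (hx : x ∈ 𝓜.carrier) {L : ℝ}
    (h : LocLipAt 𝓜 g w L x) : gradSq 𝓜 g w x ≤ (L / 2) ^ 2 := by
  have key : ∀ L : ℝ, 0 ≤ L → LocLipAt 𝓜 g w L x → gradSq 𝓜 g w x ≤ (L / 2) ^ 2 := by
    intro L hL h
    have h1 : ∀ η : ℝ, 0 < η → gradSq 𝓜 g w x ≤ (L + η) ^ 2 / 4 := by
      intro η hη
      obtain ⟨N, hN, hNs⟩ := h η hη
      refine gradSq_le_of_lipschitz hg (by linarith) hx ?_
      filter_upwards [hN] with y hy
      rw [hdist_comm hg x y]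
      exact hNs y hy x (mem_of_mem_nhdsWithin hx hN)
    have ht : Tendsto (fun η : ℝ => (L + η) ^ 2 / 4) (𝓝[>] 0) (𝓝 ((L / 2) ^ 2)) := by
      have hc : Continuous fun η : ℝ => (L + η) ^ 2 / 4 := by fun_prop
      exact (hc.tendsto' 0 _ (by ring)).mono_left nhdsWithin_le_nhds
    exact ge_of_tendsto ht (by filter_upwards [self_mem_nhdsWithin] with η hη using h1 η hη)
  rcases le_or_gt 0 L with hL | hL
  · exact key L hL h
  · have := key 0 le_rfl (h.of_neg hg hconn hx hL w 0)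
    refine this.trans ?_
    rw [zero_div]
    nlinarith [sq_nonneg (L / 2)]

/-- `rich_main` without the sign condition on `Λ`. -/
theorem rich_main' (hg : IsMetric 𝓜 g) (hconn : IsConnected 𝓜.carrier) (hA : IsCForm 𝓜 A)
    (hv : ContinuousOn v 𝓜.carrier) (hdd : DdGe 𝓜 Set.univ v A) {ε Λ : V → ℝ}
    (hεc : ContinuousOn ε 𝓜.carrier) (hε : ∀ x ∈ 𝓜.carrier, 0 < ε x)
    (hΛc : ContinuousOn Λ 𝓜.carrier) (hlip : LocLipBound 𝓜 g v Λ) :
    ∃ w : V → ℝ, 𝓜.Smooth w ∧ (∀ x ∈ 𝓜.carrier, |w x - v x| < ε x) ∧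
      leF 𝓜 (A - smulF ε g) (ddc w) ∧ LocLipBound 𝓜 g w (fun x => Λ x + ε x) := by
  obtain ⟨w, h1, h2, h3, h4⟩ := rich_main hg hconn hA hv hdd hεc hε
    (Λ := fun x => max (Λ x) 0) (ContinuousOn.sup hΛc continuousOn_const) (fun x _ => le_max_right _ _)
    (fun x hx => LocLipAt.mono (hlip x hx) (le_max_left _ _))
  refine ⟨w, h1, h2, h3, fun x hx => ?_⟩
  rcases le_or_gt 0 (Λ x) with hL | hL
  · have h := h4 x hx
    simp only [max_eq_left hL] at h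
    exact h
  · exact LocLipAt.of_neg hg hconn hx hL (hlip x hx) w _

/-! ### 3. Richberg (export statements) -/

/-- **Richberg / Greene-Wu smoothing**, with gradient control. -/
theorem richberg (hg : IsMetric 𝓜 g) (hconn : IsConnected 𝓜.carrier) (hA : IsHForm 𝓜 A)
    (hv : ContinuousOn v 𝓜.carrier) (hdd : DdGe 𝓜 Set.univ v A) {ε Λ : V → ℝ}
    (hεc : ContinuousOn ε 𝓜.carrier) (hε : ∀ x ∈ 𝓜.carrier, 0 < ε x)
    (hΛc : ContinuousOn Λ 𝓜.carrier) (hlip : LocLipBound 𝓜 g v Λ) :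
    ∃ w : V → ℝ, 𝓜.Smooth w ∧ (∀ x ∈ 𝓜.carrier, |w x - v x| < ε x) ∧
      leF 𝓜 (A - smulF ε g) (ddc w) ∧
      ∀ x ∈ 𝓜.carrier, gradSq 𝓜 g w x ≤ ((Λ x + ε x) / 2) ^ 2 := by
  obtain ⟨w, h1, h2, h3, h4⟩ := rich_main' hg hconn hA.isCForm hv hdd hεc hε hΛc hlip
  exact ⟨w, h1, h2, h3, fun x hx => gradSq_le_of_locLipAt hg hconn hx (h4 x hx)⟩

/-- the version for upper Hessian bounds. -/
theorem richberg_le (hg : IsMetric 𝓜 g) (hconn : IsConnected 𝓜.carrier) (hA : IsHForm 𝓜 A)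
    (hv : ContinuousOn v 𝓜.carrier) (hdd : DdLe 𝓜 Set.univ v A) {ε Λ : V → ℝ}
    (hεc : ContinuousOn ε 𝓜.carrier) (hε : ∀ x ∈ 𝓜.carrier, 0 < ε x)
    (hΛc : ContinuousOn Λ 𝓜.carrier) (hlip : LocLipBound 𝓜 g v Λ) :
    ∃ w : V → ℝ, 𝓜.Smooth w ∧ (∀ x ∈ 𝓜.carrier, |w x - v x| < ε x) ∧
      leF 𝓜 (ddc w) (A + smulF ε g) ∧
      ∀ x ∈ 𝓜.carrier, gradSq 𝓜 g w x ≤ ((Λ x + ε x) / 2) ^ 2 := by
  have hAn : IsHForm 𝓜 (-A) := hA.neg
  obtain ⟨w, h1, h2, h3, h4⟩ := rich_main' hg hconn hAn.isCForm hv.neg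
    (ddLe_iff_ddGe_neg.1 hdd) hεc hε hΛc (fun x hx => LocLipAt.neg (hlip x hx))
  refine ⟨fun x => - w x, h1.neg, fun x hx => ?_, fun Φ U hΦ z hz => ?_, fun x hx =>
    gradSq_le_of_locLipAt hg hconn hx (LocLipAt.neg (h4 x hx))⟩
  · have e : - w x - v x = - (w x - - v x) := by ring
    rw [e, abs_neg]
    exact h2 x hx
  · have h := h3 Φ U hΦ z hz
    have e : (A + smulF ε g) Φ z - ddc (fun x => - w x) Φ z =
        ddc w Φ z - (-A - smulF ε g) Φ z := by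
      rw [ddc_neg]
      simp only [Pi.add_apply, Pi.sub_apply, Pi.neg_apply]
      abel
    rw [e]
    exact h

/-- the strictly psh version: local positive lower bounds suffice. -/
theorem richberg_strict (hg : IsMetric 𝓜 g) (hconn : IsConnected 𝓜.carrier)
    (hv : ContinuousOn v 𝓜.carrier) {L : ℝ}
    (hlip : ∀ x ∈ 𝓜.carrier, ∀ y ∈ 𝓜.carrier, |v x - v y| ≤ L * hdist 𝓜 g x y)
    (hdd : ∀ x ∈ 𝓜.carrier, ∃ (O : Set V) (c : ℝ), IsOpen O ∧ x ∈ O ∧ 0 < c ∧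
      DdGe 𝓜 O v (smulF (fun _ => c) g)) {ε : ℝ} (hε : 0 < ε) :
    ∃ w : V → ℝ, 𝓜.Smooth w ∧ (∀ x ∈ 𝓜.carrier, |w x - v x| < ε) ∧
      ∀ (Φ : CE ι → V) (U : Set (CE ι)), 𝓜.IsHol Φ U → ∀ z ∈ U, (ddc w Φ z).PosDef := by
  obtain ⟨c, hcc, hc0, hcdd⟩ := exists_continuous_minorant hg hdd
  have hL : LocLipBound 𝓜 g v (fun _ => L) := by
    intro x _ η hη
    refine ⟨𝓜.carrier, self_mem_nhdsWithin, fun y hy y' hy' => (hlip y hy y' hy').trans ?_⟩
    exact mul_le_mul_of_nonneg_right (by linarith) (hdist_nonneg 𝓜 g y y')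
  obtain ⟨w, h1, h2, h3, _⟩ := rich_main' hg hconn (hg.toIsHForm.isCForm.smulF hcc) hv hcdd
    (ε := fun x => min ε (c x / 2)) (ContinuousOn.inf continuousOn_const (hcc.div_const 2))
    (fun x hx => lt_min hε (half_pos (hc0 x hx))) continuousOn_const hL
  refine ⟨w, h1, fun x hx => (h2 x hx).trans_le (min_le_left _ _), fun Φ U hΦ z hz => ?_⟩
  have hx : Φ z ∈ 𝓜.carrier := CMfd.mem_carrier hΦ hz
  have hpos : 0 < c (Φ z) - min ε (c (Φ z) / 2) := by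
    have := min_le_right ε (c (Φ z) / 2)
    linarith [hc0 _ hx]
  refine posDef_of_loewner (posDef_smul_real hpos (hg.posDef hΦ z hz)) ?_
  have e : (smulF c g - smulF (fun x => min ε (c x / 2)) g) Φ z =
      ((c (Φ z) - min ε (c (Φ z) / 2) : ℝ) : ℂ) • g Φ z := by
    simp only [Pi.sub_apply, smulF, Complex.ofReal_sub, sub_smul]
  rw [← e]
  exact h3 Φ U hΦ z hz

/-! ### 4. The smooth approximate squared distances -/

/-- `dd r² ≤ g` in the viscosity sense. -/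
theorem ddLe_hdist_sq (hk : IsKahler 𝓜 g) (hconn : IsConnected 𝓜.carrier) (hp : IsProperMetric 𝓜 g)
    (hb : BisecNonneg 𝓜 g) {x₀ : V} (hx₀ : x₀ ∈ 𝓜.carrier) :
    DdLe 𝓜 Set.univ (fun y => hdist 𝓜 g x₀ y ^ 2) g := by
  refine ddLe_of_upperSupp hk.toIsMetric fun x hx ε hε => ?_
  obtain ⟨s, hs1, hs2⟩ := sv1_sq hk hconn hb hx₀ hx.1 (hp x₀ hx₀ _) hε
  refine ⟨s, hs1, ?_⟩
  have e : smulF (fun _ => 1 + ε) g = g + smulF (fun _ => ε) g := by
    funext Φ z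
    simp only [Pi.add_apply, smulF, Complex.ofReal_add, Complex.ofReal_one, add_smul, one_smul]
  rw [← e]
  exact hs2

theorem locLipBound_hdist_sq (hk : IsMetric 𝓜 g) (hconn : IsConnected 𝓜.carrier) {x₀ : V}
    (hx₀ : x₀ ∈ 𝓜.carrier) :
    LocLipBound 𝓜 g (fun y => hdist 𝓜 g x₀ y ^ 2) (fun y => 2 * hdist 𝓜 g x₀ y) := by
  intro x hx η hη
  have hc : ContinuousWithinAt (fun y => hdist 𝓜 g x₀ y) 𝓜.carrier x :=
    continuousOn_hdist_right hk hconn hx₀ x hx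
  have hN : {y | hdist 𝓜 g x₀ y < hdist 𝓜 g x₀ x + η / 2} ∈ 𝓝[𝓜.carrier] x :=
    hc.eventually (gt_mem_nhds (by linarith))
  refine ⟨_, Filter.inter_mem hN self_mem_nhdsWithin, ?_⟩
  rintro y ⟨hy, hyM⟩ y' ⟨hy', hyM'⟩
  have h1 := abs_hdist_sub_le hk hconn hx₀ hyM hyM'
  have h2 : 0 ≤ hdist 𝓜 g x₀ y := hdist_nonneg _ _ _ _
  have h3 : 0 ≤ hdist 𝓜 g x₀ y' := hdist_nonneg _ _ _ _
  have e : hdist 𝓜 g x₀ y ^ 2 - hdist 𝓜 g x₀ y' ^ 2 =
      (hdist 𝓜 g x₀ y + hdist 𝓜 g x₀ y') * (hdist 𝓜 g x₀ y - hdist 𝓜 g x₀ y') := by ring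
  change hdist 𝓜 g x₀ y < hdist 𝓜 g x₀ x + η / 2 at hy
  change hdist 𝓜 g x₀ y' < hdist 𝓜 g x₀ x + η / 2 at hy'
  rw [e, abs_mul, abs_of_nonneg (add_nonneg h2 h3)]
  exact mul_le_mul (by linarith) h1 (abs_nonneg _) (by linarith)

/-- **`GoodDist`** for complete Kaehler metrics with `BK ≥ 0`. -/
theorem goodDist (hk : IsKahler 𝓜 g) (hconn : IsConnected 𝓜.carrier) (hp : IsProperMetric 𝓜 g)
    (hb : BisecNonneg 𝓜 g) : GoodDist 𝓜 g := by
  intro x₀ hx₀ ε hε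
  have hm : IsMetric 𝓜 g := hk.toIsMetric
  have hc : ContinuousOn (fun y => hdist 𝓜 g x₀ y) 𝓜.carrier := continuousOn_hdist_right hm hconn hx₀
  have hε₁ : 0 < min ε 1 := lt_min hε one_pos
  obtain ⟨ρ, h1, h2, h3, h4⟩ := richberg_le hm hconn hm.toIsHForm (hc.pow 2)
    (ddLe_hdist_sq hk hconn hp hb hx₀) (ε := fun _ => min ε 1) continuousOn_const
    (fun _ _ => hε₁) (hc.const_mul 2 |>.congr fun _ _ => rfl) (locLipBound_hdist_sq hm hconn hx₀)
  refine ⟨ρ, h1, fun y hy => ((h2 y hy).le).trans (min_le_left _ _), fun Φ U hΦ z hz => ?_,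
    fun y hy => (h4 y hy).trans ?_⟩
  · have h := h3 Φ U hΦ z hz
    have e : smulF (fun _ => 2) g Φ z - ddc ρ Φ z =
        ((g + smulF (fun _ => min ε 1) g) Φ z - ddc ρ Φ z) + ((1 - min ε 1 : ℝ) : ℂ) • g Φ z := by
      simp only [Pi.add_apply, smulF, Complex.ofReal_sub, Complex.ofReal_one, sub_smul, one_smul,
        Complex.ofReal_ofNat, two_smul]
      abel
    rw [e]
    exact h.add (posSemidef_smul_real (by linarith [min_le_right ε 1])
      (hm.posDef hΦ z hz).posSemidef)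
  · have h0 : 0 ≤ hdist 𝓜 g x₀ y := hdist_nonneg _ _ _ _
    refine pow_le_pow_left₀ (by positivity) ?_ 2
    linarith [min_le_left ε 1]

end Claimed.Agent.R316
end

/- ===== packed: Claimed.Agent.R316.Base.Rich.Api ===== -/
section
/-!
# Row 316 base layer, `BP-G13`: complex Hessian inequalities in the viscosity sense, Richberg smoothing (EXPORT FILE)

Statements written by helper97; sub-captain of the package: helper16.  This file is now an UMBRELLA: the definitions and the export statements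
(all VERBATIM) live in the files of `Base/Rich/`:

* `Rich/Defs.lean`  : `DdGe`, `DdLe`, `LocLipBound`, `GoodDist`.
* `Rich/Elem.lean`  : `ddLe_iff_ddGe_neg`, `DdGe.mono_set`, `DdGe.mono_form`, `ddGe_of_forall_nhds`, `ddc_posSemidef_of_isLocalMin`, `ddGe_of_smooth`,
                      `DdGe.leFOn_of_smooth`, `ddGe_of_lowerSupp`, `ddLe_of_upperSupp`, `DdGe.add_smooth`, `DdGe.const_mul`, `DdGe.max`.
* `Rich/Visc.lean`  : `ddGe_of_tendsto`, `DdGe.isPshOn`, `pshOn_of_visc`, `PshOn.qf_levi_test_nonneg`, `pshOn_of_levi_posSemidef`.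
* `Rich/Main.lean`  : `richberg`, `richberg_le`, `richberg_strict`, `ddLe_hdist_sq`, `locLipBound_hdist_sq`, `goodDist`.

* `DdGe 𝓜 Ω v A` : `dd v ≥ A` on `Ω` for a continuous `v`: every smooth UPPER test function `q` at `x` has `dd q (x) ≥ A(x)`.
* `DdLe 𝓜 Ω v A` : `dd v ≤ A`: every smooth LOWER test function has `dd q (x) ≤ A(x)`.
* a smooth LOWER support function with `dd s (x) ≥ A (x)` at every point gives `DdGe` (trivially: `q - s` has a local minimum).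
* `richberg`: continuous `v` with `DdGe` is uniformly approximated by smooth `w` with `dd w ≥ A - ε g`, with control of the gradient.
* `GoodDist 𝓜 g`: THE geometric input of the analytic packages `G8, G9, G10`, Sections 2, 3: smooth approximations of the squared
  distance from an arbitrary centre with `dd ρ ≤ 2 g` and the natural gradient bound.  No Calabi trick is needed after this.
-/
end

/- ===== packed: Claimed.Agent.R316.Base.Heat.Defs ===== -/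
section
/-!
# Row 316 base layer: interface of the scalar heat kernel of a complete Kaehler metric

Owner: helper97.  DEFINITIONS only.

* `AnaSetting 𝓜 g`: the hypotheses of the analytic packages `BP-G8, G9, G10`: Kaehler, connected, proper, `Ric ≥ 0`, and `GoodDist`
  (smooth approximate squared distances; from `BP-G5 + BP-G13`).  NO other geometry is used: no geodesics, no cut locus, no Calabi trick.
* `VolComparison 𝓜 g`: relative volume comparison UP TO A CONSTANT.  It is NOT proved by polar coordinates: it falls out of the Li-Yau chain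
  (`H_t(x,x) ≤ C/V(x,√t)` from Harnack and `P_t 1 ≤ 1`; `H_{2t}(x,x) ≥ 1/(4 V(x,A√t))` from mass `1` and the second moment;
  `t^n H_t(x,x)` nondecreasing from Li-Yau).
* `HeatData 𝓜 g`: ONE structure with a heat kernel of `Δ_g = lap 𝓜 g` (a quarter of Laplace-Beltrami) and every fact which is proved for the
  concrete kernel constructed in `BP-G8`.  Facts that follow from the fields are theorems `HeatData.…` in `Base/Heat/Api.lean`.
  New fields may be added on request of a consumer (this never breaks a consumer).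
-/

set_option autoImplicit false
open scoped ContDiff ComplexOrder Topology
open MeasureTheory

namespace Claimed.Agent.R316

variable {V : Type} [NormedAddCommGroup V] [NormedSpace ℝ V] [MeasurableSpace V] [BorelSpace V]
variable {n : ℕ}

/-- the hypotheses of the analytic base packages. -/
structure AnaSetting (𝓜 : CMfd V (Fin n)) (g : HFam V (Fin n)) : Prop where
  kahler : IsKahler 𝓜 g
  conn : IsConnected 𝓜.carrier
  proper : IsProperMetric 𝓜 g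
  ric : leF 𝓜 0 (ricF g)
  good : GoodDist 𝓜 g

/-- volume of a metric ball, as a real number. -/
noncomputable def Vb (𝓜 : CMfd V (Fin n)) (g : HFam V (Fin n)) (x : V) (r : ℝ) : ℝ :=
  (hvol 𝓜 g (hball 𝓜 g x r)).toReal

/-- finiteness, positivity, relative volume comparison (up to a constant). -/
structure VolComparison (𝓜 : CMfd V (Fin n)) (g : HFam V (Fin n)) : Prop where
  isVol : IsVol 𝓜 g (hvol 𝓜 g)
  finite : ∀ x ∈ 𝓜.carrier, ∀ r : ℝ, hvol 𝓜 g (hball 𝓜 g x r) ≠ ⊤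
  pos : ∀ x ∈ 𝓜.carrier, ∀ r : ℝ, 0 < r → 0 < Vb 𝓜 g x r
  ratio : ∃ C : ℝ, 1 ≤ C ∧ ∀ x ∈ 𝓜.carrier, ∀ r R : ℝ, 0 < r → r ≤ R →
    Vb 𝓜 g x R ≤ C * (R / r) ^ (2 * n) * Vb 𝓜 g x r

/-- the class of data on which the heat semigroup acts: integrable against every Gaussian `e^{-ε r²}`. -/
def SubGauss (𝓜 : CMfd V (Fin n)) (g : HFam V (Fin n)) (o : V) (f : V → ℝ) : Prop :=
  ∀ ε : ℝ, 0 < ε → Integrable (fun y => f y * Real.exp (-(ε * hdist 𝓜 g o y ^ 2))) (hvol 𝓜 g)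

/-- the cutoffs `v_L`: `0` on `r ≤ L`, `1` on `r ≥ 2L`, `|∂v| ≤ C/L`, `|dd v| ≤ C/L²` (two-sided!). -/
def DyadicCutoffs (𝓜 : CMfd V (Fin n)) (g : HFam V (Fin n)) (o : V) : Prop :=
  ∃ C : ℝ, ∀ L : ℝ, 1 ≤ L → ∃ v : V → ℝ, 𝓜.Smooth v ∧ (∀ y ∈ 𝓜.carrier, 0 ≤ v y ∧ v y ≤ 1) ∧
    (∀ y ∈ 𝓜.carrier, hdist 𝓜 g o y ≤ L → v y = 0) ∧
    (∀ y ∈ 𝓜.carrier, 2 * L ≤ hdist 𝓜 g o y → v y = 1) ∧
    (∀ y ∈ 𝓜.carrier, gradSq 𝓜 g v y ≤ (C / L) ^ 2) ∧
    leF 𝓜 (ddc v) (smulF (fun _ => C / L ^ 2) g) ∧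
    leF 𝓜 (smulF (fun _ => -(C / L ^ 2)) g) (ddc v)

/-- smooth solution of `u_t = Δ_g u` on `I × M`. -/
def IsHeatSol (𝓜 : CMfd V (Fin n)) (g : HFam V (Fin n)) (I : Set ℝ) (u : ℝ → V → ℝ) : Prop :=
  𝓜.SmoothST I u ∧
  ∀ t ∈ I, ∀ x ∈ 𝓜.carrier, HasDerivWithinAt (fun s => u s x) (lap 𝓜 g (u t) x) I t

/-- smooth subsolution `u_t ≤ Δ_g u` on `I × M`. -/
def IsHeatSub (𝓜 : CMfd V (Fin n)) (g : HFam V (Fin n)) (I : Set ℝ) (u : ℝ → V → ℝ) : Prop :=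
  𝓜.SmoothST I u ∧
  ∀ t ∈ I, ∀ x ∈ 𝓜.carrier, ∃ ut : ℝ, HasDerivWithinAt (fun s => u s x) ut I t ∧ ut ≤ lap 𝓜 g (u t) x

/-- A heat kernel of `Δ_g` with the estimates valid for complete Kaehler metrics with `BK ≥ 0`. -/
structure HeatData (𝓜 : CMfd V (Fin n)) (g : HFam V (Fin n)) where
  /-- the kernel `H_t(x,y)` (TIME FIRST) -/
  Hk : ℝ → V → V → ℝ
  off : ∀ t x y, (x ∉ 𝓜.carrier ∨ y ∉ 𝓜.carrier) → Hk t x y = 0
  pos : ∀ t : ℝ, 0 < t → ∀ x ∈ 𝓜.carrier, ∀ y ∈ 𝓜.carrier, 0 < Hk t x y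
  symm : ∀ t x y, Hk t x y = Hk t y x
  cont : ContinuousOn (fun p : ℝ × V × V => Hk p.1 p.2.1 p.2.2)
    (Set.Ioi 0 ×ˢ 𝓜.carrier ×ˢ 𝓜.carrier)
  /-- stochastic completeness -/
  integrable : ∀ t : ℝ, 0 < t → ∀ x ∈ 𝓜.carrier, Integrable (Hk t x) (hvol 𝓜 g)
  mass : ∀ t : ℝ, 0 < t → ∀ x ∈ 𝓜.carrier, ∫ y, Hk t x y ∂(hvol 𝓜 g) = 1
  /-- Chapman-Kolmogorov -/
  semigroup : ∀ s t : ℝ, 0 < s → 0 < t → ∀ x ∈ 𝓜.carrier, ∀ y ∈ 𝓜.carrier,
    ∫ z, Hk s x z * Hk t z y ∂(hvol 𝓜 g) = Hk (s + t) x y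
  /-- smoothness and the heat equation in `(t,x)` -/
  smooth : ∀ y ∈ 𝓜.carrier, 𝓜.SmoothST (Set.Ioi 0) (fun t x => Hk t x y)
  heat : ∀ t : ℝ, 0 < t → ∀ x ∈ 𝓜.carrier, ∀ y ∈ 𝓜.carrier,
    HasDerivAt (fun s => Hk s x y) (lap 𝓜 g (fun x' => Hk t x' y) x) t
  /-- volume comparison -/
  vol : VolComparison 𝓜 g
  /-- Gaussian upper bound (Li-Yau) -/
  upper : ∃ C c : ℝ, 0 < c ∧ ∀ t : ℝ, 0 < t → ∀ x ∈ 𝓜.carrier, ∀ y ∈ 𝓜.carrier,
    Hk t x y ≤ C / Vb 𝓜 g x (Real.sqrt t) * Real.exp (-(c * hdist 𝓜 g x y ^ 2 / t))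
  /-- near-diagonal lower bound -/
  lower : ∀ A : ℝ, 0 < A → ∃ c : ℝ, 0 < c ∧ ∀ t : ℝ, 0 < t → ∀ x ∈ 𝓜.carrier, ∀ y ∈ 𝓜.carrier,
    hdist 𝓜 g x y ≤ A * Real.sqrt t → c / Vb 𝓜 g x (Real.sqrt t) ≤ Hk t x y
  /-- gradient bound (local Bernstein estimate + Gaussian upper bound) -/
  grad : ∃ C c : ℝ, 0 < c ∧ ∀ t : ℝ, 0 < t → ∀ x ∈ 𝓜.carrier, ∀ y ∈ 𝓜.carrier,
    gradSq 𝓜 g (fun x' => Hk t x' y) x ≤
      (C / Real.sqrt t / Vb 𝓜 g x (Real.sqrt t) * Real.exp (-(c * hdist 𝓜 g x y ^ 2 / t))) ^ 2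
  /-- the semigroup produces smooth solutions on the class `SubGauss` -/
  sol : ∀ o ∈ 𝓜.carrier, ∀ f : V → ℝ, SubGauss 𝓜 g o f →
    𝓜.SmoothST (Set.Ioi 0) (fun t x => ∫ y, Hk t x y * f y ∂(hvol 𝓜 g)) ∧
    ∀ t : ℝ, 0 < t → ∀ x ∈ 𝓜.carrier,
      HasDerivAt (fun s => ∫ y, Hk s x y * f y ∂(hvol 𝓜 g))
        (lap 𝓜 g (fun x' => ∫ y, Hk t x' y * f y ∂(hvol 𝓜 g)) x) t
  /-- smooth data: the solution is smooth up to `t = 0` -/
  init : ∀ o ∈ 𝓜.carrier, ∀ f : V → ℝ, SubGauss 𝓜 g o f → 𝓜.Smooth f →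
    𝓜.SmoothST (Set.Ici 0) (fun t x => if t = 0 then f x else ∫ y, Hk t x y * f y ∂(hvol 𝓜 g))
  /-- **(2.6) Hessian preservation** (Ni-Tam tensor maximum principle, `BP-G10` NT1), smooth data, constant near infinity -/
  nt1 : ∀ (f : V → ℝ) (C c : ℝ) (K : Set V), 𝓜.Smooth f → IsCompact K → K ⊆ 𝓜.carrier →
    (∀ y ∈ 𝓜.carrier, y ∉ K → f y = c) → 0 ≤ C → leF 𝓜 (ddc f) (smulF (fun _ => C) g) →
    ∀ a : ℝ, 0 < a → leF 𝓜 (ddc (fun x => ∫ y, Hk a x y * f y ∂(hvol 𝓜 g))) (smulF (fun _ => C) g)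
  /-- **Hodge heat flow of a closed nonnegative `(1,1)`-form stays nonnegative** (`BP-G10` NT2): `A + dd ∫₀ᵇ P_s (tr A) ds ≥ 0` -/
  nt2 : ∀ A : HFam V (Fin n), IsHForm 𝓜 A → IsClosedForm 𝓜 A → leF 𝓜 0 A → leF 𝓜 A g →
    ∀ b : ℝ, 0 < b →
      𝓜.Smooth (fun x => ∫ s in (0 : ℝ)..b, ∫ y, Hk s x y * tr 𝓜 g A y ∂(hvol 𝓜 g)) ∧
      leF 𝓜 0 (A + ddc (fun x => ∫ s in (0 : ℝ)..b, ∫ y, Hk s x y * tr 𝓜 g A y ∂(hvol 𝓜 g)))

namespace HeatData

variable {𝓜 : CMfd V (Fin n)} {g : HFam V (Fin n)} (HD : HeatData 𝓜 g)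

/-- the heat semigroup `H_t f (x) = ∫ H_t(x,y) f(y) dV_g(y)` (TIME FIRST). -/
noncomputable def P (t : ℝ) (f : V → ℝ) (x : V) : ℝ := ∫ y, HD.Hk t x y * f y ∂(hvol 𝓜 g)

/-- the heat potential `∫₀ᵇ P_s f ds`. -/
noncomputable def Pot (b : ℝ) (f : V → ℝ) (x : V) : ℝ := ∫ s in (0 : ℝ)..b, HD.P s f x

end HeatData

end Claimed.Agent.R316
end

/- ===== packed: Claimed.Agent.R316.Base.Vol.Api ===== -/
section
/-!
# Row 316, BP-G6: volume measure, integration API, Green identities: the export file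

Import this file to use G6.  Contents (owner of the package: helper55):

* `CM/Param`, `CM/Trans`, `CM/Top`, `CM/SmoothAlg`: parametrisations, transitions, topology, algebra of smooth functions;
* `CW/Integral`, `CW/LapC`, `CW/Green`: one chart: Jacobians, integration by parts, `dualIP`, `lapP`, cofactor identity, Green;
* `Vol/Defs`: `CSupp`, `CSuppST`, `DiffAt`, `C2At`, `LocLip`, `gradInner`, `IsVField`, `IsDivOf`, `SmoothFam`;
* `Vol/Exist`: `exists_isVol`, `IsVol.unique`, `isVol_hvol`;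
* `Vol/Basic`: integrals in a parametrisation, null sets, finiteness, positivity, integrability, `detRatio` as density, `hvol_restr`;
* `Vol/Part`: algebra of `CSupp`, bumps, finite partitions of unity, cutoffs, extension by zero;
* `Vol/Calc`: product and chain rules for `lap`, `gradSq`, `gradInner`;
* `Vol/Green`: Green I, I', II, weighted, Caccioppoli, fundamental lemma, divergence theorem;
* `Vol/Time`: `d/dt ∫ F dV_{h_t}`, cofactor inequality.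
-/
end

/- ===== packed: Claimed.Agent.R316.Base.NiTam.Defs ===== -/
section
/-!
# Row 316 base layer, `BP-G10` (Ni-Tam tensor maximum principle): DEFINITIONS and plan

Sub-captain: helper268.  EXPORTS (file `NiTam/Main.lean`): `nt1_main`, `nt2_main` = the fields `nt1`, `nt2` of `HeatData`
for ANY kernel `Hk` with `NTKernel 𝓜 g Hk` (six fields of `HeatData`, verbatim).  The package does NOT import `Base/Heat/Api.lean`
(no import cycle with `heatData_exists`); the only fact of Part A it uses is Karp-Li, passed as the hypothesis `KarpLiP 𝓜 g`.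

EVERYTHING EXCEPT THE LAST GLUE IS KERNEL FREE.

* `IsHodgeFlow 𝓜 g T B`: smooth family on `[0,T] × M` of closed real `(1,1)`-forms with `∂_t B = dd (tr_g B)`.
* chain:  `Chart.lean` (matrix calculus at a normal point)  →  `Point.lean` (identities on the manifold at a normal point)
  →  `Hamilton.lean` (`B ≥ -Λ g`, `B(0) ≥ 0` ⟹ `B ≥ 0`)  and  `Norm.lean` (`√(|B|²+δ)` is a subsolution; Karp-Li ⟹ `|B|² ≤ sup |B(0)|²`);
  `Bochner.lean` → `Energy.lean` → `Cutoff.lean` → `Integ.lean` (weighted space-time `L²` bound of `dd v`, `v` bounded with bounded Laplacian);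
  `PInt.lean`, `Sol.lean` (kernel free facts on solutions: primitives in time, bound of `Δu_t`, the equation at `t = 0`);
  `Main.lean` (glue, PROVED from the leaves).

CONVENTIONS (Core): a matrix `A j k = A_{k \bar j}`; `levi f j k = ∂_{\bar j}∂_k f`; `Rm h Φ z j k l m = R_{j \bar k l \bar m}`, at a normal point
`= - dzb m (dz l (h k j))`; `Δ = tr (G⁻¹ levi)` = `∑_p ∂_{\bar p}∂_p` at a normal point.
-/

set_option autoImplicit false
open scoped ContDiff ComplexOrder Topology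
open MeasureTheory

namespace Claimed.Agent.R316

variable {V : Type} [NormedAddCommGroup V] [NormedSpace ℝ V] [MeasurableSpace V] [BorelSpace V]
variable {n : ℕ}

/-- Hodge heat flow of closed real `(1,1)`-forms on `[0,T] × M`: `∂_t B = dd (tr_g B)`. -/
structure IsHodgeFlow (𝓜 : CMfd V (Fin n)) (g : HFam V (Fin n)) (T : ℝ) (B : ℝ → HFam V (Fin n)) :
    Prop where
  form : IsHFormST 𝓜 (Set.Icc 0 T) B
  closed : ∀ t ∈ Set.Icc (0 : ℝ) T, IsClosedForm 𝓜 (B t)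
  flow : IsTimeDeriv 𝓜 (Set.Icc 0 T) B (fun t => ddc (tr 𝓜 g (B t)))

/-- the curvature term of the Lichnerowicz Laplacian, tested on `v`:
`∑ \bar v_j v_k R_{q \bar p k \bar j} E_{p \bar q}` (`E q p = E_{p \bar q}`). -/
noncomputable def curvOp (g : HFam V (Fin n)) (Φ : CE (Fin n) → V) (z : CE (Fin n)) (v : Fin n → ℂ)
    (E : Matrix (Fin n) (Fin n) ℂ) : ℝ :=
  (∑ j, ∑ k, ∑ p, ∑ q, star (v j) * v k * Rm g Φ z q p k j * E q p).re

/-- the Bochner expression `Δ|∂w|² - 2⟨∂w,∂Δw⟩` (`= |w_{jl}|² + |w_{j \bar l}|² + Ric(∂w,∂w)`). -/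
noncomputable def bochH (𝓜 : CMfd V (Fin n)) (g : HFam V (Fin n)) (w : V → ℝ) (x : V) : ℝ :=
  lap 𝓜 g (gradSq 𝓜 g w) x - 2 * gradInner 𝓜 g w (lap 𝓜 g w) x

/-- the statement of the Karp-Li `L²` maximum principle (`karp_li` of `Base/Heat/Api.lean`, Part A, `BP-G9`). -/
def KarpLiP (𝓜 : CMfd V (Fin n)) (g : HFam V (Fin n)) : Prop :=
  ∀ o ∈ 𝓜.carrier, ∀ T : ℝ, 0 < T → ∀ u : ℝ → V → ℝ, IsHeatSub 𝓜 g (Set.Ioc 0 T) u →
    ContinuousOn (fun p : ℝ × V => u p.1 p.2) (Set.Icc 0 T ×ˢ 𝓜.carrier) →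
    (∃ c : ℝ, IntegrableOn
      (fun p : ℝ × V => (max (u p.1 p.2) 0) ^ 2 * Real.exp (-(c * hdist 𝓜 g o p.2 ^ 2)))
      (Set.Icc 0 T ×ˢ Set.univ) (volume.prod (hvol 𝓜 g))) →
    (∀ x ∈ 𝓜.carrier, u 0 x ≤ 0) → ∀ t ∈ Set.Icc 0 T, ∀ x ∈ 𝓜.carrier, u t x ≤ 0

/-- the fields of `HeatData` (verbatim) used by `BP-G10`. -/
structure NTKernel (𝓜 : CMfd V (Fin n)) (g : HFam V (Fin n)) (Hk : ℝ → V → V → ℝ) : Prop where
  pos : ∀ t : ℝ, 0 < t → ∀ x ∈ 𝓜.carrier, ∀ y ∈ 𝓜.carrier, 0 < Hk t x y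
  integrable : ∀ t : ℝ, 0 < t → ∀ x ∈ 𝓜.carrier, Integrable (Hk t x) (hvol 𝓜 g)
  mass : ∀ t : ℝ, 0 < t → ∀ x ∈ 𝓜.carrier, ∫ y, Hk t x y ∂(hvol 𝓜 g) = 1
  vol : VolComparison 𝓜 g
  sol : ∀ o ∈ 𝓜.carrier, ∀ f : V → ℝ, SubGauss 𝓜 g o f →
    𝓜.SmoothST (Set.Ioi 0) (fun t x => ∫ y, Hk t x y * f y ∂(hvol 𝓜 g)) ∧
    ∀ t : ℝ, 0 < t → ∀ x ∈ 𝓜.carrier,
      HasDerivAt (fun s => ∫ y, Hk s x y * f y ∂(hvol 𝓜 g))
        (lap 𝓜 g (fun x' => ∫ y, Hk t x' y * f y ∂(hvol 𝓜 g)) x) t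
  init : ∀ o ∈ 𝓜.carrier, ∀ f : V → ℝ, SubGauss 𝓜 g o f → 𝓜.Smooth f →
    𝓜.SmoothST (Set.Ici 0) (fun t x => if t = 0 then f x else ∫ y, Hk t x y * f y ∂(hvol 𝓜 g))

/-- the solution with initial value `f`, including `t = 0`. -/
noncomputable def ntU (𝓜 : CMfd V (Fin n)) (g : HFam V (Fin n)) (Hk : ℝ → V → V → ℝ) (f : V → ℝ)
    (t : ℝ) (x : V) : ℝ :=
  if t = 0 then f x else ∫ y, Hk t x y * f y ∂(hvol 𝓜 g)

theorem nt_defs_eqns_cite : True := by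
  have := @curvOp.eq_1
  have := @bochH.eq_1
  have := @KarpLiP.eq_1
  have := @ntU.eq_1
  trivial

end Claimed.Agent.R316
end

/- ===== packed: Claimed.Agent.R316.Base.L2M.Defs ===== -/
section
/-!
# Row 316 base layer, `BP-G11`: `L²` existence for `∂̄` on Kaehler manifolds with a good exhaustion.  DEFINITIONS

Architect: helper97.

## Objects (all are RAW FAMILIES indexed by the parametrisation, like `HFam`)
* `SFam V ι`: scalar coefficients `s Φ z`; `VFam V ι`: vector coefficients `B Φ z j` (COMPONENT LAST, as in `IsVField`).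
* `IsKSec 𝓜 k s`, `k : ℤ`: smooth section of `K^{-k}` (`k = -1`: canonical sections, `k = 0`: functions, `k = 1`: `n`-vector fields):
  `s_Ψ(τ z) = (det J)^k s_Φ(z)`, `J = jac τ`, `τ = Ψ⁻¹ ∘ Φ`.
* `IsKForm 𝓜 k b`: `K^{-k}`-valued `(0,1)`-form `∑ b_j d\bar z_j`: `(det J)^k b_Φ(z) = Jᴴ b_Ψ(τ z)`.
* `IsKVec 𝓜 k B`: `K^{-k}`-valued `(1,0)`-vector field: `B_Ψ(τ z) = (det J)^k J B_Φ(z)`.
  `raise g b = G⁻¹ b` (classically `B^p = g^{p \bar q} b_{\bar q}`), `lower g B = G B`.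
* THE TEST OBJECTS ARE THE VECTOR FIELDS `B` (not the forms): `IsTestKV 𝓜 k` is the real vector space of compactly supported `IsKVec`.

## Weights
`h` is ANY Hermitian metric (only `det h` matters), `φ` a smooth function.  The fibre metric of `K^{-k}` is `(det h)^k e^{-φ}`, the measure is `dV_h`:
in a chart `|s|² e^{-φ} dV_h = |s_Φ|² e^{-η_Φ} dλ`, `η_Φ = wt h φ k Φ = φ∘Φ - (k+1) log det h_Φ`, and
`levi η_Φ = curvF h φ k Φ = (k+1) Ric h + dd φ =: Θ`.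
`kInt 𝓜 h φ k F = ∫_M F (det h)^k e^{-φ} dV_h` for a chartwise expression `F Φ z` (`= ∫ F_Φ e^{-η_Φ} dλ` in a chart).

## Operators (chart formulas)
* `dbarS s Φ z j = ∂_{\bar j} s_Φ`; `kdiv h φ k B = e^{η} ∑_j ∂_j (e^{-η} B^j) = ∑_j (∂_j B^j - ∂_j η B^j)` (so `∂̄^* b = - kdiv (raise g b)`; NO metric `g` in it);
* `dbarV B Φ z l j = ∂_{\bar l} B^j` (`= N`); `curlM b Φ z l k = ∂_{\bar l} b_k - ∂_{\bar k} b_l`.

## Pointwise forms (matrices only)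
* `qfB A a b = Re (bᴴ A a)`, polarisation of `qf`;
* `nbIP G N N' = Re tr (G⁻¹ N Gᵀ N'ᴴ) = Re ∑ g^{a \bar l} g_{j \bar p} N^j_{\bar l} \overline{N'^p_{\bar a}}`;
* `swIP N N' = Re ∑ N_{kj} \overline{N'_{jk}}`;
* `twoSq G C = ½ Re tr (G⁻¹ C G⁻ᵀ Cᴴ)`: the norm of the `(0,2)`-form `∑_{l<k} C_{lk}`.

## The forms on test vector fields
* `dirQ B B' = ∫ (nbIP G N N' + Θ(B,B')) `   (Dirichlet form; manifestly bilinear, symmetric, positive);
* `divQ B B' = ∫ Re (kdiv B · conj (kdiv B'))`;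
* `pairF F B = ∫ Re ∑_j ∂_{\bar j} F · conj (B^j)`.
The Bochner-Kodaira identity is `dirQ B B = divQ B B + ∫ (nbIP G N N - swIP N N)`, and `nbIP - swIP = twoSq G (curlM (lower g B)) ≥ 0` (`g` Kaehler).
-/

set_option autoImplicit false
open scoped ContDiff ComplexOrder ComplexConjugate Topology
open MeasureTheory

namespace Claimed.Agent.R316

section families

variable {V : Type} [NormedAddCommGroup V] [NormedSpace ℝ V]
variable {ι : Type} [Fintype ι]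

variable (V ι) in
/-- raw family of scalar coefficient functions. -/
abbrev SFam := (CE ι → V) → CE ι → ℂ

variable (V ι) in
/-- raw family of vector coefficient functions (component last). -/
abbrev VFam := (CE ι → V) → CE ι → ι → ℂ

variable [DecidableEq ι]

/-- smooth section of `K^{-k}`. -/
structure IsKSec (𝓜 : CMfd V ι) (k : ℤ) (s : SFam V ι) : Prop where
  smooth : ∀ {Φ : CE ι → V} {U : Set (CE ι)}, 𝓜.IsHol Φ U → ContDiffOn ℝ ∞ (s Φ) U
  compat : ∀ {Φ Ψ : CE ι → V} {U W : Set (CE ι)}, 𝓜.IsHol Φ U → 𝓜.IsHol Ψ W →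
    ∀ z ∈ U, Φ z ∈ Ψ '' W →
      s Ψ (Function.invFunOn Ψ W (Φ z)) = (jac (Function.invFunOn Ψ W ∘ Φ) z).det ^ k * s Φ z

/-- holomorphic section of `K^{-k}`. -/
structure IsKHol (𝓜 : CMfd V ι) (k : ℤ) (s : SFam V ι) : Prop extends IsKSec 𝓜 k s where
  hol : ∀ {Φ : CE ι → V} {U : Set (CE ι)}, 𝓜.IsHol Φ U → DifferentiableOn ℂ (s Φ) U

/-- smooth `K^{-k}`-valued `(0,1)`-form. -/
structure IsKForm (𝓜 : CMfd V ι) (k : ℤ) (b : VFam V ι) : Prop where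
  smooth : ∀ {Φ : CE ι → V} {U : Set (CE ι)}, 𝓜.IsHol Φ U → ∀ j, ContDiffOn ℝ ∞ (fun z => b Φ z j) U
  compat : ∀ {Φ Ψ : CE ι → V} {U W : Set (CE ι)}, 𝓜.IsHol Φ U → 𝓜.IsHol Ψ W →
    ∀ z ∈ U, Φ z ∈ Ψ '' W →
      (jac (Function.invFunOn Ψ W ∘ Φ) z).det ^ k • b Φ z =
        (jac (Function.invFunOn Ψ W ∘ Φ) z).conjTranspose.mulVec (b Ψ (Function.invFunOn Ψ W (Φ z)))

/-- smooth `K^{-k}`-valued `(1,0)`-vector field. -/
structure IsKVec (𝓜 : CMfd V ι) (k : ℤ) (B : VFam V ι) : Prop where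
  smooth : ∀ {Φ : CE ι → V} {U : Set (CE ι)}, 𝓜.IsHol Φ U → ∀ j, ContDiffOn ℝ ∞ (fun z => B Φ z j) U
  compat : ∀ {Φ Ψ : CE ι → V} {U W : Set (CE ι)}, 𝓜.IsHol Φ U → 𝓜.IsHol Ψ W →
    ∀ z ∈ U, Φ z ∈ Ψ '' W →
      B Ψ (Function.invFunOn Ψ W (Φ z)) =
        (jac (Function.invFunOn Ψ W ∘ Φ) z).det ^ k • (jac (Function.invFunOn Ψ W ∘ Φ) z).mulVec (B Φ z)

/-- the family vanishes over the points of the carrier outside `K`. -/
def SFamSuppIn (𝓜 : CMfd V ι) (s : SFam V ι) (K : Set V) : Prop :=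
  ∀ (Φ : CE ι → V) (U : Set (CE ι)), 𝓜.IsHol Φ U → ∀ z ∈ U, Φ z ∉ K → s Φ z = 0

/-- the family vanishes over the points of the carrier outside `K`. -/
def VFamSuppIn (𝓜 : CMfd V ι) (B : VFam V ι) (K : Set V) : Prop :=
  ∀ (Φ : CE ι → V) (U : Set (CE ι)), 𝓜.IsHol Φ U → ∀ z ∈ U, Φ z ∉ K → B Φ z = 0

/-- test vector fields: smooth, compactly supported (`VFieldCSupp` of `Vol/Defs.lean`). -/
def IsTestKV (𝓜 : CMfd V ι) (k : ℤ) (B : VFam V ι) : Prop := IsKVec 𝓜 k B ∧ VFieldCSupp 𝓜 B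

/-! ### weights -/

/-- the fibre factor `(det h)^k`. -/
noncomputable def kw (h : HFam V ι) (k : ℤ) (Φ : CE ι → V) (z : CE ι) : ℝ := (h Φ z).det.re ^ k

/-- the chart weight `η_Φ = φ∘Φ - (k+1) log det h_Φ`. -/
noncomputable def wt (h : HFam V ι) (φ : V → ℝ) (k : ℤ) (Φ : CE ι → V) (z : CE ι) : ℝ :=
  φ (Φ z) - ((k : ℝ) + 1) * Real.log (h Φ z).det.re

/-- the curvature form `Θ = (k+1) Ric h + dd φ`. -/
noncomputable def curvF (h : HFam V ι) (φ : V → ℝ) (k : ℤ) : HFam V ι :=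
  fun Φ z => ((((k : ℝ) + 1 : ℝ)) : ℂ) • ricF h Φ z + ddc φ Φ z

/-! ### operators -/

/-- `∂̄ s`. -/
noncomputable def dbarS (s : SFam V ι) : VFam V ι := fun Φ z j => dzb j (s Φ) z

/-- raising the index of a `(0,1)`-form. -/
noncomputable def raise (g : HFam V ι) (b : VFam V ι) : VFam V ι := fun Φ z => ((g Φ z)⁻¹).mulVec (b Φ z)

/-- lowering the index of a `(1,0)`-vector. -/
noncomputable def lower (g : HFam V ι) (B : VFam V ι) : VFam V ι := fun Φ z => (g Φ z).mulVec (B Φ z)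

/-- the weighted divergence in ONE chart: `e^{η} ∑_j ∂_j (e^{-η} Y^j)`. -/
noncomputable def cdiv (η : CE ι → ℝ) (Y : CE ι → ι → ℂ) (z : CE ι) : ℂ :=
  ∑ j, (dz j (fun w => Y w j) z - grad10 η z j * Y z j)

/-- `∂̄ Y` in one chart: `cdbar Y z l j = ∂_{\bar l} Y^j`. -/
noncomputable def cdbar (Y : CE ι → ι → ℂ) (z : CE ι) : Matrix ι ι ℂ :=
  fun l j => dzb l (fun w => Y w j) z

/-- the weighted divergence of a `K^{-k}`-valued vector field. -/
noncomputable def kdiv (h : HFam V ι) (φ : V → ℝ) (k : ℤ) (B : VFam V ι) : SFam V ι :=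
  fun Φ z => cdiv (wt h φ k Φ) (B Φ) z

/-- `∂̄ B`. -/
noncomputable def dbarV (B : VFam V ι) : (CE ι → V) → CE ι → Matrix ι ι ℂ := fun Φ z => cdbar (B Φ) z

/-- `∂̄ b` of a `(0,1)`-form. -/
noncomputable def curlM (b : VFam V ι) : (CE ι → V) → CE ι → Matrix ι ι ℂ :=
  fun Φ z l k => dzb l (fun w => b Φ w k) z - dzb k (fun w => b Φ w l) z

/-- multiplication of a family by a function on the manifold. -/
noncomputable def fmulV (χ : V → ℝ) (B : VFam V ι) : VFam V ι := fun Φ z => ((χ (Φ z) : ℝ) : ℂ) • B Φ z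

/-- multiplication of a family by a function on the manifold. -/
noncomputable def fmulS (χ : V → ℝ) (s : SFam V ι) : SFam V ι := fun Φ z => ((χ (Φ z) : ℝ) : ℂ) * s Φ z

end families

/-! ### pointwise forms -/

section pointwise

variable {ι : Type} [Fintype ι] [DecidableEq ι]

/-- `Re (bᴴ A a)`: the real bilinear form with `qfB A v v = qf A v`. -/
noncomputable def qfB (A : Matrix ι ι ℂ) (a b : ι → ℂ) : ℝ := (star b ⬝ᵥ A.mulVec a).re

/-- `Re ∑_j β_j conj (a_j)`: the pairing of a `(0,1)`-form with a `(1,0)`-vector. -/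
noncomputable def fvIP (β a : ι → ℂ) : ℝ := (∑ j, β j * conj (a j)).re

/-- `Re tr (G⁻¹ N Gᵀ N'ᴴ)`. -/
noncomputable def nbIP (G N N' : Matrix ι ι ℂ) : ℝ := (G⁻¹ * N * G.transpose * N'.conjTranspose).trace.re

/-- `Re ∑ N_{kj} conj N'_{jk}`. -/
noncomputable def swIP (N N' : Matrix ι ι ℂ) : ℝ := (∑ j, ∑ k, N k j * conj (N' j k)).re

/-- `½ Re tr (G⁻¹ C G⁻ᵀ Cᴴ)`. -/
noncomputable def twoSq (G C : Matrix ι ι ℂ) : ℝ :=
  (1 / 2) * (G⁻¹ * C * G⁻¹.transpose * C.conjTranspose).trace.re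

end pointwise

/-! ### integrals -/

section integrals

variable {V : Type} [NormedAddCommGroup V] [NormedSpace ℝ V] [MeasurableSpace V] [BorelSpace V]
variable {ι : Type} [Fintype ι] [DecidableEq ι]

/-- the integrand of `kInt` as a function on the manifold. -/
noncomputable def kDens (𝓜 : CMfd V ι) (h : HFam V ι) (φ : V → ℝ) (k : ℤ) (F : (CE ι → V) → CE ι → ℝ) (x : V) : ℝ :=
  𝓜.scal (fun Φ z => kw h k Φ z * F Φ z) x * Real.exp (-φ x)

/-- `∫_M F (det h)^k e^{-φ} dV_h`. -/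
noncomputable def kInt (𝓜 : CMfd V ι) (h : HFam V ι) (φ : V → ℝ) (k : ℤ) (F : (CE ι → V) → CE ι → ℝ) : ℝ :=
  ∫ x, kDens 𝓜 h φ k F x ∂(hvol 𝓜 h)

/-- `|s|²_h = |s_Φ|² (det h)^k` as a function on the manifold. -/
noncomputable def kNormSq (𝓜 : CMfd V ι) (h : HFam V ι) (k : ℤ) (s : SFam V ι) : V → ℝ :=
  𝓜.scal (fun Φ z => kw h k Φ z * ‖s Φ z‖ ^ 2)

/-- the Dirichlet form. -/
noncomputable def dirQ (𝓜 : CMfd V ι) (g h : HFam V ι) (φ : V → ℝ) (k : ℤ) (B B' : VFam V ι) : ℝ :=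
  kInt 𝓜 h φ k fun Φ z => nbIP (g Φ z) (dbarV B Φ z) (dbarV B' Φ z) + qfB (curvF h φ k Φ z) (B Φ z) (B' Φ z)

/-- `⟨∂̄^* b, ∂̄^* b'⟩`. -/
noncomputable def divQ (𝓜 : CMfd V ι) (h : HFam V ι) (φ : V → ℝ) (k : ℤ) (B B' : VFam V ι) : ℝ :=
  kInt 𝓜 h φ k fun Φ z => (kdiv h φ k B Φ z * conj (kdiv h φ k B' Φ z)).re

/-- `⟨s, s'⟩`. -/
noncomputable def secQ (𝓜 : CMfd V ι) (h : HFam V ι) (φ : V → ℝ) (k : ℤ) (s s' : SFam V ι) : ℝ :=
  kInt 𝓜 h φ k fun Φ z => (s Φ z * conj (s' Φ z)).re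

/-- `⟨β, b⟩` for a `(0,1)`-form `β` and `B = raise g b`. -/
noncomputable def pairQ (𝓜 : CMfd V ι) (h : HFam V ι) (φ : V → ℝ) (k : ℤ) (β B : VFam V ι) : ℝ :=
  kInt 𝓜 h φ k fun Φ z => fvIP (β Φ z) (B Φ z)

/-- `‖∂̄ b‖²`, `B = raise g b`, in the form `∫ (|N|² - T(N))`. -/
noncomputable def curlQ (𝓜 : CMfd V ι) (g h : HFam V ι) (φ : V → ℝ) (k : ℤ) (B : VFam V ι) : ℝ :=
  kInt 𝓜 h φ k fun Φ z => nbIP (g Φ z) (dbarV B Φ z) (dbarV B Φ z) - swIP (dbarV B Φ z) (dbarV B Φ z)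

/-- the standing hypotheses of the package. -/
structure L2Setting (𝓜 : CMfd V ι) (g h : HFam V ι) (φ : V → ℝ) (k : ℤ) : Prop where
  kahler : IsKahler 𝓜 g
  metric : IsMetric 𝓜 h
  smooth : 𝓜.Smooth φ
  pos : ∀ (Φ : CE ι → V) (U : Set (CE ι)), 𝓜.IsHol Φ U → ∀ z ∈ U, (curvF h φ k Φ z).PosDef

/-- a smooth exhaustion with bounded gradient (this is what completeness is used for). -/
structure GoodExh (𝓜 : CMfd V ι) (g : HFam V ι) (ρ : V → ℝ) : Prop where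
  smooth : 𝓜.Smooth ρ
  compact : ∀ c : ℝ, IsCompact {x | x ∈ 𝓜.carrier ∧ ρ x ≤ c}
  grad : ∃ C : ℝ, ∀ x ∈ 𝓜.carrier, gradSq 𝓜 g ρ x ≤ C

/-- smooth complex valued function on the manifold. -/
def CMfd.SmoothC (𝓜 : CMfd V ι) (f : V → ℂ) : Prop :=
  ∀ (Φ : CE ι → V) (U : Set (CE ι)), 𝓜.IsHol Φ U → ContDiffOn ℝ ∞ (f ∘ Φ) U

end integrals

end Claimed.Agent.R316
end

/- ===== packed: Claimed.Agent.R316.S3.CutoffDefs ===== -/
section
/-!
# Row 316, Section 3.4 (flow.tex l.347-520): definitions for the cutoff lemma (package S3-C)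

Owner: helper258.  DEFINITIONS only.

`η_t = g - h_t`, `a_t = tr_g η_t`, `H_{L,t} = - ∫_0^{L²} P_b a_t db`, glued correction `H = ∑_j ζ_j(u) H_{2^j,t}`,
`χ = u^{-k} exp (- A H / u²)`.

The heat semigroup of `Δ_g = lap 𝓜 g` enters only through an operator `P : ℝ → (V → ℝ) → V → ℝ` (TIME FIRST) satisfying the
six consumer facts `HeatFacts` (to be supplied by the base layer, packages G8-G10; `P b f x = ∫ H_b(x,y) f(y) dV_g(y)`).

DEVIATIONS FROM THE PAPER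
* no time derivative of `H`: only `H_t/t - H_s/s = P_{L²} w - w`, `w = U_t/t - U_s/s` (the potential of `R_g` cancels);
* no gradient bound of the kernel: Bakry-Emery `|∂ P_b f|² ≤ (C/b) Λ P_b f` for `0 ≤ f ≤ Λ`.
-/

set_option autoImplicit false
open scoped ContDiff ComplexOrder Topology
open MeasureTheory

namespace Claimed.Agent.R316.S3

variable {V : Type} [NormedAddCommGroup V] [NormedSpace ℝ V] [MeasurableSpace V] [BorelSpace V]
variable {n : ℕ} {𝓜 : CMfd V (Fin n)} {g : HFam V (Fin n)} {o : V}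

/-- `η_t = g - h_t`. -/
noncomputable def etaF (D : FlowData 𝓜 g o) (t : ℝ) : HFam V (Fin n) := fun Φ z => g Φ z - D.h t Φ z

/-- `a_t = tr_g η_t`. -/
noncomputable def aT (D : FlowData 𝓜 g o) (t : ℝ) (x : V) : ℝ := tr 𝓜 g (etaF D t) x

/-- continuous functions with polynomially bounded ball averages. -/
def PolyAvg (𝓜 : CMfd V (Fin n)) (g : HFam V (Fin n)) (o : V) (f : V → ℝ) : Prop :=
  ContinuousOn f 𝓜.carrier ∧ ∃ A q : ℝ, ∀ L : ℝ, 1 ≤ L →
    ∫ y in hball 𝓜 g o L, |f y| ∂(hvol 𝓜 g) ≤ A * L ^ q * Vb 𝓜 g o L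

/-- the heat potential `∫_0^b P_s f ds`. -/
noncomputable def Pot (P : ℝ → (V → ℝ) → V → ℝ) (b : ℝ) (f : V → ℝ) (x : V) : ℝ :=
  ∫ s in (0 : ℝ)..b, P s f x

/-- the six consumer facts on the heat semigroup `P` of `Δ_g` used by Section 3.4. -/
structure HeatFacts (𝓜 : CMfd V (Fin n)) (g : HFam V (Fin n)) (o : V)
    (P : ℝ → (V → ℝ) → V → ℝ) : Prop where
  /-- (HP1) -/
  congr : ∀ (b : ℝ) (f f' : V → ℝ), Set.EqOn f f' 𝓜.carrier → ∀ x, P b f x = P b f' x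
  add : ∀ (b : ℝ) (f f' : V → ℝ), 0 < b → PolyAvg 𝓜 g o f → PolyAvg 𝓜 g o f' → ∀ x ∈ 𝓜.carrier,
    P b (fun y => f y + f' y) x = P b f x + P b f' x
  smul : ∀ (b c : ℝ) (f : V → ℝ) (x : V), P b (fun y => c * f y) x = c * P b f x
  mono : ∀ (b : ℝ) (f f' : V → ℝ), 0 < b → PolyAvg 𝓜 g o f → PolyAvg 𝓜 g o f' →
    (∀ y ∈ 𝓜.carrier, f y ≤ f' y) → ∀ x ∈ 𝓜.carrier, P b f x ≤ P b f' x
  one : ∀ b : ℝ, 0 < b → ∀ x ∈ 𝓜.carrier, P b (fun _ => 1) x = 1
  /-- (HP2) annular summation -/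
  annular : ∀ q C₀ : ℝ, ∃ C : ℝ, ∀ (L A : ℝ) (f : V → ℝ), 1 ≤ L → 0 ≤ A → ContinuousOn f 𝓜.carrier →
    (∀ y ∈ 𝓜.carrier, 0 ≤ f y) →
    (∀ L' : ℝ, L ≤ L' → ∫ y in hball 𝓜 g o L', f y ∂(hvol 𝓜 g) ≤ A * (L' / L) ^ q * Vb 𝓜 g o L') →
    ∀ x ∈ hball 𝓜 g o (C₀ * L), ∀ b ∈ Set.Ioc (0 : ℝ) (L ^ 2),
      P b f x ≤ C * A * (L / Real.sqrt b) ^ (2 * n)
  /-- (HP3) Bakry-Emery -/
  grad : ∃ C : ℝ, ∀ (f : V → ℝ) (Λ : ℝ), 𝓜.Smooth f → (∀ y ∈ 𝓜.carrier, 0 ≤ f y ∧ f y ≤ Λ) →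
    ∀ b : ℝ, 0 < b → 𝓜.Smooth (P b f) ∧
      ∀ x ∈ 𝓜.carrier, gradSq 𝓜 g (P b f) x ≤ C / b * Λ * P b f x
  /-- (HP4) regularity of the potential of a bounded smooth function -/
  pot : ∀ (f : V → ℝ) (Λ : ℝ), 𝓜.Smooth f → (∀ y ∈ 𝓜.carrier, |f y| ≤ Λ) → ∀ b : ℝ, 0 < b →
    𝓜.Smooth (Pot P b f) ∧ ∀ x ∈ 𝓜.carrier,
      IntervalIntegrable (fun s => P s f x) volume 0 b ∧
      lap 𝓜 g (Pot P b f) x = P b f x - f x ∧
      Real.sqrt (gradSq 𝓜 g (Pot P b f) x) ≤ ∫ s in (0 : ℝ)..b, Real.sqrt (gradSq 𝓜 g (P s f) x)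
  /-- (HP5) Ni-Tam: the Hodge heat flow of a nonnegative closed form stays nonnegative -/
  niTam : ∀ A : HFam V (Fin n), IsHForm 𝓜 A → IsClosedForm 𝓜 A → leF 𝓜 (fun _ _ => 0) A → leF 𝓜 A g →
    ∀ b : ℝ, 0 < b → leF 𝓜 (fun _ _ => 0) (fun Φ z => A Φ z + ddc (Pot P b (tr 𝓜 g A)) Φ z)
  /-- (HP6) Duhamel for functions with bounded Laplacian -/
  duhamel : ∀ (w W₀ : V → ℝ) (Λ : ℝ), 𝓜.Smooth w → PolyAvg 𝓜 g o W₀ → (∀ y ∈ 𝓜.carrier, |w y| ≤ W₀ y) →
    (∀ y ∈ 𝓜.carrier, |lap 𝓜 g w y| ≤ Λ) → ∀ b : ℝ, 0 < b → ∀ x ∈ 𝓜.carrier,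
      P b w x - w x = Pot P b (lap 𝓜 g w) x

/-- `H_{L,t} = - ∫_0^{L²} P_b a_t db`. -/
noncomputable def HL (D : FlowData 𝓜 g o) (P : ℝ → (V → ℝ) → V → ℝ) (L t : ℝ) (x : V) : ℝ :=
  - Pot P (L ^ 2) (aT D t) x

/-- the fixed profile: `1` on `(-∞,1]`, `0` on `[2,∞)`. -/
noncomputable def thet (s : ℝ) : ℝ := Real.smoothTransition (2 - s)

/-- dyadic partition of unity in `u ≥ 1`: `ζ_j` is supported in `2^j ≤ u ≤ 2^{j+2}` (`u ≤ 4` for `j = 0`),
`∑_{j ≤ J} ζ_j = θ(u / 2^{J+1})`. -/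
noncomputable def zet (PD : PrelimData 𝓜 g o) (j : ℕ) (x : V) : ℝ :=
  thet (PD.u x / 2 ^ (j + 1)) - if j = 0 then 0 else thet (PD.u x / 2 ^ j)

/-- the glued correction `H = ∑_j ζ_j(u) H_{2^j,t}` (locally finite sum). -/
noncomputable def Hglue (PD : PrelimData 𝓜 g o) (D : FlowData 𝓜 g o) (P : ℝ → (V → ℝ) → V → ℝ)
    (t : ℝ) (x : V) : ℝ :=
  ∑' j : ℕ, zet PD j x * HL D P (2 ^ j) t x

/-- `χ = u^{-k} exp (- A H / u²)`. -/
noncomputable def chiK (PD : PrelimData 𝓜 g o) (D : FlowData 𝓜 g o) (P : ℝ → (V → ℝ) → V → ℝ)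
    (k : ℕ) (A : ℝ) (t : ℝ) (x : V) : ℝ :=
  (PD.u x) ^ (-(k : ℝ)) * Real.exp (- (A * Hglue PD D P t x / (PD.u x) ^ 2))

end Claimed.Agent.R316.S3
end
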