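/- Packed by merge_tool.py (helper293): 2 modules of Claimed.Agent.R316 in one file, same declarations.
   Old modules, in this order: Base.RGeo.Cov, Base.SV.Var -/
import Claimed.Agent.R316.Base.RGeo.Basic
import Claimed.Agent.R316.Base.ODE.Nem

/- ===== packed: Claimed.Agent.R316.Base.RGeo.Cov ===== -/
section
/-!
# `BP-G1` part 2: covariant derivative along maps, curvature, Hessian

Architect: helper294.  `covP f Z p e` is the covariant derivative in the direction `e ∈ P` of the vector field `Z : P → W` along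
the map `f : P → W` (`P` any normed space: `P = ℝ` curves, `P = ℝ × ℝ`, `P × ℝ` variations, `P = W`, `f = id` fields).
ALL the calculus of the package is done with `covP`; `covD`, `nabla` are special cases.

Leaves
* `G1-COV-A` = sections 1, 2 (algebraic rules, chain rule, metric product rule, torsion, smoothness).
* `G1-COV-B` = sections 3, 4 (curvature identity, `curvL`, symmetries of the curvature, `secNum`, `ric`).
* `G1-COV-C` = section 5 (Hessian).

PLANS.
* Section 1: unfold `covP`; `fderiv_add`, `fderiv_smul`, `fderiv_comp`, `fderiv_fun_sum`; `map_add`, `map_smul`.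
* `fderiv_G_comp`: `q ↦ S.G (f q) (Y q) (Z q)` is `HasFDerivAt.clm_apply` twice on `(S.G ∘ f)`; chain rule; then
  `hS.compat (f p) _ (Df e) (Y p) (Z p)` and `hS.G_symm`.  `covP_symm`: symmetry of the second derivative
  (`ContDiffAt.isSymmSndFDerivAt` with `n = 2`, `minSmoothness ℝ 2 = 2`; `fderiv ℝ (fun q => fderiv ℝ f q e₂) p e₁ = fderiv ℝ (fderiv ℝ f) p e₁ e₂`
  by `fderiv_clm_apply`) and `hS.Γ_symm`.
* `covP_covP_sub`: expand
  `∇₁∇₂Z = D₁D₂Z + DΓ(D₁f)(D₂f,Z) + Γ(D₁D₂f,Z) + Γ(D₂f,D₁Z) + Γ(D₁f,D₂Z) + Γ(D₁f,Γ(D₂f,Z))`; the terms 1, 3 and 4+5 are symmetric.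
* `curv_bianchi`: `fderiv_Γ_symm`, `Γ_symm`.  `G_curv_skew`: it is enough to show `G(curv(a,b)c,c) = 0` (polarise with `curvL`);
  apply `fderiv_G_comp` twice to `q ↦ G q c c` (`f = id`, `Y = Z = const c`): `D_aD_b G(c,c) = 2G(∇_a∇_b c,c) + 2G(∇_b c,∇_a c)`;
  the left side is symmetric in `a, b` (`G` is `C^2`), so `G(∇_a∇_b c - ∇_b∇_a c, c) = 0`; `covP_covP_sub`.
  `G_curv_pair`: the classical octahedron argument from `curv_antisymm`, `G_curv_skew`, `curv_bianchi` (pure `linarith` with 4 Bianchi instances).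
* `ric_eq_sum`: `IsFrame.trace_eq`.
* Section 5: unfold; `fderiv_comp`, `fderiv_clm_apply`, second derivative of a composition.
-/

set_option autoImplicit false
set_option linter.unusedSectionVars false
set_option linter.deprecated false
set_option linter.unusedVariables false
-- needed for arithmetic in `W →L[ℝ] W →L[ℝ] W →L[ℝ] _` (this is the value used inside Mathlib)
set_option maxSynthPendingDepth 3
open scoped ContDiff Topology

namespace Claimed.Agent.R316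
namespace RGeo

variable {W : Type} [NormedAddCommGroup W] [NormedSpace ℝ W]
variable {P : Type*} [NormedAddCommGroup P] [NormedSpace ℝ P]
variable {Q : Type*} [NormedAddCommGroup Q] [NormedSpace ℝ Q]
variable {S : RGeo W} {x a b c d : W} {f Y Z : P → W} {p e e₁ e₂ : P}

/-! ### 1. the covariant derivative along a map: algebraic rules -/

/-- covariant derivative at `p`, in the direction `e`, of the field `Z` along the map `f`. -/
noncomputable def covP (S : RGeo W) (f Z : P → W) (p e : P) : W :=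
  fderiv ℝ Z p e + S.Γ (f p) (fderiv ℝ f p e) (Z p)

theorem covD_eq_covP (S : RGeo W) (c Z : ℝ → W) (t : ℝ) : S.covD c Z t = S.covP c Z t 1 := by
  simp [covD, covP]

theorem nabla_eq_covP (S : RGeo W) (Z : W → W) (x a : W) :
    S.nabla Z x a = S.covP (fun y => y) Z x a := by
  simp [nabla, covP]

@[simp] theorem restr_covP (S : RGeo W) (U' : Set W) (f Z : P → W) :
    (S.restr U').covP f Z = S.covP f Z := rfl

theorem covP_add_dir (S : RGeo W) (f Z : P → W) (p e₁ e₂ : P) :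
    S.covP f Z p (e₁ + e₂) = S.covP f Z p e₁ + S.covP f Z p e₂ := by
  simp [covP]; abel

theorem covP_smul_dir (S : RGeo W) (f Z : P → W) (p : P) (r : ℝ) (e : P) :
    S.covP f Z p (r • e) = r • S.covP f Z p e := by
  simp [covP]

@[simp] theorem covP_zero_dir (S : RGeo W) (f Z : P → W) (p : P) : S.covP f Z p 0 = 0 := by
  simp [covP]

theorem covP_add (S : RGeo W) (hY : DifferentiableAt ℝ Y p) (hZ : DifferentiableAt ℝ Z p) :
    S.covP f (fun q => Y q + Z q) p e = S.covP f Y p e + S.covP f Z p e := by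
  simp only [covP, fderiv_fun_add hY hZ, ContinuousLinearMap.add_apply, map_add]
  abel

theorem covP_sub (S : RGeo W) (hY : DifferentiableAt ℝ Y p) (hZ : DifferentiableAt ℝ Z p) :
    S.covP f (fun q => Y q - Z q) p e = S.covP f Y p e - S.covP f Z p e := by
  simp only [covP, fderiv_fun_sub hY hZ, ContinuousLinearMap.sub_apply, map_sub]
  abel

theorem covP_neg (S : RGeo W) : S.covP f (fun q => - Z q) p e = - S.covP f Z p e := by
  simp only [covP, fderiv_fun_neg, ContinuousLinearMap.neg_apply, map_neg]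
  abel

theorem covP_const_smul (S : RGeo W) (r : ℝ) :
    S.covP f (fun q => r • Z q) p e = r • S.covP f Z p e := by
  have h : fderiv ℝ (fun q => r • Z q) p = r • fderiv ℝ Z p :=
    congrFun (fderiv_const_smul_field (𝕜 := ℝ) (f := Z) r) p
  simp only [covP, h, ContinuousLinearMap.smul_apply, map_smul, smul_add]

/-- Leibniz rule. -/
theorem covP_smul (S : RGeo W) {φ : P → ℝ} (hφ : DifferentiableAt ℝ φ p)
    (hZ : DifferentiableAt ℝ Z p) :
    S.covP f (fun q => φ q • Z q) p e = fderiv ℝ φ p e • Z p + φ p • S.covP f Z p e := by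
  simp only [covP, fderiv_fun_smul hφ hZ, ContinuousLinearMap.add_apply,
    ContinuousLinearMap.smul_apply, ContinuousLinearMap.smulRight_apply, map_smul, smul_add]
  abel

theorem covP_sum (S : RGeo W) {κ : Type*} (s : Finset κ) {Z : κ → P → W}
    (hZ : ∀ i ∈ s, DifferentiableAt ℝ (Z i) p) :
    S.covP f (fun q => ∑ i ∈ s, Z i q) p e = ∑ i ∈ s, S.covP f (Z i) p e := by
  simp only [covP, fderiv_fun_sum hZ, ContinuousLinearMap.sum_apply, map_sum,
    Finset.sum_add_distrib]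

/-- locality. -/
theorem covP_congr (S : RGeo W) {f' Z' : P → W} (hf : f' =ᶠ[𝓝 p] f) (hZ : Z' =ᶠ[𝓝 p] Z) :
    S.covP f' Z' p e = S.covP f Z p e := by
  simp only [covP, hf.fderiv_eq, hZ.fderiv_eq, hf.eq_of_nhds, hZ.eq_of_nhds]

/-- chain rule. -/
theorem covP_comp (S : RGeo W) {g : Q → P} {q e' : Q} (hg : DifferentiableAt ℝ g q)
    (hf : DifferentiableAt ℝ f (g q)) (hZ : DifferentiableAt ℝ Z (g q)) :
    S.covP (fun r => f (g r)) (fun r => Z (g r)) q e' = S.covP f Z (g q) (fderiv ℝ g q e') := by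
  have h1 : fderiv ℝ (fun r => f (g r)) q = (fderiv ℝ f (g q)).comp (fderiv ℝ g q) :=
    fderiv_comp q hf hg
  have h2 : fderiv ℝ (fun r => Z (g r)) q = (fderiv ℝ Z (g q)).comp (fderiv ℝ g q) :=
    fderiv_comp q hZ hg
  simp only [covP, h1, h2, ContinuousLinearMap.comp_apply]

/-- chain rule for curves. -/
theorem covD_comp (S : RGeo W) {γ : ℝ → P} {t : ℝ} (hγ : DifferentiableAt ℝ γ t)
    (hf : DifferentiableAt ℝ f (γ t)) (hZ : DifferentiableAt ℝ Z (γ t)) :
    S.covD (fun r => f (γ r)) (fun r => Z (γ r)) t = S.covP f Z (γ t) (deriv γ t) := by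
  rw [covD_eq_covP, S.covP_comp hγ hf hZ, fderiv_eq_smul_deriv, one_smul]

theorem hasFDerivAt_slice_map (p : P) (σ : ℝ) :
    HasDerivAt (fun r : ℝ => ((p, r) : P × ℝ)) ((0 : P), (1 : ℝ)) σ :=
  (hasDerivAt_const σ p).prodMk (hasDerivAt_id σ)

/-- the slices `σ ↦ f (p, σ)` of a family of curves. -/
theorem covD_slice (S : RGeo W) {f Z : P × ℝ → W} {p : P} {σ : ℝ}
    (hf : DifferentiableAt ℝ f (p, σ)) (hZ : DifferentiableAt ℝ Z (p, σ)) :
    S.covD (fun r => f (p, r)) (fun r => Z (p, r)) σ = S.covP f Z (p, σ) (0, 1) := by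
  have h := hasFDerivAt_slice_map p σ
  rw [S.covD_comp (γ := fun r : ℝ => ((p, r) : P × ℝ)) h.differentiableAt hf hZ, h.deriv]

theorem deriv_slice {f : P × ℝ → W} {p : P} {σ : ℝ} (hf : DifferentiableAt ℝ f (p, σ)) :
    deriv (fun r => f (p, r)) σ = fderiv ℝ f (p, σ) (0, 1) := by
  have h := hasFDerivAt_slice_map p σ
  exact (hf.hasFDerivAt.comp_hasDerivAt σ h).deriv

/-- rules for `covD`. -/
theorem covD_add (S : RGeo W) {c Y Z : ℝ → W} {t : ℝ} (hY : DifferentiableAt ℝ Y t)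
    (hZ : DifferentiableAt ℝ Z t) :
    S.covD c (fun r => Y r + Z r) t = S.covD c Y t + S.covD c Z t := by
  simp only [covD_eq_covP, S.covP_add hY hZ]

theorem covD_smul (S : RGeo W) {c Z : ℝ → W} {φ : ℝ → ℝ} {t : ℝ} (hφ : DifferentiableAt ℝ φ t)
    (hZ : DifferentiableAt ℝ Z t) :
    S.covD c (fun r => φ r • Z r) t = deriv φ t • Z t + φ t • S.covD c Z t := by
  simp only [covD_eq_covP, S.covP_smul hφ hZ, fderiv_eq_smul_deriv, one_smul]

theorem covD_const_smul (S : RGeo W) (c Z : ℝ → W) (r t : ℝ) :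
    S.covD c (fun s => r • Z s) t = r • S.covD c Z t := by
  simp only [covD_eq_covP, S.covP_const_smul]

theorem covD_sum (S : RGeo W) {κ : Type*} (s : Finset κ) {c : ℝ → W} {Z : κ → ℝ → W} {t : ℝ}
    (hZ : ∀ i ∈ s, DifferentiableAt ℝ (Z i) t) :
    S.covD c (fun r => ∑ i ∈ s, Z i r) t = ∑ i ∈ s, S.covD c (Z i) t := by
  simp only [covD_eq_covP, S.covP_sum s hZ]

theorem covD_congr (S : RGeo W) {c c' Z Z' : ℝ → W} {t : ℝ} (hc : c' =ᶠ[𝓝 t] c)
    (hZ : Z' =ᶠ[𝓝 t] Z) : S.covD c' Z' t = S.covD c Z t := by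
  simp only [covD_eq_covP, S.covP_congr hc hZ]

/-- affine reparametrisation. -/
theorem covD_comp_affine (S : RGeo W) {c Z : ℝ → W} (k m t : ℝ)
    (hc : DifferentiableAt ℝ c (k * t + m)) (hZ : DifferentiableAt ℝ Z (k * t + m)) :
    S.covD (fun r => c (k * r + m)) (fun r => Z (k * r + m)) t = k • S.covD c Z (k * t + m) := by
  have h : HasDerivAt (fun r : ℝ => k * r + m) k t := by
    simpa using ((hasDerivAt_id t).const_mul k).add_const m
  rw [S.covD_comp (γ := fun r : ℝ => k * r + m) h.differentiableAt hc hZ, h.deriv, covD_eq_covP]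
  have h1 : S.covP c Z (k * t + m) k = S.covP c Z (k * t + m) (k • (1 : ℝ)) := by simp
  rw [h1]
  simp only [covP, map_smul, ContinuousLinearMap.smul_apply, smul_add]

/-! ### 2. compatibility with the metric, torsion, smoothness -/

theorem IsRiem.hasFDerivAt_G_comp_aux (hS : S.IsRiem) (hfU : f p ∈ S.U)
    (hf : DifferentiableAt ℝ f p) (hY : DifferentiableAt ℝ Y p) (hZ : DifferentiableAt ℝ Z p) :
    ∃ L : P →L[ℝ] ℝ, HasFDerivAt (fun q => S.G (f q) (Y q) (Z q)) L p ∧ ∀ e, L e =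
      S.G (f p) (S.covP f Y p e) (Z p) + S.G (f p) (Y p) (S.covP f Z p e) := by
  have hG : HasFDerivAt (fun q => S.G (f q)) ((fderiv ℝ S.G (f p)).comp (fderiv ℝ f p)) p :=
    (hS.differentiableAt_G hfU).hasFDerivAt.comp p hf.hasFDerivAt
  have h1 := hG.clm_apply hY.hasFDerivAt
  have h2 := h1.clm_apply hZ.hasFDerivAt
  refine ⟨_, h2, fun e => ?_⟩
  simp only [covP, ContinuousLinearMap.add_apply, ContinuousLinearMap.comp_apply,
    ContinuousLinearMap.flip_apply, map_add]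
  rw [hS.compat (f p) hfU]
  ring

theorem IsRiem.differentiableAt_G_comp (hS : S.IsRiem) (hfU : f p ∈ S.U)
    (hf : DifferentiableAt ℝ f p) (hY : DifferentiableAt ℝ Y p) (hZ : DifferentiableAt ℝ Z p) :
    DifferentiableAt ℝ (fun q => S.G (f q) (Y q) (Z q)) p := by
  obtain ⟨L, hL, -⟩ := hS.hasFDerivAt_G_comp_aux hfU hf hY hZ
  exact hL.differentiableAt

/-- **metric product rule.** -/
theorem IsRiem.fderiv_G_comp (hS : S.IsRiem) (hfU : f p ∈ S.U) (hf : DifferentiableAt ℝ f p)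
    (hY : DifferentiableAt ℝ Y p) (hZ : DifferentiableAt ℝ Z p) (e : P) :
    fderiv ℝ (fun q => S.G (f q) (Y q) (Z q)) p e =
      S.G (f p) (S.covP f Y p e) (Z p) + S.G (f p) (Y p) (S.covP f Z p e) := by
  obtain ⟨L, hL, hLe⟩ := hS.hasFDerivAt_G_comp_aux hfU hf hY hZ
  rw [hL.fderiv, hLe]

/-- metric product rule along curves. -/
theorem IsRiem.hasDerivAt_G (hS : S.IsRiem) {c Y Z : ℝ → W} {t : ℝ} (hcU : c t ∈ S.U)
    (hc : DifferentiableAt ℝ c t) (hY : DifferentiableAt ℝ Y t) (hZ : DifferentiableAt ℝ Z t) :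
    HasDerivAt (fun r => S.G (c r) (Y r) (Z r))
      (S.G (c t) (S.covD c Y t) (Z t) + S.G (c t) (Y t) (S.covD c Z t)) t := by
  have h := (hS.differentiableAt_G_comp hcU hc hY hZ).hasDerivAt
  rw [← fderiv_apply_one_eq_deriv, hS.fderiv_G_comp hcU hc hY hZ] at h
  simpa only [covD_eq_covP] using h

theorem fderiv_fderiv_apply {F : Type*} [NormedAddCommGroup F] [NormedSpace ℝ F] {g : P → F}
    (hg : ContDiffAt ℝ 2 g p) (e₁ e₂ : P) :
    fderiv ℝ (fun q => fderiv ℝ g q e₂) p e₁ = fderiv ℝ (fderiv ℝ g) p e₁ e₂ := by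
  have h1 : DifferentiableAt ℝ (fderiv ℝ g) p :=
    (hg.fderiv_right (m := 1) (by norm_num)).differentiableAt (by norm_num)
  rw [fderiv_clm_apply h1 (differentiableAt_const e₂)]
  simp

/-- **the connection is torsion free.** -/
theorem IsRiem.covP_symm (hS : S.IsRiem) (hfU : f p ∈ S.U) (hf : ContDiffAt ℝ 2 f p) (e₁ e₂ : P) :
    S.covP f (fun q => fderiv ℝ f q e₂) p e₁ = S.covP f (fun q => fderiv ℝ f q e₁) p e₂ := by
  have hsymm : IsSymmSndFDerivAt ℝ f p := hf.isSymmSndFDerivAt (by simp)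
  simp only [covP, fderiv_fderiv_apply hf]
  rw [hsymm.eq e₁ e₂, hS.Γ_symm (f p) hfU]

/-- smoothness of the covariant derivative. -/
theorem IsRiem.contDiffOn_covP (hS : S.IsRiem) {O : Set P} (hO : IsOpen O)
    (hf : ContDiffOn ℝ ∞ f O) (hfU : ∀ q ∈ O, f q ∈ S.U) (hZ : ContDiffOn ℝ ∞ Z O) (e : P) :
    ContDiffOn ℝ ∞ (fun q => S.covP f Z q e) O := by
  have h1 : ContDiffOn ℝ ∞ (fun q => fderiv ℝ Z q e) O :=
    (hZ.fderiv_of_isOpen hO (by simp)).clm_apply contDiffOn_const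
  have h2 : ContDiffOn ℝ ∞ (fun q => fderiv ℝ f q e) O :=
    (hf.fderiv_of_isOpen hO (by simp)).clm_apply contDiffOn_const
  exact h1.add (hS.contDiffOn_Γ_comp le_rfl hf hfU h2 hZ)

theorem IsRiem.contDiffOn_covD (hS : S.IsRiem) {I : Set ℝ} (hI : IsOpen I) {c Z : ℝ → W}
    (hc : ContDiffOn ℝ ∞ c I) (hcU : ∀ t ∈ I, c t ∈ S.U) (hZ : ContDiffOn ℝ ∞ Z I) :
    ContDiffOn ℝ ∞ (S.covD c Z) I := by
  have h := hS.contDiffOn_covP hI hc hcU hZ 1
  exact h.congr fun t _ => covD_eq_covP S c Z t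

/-! ### 3. the curvature identity -/

/-- derivative of `q ↦ Γ (f q) (A q) (B q)`. -/
theorem IsRiem.fderiv_Γ_comp (hS : S.IsRiem) (hfU : f p ∈ S.U) (hf : DifferentiableAt ℝ f p)
    (hY : DifferentiableAt ℝ Y p) (hZ : DifferentiableAt ℝ Z p) (e : P) :
    DifferentiableAt ℝ (fun q => S.Γ (f q) (Y q) (Z q)) p ∧
    fderiv ℝ (fun q => S.Γ (f q) (Y q) (Z q)) p e =
      fderiv ℝ S.Γ (f p) (fderiv ℝ f p e) (Y p) (Z p) + S.Γ (f p) (fderiv ℝ Y p e) (Z p) +
        S.Γ (f p) (Y p) (fderiv ℝ Z p e) := by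
  have hG : HasFDerivAt (fun q => S.Γ (f q)) ((fderiv ℝ S.Γ (f p)).comp (fderiv ℝ f p)) p :=
    (hS.differentiableAt_Γ hfU).hasFDerivAt.comp p hf.hasFDerivAt
  have h1 := hG.clm_apply hY.hasFDerivAt
  have h2 := h1.clm_apply hZ.hasFDerivAt
  refine ⟨h2.differentiableAt, ?_⟩
  rw [h2.fderiv]
  simp only [ContinuousLinearMap.add_apply, ContinuousLinearMap.comp_apply,
    ContinuousLinearMap.flip_apply]
  abel

/-- **`∇₁∇₂ Z - ∇₂∇₁ Z = R(D₁f, D₂f) Z`.** -/
theorem IsRiem.covP_covP_sub (hS : S.IsRiem) (hfU : f p ∈ S.U) (hf : ContDiffAt ℝ 2 f p)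
    (hZ : ContDiffAt ℝ 2 Z p) (e₁ e₂ : P) :
    S.covP f (fun q => S.covP f Z q e₂) p e₁ - S.covP f (fun q => S.covP f Z q e₁) p e₂ =
      S.curv (f p) (fderiv ℝ f p e₁) (fderiv ℝ f p e₂) (Z p) := by
  have hfd : DifferentiableAt ℝ f p := hf.differentiableAt (by norm_num)
  have hZd : DifferentiableAt ℝ Z p := hZ.differentiableAt (by norm_num)
  have hf1 : DifferentiableAt ℝ (fderiv ℝ f) p :=
    (hf.fderiv_right (m := 1) (by norm_num)).differentiableAt (by norm_num)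
  have hZ1 : DifferentiableAt ℝ (fderiv ℝ Z) p :=
    (hZ.fderiv_right (m := 1) (by norm_num)).differentiableAt (by norm_num)
  have hfe : ∀ e : P, DifferentiableAt ℝ (fun q => fderiv ℝ f q e) p := fun e =>
    hf1.clm_apply (differentiableAt_const e)
  have hZe : ∀ e : P, DifferentiableAt ℝ (fun q => fderiv ℝ Z q e) p := fun e =>
    hZ1.clm_apply (differentiableAt_const e)
  have key : ∀ e e' : P, fderiv ℝ (fun q => S.covP f Z q e') p e =
      fderiv ℝ (fderiv ℝ Z) p e e' +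
        (fderiv ℝ S.Γ (f p) (fderiv ℝ f p e) (fderiv ℝ f p e') (Z p) +
          S.Γ (f p) (fderiv ℝ (fderiv ℝ f) p e e') (Z p) +
          S.Γ (f p) (fderiv ℝ f p e') (fderiv ℝ Z p e)) := by
    intro e e'
    have h := IsRiem.fderiv_Γ_comp hS hfU hfd (hfe e') hZd e
    unfold covP
    rw [fderiv_fun_add (hZe e') h.1, ContinuousLinearMap.add_apply, h.2,
      fderiv_fderiv_apply hZ, fderiv_fderiv_apply hf]
  have hs1 : fderiv ℝ (fderiv ℝ Z) p e₁ e₂ = fderiv ℝ (fderiv ℝ Z) p e₂ e₁ :=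
    (hZ.isSymmSndFDerivAt (by simp)).eq e₁ e₂
  have hs2 : fderiv ℝ (fderiv ℝ f) p e₁ e₂ = fderiv ℝ (fderiv ℝ f) p e₂ e₁ :=
    (hf.isSymmSndFDerivAt (by simp)).eq e₁ e₂
  have e12 : S.covP f (fun q => S.covP f Z q e₂) p e₁ =
      fderiv ℝ (fun q => S.covP f Z q e₂) p e₁ +
        S.Γ (f p) (fderiv ℝ f p e₁) (S.covP f Z p e₂) := rfl
  have e21 : S.covP f (fun q => S.covP f Z q e₁) p e₂ =
      fderiv ℝ (fun q => S.covP f Z q e₁) p e₂ +
        S.Γ (f p) (fderiv ℝ f p e₂) (S.covP f Z p e₁) := rfl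
  rw [e12, e21, key e₁ e₂, key e₂ e₁, hs1, hs2]
  simp only [covP, curv, map_add]
  abel

/-- the curvature as a continuous trilinear map. -/
noncomputable def curvL (S : RGeo W) (x : W) : W →L[ℝ] W →L[ℝ] W →L[ℝ] W :=
  fderiv ℝ S.Γ x - (fderiv ℝ S.Γ x).flip +
    (ContinuousLinearMap.compL ℝ W W W).bilinearComp (S.Γ x) (S.Γ x) -
    ((ContinuousLinearMap.compL ℝ W W W).bilinearComp (S.Γ x) (S.Γ x)).flip

theorem curvL_apply (S : RGeo W) (x a b c : W) : S.curvL x a b c = S.curv x a b c := by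
  simp [curvL, curv]

theorem contDiffOn_flip {X A B C : Type*} [NormedAddCommGroup X] [NormedSpace ℝ X]
    [NormedAddCommGroup A] [NormedSpace ℝ A] [NormedAddCommGroup B] [NormedSpace ℝ B]
    [NormedAddCommGroup C] [NormedSpace ℝ C] {n : WithTop ℕ∞} {g : X → A →L[ℝ] B →L[ℝ] C}
    {s : Set X} (hg : ContDiffOn ℝ n g s) : ContDiffOn ℝ n (fun x => (g x).flip) s :=
  ((ContinuousLinearMap.flipₗᵢ ℝ A B C).toContinuousLinearEquiv.contDiff).comp_contDiffOn hg

theorem IsRiem.contDiffOn_curvL (hS : S.IsRiem) : ContDiffOn ℝ ∞ S.curvL S.U := by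
  have h0 : ContDiffOn ℝ ∞ (fderiv ℝ S.Γ) S.U := hS.Γ_smooth.fderiv_of_isOpen hS.isOpen (by simp)
  have h1 : ContDiffOn ℝ ∞ (fun x => (ContinuousLinearMap.compL ℝ W W W).comp (S.Γ x)) S.U :=
    contDiffOn_const.clm_comp hS.Γ_smooth
  have h2 := (contDiffOn_flip h1).clm_comp hS.Γ_smooth
  have h3 : ContDiffOn ℝ ∞
      (fun x => (ContinuousLinearMap.compL ℝ W W W).bilinearComp (S.Γ x) (S.Γ x)) S.U :=
    contDiffOn_flip h2
  exact ((h0.sub (contDiffOn_flip h0)).add h3).sub (contDiffOn_flip h3)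

/-- substitution of smooth maps in the curvature. -/
theorem IsRiem.contDiffOn_curv_comp (hS : S.IsRiem) {O : Set P} {f A B C : P → W}
    (hf : ContDiffOn ℝ ∞ f O) (hfU : ∀ q ∈ O, f q ∈ S.U) (hA : ContDiffOn ℝ ∞ A O)
    (hB : ContDiffOn ℝ ∞ B O) (hC : ContDiffOn ℝ ∞ C O) :
    ContDiffOn ℝ ∞ (fun q => S.curv (f q) (A q) (B q) (C q)) O := by
  have h := (((IsRiem.contDiffOn_curvL hS).comp hf hfU).clm_apply hA).clm_apply hB |>.clm_apply hC
  exact h.congr fun q _ => (curvL_apply S _ _ _ _).symm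

/-! ### 4. symmetries of the curvature, sectional and Ricci curvature -/

theorem curv_antisymm (S : RGeo W) (x a b c : W) : S.curv x a b c = - S.curv x b a c := by
  simp only [curv]; abel

theorem curv_self (S : RGeo W) (x a c : W) : S.curv x a a c = 0 := by
  simp [curv]

/-- first Bianchi identity. -/
theorem IsRiem.curv_bianchi (hS : S.IsRiem) (hx : x ∈ S.U) (a b c : W) :
    S.curv x a b c + S.curv x b c a + S.curv x c a b = 0 := by
  simp only [curv]
  rw [hS.fderiv_Γ_symm hx a c b, hS.fderiv_Γ_symm hx b c a, hS.fderiv_Γ_symm hx c b a,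
    hS.Γ_symm x hx c b, hS.Γ_symm x hx c a, hS.Γ_symm x hx b a]
  abel

theorem curv_add_third (S : RGeo W) (x a b c d : W) :
    S.curv x a b (c + d) = S.curv x a b c + S.curv x a b d := by
  simp only [← curvL_apply, map_add]

theorem IsRiem.G_curv_self (hS : S.IsRiem) (hx : x ∈ S.U) (a b c : W) :
    S.G x (S.curv x a b c) c = 0 := by
  -- `φ q = G q c c`
  set φ : W → ℝ := fun q => S.G q c c with hφ
  have hφ2 : ContDiffAt ℝ 2 φ x :=
    (((hS.contDiffAt_G hx).clm_apply contDiffAt_const).clm_apply contDiffAt_const).of_le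
      (WithTop.coe_le_coe.2 le_top)
  have hid : ∀ q : W, DifferentiableAt ℝ (fun y : W => y) q := fun q => differentiableAt_id
  have hcc : ∀ q : W, DifferentiableAt ℝ (fun _ : W => c) q := fun q => differentiableAt_const c
  have hY : ∀ (e q : W), S.covP (fun y : W => y) (fun _ : W => c) q e = S.Γ q e c := by
    intro e q
    simp [covP]
  -- first derivative
  have h1 : ∀ e : W, ∀ q ∈ S.U, fderiv ℝ φ q e = 2 * S.G q (S.Γ q e c) c := by
    intro e q hq
    have := hS.fderiv_G_comp (f := fun y : W => y) (Y := fun _ => c) (Z := fun _ => c) hq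
      (hid q) (hcc q) (hcc q) e
    rw [hY] at this
    rw [hφ, this, hS.G_symm q hq c]
    ring
  have hΓd : ∀ e : W, DifferentiableAt ℝ (fun q => S.Γ q e c) x := fun e =>
    ((hS.differentiableAt_Γ hx).clm_apply (differentiableAt_const e)).clm_apply
      (differentiableAt_const c)
  -- second derivative
  have h2 : ∀ e e' : W, fderiv ℝ (fderiv ℝ φ) x e e' =
      2 * (S.G x (S.covP (fun y : W => y) (fun q => S.covP (fun y : W => y) (fun _ => c) q e') x e) c
        + S.G x (S.Γ x e' c) (S.Γ x e c)) := by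
    intro e e'
    rw [← fderiv_fderiv_apply hφ2]
    have hev : (fun q => fderiv ℝ φ q e') =ᶠ[𝓝 x] fun q => 2 * S.G q (S.Γ q e' c) c := by
      filter_upwards [hS.mem_nhds hx] with q hq using h1 e' q hq
    rw [hev.fderiv_eq]
    have hd := hS.differentiableAt_G_comp (f := fun y : W => y) (Y := fun q => S.Γ q e' c)
      (Z := fun _ => c) hx (hid x) (hΓd e') (hcc x)
    rw [fderiv_const_mul hd, ContinuousLinearMap.smul_apply,
      hS.fderiv_G_comp (f := fun y : W => y) (Y := fun q => S.Γ q e' c)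
      (Z := fun _ => c) hx (hid x) (hΓd e') (hcc x), hY, smul_eq_mul]
    have : (fun q => S.covP (fun y : W => y) (fun _ : W => c) q e') = fun q => S.Γ q e' c := by
      funext q; exact hY e' q
    rw [this]
  have hsymm : fderiv ℝ (fderiv ℝ φ) x a b = fderiv ℝ (fderiv ℝ φ) x b a :=
    (hφ2.isSymmSndFDerivAt (by simp)).eq a b
  have hcurv := IsRiem.covP_covP_sub hS (f := fun y : W => y) (Z := fun _ => c) (p := x) hx
    contDiffAt_id contDiffAt_const a b
  simp only [fderiv_id', ContinuousLinearMap.coe_id', id_eq] at hcurv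
  rw [← hcurv, map_sub, ContinuousLinearMap.sub_apply]
  rw [h2 a b, h2 b a, hS.G_symm x hx (S.Γ x a c)] at hsymm
  linarith

/-- skew symmetry in the last two slots. -/
theorem IsRiem.G_curv_skew (hS : S.IsRiem) (hx : x ∈ S.U) (a b c d : W) :
    S.G x (S.curv x a b c) d = - S.G x (S.curv x a b d) c := by
  have h := IsRiem.G_curv_self hS hx a b (c + d)
  rw [curv_add_third] at h
  simp only [map_add, ContinuousLinearMap.add_apply] at h
  rw [IsRiem.G_curv_self hS hx a b c, IsRiem.G_curv_self hS hx a b d] at h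
  linarith

/-- pair symmetry. -/
theorem IsRiem.G_curv_pair (hS : S.IsRiem) (hx : x ∈ S.U) (a b c d : W) :
    S.G x (S.curv x a b c) d = S.G x (S.curv x c d a) b := by
  set r : W → W → W → W → ℝ := fun a b c d => S.G x (S.curv x a b c) d with hr
  have anti : ∀ a b c d, r a b c d = - r b a c d := by
    intro a b c d
    simp only [hr]
    rw [curv_antisymm, map_neg, ContinuousLinearMap.neg_apply]
  have skew : ∀ a b c d, r a b c d = - r a b d c := fun a b c d =>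
    IsRiem.G_curv_skew hS hx a b c d
  have bia : ∀ a b c d, r a b c d + r b c a d + r c a b d = 0 := by
    intro a b c d
    have := congrArg (fun v => S.G x v d) (IsRiem.curv_bianchi hS hx a b c)
    simpa only [hr, map_add, ContinuousLinearMap.add_apply, map_zero,
      ContinuousLinearMap.zero_apply] using this
  change r a b c d = r c d a b
  have B1 := bia b c a d
  have B2 := bia c a d b
  have B3 := bia a d b c
  have B4 := bia d b c a
  have s1 := skew c a d b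
  have s2 := skew b c d a
  have s3 := skew a d c b
  have s4 := skew d b a c
  have a1 := anti b a d c
  have s5 := skew a b d c
  have a2 := anti c d b a
  have s6 := skew d c b a
  have a3 := anti d c a b
  have s7 := skew a d b c
  have s8 := skew d b c a
  have s9 := skew b c a d
  have a4 := anti c d a b
  have s10 := skew c d a b
  have a5 := anti a b c d
  have a6 := anti b a c d
  have s11 := skew b a c d
  linarith

theorem IsRiem.secNum_symm (hS : S.IsRiem) (hx : x ∈ S.U) (a b : W) :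
    S.secNum x a b = S.secNum x b a :=
  IsRiem.G_curv_pair hS hx a b b a

@[simp] theorem secNum_self (S : RGeo W) (x a : W) : S.secNum x a a = 0 := by
  simp [secNum, curv_self]

theorem secNum_smul_left (S : RGeo W) (x : W) (r : ℝ) (a b : W) :
    S.secNum x (r • a) b = r ^ 2 * S.secNum x a b := by
  simp only [secNum, ← curvL_apply, map_smul, ContinuousLinearMap.smul_apply, smul_eq_mul]
  ring

theorem secNum_smul_right (S : RGeo W) (x : W) (r : ℝ) (a b : W) :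
    S.secNum x a (r • b) = r ^ 2 * S.secNum x a b := by
  simp only [secNum, ← curvL_apply, map_smul, ContinuousLinearMap.smul_apply, smul_eq_mul]
  ring

/-- only the component orthogonal to `b` matters. -/
theorem IsRiem.secNum_add_smul (hS : S.IsRiem) (hx : x ∈ S.U) (a b : W) (r : ℝ) :
    S.secNum x (a + r • b) b = S.secNum x a b := by
  have h1 : S.curv x (a + r • b) b b = S.curv x a b b := by
    simp only [← curvL_apply, map_add, map_smul, ContinuousLinearMap.add_apply,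
      ContinuousLinearMap.smul_apply]
    simp only [curvL_apply, curv_self, smul_zero, add_zero]
  simp only [secNum, h1, map_add, map_smul, smul_eq_mul, IsRiem.G_curv_self hS hx a b b, mul_zero,
    add_zero]

/-- the symmetric bilinear form `(a, a') ↦ G(R(a,b)b, a')` ("Jacobi operator" of `b`). -/
theorem IsRiem.G_curv_jacobi_symm (hS : S.IsRiem) (hx : x ∈ S.U) (a a' b : W) :
    S.G x (S.curv x a b b) a' = S.G x (S.curv x a' b b) a := by
  rw [IsRiem.G_curv_pair hS hx a b b a', curv_antisymm, map_neg, ContinuousLinearMap.neg_apply,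
    IsRiem.G_curv_skew hS hx a' b a b, neg_neg]

/-- a bound of the sectional curvatures bounds the Jacobi operator (it is `G`-symmetric). -/
theorem IsRiem.nrm_curv_le [FiniteDimensional ℝ W] (hS : S.IsRiem) (hx : x ∈ S.U) {k : ℝ} {b : W}
    (hk : ∀ a, |S.secNum x a b| ≤ k * S.G x a a) (a : W) :
    S.nrm x (S.curv x a b b) ≤ k * S.nrm x a := by
  set R : W → W := fun a => S.curv x a b b with hR
  have Radd : ∀ u v, R (u + v) = R u + R v := by
    intro u v
    simp only [hR, ← curvL_apply, map_add, ContinuousLinearMap.add_apply]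
  have Rsub : ∀ u v, R (u - v) = R u - R v := by
    intro u v
    simp only [hR, ← curvL_apply, map_sub, ContinuousLinearMap.sub_apply]
  have Rsymm : ∀ u v, S.G x (R u) v = S.G x (R v) u := fun u v =>
    IsRiem.G_curv_jacobi_symm hS hx u v b
  have hq : ∀ u, |S.G x (R u) u| ≤ k * S.G x u u := hk
  -- polarisation
  have hpol : ∀ u v, S.G x (R u) v ≤ k / 2 * (S.G x u u + S.G x v v) := by
    intro u v
    have h1 := (abs_le.1 (hq (u + v))).2
    have h2 := (abs_le.1 (hq (u - v))).1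
    rw [Radd] at h1
    rw [Rsub] at h2
    simp only [map_add, map_sub, ContinuousLinearMap.add_apply, ContinuousLinearMap.sub_apply]
      at h1 h2
    have h3 := Rsymm u v
    have h4 := hS.G_symm x hx u v
    nlinarith
  rcases eq_or_ne a 0 with rfl | ha
  · have : R 0 = 0 := by simp only [hR, ← curvL_apply, map_zero, ContinuousLinearMap.zero_apply]
    change S.nrm x (R 0) ≤ _
    rw [this]; simp
  have hapos : 0 < S.nrm x a := hS.nrm_pos hx ha
  change S.nrm x (R a) ≤ _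
  rcases eq_or_ne (R a) 0 with h0 | h0
  · rw [h0, nrm_zero]
    have hk0 : 0 ≤ k := by
      have := (abs_nonneg _).trans (hq a)
      have hG := hS.G_pos x hx a ha
      by_contra hneg
      rw [not_le] at hneg
      nlinarith
    positivity
  have hRpos : 0 < S.nrm x (R a) := hS.nrm_pos hx h0
  set s : ℝ := S.nrm x a / S.nrm x (R a) with hs
  have h := hpol a (s • R a)
  simp only [map_smul, ContinuousLinearMap.smul_apply, smul_eq_mul] at h
  rw [← hS.nrm_mul_self hx (R a), ← hS.nrm_mul_self hx a] at h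
  have e1 : s * (S.nrm x (R a) * S.nrm x (R a)) = S.nrm x a * S.nrm x (R a) := by
    rw [hs]; field_simp
  have e3 : s * (S.nrm x a * S.nrm x (R a)) = S.nrm x a * S.nrm x a := by
    rw [hs]; field_simp
  rw [e1, e3] at h
  have h' : S.nrm x a * S.nrm x (R a) ≤ S.nrm x a * (k * S.nrm x a) := by nlinarith
  exact le_of_mul_le_mul_left h' hapos

/-- curvature bounds on compact sets. -/
theorem IsRiem.exists_curv_bound [FiniteDimensional ℝ W] (hS : S.IsRiem) {K : Set W}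
    (hK : IsCompact K) (hKU : K ⊆ S.U) :
    ∃ k : ℝ, 0 < k ∧ ∀ x ∈ K, ∀ a b c,
      S.nrm x (S.curv x a b c) ≤ k * (S.nrm x a * S.nrm x b * S.nrm x c) := by
  obtain ⟨m, M, hm, hM, hb⟩ := hS.exists_bounds hK hKU
  have hcont : ContinuousOn (fun x => ‖S.curvL x‖) K :=
    ((IsRiem.contDiffOn_curvL hS).continuousOn.mono hKU).norm
  obtain ⟨C, hC⟩ := hK.bddAbove_image hcont
  have hC' : ∀ x ∈ K, ‖S.curvL x‖ ≤ max C 0 := fun x hx =>
    (hC (Set.mem_image_of_mem _ hx)).trans (le_max_left _ _)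
  refine ⟨M * (max C 0 + 1) / m ^ 3, by positivity, fun x hx a b c => ?_⟩
  have h1 : S.nrm x (S.curv x a b c) ≤ M * ‖S.curv x a b c‖ := (hb x hx _).2
  have h2 : ‖S.curv x a b c‖ ≤ (max C 0 + 1) * ‖a‖ * ‖b‖ * ‖c‖ := by
    rw [← curvL_apply]
    have := (S.curvL x).le_opNorm a
    have h3 := (S.curvL x a).le_opNorm b
    have h4 := (S.curvL x a b).le_opNorm c
    have h5 := hC' x hx
    calc ‖S.curvL x a b c‖ ≤ ‖S.curvL x a b‖ * ‖c‖ := h4
      _ ≤ (‖S.curvL x a‖ * ‖b‖) * ‖c‖ := by gcongr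
      _ ≤ ((‖S.curvL x‖ * ‖a‖) * ‖b‖) * ‖c‖ := by gcongr
      _ ≤ (((max C 0 + 1) * ‖a‖) * ‖b‖) * ‖c‖ := by gcongr; linarith
  have ha := (hb x hx a).1
  have hb' := (hb x hx b).1
  have hc := (hb x hx c).1
  have h6 : m ^ 3 * (‖a‖ * ‖b‖ * ‖c‖) ≤ S.nrm x a * S.nrm x b * S.nrm x c := by
    have : m ^ 3 * (‖a‖ * ‖b‖ * ‖c‖) = (m * ‖a‖) * (m * ‖b‖) * (m * ‖c‖) := by ring
    rw [this]
    have n1 := S.nrm_nonneg x a
    have n2 := S.nrm_nonneg x b
    gcongr
  have hpos : 0 < max C 0 + 1 := by positivity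
  calc S.nrm x (S.curv x a b c) ≤ M * ((max C 0 + 1) * ‖a‖ * ‖b‖ * ‖c‖) := h1.trans (by gcongr)
    _ = M * (max C 0 + 1) / m ^ 3 * (m ^ 3 * (‖a‖ * ‖b‖ * ‖c‖)) := by field_simp
    _ ≤ M * (max C 0 + 1) / m ^ 3 * (S.nrm x a * S.nrm x b * S.nrm x c) := by gcongr

/-- Ricci curvature `Ric(a,a) = tr (c ↦ R(c,a)a)`. -/
noncomputable def ric (S : RGeo W) (x a : W) : ℝ :=
  LinearMap.trace ℝ W ((((S.curvL x).flip a).flip a : W →L[ℝ] W) : W →ₗ[ℝ] W)

theorem ric_eq_sum (hS : S.IsRiem) (hx : x ∈ S.U) {κ : Type} [Fintype κ] {e : κ → W}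
    (he : S.IsFrame x e) (a : W) : S.ric x a = ∑ i, S.secNum x (e i) a := by
  rw [ric, he.trace_eq hS hx]
  refine Finset.sum_congr rfl fun i _ => ?_
  simp [secNum, ← curvL_apply]

@[simp] theorem restr_ric (S : RGeo W) (U' : Set W) : (S.restr U').ric = S.ric := rfl

/-! ### 5. the Hessian -/

theorem hess_eq (S : RGeo W) {u : W → ℝ} (hu : ContDiffAt ℝ 2 u x) (a b : W) :
    S.hess u x a b = fderiv ℝ (fderiv ℝ u) x a b - fderiv ℝ u x (S.Γ x a b) := by
  rw [hess, fderiv_fderiv_apply hu]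

theorem IsRiem.hess_symm (hS : S.IsRiem) (hx : x ∈ S.U) {u : W → ℝ} (hu : ContDiffAt ℝ 2 u x)
    (a b : W) : S.hess u x a b = S.hess u x b a := by
  rw [hess_eq S hu, hess_eq S hu, (hu.isSymmSndFDerivAt (by simp)).eq a b, hS.Γ_symm x hx]

theorem hess_add_left (S : RGeo W) {u : W → ℝ} (hu : ContDiffAt ℝ 2 u x) (a a' b : W) :
    S.hess u x (a + a') b = S.hess u x a b + S.hess u x a' b := by
  simp only [hess, map_add, ContinuousLinearMap.add_apply]
  ring

theorem hess_smul_left (S : RGeo W) {u : W → ℝ} (hu : ContDiffAt ℝ 2 u x) (r : ℝ) (a b : W) :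
    S.hess u x (r • a) b = r * S.hess u x a b := by
  simp only [hess, map_smul, ContinuousLinearMap.smul_apply, smul_eq_mul]
  ring

theorem hess_congr (S : RGeo W) {u v : W → ℝ} (h : u =ᶠ[𝓝 x] v) (a b : W) :
    S.hess u x a b = S.hess v x a b := by
  have h1 : (fun y => fderiv ℝ u y b) =ᶠ[𝓝 x] fun y => fderiv ℝ v y b := by
    filter_upwards [h.eventuallyEq_nhds] with y hy
    rw [hy.fderiv_eq]
  simp only [hess, h1.fderiv_eq, h.fderiv_eq]

/-- **second derivative of `u ∘ f`**: `D₁D₂(u ∘ f) = Hess u (D₁f, D₂f) + du (∇₁ D₂f)`. -/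
theorem hess_comp (S : RGeo W) {u : W → ℝ} (hu : ContDiffAt ℝ 2 u (f p)) (hf : ContDiffAt ℝ 2 f p)
    (e₁ e₂ : P) :
    fderiv ℝ (fun q => fderiv ℝ (fun r => u (f r)) q e₂) p e₁ =
      S.hess u (f p) (fderiv ℝ f p e₁) (fderiv ℝ f p e₂) +
        fderiv ℝ u (f p) (S.covP f (fun q => fderiv ℝ f q e₂) p e₁) := by
  have hfd : DifferentiableAt ℝ f p := hf.differentiableAt (by norm_num)
  have hf1 : DifferentiableAt ℝ (fderiv ℝ f) p :=
    (hf.fderiv_right (m := 1) (by norm_num)).differentiableAt (by norm_num)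
  have hu1 : DifferentiableAt ℝ (fderiv ℝ u) (f p) :=
    (hu.fderiv_right (m := 1) (by norm_num)).differentiableAt (by norm_num)
  -- near `p` the chain rule holds
  have hfev : ∀ᶠ q in 𝓝 p, DifferentiableAt ℝ f q := by
    have := hf.eventually (by simp)
    filter_upwards [this] with q hq using hq.differentiableAt (by norm_num)
  have huev : ∀ᶠ q in 𝓝 p, DifferentiableAt ℝ u (f q) := by
    have := hu.eventually (by simp)
    have h2 := hfd.continuousAt.eventually this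
    filter_upwards [h2] with q hq using hq.differentiableAt (by norm_num)
  have hev : (fun q => fderiv ℝ (fun r => u (f r)) q e₂) =ᶠ[𝓝 p]
      fun q => fderiv ℝ u (f q) (fderiv ℝ f q e₂) := by
    filter_upwards [hfev, huev] with q h1 h2
    have : fderiv ℝ (fun r => u (f r)) q = (fderiv ℝ u (f q)).comp (fderiv ℝ f q) :=
      fderiv_comp q h2 h1
    rw [this]; rfl
  rw [hev.fderiv_eq]
  have hA : HasFDerivAt (fun q => fderiv ℝ u (f q))
      ((fderiv ℝ (fderiv ℝ u) (f p)).comp (fderiv ℝ f p)) p :=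
    hu1.hasFDerivAt.comp p hfd.hasFDerivAt
  have hB : HasFDerivAt (fun q => fderiv ℝ f q e₂) ((fderiv ℝ (fderiv ℝ f) p).flip e₂) p := by
    have := hf1.hasFDerivAt.clm_apply (hasFDerivAt_const e₂ p)
    simpa using this
  rw [(hA.clm_apply hB).fderiv, hess_eq S hu]
  simp only [covP, fderiv_fderiv_apply hf, ContinuousLinearMap.add_apply,
    ContinuousLinearMap.comp_apply, ContinuousLinearMap.flip_apply, map_add]
  ring

/-- second derivative of a function along a curve. -/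
theorem hess_comp_curve (S : RGeo W) {u : W → ℝ} {c : ℝ → W} {t : ℝ}
    (hu : ContDiffAt ℝ 2 u (c t)) (hc : ContDiffAt ℝ 2 c t) :
    deriv (deriv (fun r => u (c r))) t =
      S.hess u (c t) (deriv c t) (deriv c t) + fderiv ℝ u (c t) (S.covD c (deriv c) t) := by
  have h := hess_comp S (f := c) (p := t) hu hc 1 1
  have e1 : (fun q => fderiv ℝ (fun r => u (c r)) q 1) = deriv (fun r => u (c r)) := by
    funext q; simp
  have e2 : (fun q => fderiv ℝ c q 1) = deriv c := by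
    funext q; simp
  rw [e1, e2] at h
  simpa [covD_eq_covP] using h

/-- the Hessian from the second derivative along straight lines. -/
theorem hess_eq_line (S : RGeo W) {u : W → ℝ} (hu : ContDiffAt ℝ 2 u x) (a : W) :
    S.hess u x a a =
      deriv (deriv (fun r : ℝ => u (x + r • a))) 0 - fderiv ℝ u x (S.Γ x a a) := by
  have hc : ContDiff ℝ 2 (fun r : ℝ => x + r • a) :=
    contDiff_const.add (contDiff_id.smul contDiff_const)
  have hd : ∀ r : ℝ, HasDerivAt (fun r : ℝ => x + r • a) a r := by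
    intro r
    simpa using ((hasDerivAt_id r).smul_const a).const_add x
  have hd' : deriv (fun r : ℝ => x + r • a) = fun _ => a := funext fun r => (hd r).deriv
  have h := hess_comp_curve S (u := u) (c := fun r : ℝ => x + r • a) (t := 0)
    (by simpa using hu) hc.contDiffAt
  have hcov : S.covD (fun r : ℝ => x + r • a) (deriv fun r : ℝ => x + r • a) 0 = S.Γ x a a := by
    rw [covD, hd']
    simp
  rw [h, hcov, hd']
  simp

/-- Hessian of `φ ∘ u`. -/
theorem hess_comp_left (S : RGeo W) {u : W → ℝ} {φ : ℝ → ℝ} (hu : ContDiffAt ℝ 2 u x)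
    (hφ : ContDiffAt ℝ 2 φ (u x)) (a b : W) :
    S.hess (fun y => φ (u y)) x a b =
      deriv φ (u x) * S.hess u x a b + deriv (deriv φ) (u x) * (fderiv ℝ u x a * fderiv ℝ u x b) := by
  have hud : DifferentiableAt ℝ u x := hu.differentiableAt (by norm_num)
  have hφd : DifferentiableAt ℝ φ (u x) := hφ.differentiableAt (by norm_num)
  have hu1 : DifferentiableAt ℝ (fderiv ℝ u) x :=
    (hu.fderiv_right (m := 1) (by norm_num)).differentiableAt (by norm_num)
  have hφ1 : DifferentiableAt ℝ (deriv φ) (u x) := by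
    have h1 : DifferentiableAt ℝ (fderiv ℝ φ) (u x) :=
      (hφ.fderiv_right (m := 1) (by norm_num)).differentiableAt (by norm_num)
    have : deriv φ = fun s => fderiv ℝ φ s 1 := by funext s; simp
    rw [this]
    exact h1.clm_apply (differentiableAt_const _)
  have huev : ∀ᶠ y in 𝓝 x, DifferentiableAt ℝ u y := by
    filter_upwards [hu.eventually (by simp)] with y hy using hy.differentiableAt (by norm_num)
  have hφev : ∀ᶠ y in 𝓝 x, DifferentiableAt ℝ φ (u y) := by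
    filter_upwards [hud.continuousAt.eventually (hφ.eventually (by simp))] with y hy
      using hy.differentiableAt (by norm_num)
  have hchain : ∀ y, DifferentiableAt ℝ u y → DifferentiableAt ℝ φ (u y) → ∀ e,
      fderiv ℝ (fun y => φ (u y)) y e = deriv φ (u y) * fderiv ℝ u y e := by
    intro y h1 h2 e
    have : fderiv ℝ (fun y => φ (u y)) y = (fderiv ℝ φ (u y)).comp (fderiv ℝ u y) :=
      fderiv_comp y h2 h1
    rw [this, ContinuousLinearMap.comp_apply, fderiv_eq_smul_deriv, smul_eq_mul, mul_comm]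
  have hev : (fun y => fderiv ℝ (fun y => φ (u y)) y b) =ᶠ[𝓝 x]
      fun y => deriv φ (u y) * fderiv ℝ u y b := by
    filter_upwards [huev, hφev] with y h1 h2 using hchain y h1 h2 b
  have hA : HasFDerivAt (fun y => deriv φ (u y)) (deriv (deriv φ) (u x) • fderiv ℝ u x) x :=
    hφ1.hasDerivAt.comp_hasFDerivAt x hud.hasFDerivAt
  have hB : HasFDerivAt (fun y => fderiv ℝ u y b) ((fderiv ℝ (fderiv ℝ u) x).flip b) x := by
    have := hu1.hasFDerivAt.clm_apply (hasFDerivAt_const b x)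
    simpa using this
  have hAB : fderiv ℝ (fun y => deriv φ (u y) * fderiv ℝ u y b) x = _ := (hA.mul hB).fderiv
  rw [hess, hev.fderiv_eq, hAB, hchain x hud hφd, hess_eq S hu]
  simp only [ContinuousLinearMap.add_apply, ContinuousLinearMap.smul_apply,
    ContinuousLinearMap.flip_apply, smul_eq_mul]
  ring

end RGeo
end Claimed.Agent.R316
end

/- ===== packed: Claimed.Agent.R316.Base.SV.Var ===== -/
section
/-!
# Row 316, `BP-G5`, file 1: second variation of the ENERGY of explicit trial curves in ONE chart (`RGeo`)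

Architect: helper154.  Pure real analysis on a finite dimensional real normed space `W` (the chart) with a parameter space `P`.

ROUTE OF `BP-G5` (no immersion along the geodesic, no tubular retraction, no pull-back):
the geodesic is cut into pieces each lying in ONE holomorphic parametrisation; on each piece we use the explicit family of trial curves
`F(σ,p) = c σ + X σ p + λ(σ) ra(p) + μ(σ) rb(p)`, `λ = (b-σ)/(b-a)`, `μ = (σ-a)/(b-a)`, `ra, rb = O(|p|²)`
(so `F(a,p) = c a + X a p + ra p` and `F(b,p) = c b + X b p + rb p` are PRESCRIBED end points) and its energy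
`svEn p = ∫_a^b G_F(F_σ, F_σ) dσ`.  This file: `svEn` is smooth near `0`, and its 2-jet at `0` is
* `D svEn(0) p = 2 [G(X p, c')]_a^b`,
* `D² svEn(0)(p,p) = 2 ∫_a^b (|∇_σ (X p)|² - Rm(X p, c', c', X p)) dσ + 2 [G(D²r(0)(p,p) + Γ(X p, X p), c')]_a^b`.

POINTWISE COMPUTATION (checked by hand; `sv_pointwise` below is the exact algebraic identity).  Fix `σ, p`; `u ε = F(σ, ε p)`,
`w ε = F_σ(σ, ε p)`; `u 0 = c`, `u' = X`, `u'' = Y := λ D²ra(p,p) + μ D²rb(p,p)`, `w 0 = T = c'`, `w' = X'`, `w'' = Y'`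
(primes on `X`, `Y`: derivatives in `σ`).  With `D_ε Z = Z' + Γ_u(u', Z)`: `∂_ε G_u(w,w) = 2 G(D_ε w, w)`,
`∂²_ε G_u(w,w) = 2 G(D_ε D_ε w, w) + 2 G(D_ε w, D_ε w)`; at `ε = 0`: `D_ε w = X' + Γ(X,T) = ∇_σ X` and
`D_ε D_ε w = R(X,T)X + ∇_σ (Y + Γ(X,X))`; `G(∇_σ Z, T) = ∂_σ G(Z,T)` because `∇_σ T = 0`; `G(R(X,T)X,T) = - Rm(X,T,T,X)`.

LEAVES: `G5-VAR-A` (section 1), `G5-VAR-B` (section 2), `G5-VAR-C` (section 4), `G5-VAR-D` (section 5).
-/

set_option autoImplicit false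
set_option linter.unusedSectionVars false
open scoped ContDiff Topology

namespace Claimed.Agent.R316

/-! ### 1. Parametric integrals (leaf `G5-VAR-A`)

PLAN.  `X := Set.Icc a b` (compact), `A : P → C(X, ℝ × P)`, `A p = (σ ↦ (σ, p))` is continuous affine, hence smooth;
`A p ∈ ODE.curvesIn X O` for `p ∈ N`; `ODE.contDiffOn_nem` (PROVED in `ODE/Nem.lean`) gives smoothness of `γ ↦ e ∘ γ`;
`g ↦ ∫ σ in a..b, g (Set.projIcc a b hab σ)` is a continuous linear functional on `C(X, ℝ)`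
(`ODE/Volt.lean` does this for `[0,1]`).  The derivative: `ODE.hasFDerivAt_nem` + chain rule.
(Alternative: `intervalIntegral.hasFDerivAt_integral_of_dominated_of_fderiv_le` + induction on the order.) -/

section param
variable {P : Type} [NormedAddCommGroup P] [NormedSpace ℝ P]

/-- integration over `[a,b]` as a continuous linear functional on `C(Icc a b, ℝ)`. -/
noncomputable def svInt {a b : ℝ} (hab : a ≤ b) : C(Set.Icc a b, ℝ) →L[ℝ] ℝ :=
  LinearMap.mkContinuous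
    { toFun := fun g => ∫ σ in a..b, g (Set.projIcc a b hab σ)
      map_add' := by
        intro g g'
        have h1 : Continuous fun σ => g (Set.projIcc a b hab σ) :=
          g.continuous.comp continuous_projIcc
        have h2 : Continuous fun σ => g' (Set.projIcc a b hab σ) :=
          g'.continuous.comp continuous_projIcc
        simp only [ContinuousMap.add_apply]
        exact intervalIntegral.integral_add (h1.intervalIntegrable _ _) (h2.intervalIntegrable _ _)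
      map_smul' := by
        intro r g
        simp only [ContinuousMap.smul_apply, smul_eq_mul, RingHom.id_apply]
        exact intervalIntegral.integral_const_mul _ _ }
    (b - a)
    (by
      intro g
      simp only [LinearMap.coe_mk, AddHom.coe_mk]
      have := intervalIntegral.norm_integral_le_of_norm_le_const (a := a) (b := b) (C := ‖g‖)
        (f := fun σ => g (Set.projIcc a b hab σ)) (fun σ _ => g.norm_coe_le_norm _)
      rw [abs_of_nonneg (sub_nonneg.2 hab)] at this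
      linarith [this, mul_comm ‖g‖ (b - a)])

theorem svInt_apply {a b : ℝ} (hab : a ≤ b) (g : C(Set.Icc a b, ℝ)) :
    svInt hab g = ∫ σ in a..b, g (Set.projIcc a b hab σ) := rfl

/-- constant curves. -/
noncomputable def svConst (a b : ℝ) : P →L[ℝ] C(Set.Icc a b, ℝ × P) :=
  LinearMap.mkContinuous
    { toFun := fun p => ContinuousMap.const _ ((0 : ℝ), p)
      map_add' := by intro p q; ext σ <;> simp
      map_smul' := by intro r p; ext σ <;> simp }
    1
    (by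
      intro p
      simp only [LinearMap.coe_mk, AddHom.coe_mk, one_mul]
      rw [ContinuousMap.norm_le _ (norm_nonneg _)]
      intro σ
      simp [Prod.norm_def])

theorem svConst_apply (a b : ℝ) (p : P) (σ : Set.Icc a b) : svConst a b p σ = ((0 : ℝ), p) := rfl

variable (P) in
/-- the curve `σ ↦ (σ, 0)`. -/
noncomputable def svBase (a b : ℝ) : C(Set.Icc a b, ℝ × P) :=
  ⟨fun σ => ((σ : ℝ), (0 : P)), by fun_prop⟩

theorem svBase_add_apply (a b : ℝ) (p : P) (σ : Set.Icc a b) :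
    (svBase P a b + svConst a b p) σ = ((σ : ℝ), p) := by
  simp [svBase, svConst_apply]

theorem sv_mem_curvesIn {O : Set (ℝ × P)} {N : Set P} {a b : ℝ} (hsub : Set.Icc a b ×ˢ N ⊆ O) {p : P}
    (hp : p ∈ N) : svBase P a b + svConst a b p ∈ ODE.curvesIn (Set.Icc a b) O := by
  intro σ
  rw [svBase_add_apply]
  exact hsub ⟨σ.2, hp⟩

theorem sv_integral_eq {e : ℝ × P → ℝ}
    {O : Set (ℝ × P)} {N : Set P} {a b : ℝ} (hab : a ≤ b)
    (he : ContinuousOn e O) (hsub : Set.Icc a b ×ˢ N ⊆ O) {p : P} (hp : p ∈ N) :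
    ∫ σ in a..b, e (σ, p) = svInt hab (ODE.nem e (svBase P a b + svConst a b p)) := by
  rw [svInt_apply]
  refine intervalIntegral.integral_congr fun σ hσ => ?_
  rw [Set.uIcc_of_le hab] at hσ
  rw [ODE.nem_apply he (sv_mem_curvesIn hsub hp), svBase_add_apply, Set.projIcc_of_mem hab hσ]

theorem sv_hasFDerivAt_integral {e : ℝ × P → ℝ} {O : Set (ℝ × P)} {N : Set P} {a b : ℝ} (hab : a ≤ b)
    (hO : IsOpen O) (he : ContDiffOn ℝ ∞ e O) (hN : IsOpen N) (hsub : Set.Icc a b ×ˢ N ⊆ O) {p : P}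
    (hp : p ∈ N) :
    HasFDerivAt (fun p => ∫ σ in a..b, e (σ, p))
      ((svInt hab).comp ((ODE.appL (ODE.nem (fderiv ℝ e) (svBase P a b + svConst a b p))).comp
        (svConst a b))) p := by
  have hd : DifferentiableOn ℝ e O := he.differentiableOn (by simp)
  have hc : ContinuousOn (fderiv ℝ e) O :=
    (he.fderiv_of_isOpen hO (m := 0) (by simp)).continuousOn
  have h1 := ODE.hasFDerivAt_nem (X := Set.Icc a b) hO hd hc (sv_mem_curvesIn hsub hp)
  have h2 : HasFDerivAt (fun q : P => svBase P a b + svConst a b q) (svConst (P := P) a b) p :=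
    ((svConst (P := P) a b).hasFDerivAt).const_add _
  have h3 := (svInt hab).hasFDerivAt.comp p (h1.comp p h2)
  refine h3.congr_of_eventuallyEq ?_
  filter_upwards [hN.mem_nhds hp] with q hq
  exact sv_integral_eq hab he.continuousOn hsub hq

theorem sv_contDiffOn_integral {e : ℝ × P → ℝ} {O : Set (ℝ × P)} {N : Set P} {a b : ℝ} (hab : a ≤ b)
    (hO : IsOpen O) (he : ContDiffOn ℝ ∞ e O) (hN : IsOpen N) (hsub : Set.Icc a b ×ˢ N ⊆ O) :
    ContDiffOn ℝ ∞ (fun p => ∫ σ in a..b, e (σ, p)) N := by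
  have h1 : ContDiffOn ℝ ∞ (ODE.nem (X := Set.Icc a b) e) (ODE.curvesIn (Set.Icc a b) O) :=
    ODE.contDiffOn_nem (n := ⊤) hO he
  have h2 : ContDiff ℝ ∞ (fun q : P => svBase P a b + svConst a b q) :=
    contDiff_const.add (svConst (P := P) a b).contDiff
  have h3 : ContDiffOn ℝ ∞ (fun q : P => ODE.nem e (svBase P a b + svConst a b q)) N :=
    h1.comp h2.contDiffOn fun q hq => sv_mem_curvesIn hsub hq
  have h4 := (svInt hab).contDiff.comp_contDiffOn h3
  exact h4.congr fun q hq => sv_integral_eq hab he.continuousOn hsub hq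

theorem sv_fderiv_integral {e : ℝ × P → ℝ} {O : Set (ℝ × P)} {N : Set P} {a b : ℝ} (hab : a ≤ b)
    (hO : IsOpen O) (he : ContDiffOn ℝ ∞ e O) (hN : IsOpen N) (hsub : Set.Icc a b ×ˢ N ⊆ O) {p : P}
    (hp : p ∈ N) (q : P) :
    fderiv ℝ (fun p => ∫ σ in a..b, e (σ, p)) p q = ∫ σ in a..b, fderiv ℝ e (σ, p) (0, q) := by
  rw [(sv_hasFDerivAt_integral hab hO he hN hsub hp).fderiv]
  have hc : ContinuousOn (fderiv ℝ e) O :=
    (he.fderiv_of_isOpen hO (m := 0) (by simp)).continuousOn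
  simp only [ContinuousLinearMap.comp_apply, svInt_apply, ODE.appL_apply]
  refine intervalIntegral.integral_congr fun σ hσ => ?_
  rw [Set.uIcc_of_le hab] at hσ
  rw [ODE.nem_apply hc (sv_mem_curvesIn hsub hp), svBase_add_apply, Set.projIcc_of_mem hab hσ,
    svConst_apply]

theorem sv_deriv_slice {e : ℝ × ℝ → ℝ} {O : Set (ℝ × ℝ)} (hO : IsOpen O) (he : ContDiffOn ℝ ∞ e O)
    {σ ε : ℝ} (h : (σ, ε) ∈ O) : deriv (fun ε => e (σ, ε)) ε = fderiv ℝ e (σ, ε) (0, 1) := by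
  have h1 : HasFDerivAt e (fderiv ℝ e (σ, ε)) (σ, ε) :=
    ((he.differentiableOn (by simp)).differentiableAt (hO.mem_nhds h)).hasFDerivAt
  have h2 : HasDerivAt (fun ε : ℝ => (σ, ε)) ((0 : ℝ), (1 : ℝ)) ε :=
    (hasDerivAt_const ε σ).prodMk (hasDerivAt_id ε)
  exact (h1.comp_hasDerivAt ε h2).deriv

theorem sv_contDiffOn_fderiv_apply {e : ℝ × ℝ → ℝ} {O : Set (ℝ × ℝ)} (hO : IsOpen O)
    (he : ContDiffOn ℝ ∞ e O) : ContDiffOn ℝ ∞ (fun q => fderiv ℝ e q (0, 1)) O :=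
  (he.fderiv_of_isOpen hO (m := ∞) (by simp)).clm_apply contDiffOn_const

theorem sv_deriv_integral {e : ℝ × ℝ → ℝ} {O : Set (ℝ × ℝ)} {a b : ℝ} (hab : a ≤ b)
    (hO : IsOpen O) (he : ContDiffOn ℝ ∞ e O) (hsub : Set.Icc a b ×ˢ {(0 : ℝ)} ⊆ O) :
    deriv (fun ε => ∫ σ in a..b, e (σ, ε)) 0 = ∫ σ in a..b, deriv (fun ε => e (σ, ε)) 0 ∧
    deriv (deriv fun ε => ∫ σ in a..b, e (σ, ε)) 0 =
      ∫ σ in a..b, deriv (deriv fun ε => e (σ, ε)) 0 := by
  obtain ⟨u, N, hu, hN, hau, h0N, huN⟩ :=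
    generalized_tube_lemma isCompact_Icc isCompact_singleton hO hsub
  have hsubN : Set.Icc a b ×ˢ N ⊆ O := (Set.prod_mono hau le_rfl).trans huN
  have h0 : (0 : ℝ) ∈ N := h0N rfl
  have key : ∀ {e' : ℝ × ℝ → ℝ}, ContDiffOn ℝ ∞ e' O → ∀ ε ∈ N,
      deriv (fun ε => ∫ σ in a..b, e' (σ, ε)) ε = ∫ σ in a..b, fderiv ℝ e' (σ, ε) (0, 1) :=
    fun {e'} he' ε hε => sv_fderiv_integral hab hO he' hN hsubN hε 1
  have he₁ := sv_contDiffOn_fderiv_apply hO he
  constructor
  · rw [key he 0 h0]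
    refine intervalIntegral.integral_congr fun σ hσ => ?_
    rw [Set.uIcc_of_le hab] at hσ
    exact (sv_deriv_slice hO he (hsubN ⟨hσ, h0⟩)).symm
  · have h1 : deriv (fun ε => ∫ σ in a..b, e (σ, ε)) =ᶠ[𝓝 0]
        fun ε => ∫ σ in a..b, fderiv ℝ e (σ, ε) (0, 1) := by
      filter_upwards [hN.mem_nhds h0] with ε hε
      exact key he ε hε
    rw [h1.deriv_eq, key he₁ 0 h0]
    refine intervalIntegral.integral_congr fun σ hσ => ?_
    rw [Set.uIcc_of_le hab] at hσ
    have h2 : deriv (fun ε => e (σ, ε)) =ᶠ[𝓝 0] fun ε => fderiv ℝ e (σ, ε) (0, 1) := by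
      filter_upwards [hN.mem_nhds h0] with ε hε
      exact sv_deriv_slice hO he (hsubN ⟨hσ, hε⟩)
    rw [h2.deriv_eq]
    exact (sv_deriv_slice hO he₁ (hsubN ⟨hσ, h0⟩)).symm

theorem sv_sq_integral_sqrt_le {f : ℝ → ℝ} {a b : ℝ} (hab : a ≤ b) (hf : ContinuousOn f (Set.Icc a b))
    (h0 : ∀ σ ∈ Set.Icc a b, 0 ≤ f σ) :
    (∫ σ in a..b, Real.sqrt (f σ)) ^ 2 ≤ (b - a) * ∫ σ in a..b, f σ := by
  rcases hab.eq_or_lt with rfl | hlt
  · simp
  have hu : Set.uIcc a b = Set.Icc a b := Set.uIcc_of_le hab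
  have hs : ContinuousOn (fun σ => Real.sqrt (f σ)) (Set.Icc a b) := hf.sqrt
  have i1 : IntervalIntegrable f MeasureTheory.volume a b := (hu ▸ hf).intervalIntegrable
  have i2 : IntervalIntegrable (fun σ => Real.sqrt (f σ)) MeasureTheory.volume a b :=
    (hu ▸ hs).intervalIntegrable
  set A := ∫ σ in a..b, Real.sqrt (f σ) with hA
  set m := A / (b - a) with hm
  have hba : 0 < b - a := sub_pos.2 hlt
  have h1 : 0 ≤ ∫ σ in a..b, (Real.sqrt (f σ) - m) ^ 2 :=
    intervalIntegral.integral_nonneg hab fun σ _ => sq_nonneg _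
  have h2 : ∫ σ in a..b, (Real.sqrt (f σ) - m) ^ 2 =
      ∫ σ in a..b, (f σ - (2 * m) * Real.sqrt (f σ) + m ^ 2) := by
    refine intervalIntegral.integral_congr fun σ hσ => ?_
    rw [hu] at hσ
    have := Real.sq_sqrt (h0 σ hσ)
    nlinarith [this]
  rw [h2, intervalIntegral.integral_add (i1.sub (i2.const_mul _)) intervalIntegrable_const,
    intervalIntegral.integral_sub i1 (i2.const_mul _), intervalIntegral.integral_const_mul,
    intervalIntegral.integral_const, smul_eq_mul, ← hA] at h1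
  have h3 : A = m * (b - a) := by rw [hm]; field_simp
  nlinarith [h1, h3, hba]

end param

variable {W : Type} [NormedAddCommGroup W] [NormedSpace ℝ W] [FiniteDimensional ℝ W]

/-! ### 2. Second derivative of `ε ↦ G_u(w,w)` (leaf `G5-VAR-B`)

No second derivative of `G` is ever written (`fderiv ℝ (fderiv ℝ S.G)` needs `maxSynthPendingDepth 3`): everything goes through the
covariant product rule `RGeo.IsRiem.hasDerivAt_G` of `BP-G1` (`RGeo/Cov.lean`; use the statements of `RGeo/Basic.lean`, `RGeo/Cov.lean` as black boxes).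

PLAN.  `u ε ∈ U` for `ε` near `0`; `IsRiem.hasDerivAt_G` at all such `ε` gives `deriv (fun ε => G_u(w,w)) ε = 2 G_u(covD u w ε, w ε)` (`G_symm`);
apply it once more at `0` with `Y = covD u w` (differentiable at `0`: `w'`, `u'` are `C¹`, `Γ` is smooth at `u 0`); finally
`deriv (covD u w) 0 = w'' + DΓ(u')(u',w) + Γ(u'',w) + Γ(u',w')` (chain rule for `Γ ∘ u`, `HasDerivAt.clm_apply` twice). -/

section tensor

variable {S : RGeo W}

/-- **the pointwise identity** behind the second variation formula: `D_ε D_ε T = R(X,T)X + ∇_σ (Y + Γ(X,X))`. -/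
theorem sv_pointwise (hS : S.IsRiem) {x : W} (hx : x ∈ S.U) (T X X' Y Y' : W) :
    Y' + fderiv ℝ S.Γ x X X T + S.Γ x Y T + (2 : ℝ) • S.Γ x X X' + S.Γ x X (S.Γ x X T) =
      S.curv x X T X +
        (Y' + fderiv ℝ S.Γ x T X X + (2 : ℝ) • S.Γ x X' X + S.Γ x T (Y + S.Γ x X X)) := by
  unfold RGeo.curv
  rw [hS.fderiv_Γ_symm hx X X T, hS.Γ_symm x hx Y T, hS.Γ_symm x hx X X', hS.Γ_symm x hx X T,
    map_add]
  abel

theorem sv_contDiffAt_deriv {u : ℝ → W} {t : ℝ} (hu : ContDiffAt ℝ 2 u t) :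
    ContDiffAt ℝ 1 (deriv u) t := by
  have h1 : ContDiffAt ℝ 1 (fderiv ℝ u) t := hu.fderiv_right (m := 1) (by norm_num)
  exact h1.clm_apply contDiffAt_const

/-- the first derivative near `0`. -/
theorem sv_eventually_deriv_G (hS : S.IsRiem) {u w : ℝ → W} (hu : ContDiffAt ℝ 2 u 0)
    (hw : ContDiffAt ℝ 2 w 0) (h0 : u 0 ∈ S.U) :
    ∀ᶠ ε in 𝓝 (0 : ℝ), HasDerivAt (fun ε => S.G (u ε) (w ε) (w ε))
      (2 * S.G (u ε) (S.covD u w ε) (w ε)) ε := by
  have hU : ∀ᶠ ε in 𝓝 (0 : ℝ), u ε ∈ S.U := hu.continuousAt.eventually (hS.isOpen.mem_nhds h0)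
  have h1 : ∀ᶠ ε in 𝓝 (0 : ℝ), ContDiffAt ℝ 2 u ε := hu.eventually (by simp)
  have h2 : ∀ᶠ ε in 𝓝 (0 : ℝ), ContDiffAt ℝ 2 w ε := hw.eventually (by simp)
  filter_upwards [hU, h1, h2] with ε hε h1 h2
  have h3 := hS.hasDerivAt_G hε (h1.differentiableAt (by norm_num))
    (h2.differentiableAt (by norm_num)) (h2.differentiableAt (by norm_num))
  rw [hS.G_symm _ hε (w ε) (S.covD u w ε), ← two_mul] at h3
  exact h3

theorem sv_deriv_G (hS : S.IsRiem) {u w : ℝ → W} (hu : ContDiffAt ℝ 2 u 0) (hw : ContDiffAt ℝ 2 w 0)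
    (h0 : u 0 ∈ S.U) :
    deriv (fun ε => S.G (u ε) (w ε) (w ε)) 0 =
      2 * S.G (u 0) (deriv w 0 + S.Γ (u 0) (deriv u 0) (w 0)) (w 0) :=
  (sv_eventually_deriv_G hS hu hw h0).self_of_nhds.deriv

set_option maxSynthPendingDepth 3 in
theorem sv_hasDerivAt_covD (hS : S.IsRiem) {u w : ℝ → W} (hu : ContDiffAt ℝ 2 u 0)
    (hw : ContDiffAt ℝ 2 w 0) (h0 : u 0 ∈ S.U) :
    HasDerivAt (S.covD u w) (deriv (deriv w) 0 + (fderiv ℝ S.Γ (u 0) (deriv u 0) (deriv u 0) (w 0) +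
      S.Γ (u 0) (deriv (deriv u) 0) (w 0) + S.Γ (u 0) (deriv u 0) (deriv w 0))) 0 := by
  have hu1 : HasDerivAt u (deriv u 0) 0 := (hu.differentiableAt (by norm_num)).hasDerivAt
  have hw1 : HasDerivAt w (deriv w 0) 0 := (hw.differentiableAt (by norm_num)).hasDerivAt
  have hu2 : HasDerivAt (deriv u) (deriv (deriv u) 0) 0 :=
    ((sv_contDiffAt_deriv hu).differentiableAt (by norm_num)).hasDerivAt
  have hw2 : HasDerivAt (deriv w) (deriv (deriv w) 0) 0 :=
    ((sv_contDiffAt_deriv hw).differentiableAt (by norm_num)).hasDerivAt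
  have hΓ : HasDerivAt (fun ε => S.Γ (u ε)) (fderiv ℝ S.Γ (u 0) (deriv u 0)) 0 :=
    (hS.differentiableAt_Γ h0).hasFDerivAt.comp_hasDerivAt 0 hu1
  have h1 := (hΓ.clm_apply hu2).clm_apply hw1
  have h2 := hw2.add h1
  simp only [add_apply] at h2
  exact h2

theorem sv_deriv2_G (hS : S.IsRiem) {u w : ℝ → W} (hu : ContDiffAt ℝ 2 u 0) (hw : ContDiffAt ℝ 2 w 0)
    (h0 : u 0 ∈ S.U) :
    deriv (deriv fun ε => S.G (u ε) (w ε) (w ε)) 0 =
      2 * S.G (u 0) (deriv (deriv w) 0 + fderiv ℝ S.Γ (u 0) (deriv u 0) (deriv u 0) (w 0) +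
          S.Γ (u 0) (deriv (deriv u) 0) (w 0) + (2 : ℝ) • S.Γ (u 0) (deriv u 0) (deriv w 0) +
          S.Γ (u 0) (deriv u 0) (S.Γ (u 0) (deriv u 0) (w 0))) (w 0) +
      2 * S.G (u 0) (deriv w 0 + S.Γ (u 0) (deriv u 0) (w 0))
          (deriv w 0 + S.Γ (u 0) (deriv u 0) (w 0)) := by
  have h1 : deriv (fun ε => S.G (u ε) (w ε) (w ε)) =ᶠ[𝓝 0]
      fun ε => 2 * S.G (u ε) (S.covD u w ε) (w ε) :=
    (sv_eventually_deriv_G hS hu hw h0).mono fun ε h => h.deriv
  have hY := sv_hasDerivAt_covD hS hu hw h0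
  have h2 := hS.hasDerivAt_G h0 (hu.differentiableAt (by norm_num)) hY.differentiableAt
    (hw.differentiableAt (by norm_num))
  have e1 : S.covD u (S.covD u w) 0 =
      deriv (deriv w) 0 + fderiv ℝ S.Γ (u 0) (deriv u 0) (deriv u 0) (w 0) +
          S.Γ (u 0) (deriv (deriv u) 0) (w 0) + (2 : ℝ) • S.Γ (u 0) (deriv u 0) (deriv w 0) +
          S.Γ (u 0) (deriv u 0) (S.Γ (u 0) (deriv u 0) (w 0)) := by
    rw [RGeo.covD, hY.deriv, RGeo.covD, map_add, two_smul]
    abel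
  have e2 : S.covD u w 0 = deriv w 0 + S.Γ (u 0) (deriv u 0) (w 0) := rfl
  rw [h1.deriv_eq, (h2.const_mul 2).deriv, mul_add, e1, e2]
end tensor

/-! ### 3. The trial family: definitions -/

section family

variable {P : Type} [NormedAddCommGroup P] [NormedSpace ℝ P] [FiniteDimensional ℝ P]

/-- the trial family `F(σ,p) = c σ + X σ p + λ(σ) ra(p) + μ(σ) rb(p)`. -/
noncomputable def svF (c : ℝ → W) (X : ℝ → P →L[ℝ] W) (ra rb : P → W) (a b : ℝ) (q : ℝ × P) : W :=
  c q.1 + X q.1 q.2 + ((b - q.1) / (b - a)) • ra q.2 + ((q.1 - a) / (b - a)) • rb q.2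

/-- its derivative in `σ`. -/
noncomputable def svFd (c : ℝ → W) (X : ℝ → P →L[ℝ] W) (ra rb : P → W) (a b : ℝ) (q : ℝ × P) : W :=
  deriv c q.1 + deriv X q.1 q.2 + (1 / (b - a)) • (rb q.2 - ra q.2)

/-- the energy density. -/
noncomputable def svDen (S : RGeo W) (c : ℝ → W) (X : ℝ → P →L[ℝ] W) (ra rb : P → W) (a b : ℝ)
    (q : ℝ × P) : ℝ :=
  S.G (svF c X ra rb a b q) (svFd c X ra rb a b q) (svFd c X ra rb a b q)

/-- the energy of the trial curve with parameter `p`. -/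
noncomputable def svEn (S : RGeo W) (c : ℝ → W) (X : ℝ → P →L[ℝ] W) (ra rb : P → W) (a b : ℝ)
    (p : P) : ℝ :=
  ∫ σ in a..b, svDen S c X ra rb a b (σ, p)

/-- the hypotheses on the data of a trial family. -/
structure SvData (S : RGeo W) (c : ℝ → W) (X : ℝ → P →L[ℝ] W) (ra rb : P → W) (N : Set P)
    (t₀ t₁ a b : ℝ) : Prop where
  riem : S.IsRiem
  geod : S.IsGeod c (Set.Ioo t₀ t₁)
  hX : ContDiffOn ℝ ∞ X (Set.Ioo t₀ t₁)
  ht₀ : t₀ < a
  hab : a < b
  ht₁ : b < t₁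
  hN : IsOpen N
  h0 : (0 : P) ∈ N
  hra : ContDiffOn ℝ ∞ ra N
  hrb : ContDiffOn ℝ ∞ rb N
  ra0 : ra 0 = 0
  rb0 : rb 0 = 0
  dra0 : fderiv ℝ ra 0 = 0
  drb0 : fderiv ℝ rb 0 = 0

variable {S : RGeo W} {c : ℝ → W} {X : ℝ → P →L[ℝ] W} {ra rb : P → W} {N : Set P} {t₀ t₁ a b : ℝ}

theorem svF_left (hab : a < b) (p : P) : svF c X ra rb a b (a, p) = c a + X a p + ra p := by
  have h : b - a ≠ 0 := sub_ne_zero.2 hab.ne'
  simp [svF, div_self h]

theorem svF_right (hab : a < b) (p : P) : svF c X ra rb a b (b, p) = c b + X b p + rb p := by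
  have h : b - a ≠ 0 := sub_ne_zero.2 hab.ne'
  simp [svF, div_self h]

/-! ### 4. Regularity of the trial family (leaf `G5-VAR-C`)

PLAN.  `svF`, `svFd` are smooth on `Ioo t₀ t₁ ×ˢ N` (sums/products of smooth maps; `(σ,p) ↦ X σ p` by `ContDiffOn.clm_apply`; `deriv c`, `deriv X`
are smooth on the open interval: `ContDiffOn.deriv_of_isOpen`).  `O := {q ∈ Ioo t₀ t₁ ×ˢ N | svF q ∈ S.U}` is open and contains
`Icc a b ×ˢ {0}` (`svF (σ,0) = c σ`); `generalized_tube_lemma` gives `N'`.  `svDen` is smooth on `O`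
(`G` smooth on `U`, `ContDiffOn.clm_apply`).  Then `sv_contDiffOn_integral`. -/

theorem SvData.svF_zero (D : SvData S c X ra rb N t₀ t₁ a b) (σ : ℝ) :
    svF c X ra rb a b (σ, 0) = c σ := by
  simp [svF, D.ra0, D.rb0]

theorem SvData.svFd_zero (D : SvData S c X ra rb N t₀ t₁ a b) (σ : ℝ) :
    svFd c X ra rb a b (σ, 0) = deriv c σ := by
  simp [svFd, D.ra0, D.rb0]

theorem SvData.hasDerivAt_svF (D : SvData S c X ra rb N t₀ t₁ a b) {σ : ℝ} (hσ : σ ∈ Set.Ioo t₀ t₁)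
    (p : P) : HasDerivAt (fun s => svF c X ra rb a b (s, p)) (svFd c X ra rb a b (σ, p)) σ := by
  have hn : Set.Ioo t₀ t₁ ∈ 𝓝 σ := isOpen_Ioo.mem_nhds hσ
  have h1 : HasDerivAt c (deriv c σ) σ :=
    ((D.geod.1.contDiffAt hn).differentiableAt (by simp)).hasDerivAt
  have h2 : HasDerivAt X (deriv X σ) σ :=
    ((D.hX.contDiffAt hn).differentiableAt (by simp)).hasDerivAt
  have h2' : HasDerivAt (fun s => X s p) (deriv X σ p) σ := by
    simpa using h2.clm_apply (hasDerivAt_const σ p)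
  have h3 : HasDerivAt (fun s => ((b - s) / (b - a)) • ra p) ((-1 / (b - a)) • ra p) σ :=
    (((hasDerivAt_id σ).const_sub b).div_const (b - a)).smul_const (ra p)
  have h4 : HasDerivAt (fun s => ((s - a) / (b - a)) • rb p) ((1 / (b - a)) • rb p) σ :=
    (((hasDerivAt_id σ).sub_const a).div_const (b - a)).smul_const (rb p)
  have h5 := ((h1.add h2').add h3).add h4
  have e : svFd c X ra rb a b (σ, p) =
      deriv c σ + deriv X σ p + (-1 / (b - a)) • ra p + (1 / (b - a)) • rb p := by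
    simp only [svFd, smul_sub, neg_div, neg_smul]
    abel
  rw [e]
  exact h5

theorem SvData.contDiffOn_svF (D : SvData S c X ra rb N t₀ t₁ a b) :
    ContDiffOn ℝ ∞ (svF c X ra rb a b) (Set.Ioo t₀ t₁ ×ˢ N) := by
  have m1 : Set.MapsTo (Prod.fst : ℝ × P → ℝ) (Set.Ioo t₀ t₁ ×ˢ N) (Set.Ioo t₀ t₁) := fun q hq => hq.1
  have m2 : Set.MapsTo (Prod.snd : ℝ × P → P) (Set.Ioo t₀ t₁ ×ˢ N) N := fun q hq => hq.2
  have h1 : ContDiffOn ℝ ∞ (fun q : ℝ × P => c q.1) (Set.Ioo t₀ t₁ ×ˢ N) :=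
    D.geod.1.comp contDiffOn_fst m1
  have h2 : ContDiffOn ℝ ∞ (fun q : ℝ × P => X q.1 q.2) (Set.Ioo t₀ t₁ ×ˢ N) :=
    (D.hX.comp contDiffOn_fst m1).clm_apply contDiffOn_snd
  have h3 : ContDiffOn ℝ ∞ (fun q : ℝ × P => ra q.2) (Set.Ioo t₀ t₁ ×ˢ N) :=
    D.hra.comp contDiffOn_snd m2
  have h4 : ContDiffOn ℝ ∞ (fun q : ℝ × P => rb q.2) (Set.Ioo t₀ t₁ ×ˢ N) :=
    D.hrb.comp contDiffOn_snd m2
  have s1 : ContDiff ℝ ∞ (fun q : ℝ × P => (b - q.1) / (b - a)) := by fun_prop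
  have s2 : ContDiff ℝ ∞ (fun q : ℝ × P => (q.1 - a) / (b - a)) := by fun_prop
  exact ((h1.add h2).add (s1.contDiffOn.smul h3)).add (s2.contDiffOn.smul h4)

theorem SvData.contDiffOn_svF_curve (D : SvData S c X ra rb N t₀ t₁ a b) (p : P) :
    ContDiffOn ℝ ∞ (fun s => svF c X ra rb a b (s, p)) (Set.Ioo t₀ t₁) := by
  have h2 : ContDiffOn ℝ ∞ (fun s : ℝ => X s p) (Set.Ioo t₀ t₁) := D.hX.clm_apply contDiffOn_const
  have s1 : ContDiff ℝ ∞ (fun s : ℝ => (b - s) / (b - a)) := by fun_prop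
  have s2 : ContDiff ℝ ∞ (fun s : ℝ => (s - a) / (b - a)) := by fun_prop
  exact ((D.geod.1.add h2).add (s1.contDiffOn.smul (contDiffOn_const (c := ra p)))).add
    (s2.contDiffOn.smul (contDiffOn_const (c := rb p)))

theorem SvData.contDiffOn_svFd (D : SvData S c X ra rb N t₀ t₁ a b) :
    ContDiffOn ℝ ∞ (svFd c X ra rb a b) (Set.Ioo t₀ t₁ ×ˢ N) := by
  have m1 : Set.MapsTo (Prod.fst : ℝ × P → ℝ) (Set.Ioo t₀ t₁ ×ˢ N) (Set.Ioo t₀ t₁) := fun q hq => hq.1
  have m2 : Set.MapsTo (Prod.snd : ℝ × P → P) (Set.Ioo t₀ t₁ ×ˢ N) N := fun q hq => hq.2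
  have d1 : ContDiffOn ℝ ∞ (deriv c) (Set.Ioo t₀ t₁) :=
    D.geod.1.deriv_of_isOpen isOpen_Ioo (by simp)
  have d2 : ContDiffOn ℝ ∞ (deriv X) (Set.Ioo t₀ t₁) := D.hX.deriv_of_isOpen isOpen_Ioo (by simp)
  have h1 : ContDiffOn ℝ ∞ (fun q : ℝ × P => deriv c q.1) (Set.Ioo t₀ t₁ ×ˢ N) :=
    d1.comp contDiffOn_fst m1
  have h2 : ContDiffOn ℝ ∞ (fun q : ℝ × P => deriv X q.1 q.2) (Set.Ioo t₀ t₁ ×ˢ N) :=
    (d2.comp contDiffOn_fst m1).clm_apply contDiffOn_snd
  have h3 : ContDiffOn ℝ ∞ (fun q : ℝ × P => ra q.2) (Set.Ioo t₀ t₁ ×ˢ N) :=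
    D.hra.comp contDiffOn_snd m2
  have h4 : ContDiffOn ℝ ∞ (fun q : ℝ × P => rb q.2) (Set.Ioo t₀ t₁ ×ˢ N) :=
    D.hrb.comp contDiffOn_snd m2
  exact (h1.add h2).add ((h4.sub h3).const_smul _)

theorem SvData.exists_open (D : SvData S c X ra rb N t₀ t₁ a b) :
    ∃ O : Set (ℝ × P), IsOpen O ∧ O ⊆ Set.Ioo t₀ t₁ ×ˢ N ∧ Set.Icc a b ×ˢ {(0 : P)} ⊆ O ∧
      (∀ q ∈ O, svF c X ra rb a b q ∈ S.U) ∧ ContDiffOn ℝ ∞ (svDen S c X ra rb a b) O := by
  have hF := D.contDiffOn_svF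
  have hFd := D.contDiffOn_svFd
  have hop : IsOpen (Set.Ioo t₀ t₁ ×ˢ N) := isOpen_Ioo.prod D.hN
  refine ⟨(Set.Ioo t₀ t₁ ×ˢ N) ∩ svF c X ra rb a b ⁻¹' S.U,
    hF.continuousOn.isOpen_inter_preimage hop D.riem.isOpen, Set.inter_subset_left, ?_,
    fun q hq => hq.2, ?_⟩
  · rintro ⟨σ, p⟩ ⟨hσ, hp⟩
    have hp0 : p = 0 := hp
    subst hp0
    have hσ' : σ ∈ Set.Ioo t₀ t₁ := ⟨D.ht₀.trans_le hσ.1, hσ.2.trans_lt D.ht₁⟩
    refine ⟨⟨hσ', D.h0⟩, ?_⟩
    show svF c X ra rb a b (σ, 0) ∈ S.U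
    rw [D.svF_zero]
    exact D.geod.2.1 σ hσ'
  · have h1 : ContDiffOn ℝ ∞ (fun q => S.G (svF c X ra rb a b q))
        ((Set.Ioo t₀ t₁ ×ˢ N) ∩ svF c X ra rb a b ⁻¹' S.U) :=
      D.riem.G_smooth.comp (hF.mono Set.inter_subset_left) fun q hq => hq.2
    exact (h1.clm_apply (hFd.mono Set.inter_subset_left)).clm_apply (hFd.mono Set.inter_subset_left)

theorem SvData.exists_nhds (D : SvData S c X ra rb N t₀ t₁ a b) :
    ∃ N' : Set P, IsOpen N' ∧ (0 : P) ∈ N' ∧ N' ⊆ N ∧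
      (∀ p ∈ N', ∀ σ ∈ Set.Icc a b, svF c X ra rb a b (σ, p) ∈ S.U) ∧
      (∀ p ∈ N', ContinuousOn (fun σ => svDen S c X ra rb a b (σ, p)) (Set.Icc a b)) ∧
      ContDiffOn ℝ ∞ (svEn S c X ra rb a b) N' := by
  obtain ⟨O, hO, hOsub, hO0, hOU, hden⟩ := D.exists_open
  obtain ⟨u, N', hu, hN', hau, h0N, huN⟩ :=
    generalized_tube_lemma isCompact_Icc isCompact_singleton hO hO0
  have hsub : Set.Icc a b ×ˢ N' ⊆ O := (Set.prod_mono hau le_rfl).trans huN
  refine ⟨N', hN', h0N rfl, fun p hp => ?_, fun p hp σ hσ => hOU _ (hsub ⟨hσ, hp⟩), fun p hp => ?_,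
    sv_contDiffOn_integral D.hab.le hO hden hN' hsub⟩
  · exact (hOsub (hsub (show (a, p) ∈ Set.Icc a b ×ˢ N' from
      ⟨Set.left_mem_Icc.2 D.hab.le, hp⟩))).2
  · exact hden.continuousOn.comp (by fun_prop) fun σ hσ => hsub ⟨hσ, hp⟩

/-! ### 5. The 2-jet of the energy (leaf `G5-VAR-D`)

PLAN.  Fix `p`; `e (σ, ε) := svDen (σ, ε • p)` is smooth on the open preimage of `O` (`SvData.exists_open`) under `(σ,ε) ↦ (σ, ε • p)`;
`sv_deriv_integral` moves `deriv`, `deriv ∘ deriv` inside.  For `σ ∈ Icc a b`: `u ε = svF (σ, ε • p)`, `w ε = svFd (σ, ε • p)`;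
`deriv u 0 = X σ p`, `deriv (deriv u) 0 = Y σ`, `deriv w 0 = deriv X σ p`, `deriv (deriv w) 0 = deriv Y σ` with `Y = svY`
(second derivative of `ε ↦ ra (ε • p)` at `0` is `D²ra(0)(p,p)`: `lv_snd_line` of `CW/Levi.lean` or directly; first derivative is `0` by `dra0`).
`sv_deriv_G`/`sv_deriv2_G` + `sv_pointwise` + `IsRiem.G_curv_skew` + `IsRiem.hasDerivAt_G` (with `covD c c' = 0` from `IsGeod`) identify the integrand with
`2 (…) + 2 d/dσ [G(Y + Γ(X p,X p), c')]`; fundamental theorem of calculus (`intervalIntegral.integral_eq_sub_of_hasDerivAt`).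
Passage from `deriv` along `ε ↦ ε • p` to `fderiv`: chain rule, `svEn` is smooth near `0` (`SvData.exists_nhds`). -/

/-- the second order part of the family. -/
noncomputable def svY (ra rb : P → W) (a b : ℝ) (p : P) (σ : ℝ) : W :=
  ((b - σ) / (b - a)) • fderiv ℝ (fderiv ℝ ra) 0 p p + ((σ - a) / (b - a)) • fderiv ℝ (fderiv ℝ rb) 0 p p

theorem SvData.svEn_zero (D : SvData S c X ra rb N t₀ t₁ a b) :
    svEn S c X ra rb a b 0 = ∫ σ in a..b, S.G (c σ) (deriv c σ) (deriv c σ) := by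
  simp [svEn, svDen, D.svF_zero, D.svFd_zero]

/-- jets of a map along a line through the origin. -/
theorem sv_line_jets {F : Type} [NormedAddCommGroup F] [NormedSpace ℝ F] {g : P → F}
    (hg : ContDiffAt ℝ 2 g 0) (p : P) :
    ContDiffAt ℝ 2 (fun ε : ℝ => g (ε • p)) 0 ∧ deriv (fun ε : ℝ => g (ε • p)) 0 = fderiv ℝ g 0 p ∧
      deriv (deriv fun ε : ℝ => g (ε • p)) 0 = fderiv ℝ (fderiv ℝ g) 0 p p := by
  have hline : ∀ s : ℝ, HasDerivAt (fun s : ℝ => s • p) p s := fun s => by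
    simpa using (hasDerivAt_id s).smul_const p
  have hl2 : ContDiff ℝ 2 (fun s : ℝ => s • p) := contDiff_id.smul contDiff_const
  have hg0 : ContDiffAt ℝ 2 g ((0 : ℝ) • p) := by simpa using hg
  have hc : ContinuousAt (fun s : ℝ => s • p) 0 := (hline 0).continuousAt
  have hev : ∀ᶠ y in 𝓝 ((0 : ℝ) • p), DifferentiableAt ℝ g y :=
    (hg0.eventually (by simp)).mono fun _ h => h.differentiableAt (by norm_num)
  have h1 : deriv (fun s : ℝ => g (s • p)) =ᶠ[𝓝 0] fun s => fderiv ℝ g (s • p) p := by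
    filter_upwards [hc.eventually hev] with s hs
    exact (hs.hasFDerivAt.comp_hasDerivAt s (hline s)).deriv
  have h3 : DifferentiableAt ℝ (fderiv ℝ g) ((0 : ℝ) • p) :=
    (hg0.fderiv_right (m := 1) (by norm_num)).differentiableAt (by norm_num)
  have h4 : HasDerivAt (fun s : ℝ => fderiv ℝ g (s • p))
      (fderiv ℝ (fderiv ℝ g) ((0 : ℝ) • p) p) 0 :=
    h3.hasFDerivAt.comp_hasDerivAt 0 (hline 0)
  have h5 : HasDerivAt (fun s : ℝ => fderiv ℝ g (s • p) p)
      (fderiv ℝ (fderiv ℝ g) ((0 : ℝ) • p) p p) 0 := by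
    have := h4.clm_apply (hasDerivAt_const (0 : ℝ) p)
    simpa using this
  refine ⟨hg0.comp (0 : ℝ) hl2.contDiffAt, ?_, ?_⟩
  · have := h1.self_of_nhds
    simpa using this
  · rw [h1.deriv_eq, h5.deriv, zero_smul]

/-- jets of `ε ↦ k + ε • v + λ • A ε + μ • B ε`. -/
theorem sv_comb_jets {A B : ℝ → W} (hA : ContDiffAt ℝ 2 A 0) (hB : ContDiffAt ℝ 2 B 0) (k v : W)
    (lam mu : ℝ) :
    ContDiffAt ℝ 2 (fun ε : ℝ => k + ε • v + lam • A ε + mu • B ε) 0 ∧
    deriv (fun ε : ℝ => k + ε • v + lam • A ε + mu • B ε) 0 = v + lam • deriv A 0 + mu • deriv B 0 ∧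
    deriv (deriv fun ε : ℝ => k + ε • v + lam • A ε + mu • B ε) 0 =
      lam • deriv (deriv A) 0 + mu • deriv (deriv B) 0 := by
  have key : ∀ ε : ℝ, DifferentiableAt ℝ A ε → DifferentiableAt ℝ B ε →
      HasDerivAt (fun ε : ℝ => k + ε • v + lam • A ε + mu • B ε)
        (v + lam • deriv A ε + mu • deriv B ε) ε := by
    intro ε h1 h2
    have h3 : HasDerivAt (fun ε : ℝ => k + ε • v) v ε := by
      simpa using ((hasDerivAt_id ε).smul_const v).const_add k
    exact (h3.add (h1.hasDerivAt.const_smul lam)).add (h2.hasDerivAt.const_smul mu)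
  have eA : ∀ᶠ ε in 𝓝 (0 : ℝ), DifferentiableAt ℝ A ε :=
    (hA.eventually (by simp)).mono fun _ h => h.differentiableAt (by norm_num)
  have eB : ∀ᶠ ε in 𝓝 (0 : ℝ), DifferentiableAt ℝ B ε :=
    (hB.eventually (by simp)).mono fun _ h => h.differentiableAt (by norm_num)
  have h1 : deriv (fun ε : ℝ => k + ε • v + lam • A ε + mu • B ε) =ᶠ[𝓝 0]
      fun ε => v + lam • deriv A ε + mu • deriv B ε := by
    filter_upwards [eA, eB] with ε h1 h2
    exact (key ε h1 h2).deriv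
  have dA : HasDerivAt (deriv A) (deriv (deriv A) 0) 0 :=
    ((sv_contDiffAt_deriv hA).differentiableAt (by norm_num)).hasDerivAt
  have dB : HasDerivAt (deriv B) (deriv (deriv B) 0) 0 :=
    ((sv_contDiffAt_deriv hB).differentiableAt (by norm_num)).hasDerivAt
  have h2 : HasDerivAt (fun ε => v + lam • deriv A ε + mu • deriv B ε)
      (lam • deriv (deriv A) 0 + mu • deriv (deriv B) 0) 0 := by
    have := ((dA.const_smul lam).const_add v).add (dB.const_smul mu)
    exact this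
  refine ⟨?_, h1.self_of_nhds, by rw [h1.deriv_eq, h2.deriv]⟩
  exact ((contDiffAt_const.add (contDiffAt_id.smul contDiffAt_const)).add
    (hA.const_smul lam)).add (hB.const_smul mu)

/-- the jets of the two curves `ε ↦ svF (σ, ε • p)`, `ε ↦ svFd (σ, ε • p)`. -/
theorem SvData.jets (D : SvData S c X ra rb N t₀ t₁ a b) (p : P) (σ : ℝ) :
    (ContDiffAt ℝ 2 (fun ε : ℝ => svF c X ra rb a b (σ, ε • p)) 0 ∧
      deriv (fun ε : ℝ => svF c X ra rb a b (σ, ε • p)) 0 = X σ p ∧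
      deriv (deriv fun ε : ℝ => svF c X ra rb a b (σ, ε • p)) 0 = svY ra rb a b p σ) ∧
    (ContDiffAt ℝ 2 (fun ε : ℝ => svFd c X ra rb a b (σ, ε • p)) 0 ∧
      deriv (fun ε : ℝ => svFd c X ra rb a b (σ, ε • p)) 0 = deriv X σ p ∧
      deriv (deriv fun ε : ℝ => svFd c X ra rb a b (σ, ε • p)) 0 =
        (-1 / (b - a)) • fderiv ℝ (fderiv ℝ ra) 0 p p + (1 / (b - a)) • fderiv ℝ (fderiv ℝ rb) 0 p p) := by
  have hn : N ∈ 𝓝 (0 : P) := D.hN.mem_nhds D.h0
  have hra : ContDiffAt ℝ 2 ra 0 := (D.hra.contDiffAt hn).of_le ENat.LEInfty.out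
  have hrb : ContDiffAt ℝ 2 rb 0 := (D.hrb.contDiffAt hn).of_le ENat.LEInfty.out
  obtain ⟨a1, a2, a3⟩ := sv_line_jets hra p
  obtain ⟨b1, b2, b3⟩ := sv_line_jets hrb p
  rw [D.dra0] at a2
  rw [D.drb0] at b2
  have e1 : (fun ε : ℝ => svF c X ra rb a b (σ, ε • p)) = fun ε : ℝ =>
      c σ + ε • X σ p + ((b - σ) / (b - a)) • ra (ε • p) + ((σ - a) / (b - a)) • rb (ε • p) := by
    funext ε
    simp [svF]
  have e2 : (fun ε : ℝ => svFd c X ra rb a b (σ, ε • p)) = fun ε : ℝ =>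
      deriv c σ + ε • deriv X σ p + (-1 / (b - a)) • ra (ε • p) + (1 / (b - a)) • rb (ε • p) := by
    funext ε
    simp only [svFd, smul_sub, neg_div, neg_smul, map_smul]
    abel
  obtain ⟨u1, u2, u3⟩ := sv_comb_jets a1 b1 (c σ) (X σ p) ((b - σ) / (b - a)) ((σ - a) / (b - a))
  obtain ⟨w1, w2, w3⟩ := sv_comb_jets a1 b1 (deriv c σ) (deriv X σ p) (-1 / (b - a)) (1 / (b - a))
  rw [e1, e2]
  refine ⟨⟨u1, ?_, ?_⟩, ⟨w1, ?_, ?_⟩⟩
  · rw [u2, a2, b2]; simp
  · rw [u3, a3, b3]; rfl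
  · rw [w2, a2, b2]; simp
  · rw [w3, a3, b3]

theorem SvData.hasDerivAt_svY (p : P) (σ : ℝ) :
    HasDerivAt (svY ra rb a b p) ((-1 / (b - a)) • fderiv ℝ (fderiv ℝ ra) 0 p p +
      (1 / (b - a)) • fderiv ℝ (fderiv ℝ rb) 0 p p) σ := by
  have h3 : HasDerivAt (fun s => ((b - s) / (b - a)) • fderiv ℝ (fderiv ℝ ra) 0 p p)
      ((-1 / (b - a)) • fderiv ℝ (fderiv ℝ ra) 0 p p) σ :=
    (((hasDerivAt_id σ).const_sub b).div_const (b - a)).smul_const _
  have h4 : HasDerivAt (fun s => ((s - a) / (b - a)) • fderiv ℝ (fderiv ℝ rb) 0 p p)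
      ((1 / (b - a)) • fderiv ℝ (fderiv ℝ rb) 0 p p) σ :=
    (((hasDerivAt_id σ).sub_const a).div_const (b - a)).smul_const _
  exact h3.add h4

/-- derivatives of the data along the geodesic. -/
theorem SvData.hasDerivAt_data (D : SvData S c X ra rb N t₀ t₁ a b) (p : P) {σ : ℝ}
    (hσ : σ ∈ Set.Ioo t₀ t₁) :
    HasDerivAt c (deriv c σ) σ ∧ DifferentiableAt ℝ (deriv c) σ ∧
      HasDerivAt (fun s => X s p) (deriv X σ p) σ := by
  have hn : Set.Ioo t₀ t₁ ∈ 𝓝 σ := isOpen_Ioo.mem_nhds hσ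
  have h1 : HasDerivAt c (deriv c σ) σ :=
    ((D.geod.1.contDiffAt hn).differentiableAt (by simp)).hasDerivAt
  have h2 : HasDerivAt X (deriv X σ) σ :=
    ((D.hX.contDiffAt hn).differentiableAt (by simp)).hasDerivAt
  have h2' : HasDerivAt (fun s => X s p) (deriv X σ p) σ := by
    simpa using h2.clm_apply (hasDerivAt_const σ p)
  have d1 : ContDiffOn ℝ ∞ (deriv c) (Set.Ioo t₀ t₁) :=
    D.geod.1.deriv_of_isOpen isOpen_Ioo (by simp)
  exact ⟨h1, (d1.contDiffAt hn).differentiableAt (by simp), h2'⟩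

/-- pointwise first variation. -/
theorem SvData.deriv_svDen (D : SvData S c X ra rb N t₀ t₁ a b) (p : P) {σ : ℝ}
    (hσ : σ ∈ Set.Ioo t₀ t₁) :
    deriv (fun ε : ℝ => svDen S c X ra rb a b (σ, ε • p)) 0 =
      2 * deriv (fun s => S.G (c s) (X s p) (deriv c s)) σ := by
  obtain ⟨⟨u1, u2, u3⟩, ⟨w1, w2, w3⟩⟩ := D.jets p σ
  obtain ⟨c1, c2, x1⟩ := D.hasDerivAt_data p hσ
  have hU : c σ ∈ S.U := D.geod.2.1 σ hσ
  have h0 : (fun ε : ℝ => svF c X ra rb a b (σ, ε • p)) 0 ∈ S.U := by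
    simpa [D.svF_zero] using hU
  have h1 := sv_deriv_G D.riem u1 w1 h0
  have h2 := D.riem.hasDerivAt_G hU c1.differentiableAt x1.differentiableAt c2
  rw [D.geod.2.2 σ hσ, map_zero, add_zero] at h2
  rw [h2.deriv]
  simp only [svDen]
  rw [h1, u2, w2]
  simp only [zero_smul, D.svF_zero, D.svFd_zero, RGeo.covD]
  rw [x1.deriv, D.riem.Γ_symm _ hU]

set_option maxSynthPendingDepth 3 in
/-- derivative of `s ↦ Γ_{c s}(X s p, X s p)`. -/
theorem SvData.hasDerivAt_ΓXX (D : SvData S c X ra rb N t₀ t₁ a b) (p : P) {σ : ℝ}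
    (hσ : σ ∈ Set.Ioo t₀ t₁) :
    HasDerivAt (fun s => S.Γ (c s) (X s p) (X s p))
      (fderiv ℝ S.Γ (c σ) (deriv c σ) (X σ p) (X σ p) + (2 : ℝ) • S.Γ (c σ) (deriv X σ p) (X σ p)) σ := by
  obtain ⟨c1, c2, x1⟩ := D.hasDerivAt_data p hσ
  have hU : c σ ∈ S.U := D.geod.2.1 σ hσ
  have hΓ : HasDerivAt (fun s => S.Γ (c s)) (fderiv ℝ S.Γ (c σ) (deriv c σ)) σ :=
    (D.riem.differentiableAt_Γ hU).hasFDerivAt.comp_hasDerivAt σ c1
  have h1 := (hΓ.clm_apply x1).clm_apply x1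
  have e : fderiv ℝ S.Γ (c σ) (deriv c σ) (X σ p) (X σ p) + (2 : ℝ) • S.Γ (c σ) (deriv X σ p) (X σ p) =
      (fderiv ℝ S.Γ (c σ) (deriv c σ) (X σ p) + S.Γ (c σ) (deriv X σ p)) (X σ p) +
        S.Γ (c σ) (X σ p) (deriv X σ p) := by
    rw [D.riem.Γ_symm _ hU (X σ p) (deriv X σ p), two_smul, add_apply]
    abel
  rw [e]
  exact h1

/-- pointwise second variation. -/
theorem SvData.deriv2_svDen (D : SvData S c X ra rb N t₀ t₁ a b) (p : P) {σ : ℝ}
    (hσ : σ ∈ Set.Ioo t₀ t₁) :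
    deriv (deriv fun ε : ℝ => svDen S c X ra rb a b (σ, ε • p)) 0 =
      2 * (S.G (c σ) (S.covD c (fun s => X s p) σ) (S.covD c (fun s => X s p) σ) -
        S.secNum (c σ) (X σ p) (deriv c σ)) +
      2 * deriv (fun s => S.G (c s) (svY ra rb a b p s + S.Γ (c s) (X s p) (X s p)) (deriv c s)) σ := by
  obtain ⟨⟨u1, u2, u3⟩, ⟨w1, w2, w3⟩⟩ := D.jets p σ
  obtain ⟨c1, c2, x1⟩ := D.hasDerivAt_data p hσ
  have hU : c σ ∈ S.U := D.geod.2.1 σ hσ
  have h0 : (fun ε : ℝ => svF c X ra rb a b (σ, ε • p)) 0 ∈ S.U := by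
    simpa [D.svF_zero] using hU
  have h1 := sv_deriv2_G D.riem u1 w1 h0
  have hZ := (SvData.hasDerivAt_svY (ra := ra) (rb := rb) (a := a) (b := b) p σ).add
    (D.hasDerivAt_ΓXX p hσ)
  have h2 := D.riem.hasDerivAt_G hU c1.differentiableAt hZ.differentiableAt c2
  rw [D.geod.2.2 σ hσ, map_zero, add_zero] at h2
  have h2' : deriv (fun s => S.G (c s) (svY ra rb a b p s + S.Γ (c s) (X s p) (X s p)) (deriv c s)) σ
      = _ := h2.deriv
  rw [h2']
  simp only [svDen]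
  rw [h1, u2, w2, u3, w3]
  simp only [zero_smul, D.svF_zero, D.svFd_zero]
  rw [sv_pointwise D.riem hU, map_add, add_apply,
    D.riem.G_curv_skew hU]
  have e1 : S.covD c (fun s => X s p) σ = deriv X σ p + S.Γ (c σ) (X σ p) (deriv c σ) := by
    rw [RGeo.covD, x1.deriv, D.riem.Γ_symm _ hU]
  have e2 : S.covD c (svY ra rb a b p + fun s => S.Γ (c s) (X s p) (X s p)) σ =
      (-1 / (b - a)) • fderiv ℝ (fderiv ℝ ra) 0 p p + (1 / (b - a)) • fderiv ℝ (fderiv ℝ rb) 0 p p +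
        fderiv ℝ S.Γ (c σ) (deriv c σ) (X σ p) (X σ p) + (2 : ℝ) • S.Γ (c σ) (deriv X σ p) (X σ p) +
        S.Γ (c σ) (deriv c σ) (svY ra rb a b p σ + S.Γ (c σ) (X σ p) (X σ p)) := by
    rw [RGeo.covD, hZ.deriv]
    simp only [Pi.add_apply]
    abel
  rw [e1, e2, RGeo.secNum]
  ring

/-- fundamental theorem of calculus for a function which is smooth on a larger interval. -/
theorem sv_ftc {f : ℝ → ℝ} {t₀ t₁ a b : ℝ} (hf : ContDiffOn ℝ ∞ f (Set.Ioo t₀ t₁)) (h0 : t₀ < a)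
    (hab : a ≤ b) (h1 : b < t₁) :
    IntervalIntegrable (deriv f) MeasureTheory.volume a b ∧ ∫ σ in a..b, deriv f σ = f b - f a := by
  have hsub : Set.uIcc a b ⊆ Set.Ioo t₀ t₁ := by
    rw [Set.uIcc_of_le hab]
    exact fun x hx => ⟨h0.trans_le hx.1, hx.2.trans_lt h1⟩
  have d1 : ContDiffOn ℝ ∞ (deriv f) (Set.Ioo t₀ t₁) := hf.deriv_of_isOpen isOpen_Ioo (by simp)
  have hi : IntervalIntegrable (deriv f) MeasureTheory.volume a b :=
    (d1.continuousOn.mono hsub).intervalIntegrable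
  refine ⟨hi, intervalIntegral.integral_eq_sub_of_hasDerivAt (fun x hx => ?_) hi⟩
  exact ((hf.contDiffAt (isOpen_Ioo.mem_nhds (hsub hx))).differentiableAt (by simp)).hasDerivAt

/-- differentiation of the energy along a line under the integral sign. -/
theorem SvData.deriv_svEn_line (D : SvData S c X ra rb N t₀ t₁ a b) (p : P) :
    deriv (fun ε : ℝ => svEn S c X ra rb a b (ε • p)) 0 =
      ∫ σ in a..b, deriv (fun ε : ℝ => svDen S c X ra rb a b (σ, ε • p)) 0 ∧
    deriv (deriv fun ε : ℝ => svEn S c X ra rb a b (ε • p)) 0 =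
      ∫ σ in a..b, deriv (deriv fun ε : ℝ => svDen S c X ra rb a b (σ, ε • p)) 0 := by
  obtain ⟨O, hO, hOsub, hO0, hOU, hden⟩ := D.exists_open
  have hm : ContDiff ℝ ∞ (fun q : ℝ × ℝ => ((q.1, q.2 • p) : ℝ × P)) :=
    contDiff_fst.prodMk (contDiff_snd.smul contDiff_const)
  have h := sv_deriv_integral (e := fun q : ℝ × ℝ => svDen S c X ra rb a b (q.1, q.2 • p))
    (O := (fun q : ℝ × ℝ => ((q.1, q.2 • p) : ℝ × P)) ⁻¹' O) D.hab.le (hO.preimage hm.continuous)
    (hden.comp hm.contDiffOn fun q hq => hq) ?_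
  · exact h
  · rintro ⟨σ, ε⟩ ⟨hσ, hε⟩
    have hε0 : ε = 0 := hε
    subst hε0
    apply hO0
    exact ⟨hσ, by simp⟩

/-- smoothness of the data along the geodesic. -/
theorem SvData.contDiffOn_data (D : SvData S c X ra rb N t₀ t₁ a b) (p : P) :
    ContDiffOn ℝ ∞ (deriv c) (Set.Ioo t₀ t₁) ∧ ContDiffOn ℝ ∞ (fun s => X s p) (Set.Ioo t₀ t₁) ∧
      ContDiffOn ℝ ∞ (S.covD c fun s => X s p) (Set.Ioo t₀ t₁) ∧
      ContDiffOn ℝ ∞ (svY ra rb a b p) (Set.Ioo t₀ t₁) := by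
  have d1 : ContDiffOn ℝ ∞ (deriv c) (Set.Ioo t₀ t₁) :=
    D.geod.1.deriv_of_isOpen isOpen_Ioo (by simp)
  have h2 : ContDiffOn ℝ ∞ (fun s : ℝ => X s p) (Set.Ioo t₀ t₁) := D.hX.clm_apply contDiffOn_const
  have d2 : ContDiffOn ℝ ∞ (deriv fun s : ℝ => X s p) (Set.Ioo t₀ t₁) :=
    h2.deriv_of_isOpen isOpen_Ioo (by simp)
  have s1 : ContDiff ℝ ∞ (fun s : ℝ => (b - s) / (b - a)) := by fun_prop
  have s2 : ContDiff ℝ ∞ (fun s : ℝ => (s - a) / (b - a)) := by fun_prop
  refine ⟨d1, h2, d2.add (D.riem.contDiffOn_Γ_comp le_rfl D.geod.1 D.geod.2.1 d1 h2), ?_⟩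
  exact ((s1.smul contDiff_const).add (s2.smul contDiff_const)).contDiffOn

/-- **first variation of the energy.** -/
theorem SvData.fderiv_svEn (D : SvData S c X ra rb N t₀ t₁ a b) (p : P) :
    fderiv ℝ (svEn S c X ra rb a b) 0 p =
      2 * (S.G (c b) (X b p) (deriv c b) - S.G (c a) (X a p) (deriv c a)) := by
  obtain ⟨N', hN', h0N', -, -, -, hEn⟩ := D.exists_nhds
  have hE : ContDiffAt ℝ 2 (svEn S c X ra rb a b) 0 :=
    (hEn.contDiffAt (hN'.mem_nhds h0N')).of_le ENat.LEInfty.out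
  obtain ⟨d1, h2, -, -⟩ := D.contDiffOn_data p
  have hf : ContDiffOn ℝ ∞ (fun s => S.G (c s) (X s p) (deriv c s)) (Set.Ioo t₀ t₁) :=
    D.riem.contDiffOn_G_comp le_rfl D.geod.1 D.geod.2.1 h2 d1
  obtain ⟨-, i2⟩ := sv_ftc hf D.ht₀ D.hab.le D.ht₁
  rw [← (sv_line_jets hE p).2.1, (D.deriv_svEn_line p).1, ← i2,
    ← intervalIntegral.integral_const_mul]
  refine intervalIntegral.integral_congr fun σ hσ => ?_
  rw [Set.uIcc_of_le D.hab.le] at hσ
  exact D.deriv_svDen p ⟨D.ht₀.trans_le hσ.1, hσ.2.trans_lt D.ht₁⟩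

/-- **second variation of the energy.** -/
theorem SvData.fderiv2_svEn (D : SvData S c X ra rb N t₀ t₁ a b) (p : P) :
    fderiv ℝ (fderiv ℝ (svEn S c X ra rb a b)) 0 p p =
      2 * (∫ σ in a..b, (S.G (c σ) (S.covD c (fun s => X s p) σ) (S.covD c (fun s => X s p) σ) -
        S.secNum (c σ) (X σ p) (deriv c σ))) +
      2 * S.G (c b) (fderiv ℝ (fderiv ℝ rb) 0 p p + S.Γ (c b) (X b p) (X b p)) (deriv c b) -
      2 * S.G (c a) (fderiv ℝ (fderiv ℝ ra) 0 p p + S.Γ (c a) (X a p) (X a p)) (deriv c a) := by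
  obtain ⟨N', hN', h0N', -, -, -, hEn⟩ := D.exists_nhds
  have hE : ContDiffAt ℝ 2 (svEn S c X ra rb a b) 0 :=
    (hEn.contDiffAt (hN'.mem_nhds h0N')).of_le ENat.LEInfty.out
  obtain ⟨d1, h2, h3, h4⟩ := D.contDiffOn_data p
  have hsub : Set.uIcc a b ⊆ Set.Ioo t₀ t₁ := by
    rw [Set.uIcc_of_le D.hab.le]
    exact fun x hx => ⟨D.ht₀.trans_le hx.1, hx.2.trans_lt D.ht₁⟩
  have hf : ContDiffOn ℝ ∞
      (fun s => S.G (c s) (svY ra rb a b p s + S.Γ (c s) (X s p) (X s p)) (deriv c s))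
      (Set.Ioo t₀ t₁) :=
    D.riem.contDiffOn_G_comp le_rfl D.geod.1 D.geod.2.1
      (h4.add (D.riem.contDiffOn_Γ_comp le_rfl D.geod.1 D.geod.2.1 h2 h2)) d1
  obtain ⟨i1, i2⟩ := sv_ftc hf D.ht₀ D.hab.le D.ht₁
  have hA : ContDiffOn ℝ ∞ (fun σ => S.G (c σ) (S.covD c (fun s => X s p) σ)
      (S.covD c (fun s => X s p) σ) - S.secNum (c σ) (X σ p) (deriv c σ)) (Set.Ioo t₀ t₁) :=
    (D.riem.contDiffOn_G_comp le_rfl D.geod.1 D.geod.2.1 h3 h3).sub
      (D.riem.contDiffOn_G_comp le_rfl D.geod.1 D.geod.2.1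
        (D.riem.contDiffOn_curv_comp D.geod.1 D.geod.2.1 h2 d1 d1) h2)
  have iA := (hA.continuousOn.mono hsub).intervalIntegrable (μ := MeasureTheory.volume)
  have hb : b - a ≠ 0 := sub_ne_zero.2 D.hab.ne'
  have ea : svY ra rb a b p a = fderiv ℝ (fderiv ℝ ra) 0 p p := by simp [svY, div_self hb]
  have eb : svY ra rb a b p b = fderiv ℝ (fderiv ℝ rb) 0 p p := by simp [svY, div_self hb]
  have key : ∫ σ in a..b, deriv (deriv fun ε : ℝ => svDen S c X ra rb a b (σ, ε • p)) 0 =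
      ∫ σ in a..b, (2 * (S.G (c σ) (S.covD c (fun s => X s p) σ) (S.covD c (fun s => X s p) σ) -
        S.secNum (c σ) (X σ p) (deriv c σ)) + 2 * deriv (fun s => S.G (c s)
          (svY ra rb a b p s + S.Γ (c s) (X s p) (X s p)) (deriv c s)) σ) :=
    intervalIntegral.integral_congr fun σ hσ => D.deriv2_svDen p (hsub hσ)
  rw [← (sv_line_jets hE p).2.2, (D.deriv_svEn_line p).2, key,
    intervalIntegral.integral_add (iA.const_mul 2) (i1.const_mul 2),
    intervalIntegral.integral_const_mul, intervalIntegral.integral_const_mul, i2, ea, eb]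
  ring

end family

end Claimed.Agent.R316
end
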