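/- Packed by merge_tool.py (helper293): 4 modules of Claimed.Agent.R316 in one file, same declarations.
   Old modules, in this order: B9.Shi, B9.QLDefs, B9.QLCalc, B9.CalDefs -/
import Claimed.Agent.R316.CW.Levi
import Claimed.Agent.R316.CW.MatAlg
import Claimed.Agent.R316.Pack004
import Claimed.Agent.R316.Pack016

/- ===== packed: Claimed.Agent.R316.B9.Shi ===== -/
section
/-!
# Row 316, package B9 (sub-captain helper31): the Bernstein-Shi maximum principle scheme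

EVERY derivative estimate of B9 (Calabi's third order estimate AND all higher order estimates) is an
instance of ONE scalar lemma.  Data on a cylinder: two smooth scalar functions `p` ("lower energy",
`0 ≤ p ≤ M`), `s` ("upper energy", `0 ≤ s`), a function `y ≥ 0`, a diffusion operator `𝓛` with carré du
champ `Γ` (`𝓛(fg) = f𝓛g + g𝓛f + 2Γ(f,g)`), with

  (i)   `(∂_t - 𝓛) p ≤ - c s + C₁`,
  (ii)  `(∂_t - 𝓛) s ≤ - y + C₂ (1 + s^{3/2})`,
  (iii) `Γ(p,p) ≤ C₄ s`, `Γ(s,s) ≤ C₄ s y`.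

Then `s` is bounded in the interior: test `Φ = η (B + p) s`, `B = 4 C₄²/c + 1`, `η` a cutoff.

## Leaves
* `shi_alg`  (B9-SHI-ALG): the inequality between real numbers at the maximum point.  PROOF.
  `B := 4 C₄²/c + 1`.  With `|γηp| ≤ √(C₃η C₄ s)` etc. and `2ab ≤ a²/2 + 2b²`:
  `-2 s γηp ≤ 2 √(C₃C₄) s^{3/2} η^{1/2}`, `-2 (B+p) γηs ≤ (B+p) (η y / 2 + 2 C₃ C₄ s)`,
  `-2 η γps ≤ η (B y / 2 + 2 C₄² s² / B)`.  The `y` terms add up to `- η y p / 2 ≤ 0`, the `s²` terms to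
  `≤ - (c/2) η s²`.  Multiply by `η`; with `X = η s`, `η ≤ 1`:
  `(c/2) X² ≤ a₁ X + a₂ X^{3/2} + a₃`, so `X ≤ 1 + (2 (a₁+a₂+a₃)/c)²`.
  (Avoid `rpow`: `s^{3/2} = s * √s`; put `r = √s`, `e = √η` and use `nlinarith`/`positivity`.)
* `shi_mp`   (B9-SHI-MP): abstract maximum principle.  `Φ t x = η t x * ((B + p t x) * s t x)` is continuous on the
  compact set `Icc t₀ t₁ ×ˢ Z`; take a maximum point `(t*,x*)`.  If `t* = t₀`: `Φ ≤ (B+M) S₀`.  If
  `x* ∉ interior Z`: `Φ = 0`.  Otherwise `Φ (t*, ·)` has a local max at `x*` (`L_max`), `deriv ≥ 0` in time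
  (`deriv_nonneg_of_max_left`), expand with `L_mul`, `G_mul_left` and apply `shi_alg`.
* `diffu_real`, `diffu_cplx` (B9-SHI-INST): the two instances of `Diffu`.
* `shi_local_real`, `shi_local_cplx` (B9-SHI-LOC): cutoffs `η = θ(t) ζ(x)²`, `ζ` a `ContDiffBump`, derivative
  bounds of `ζ` by compactness; for (b) apply `shi_mp` on `[t* - δ, t*]` with `θ(t) = (t - t* + δ)/δ`.
-/

set_option autoImplicit false
set_option maxSynthPendingDepth 3
open scoped ContDiff ComplexOrder Topology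

namespace Claimed.Agent.R316.B9

theorem shi_young1 (a b : ℝ) : 2 * (a * b) ≤ a ^ 2 / 2 + 2 * b ^ 2 := by
  nlinarith [sq_nonneg (a - 2 * b)]

theorem shi_young2 (B w q : ℝ) (hB : 0 < B) : 2 * (q * w) ≤ B * w ^ 2 / 2 + 2 * q ^ 2 / B := by
  have h : 2 * q ^ 2 / B = 2 * (q / B) ^ 2 * B := by field_simp
  rw [h]
  have : q = (q / B) * B := by field_simp
  set v := q / B
  rw [this]
  nlinarith [sq_nonneg (w - 2 * v), mul_nonneg hB.le (sq_nonneg (w - 2 * v))]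

/-- the polynomial core: from the combined inequality to the bound. -/
theorem shi_core (c a₁ a₂ a₃ e r : ℝ) (hc : 0 < c) (h1 : 0 ≤ a₁) (h2 : 0 ≤ a₂) (h3 : 0 ≤ a₃)
    (he0 : 0 ≤ e) (he1 : e ≤ 1) (hr0 : 0 ≤ r)
    (h : c / 2 * (e ^ 2 * r ^ 4) ≤ a₁ * r ^ 2 + a₂ * (e * r ^ 3) + a₃ * e ^ 2) :
    e ^ 2 * r ^ 2 ≤ 1 + (2 * (a₁ + a₂ + a₃) / c) ^ 2 := by
  set x : ℝ := e * r with hx
  have hx0 : 0 ≤ x := by positivity
  have hX : e ^ 2 * r ^ 2 = x ^ 2 := by rw [hx]; ring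
  rw [hX]
  set a := a₁ + a₂ + a₃ with ha
  by_contra hcon
  rw [not_le] at hcon
  have hx1 : 1 < x ^ 2 := by nlinarith [sq_nonneg (2 * a / c)]
  have hx1' : 1 < x := by nlinarith
  have e2 : 0 ≤ e ^ 2 := by positivity
  have e21 : e ^ 2 ≤ 1 := by nlinarith
  have e41 : e ^ 4 ≤ 1 := by nlinarith
  have x2 : x ^ 2 ≤ x ^ 3 := by nlinarith
  have x0 : 1 ≤ x ^ 3 := by nlinarith
  have m0 := mul_le_mul_of_nonneg_left h e2
  have l0 : e ^ 2 * (c / 2 * (e ^ 2 * r ^ 4)) = c / 2 * x ^ 4 := by rw [hx]; ring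
  have l1 : e ^ 2 * (a₁ * r ^ 2 + a₂ * (e * r ^ 3) + a₃ * e ^ 2)
      = a₁ * x ^ 2 + a₂ * x ^ 3 + a₃ * e ^ 4 := by rw [hx]; ring
  rw [l0, l1] at m0
  have v1 : a₁ * x ^ 2 ≤ a₁ * x ^ 3 := mul_le_mul_of_nonneg_left x2 h1
  have v3 : a₃ * e ^ 4 ≤ a₃ * x ^ 3 := mul_le_mul_of_nonneg_left (e41.trans x0) h3
  have hm : c / 2 * x * x ^ 3 ≤ a * x ^ 3 := by
    have : a * x ^ 3 = a₁ * x ^ 3 + a₂ * x ^ 3 + a₃ * x ^ 3 := by rw [ha]; ring
    have t : c / 2 * x * x ^ 3 = c / 2 * x ^ 4 := by ring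
    rw [this, t]; linarith
  have hx3 : 0 < x ^ 3 := by positivity
  have hxa : c / 2 * x ≤ a := le_of_mul_le_mul_right hm hx3
  have hxa' : x ≤ 2 * a / c := by
    rw [le_div_iff₀ hc]; linarith
  have : x ^ 2 ≤ (2 * a / c) ^ 2 := pow_le_pow_left₀ hx0 hxa' 2
  linarith

/-- **B9-SHI-ALG.** -/
theorem shi_alg (c C₁ C₂ C₃ C₄ M : ℝ) (hc : 0 < c) (h1 : 0 ≤ C₁) (h2 : 0 ≤ C₂) (h3 : 0 ≤ C₃)
    (h4 : 0 ≤ C₄) (hM : 0 ≤ M) :
    ∃ B X₀ : ℝ, 0 < B ∧ 0 ≤ X₀ ∧ ∀ η p s y P₁ S₁ H₁ γηp γηs γps : ℝ,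
      0 ≤ η → η ≤ 1 → 0 ≤ p → p ≤ M → 0 ≤ s → 0 ≤ y →
      P₁ ≤ - c * s + C₁ → S₁ ≤ - y + C₂ * (1 + s * Real.sqrt s) → H₁ ≤ C₃ →
      γηp ^ 2 ≤ (C₃ * η) * (C₄ * s) → γηs ^ 2 ≤ (C₃ * η) * (C₄ * s * y) →
      γps ^ 2 ≤ (C₄ * s) * (C₄ * s * y) →
      0 ≤ H₁ * ((B + p) * s) + η * (P₁ * s) + η * ((B + p) * S₁)
          - 2 * (s * γηp + (B + p) * γηs + η * γps) →
      η * s ≤ X₀ := by
  obtain ⟨B, hBpos, hBc⟩ : ∃ B : ℝ, 0 < B ∧ 4 * C₄ ^ 2 ≤ c * B := by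
    refine ⟨4 * C₄ ^ 2 / c + 1, by positivity, ?_⟩
    have : c * (4 * C₄ ^ 2 / c + 1) = 4 * C₄ ^ 2 + c := by field_simp
    rw [this]; linarith
  obtain ⟨k, hk0, hk2⟩ : ∃ k : ℝ, 0 ≤ k ∧ k ^ 2 = C₃ * C₄ :=
    ⟨Real.sqrt (C₃ * C₄), Real.sqrt_nonneg _, Real.sq_sqrt (mul_nonneg h3 h4)⟩
  obtain ⟨bb, hbb⟩ : ∃ bb : ℝ, bb = B + M := ⟨_, rfl⟩
  have hbb0 : 0 < bb := by rw [hbb]; positivity
  refine ⟨B, 1 + (2 * ((C₃ * bb + C₁ + 2 * bb * k ^ 2) + (bb * C₂ + 2 * k) + bb * C₂) / c) ^ 2,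
    hBpos, by positivity, ?_⟩
  intro η p s y P₁ S₁ H₁ γηp γηs γps hη0 hη1 hp0 hpM hs0 hy0 hP hS hH g1 g2 g3 hmain
  obtain ⟨e, he0, rfl⟩ : ∃ e : ℝ, 0 ≤ e ∧ η = e ^ 2 :=
    ⟨Real.sqrt η, Real.sqrt_nonneg _, (Real.sq_sqrt hη0).symm⟩
  obtain ⟨r, hr0, rfl⟩ : ∃ r : ℝ, 0 ≤ r ∧ s = r ^ 2 :=
    ⟨Real.sqrt s, Real.sqrt_nonneg _, (Real.sq_sqrt hs0).symm⟩
  obtain ⟨w, hw0, rfl⟩ : ∃ w : ℝ, 0 ≤ w ∧ y = w ^ 2 :=
    ⟨Real.sqrt y, Real.sqrt_nonneg _, (Real.sq_sqrt hy0).symm⟩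
  rw [Real.sqrt_sq hr0] at hS
  have he1 : e ≤ 1 := by
    have : e ^ 2 ≤ 1 ^ 2 := by simpa using hη1
    exact (pow_le_pow_iff_left₀ he0 zero_le_one (by norm_num)).1 this
  have a1 : |γηp| ≤ k * e * r := by
    apply abs_le_of_sq_le_sq _ (by positivity)
    calc γηp ^ 2 ≤ (C₃ * e ^ 2) * (C₄ * r ^ 2) := g1
      _ = (k * e * r) ^ 2 := by rw [mul_pow, mul_pow, hk2]; ring
  have a2 : |γηs| ≤ k * e * r * w := by
    apply abs_le_of_sq_le_sq _ (by positivity)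
    calc γηs ^ 2 ≤ (C₃ * e ^ 2) * (C₄ * r ^ 2 * w ^ 2) := g2
      _ = (k * e * r * w) ^ 2 := by rw [mul_pow, mul_pow, mul_pow, hk2]; ring
  have a3 : |γps| ≤ C₄ * r ^ 2 * w := by
    apply abs_le_of_sq_le_sq _ (by positivity)
    calc γps ^ 2 ≤ (C₄ * r ^ 2) * (C₄ * r ^ 2 * w ^ 2) := g3
      _ = (C₄ * r ^ 2 * w) ^ 2 := by ring
  obtain ⟨b, hb⟩ : ∃ b : ℝ, b = B + p := ⟨_, rfl⟩
  rw [← hb] at hmain
  have hbB : B ≤ b := by linarith
  have hbbb : b ≤ bb := by linarith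
  have hb0 : 0 < b := by linarith
  have e2 : 0 ≤ e ^ 2 := by positivity
  have r2 : 0 ≤ r ^ 2 := by positivity
  have t1 : H₁ * (b * r ^ 2) ≤ C₃ * bb * r ^ 2 := by
    have : 0 ≤ b * r ^ 2 := by positivity
    calc H₁ * (b * r ^ 2) ≤ C₃ * (b * r ^ 2) := mul_le_mul_of_nonneg_right hH this
      _ ≤ C₃ * (bb * r ^ 2) := by
        apply mul_le_mul_of_nonneg_left _ h3
        exact mul_le_mul_of_nonneg_right hbbb r2
      _ = C₃ * bb * r ^ 2 := by ring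
  have t2 : e ^ 2 * (P₁ * r ^ 2) ≤ e ^ 2 * ((- c * r ^ 2 + C₁) * r ^ 2) := by
    apply mul_le_mul_of_nonneg_left _ e2
    exact mul_le_mul_of_nonneg_right hP r2
  have t3 : e ^ 2 * (b * S₁) ≤ e ^ 2 * (b * (- w ^ 2 + C₂ * (1 + r ^ 2 * r))) := by
    apply mul_le_mul_of_nonneg_left _ e2
    exact mul_le_mul_of_nonneg_left hS hb0.le
  have t4 : - 2 * (r ^ 2 * γηp) ≤ 2 * k * (e * r ^ 3) := by
    have h0 : - γηp ≤ k * e * r := by linarith [(abs_le.1 a1).1]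
    have h : 0 ≤ 2 * r ^ 2 := by positivity
    have := mul_le_mul_of_nonneg_left h0 h
    calc - 2 * (r ^ 2 * γηp) = 2 * r ^ 2 * (- γηp) := by ring
      _ ≤ 2 * r ^ 2 * (k * e * r) := this
      _ = 2 * k * (e * r ^ 3) := by ring
  have t5 : - 2 * (b * γηs) ≤ b * (e ^ 2 * w ^ 2 / 2) + b * (2 * k ^ 2 * r ^ 2) := by
    have h' := (abs_le.1 a2).1
    have y1 := shi_young1 (e * w) (k * r)
    have : - 2 * γηs ≤ e ^ 2 * w ^ 2 / 2 + 2 * k ^ 2 * r ^ 2 := by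
      have q : 2 * (e * w * (k * r)) = 2 * (k * e * r * w) := by ring
      have q2 : (e * w) ^ 2 / 2 + 2 * (k * r) ^ 2 = e ^ 2 * w ^ 2 / 2 + 2 * k ^ 2 * r ^ 2 := by ring
      linarith
    have := mul_le_mul_of_nonneg_left this hb0.le
    linarith
  have t7 : 2 * (C₄ * r ^ 2) ^ 2 / B ≤ c / 2 * r ^ 4 := by
    rw [div_le_iff₀ hBpos]
    have h0 : 0 ≤ r ^ 4 := by positivity
    have := mul_le_mul_of_nonneg_right hBc h0
    calc 2 * (C₄ * r ^ 2) ^ 2 = (4 * C₄ ^ 2 * r ^ 4) / 2 := by ring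
      _ ≤ (c * B * r ^ 4) / 2 := by linarith
      _ = c / 2 * r ^ 4 * B := by ring
  have t6 : - 2 * (e ^ 2 * γps) ≤ e ^ 2 * (B * w ^ 2 / 2) + e ^ 2 * (c / 2 * r ^ 4) := by
    have h' := (abs_le.1 a3).1
    have y2 := shi_young2 B w (C₄ * r ^ 2) hBpos
    have : - 2 * γps ≤ B * w ^ 2 / 2 + c / 2 * r ^ 4 := by linarith
    have := mul_le_mul_of_nonneg_left this e2
    linarith
  have u1 : e ^ 2 * (b * (C₂ * (1 + r ^ 2 * r))) ≤ e ^ 2 * (bb * (C₂ * (1 + r ^ 2 * r))) := by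
    apply mul_le_mul_of_nonneg_left _ e2
    exact mul_le_mul_of_nonneg_right hbbb (by positivity)
  have u2 : b * (2 * k ^ 2 * r ^ 2) ≤ bb * (2 * k ^ 2 * r ^ 2) :=
    mul_le_mul_of_nonneg_right hbbb (by positivity)
  have u4 : 0 ≤ e ^ 2 * w ^ 2 * p := by positivity
  have u5 : e ^ 2 * (C₁ * r ^ 2) ≤ C₁ * r ^ 2 := by
    have e21 : e ^ 2 ≤ 1 := pow_le_one₀ he0 he1
    have h0 : 0 ≤ C₁ * r ^ 2 := by positivity
    calc e ^ 2 * (C₁ * r ^ 2) ≤ 1 * (C₁ * r ^ 2) := mul_le_mul_of_nonneg_right e21 h0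
      _ = C₁ * r ^ 2 := one_mul _
  have u6 : e ^ 2 * (bb * C₂ * r ^ 3) ≤ bb * C₂ * (e * r ^ 3) := by
    have h0 : 0 ≤ bb * C₂ * r ^ 3 := by positivity
    have ee : e ^ 2 ≤ e := by rw [sq]; exact mul_le_of_le_one_left he0 he1
    calc e ^ 2 * (bb * C₂ * r ^ 3) ≤ e * (bb * C₂ * r ^ 3) := mul_le_mul_of_nonneg_right ee h0
      _ = bb * C₂ * (e * r ^ 3) := by ring
  apply shi_core c (C₃ * bb + C₁ + 2 * bb * k ^ 2) (bb * C₂ + 2 * k) (bb * C₂) e r hc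
    (by positivity) (by positivity) (by positivity) he0 he1 hr0
  have expand : H₁ * (b * r ^ 2) + e ^ 2 * (P₁ * r ^ 2) + e ^ 2 * (b * S₁)
      - 2 * (r ^ 2 * γηp + b * γηs + e ^ 2 * γps)
      = H₁ * (b * r ^ 2) + e ^ 2 * (P₁ * r ^ 2) + e ^ 2 * (b * S₁)
        + (- 2 * (r ^ 2 * γηp)) + (- 2 * (b * γηs)) + (- 2 * (e ^ 2 * γps)) := by ring
  rw [expand] at hmain
  have z2 : e ^ 2 * ((- c * r ^ 2 + C₁) * r ^ 2) = - c * (e ^ 2 * r ^ 4) + e ^ 2 * (C₁ * r ^ 2) := by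
    ring
  have z3 : e ^ 2 * (b * (- w ^ 2 + C₂ * (1 + r ^ 2 * r)))
      = - (b * (e ^ 2 * w ^ 2)) + e ^ 2 * (b * (C₂ * (1 + r ^ 2 * r))) := by ring
  have z4 : e ^ 2 * (bb * (C₂ * (1 + r ^ 2 * r))) = bb * C₂ * e ^ 2 + e ^ 2 * (bb * C₂ * r ^ 3) := by
    ring
  have z5 : b * (e ^ 2 * w ^ 2) = B * (e ^ 2 * w ^ 2) + e ^ 2 * w ^ 2 * p := by rw [hb]; ring
  have z6 : b * (e ^ 2 * w ^ 2 / 2) = b * (e ^ 2 * w ^ 2) / 2 := by ring
  have z7 : e ^ 2 * (B * w ^ 2 / 2) = B * (e ^ 2 * w ^ 2) / 2 := by ring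
  have z8 : e ^ 2 * (c / 2 * r ^ 4) = c / 2 * (e ^ 2 * r ^ 4) := by ring
  have z9 : (C₃ * bb + C₁ + 2 * bb * k ^ 2) * r ^ 2 + (bb * C₂ + 2 * k) * (e * r ^ 3)
      + bb * C₂ * e ^ 2 = C₃ * bb * r ^ 2 + C₁ * r ^ 2 + bb * (2 * k ^ 2 * r ^ 2)
        + bb * C₂ * (e * r ^ 3) + 2 * k * (e * r ^ 3) + bb * C₂ * e ^ 2 := by ring
  rw [z9]
  linarith

section Abstract

variable {E : Type} [NormedAddCommGroup E] [NormedSpace ℝ E]

/-- `L` is a second order diffusion operator at the point `x` (acting on germs of functions) with carré du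
champ `G`. -/
structure Diffu (x : E) (L : (E → ℝ) → ℝ) (G : (E → ℝ) → (E → ℝ) → ℝ) : Prop where
  L_mul : ∀ f g : E → ℝ, ContDiffAt ℝ 2 f x → ContDiffAt ℝ 2 g x →
    L (fun w => f w * g w) = f x * L g + g x * L f + 2 * G f g
  L_const_add : ∀ (b : ℝ) (f : E → ℝ), L (fun w => b + f w) = L f
  G_mul_left : ∀ f g h : E → ℝ, ContDiffAt ℝ 2 f x → ContDiffAt ℝ 2 g x → ContDiffAt ℝ 2 h x →
    G (fun w => f w * g w) h = f x * G g h + g x * G f h
  G_const_add_left : ∀ (b : ℝ) (f h : E → ℝ), G (fun w => b + f w) h = G f h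
  G_symm : ∀ f g : E → ℝ, G f g = G g f
  G_cs : ∀ f g : E → ℝ, (G f g) ^ 2 ≤ G f f * G g g
  G_nonneg : ∀ f : E → ℝ, 0 ≤ G f f
  L_max : ∀ f : E → ℝ, ContDiffAt ℝ 2 f x → IsLocalMax f x → L f ≤ 0

/-- slices of a jointly `C²` function. -/
theorem shi_slice_space {O : Set (ℝ × E)} (hO : IsOpen O) {f : ℝ → E → ℝ}
    (hf : ContDiffOn ℝ 2 (fun q : ℝ × E => f q.1 q.2) O) {t : ℝ} {x : E} (hq : (t, x) ∈ O) :
    ContDiffAt ℝ 2 (f t) x := by
  have h1 : ContDiffAt ℝ 2 (fun q : ℝ × E => f q.1 q.2) (t, x) := hf.contDiffAt (hO.mem_nhds hq)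
  have h2 : ContDiffAt ℝ 2 (fun w : E => (t, w)) x := contDiffAt_const.prodMk contDiffAt_id
  exact h1.comp x h2

theorem shi_slice_time {O : Set (ℝ × E)} (hO : IsOpen O) {f : ℝ → E → ℝ}
    (hf : ContDiffOn ℝ 2 (fun q : ℝ × E => f q.1 q.2) O) {t : ℝ} {x : E} (hq : (t, x) ∈ O) :
    DifferentiableAt ℝ (fun r => f r x) t := by
  have h1 : ContDiffAt ℝ 2 (fun q : ℝ × E => f q.1 q.2) (t, x) := hf.contDiffAt (hO.mem_nhds hq)
  have h2 : ContDiffAt ℝ 2 (fun r : ℝ => (r, x)) t := contDiffAt_id.prodMk contDiffAt_const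
  exact (h1.comp t h2).differentiableAt (by norm_num)

/-- the derivative at the right end point of an interval where the maximum is attained. -/
theorem shi_deriv_nonneg {g : ℝ → ℝ} {g' a b : ℝ} (hab : a < b) (hg : HasDerivAt g g' b)
    (hmax : ∀ r ∈ Set.Icc a b, g r ≤ g b) : 0 ≤ g' := by
  have h1 : IsLocalMaxOn g (Set.Icc a b) b :=
    Filter.eventually_of_mem self_mem_nhdsWithin hmax
  have h2 : HasFDerivWithinAt g (ContinuousLinearMap.smulRight (1 : ℝ →L[ℝ] ℝ) g') (Set.Icc a b) b :=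
    hg.hasFDerivAt.hasFDerivWithinAt
  have h3 : a - b ∈ posTangentConeAt (Set.Icc a b) b := by
    apply mem_posTangentConeAt_of_segment_subset
    have : b + (a - b) = a := by ring
    rw [this, segment_symm, segment_eq_Icc hab.le]
  have h4 := h1.hasFDerivWithinAt_nonpos h2 h3
  have h5 : (a - b) * g' ≤ 0 := by simpa using h4
  by_contra hneg
  rw [not_le] at hneg
  have : 0 < (a - b) * g' := mul_pos_of_neg_of_neg (by linarith) hneg
  linarith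

/-- **B9-SHI-MP.**  Abstract Bernstein-Shi maximum principle on `[t₀,t₁] × Z`, `Z` compact; the cutoff `η`
vanishes off the interior of `Z`. -/
theorem shi_mp (c C₁ C₂ C₃ C₄ M S₀ : ℝ) (hc : 0 < c) (h1 : 0 ≤ C₁) (h2 : 0 ≤ C₂) (h3 : 0 ≤ C₃)
    (h4 : 0 ≤ C₄) (hM : 0 ≤ M) (hS : 0 ≤ S₀) :
    ∃ Cs : ℝ, 0 ≤ Cs ∧ ∀ (t₀ t₁ : ℝ) (Z : Set E) (O : Set (ℝ × E))
      (L : ℝ → E → (E → ℝ) → ℝ) (G : ℝ → E → (E → ℝ) → (E → ℝ) → ℝ) (η p s y : ℝ → E → ℝ),
      t₀ ≤ t₁ → IsCompact Z → IsOpen O → Set.Icc t₀ t₁ ×ˢ Z ⊆ O →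
      ContDiffOn ℝ 2 (fun q : ℝ × E => η q.1 q.2) O →
      ContDiffOn ℝ 2 (fun q : ℝ × E => p q.1 q.2) O →
      ContDiffOn ℝ 2 (fun q : ℝ × E => s q.1 q.2) O →
      (∀ t ∈ Set.Icc t₀ t₁, ∀ x ∈ Z, Diffu x (L t x) (G t x)) →
      (∀ t ∈ Set.Icc t₀ t₁, ∀ x ∈ Z, 0 ≤ η t x ∧ η t x ≤ 1 ∧ 0 ≤ p t x ∧ p t x ≤ M ∧ 0 ≤ s t x ∧
        0 ≤ y t x) →
      (∀ t ∈ Set.Icc t₀ t₁, ∀ x ∈ Z, x ∉ interior Z → η t x = 0) →
      (∀ t ∈ Set.Icc t₀ t₁, ∀ x ∈ Z,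
        deriv (fun r => η r x) t - L t x (η t) ≤ C₃ ∧ G t x (η t) (η t) ≤ C₃ * η t x) →
      (∀ t ∈ Set.Icc t₀ t₁, ∀ x ∈ Z,
        deriv (fun r => p r x) t - L t x (p t) ≤ - c * s t x + C₁ ∧
        deriv (fun r => s r x) t - L t x (s t) ≤ - y t x + C₂ * (1 + s t x * Real.sqrt (s t x)) ∧
        G t x (p t) (p t) ≤ C₄ * s t x ∧ G t x (s t) (s t) ≤ C₄ * s t x * y t x) →
      (∀ x ∈ Z, η t₀ x * s t₀ x ≤ S₀) →
      ∀ t ∈ Set.Icc t₀ t₁, ∀ x ∈ Z, η t x * s t x ≤ Cs := by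
  obtain ⟨B, X₀, hB, hX₀, halg⟩ := shi_alg c C₁ C₂ C₃ C₄ M hc h1 h2 h3 h4 hM
  refine ⟨(B + M) * max S₀ X₀ / B, by positivity, ?_⟩
  intro t₀ t₁ Z O L G η p s y ht hZ hO hsub hη hp hs hD hbd hint hcut hineq hinit t htI x hxZ
  set Φ : ℝ × E → ℝ := fun q => η q.1 q.2 * ((B + p q.1 q.2) * s q.1 q.2) with hΦ
  have hΦc : ContinuousOn Φ (Set.Icc t₀ t₁ ×ˢ Z) :=
    ((hη.mul ((contDiffOn_const.add hp).mul hs)).continuousOn).mono hsub
  have hK : IsCompact (Set.Icc t₀ t₁ ×ˢ Z) := isCompact_Icc.prod hZ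
  obtain ⟨⟨ts, xs⟩, hmem, hmax⟩ := hK.exists_isMaxOn ⟨(t, x), ⟨htI, hxZ⟩⟩ hΦc
  have hts : ts ∈ Set.Icc t₀ t₁ := hmem.1
  have hxs : xs ∈ Z := hmem.2
  obtain ⟨b1, b2, b3, b4, b5, b6⟩ := hbd ts hts xs hxs
  have hmx : 0 ≤ max S₀ X₀ := le_max_of_le_left hS
  have key : Φ (ts, xs) ≤ (B + M) * max S₀ X₀ := by
    have red : η ts xs * s ts xs ≤ max S₀ X₀ → Φ (ts, xs) ≤ (B + M) * max S₀ X₀ := by
      intro h
      have e : Φ (ts, xs) = (B + p ts xs) * (η ts xs * s ts xs) := by simp only [hΦ]; ring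
      rw [e]
      exact mul_le_mul (by linarith) h (mul_nonneg b1 b5) (by positivity)
    apply red
    by_cases hx : xs ∈ interior Z
    swap
    · rw [hint ts hts xs hxs hx, zero_mul]; exact hmx
    rcases hts.1.eq_or_lt with h0 | h0
    · rw [← h0]; exact (hinit xs hxs).trans (le_max_left _ _)
    refine le_trans ?_ (le_max_right _ _)
    have hq : (ts, xs) ∈ O := hsub hmem
    have D := hD ts hts xs hxs
    have eη := shi_slice_space hO hη hq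
    have ep := shi_slice_space hO hp hq
    have es := shi_slice_space hO hs hq
    have dη := (shi_slice_time hO hη hq).hasDerivAt
    have dp := (shi_slice_time hO hp hq).hasDerivAt
    have ds := (shi_slice_time hO hs hq).hasDerivAt
    have eBp : ContDiffAt ℝ 2 (fun w => B + p ts w) xs := contDiffAt_const.add ep
    have eBps : ContDiffAt ℝ 2 (fun w => (B + p ts w) * s ts w) xs := eBp.mul es
    -- time
    have dg : HasDerivAt (fun r => η r xs * ((B + p r xs) * s r xs))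
        (deriv (fun r => η r xs) ts * ((B + p ts xs) * s ts xs)
          + η ts xs * (deriv (fun r => p r xs) ts * s ts xs
            + (B + p ts xs) * deriv (fun r => s r xs) ts)) ts :=
      dη.mul ((dp.const_add B).mul ds)
    have gt := shi_deriv_nonneg h0 dg (fun r hr =>
      hmax (show (r, xs) ∈ Set.Icc t₀ t₁ ×ˢ Z from ⟨⟨hr.1, hr.2.trans hts.2⟩, hxs⟩))
    -- space
    have hloc : IsLocalMax (fun w => η ts w * ((B + p ts w) * s ts w)) xs := by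
      filter_upwards [mem_interior_iff_mem_nhds.1 hx] with w hw
      exact hmax (show (ts, w) ∈ Set.Icc t₀ t₁ ×ˢ Z from ⟨hts, hw⟩)
    have hL := D.L_max _ (eη.mul eBps) hloc
    have l1 := D.L_mul (η ts) (fun w => (B + p ts w) * s ts w) eη eBps
    have l2 := D.L_mul (fun w => B + p ts w) (s ts) eBp es
    have l3 := D.L_const_add B (p ts)
    have l4 := D.G_const_add_left B (p ts) (s ts)
    have l5 := D.G_symm (η ts) (fun w => (B + p ts w) * s ts w)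
    have l6 := D.G_mul_left (fun w => B + p ts w) (s ts) (η ts) eBp es eη
    have l7 := D.G_const_add_left B (p ts) (η ts)
    have l8 := D.G_symm (s ts) (η ts)
    have l9 := D.G_symm (p ts) (η ts)
    obtain ⟨c1, c2⟩ := hcut ts hts xs hxs
    obtain ⟨i1, i2, i3, i4⟩ := hineq ts hts xs hxs
    have n1 := D.G_nonneg (η ts)
    have n2 := D.G_nonneg (p ts)
    have n3 := D.G_nonneg (s ts)
    apply halg (η ts xs) (p ts xs) (s ts xs) (y ts xs)
      (deriv (fun r => p r xs) ts - L ts xs (p ts)) (deriv (fun r => s r xs) ts - L ts xs (s ts))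
      (deriv (fun r => η r xs) ts - L ts xs (η ts)) (G ts xs (η ts) (p ts)) (G ts xs (η ts) (s ts))
      (G ts xs (p ts) (s ts)) b1 b2 b3 b4 b5 b6 i1 i2 c1
    · exact (D.G_cs _ _).trans (mul_le_mul c2 i3 n2 (n1.trans c2))
    · exact (D.G_cs _ _).trans (mul_le_mul c2 i4 n3 (n1.trans c2))
    · exact (D.G_cs _ _).trans (mul_le_mul i3 i4 n3 (n2.trans i3))
    · rw [l1, l2, l3, l4, l5, l6, l7, l8, l9] at hL
      nlinarith
  have hle : Φ (t, x) ≤ Φ (ts, xs) := hmax (show (t, x) ∈ Set.Icc t₀ t₁ ×ˢ Z from ⟨htI, hxZ⟩)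
  obtain ⟨d1, d2, d3, d4, d5, d6⟩ := hbd t htI x hxZ
  rw [le_div_iff₀ hB]
  have : η t x * s t x * B ≤ Φ (t, x) := by
    simp only [hΦ]
    have : 0 ≤ η t x * s t x * p t x := by positivity
    nlinarith
  linarith

namespace Diffu

variable {x : E} {L : (E → ℝ) → ℝ} {G : (E → ℝ) → (E → ℝ) → ℝ}

theorem G_const_left (D : Diffu x L G) (b : ℝ) {h : E → ℝ} (hh : ContDiffAt ℝ 2 h x) :
    G (fun _ => b) h = 0 := by
  have h0 : G (fun _ => 0) h = 0 := by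
    have := D.G_mul_left (fun _ => 0) (fun _ => 0) h contDiffAt_const contDiffAt_const hh
    simpa using this
  have := D.G_const_add_left b (fun _ => 0) h
  simpa [h0] using this

theorem L_const (D : Diffu x L G) (b : ℝ) : L (fun _ => b) = 0 := by
  have h0 : L (fun _ => 0) = 0 := by
    have := D.L_mul (fun _ => 0) (fun _ => 0) contDiffAt_const contDiffAt_const
    rw [D.G_const_left 0 contDiffAt_const] at this
    simpa using this
  have := D.L_const_add b (fun _ => 0)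
  simpa [h0] using this

theorem L_const_mul (D : Diffu x L G) (b : ℝ) {f : E → ℝ} (hf : ContDiffAt ℝ 2 f x) :
    L (fun w => b * f w) = b * L f := by
  rw [D.L_mul (fun _ => b) f contDiffAt_const hf, D.L_const, D.G_const_left b hf]
  ring

theorem G_const_mul_left (D : Diffu x L G) (b : ℝ) {f h : E → ℝ} (hf : ContDiffAt ℝ 2 f x)
    (hh : ContDiffAt ℝ 2 h x) : G (fun w => b * f w) h = b * G f h := by
  rw [D.G_mul_left (fun _ => b) f h contDiffAt_const hf hh, D.G_const_left b hh]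
  ring

theorem L_sq (D : Diffu x L G) {f : E → ℝ} (hf : ContDiffAt ℝ 2 f x) :
    L (fun w => f w * f w) = 2 * f x * L f + 2 * G f f := by
  rw [D.L_mul f f hf hf]; ring

theorem G_sq (D : Diffu x L G) {f : E → ℝ} (hf : ContDiffAt ℝ 2 f x) :
    G (fun w => f w * f w) (fun w => f w * f w) = 4 * (f x * f x) * G f f := by
  rw [D.G_mul_left f f _ hf hf (hf.mul hf), D.G_symm f, D.G_mul_left f f _ hf hf hf]; ring

end Diffu

/-- `shi_mp` with the cutoff `η(t,x) = (a t + b) ψ(x)²`. -/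
theorem shi_cut (c C₁ C₂ C₄ M S₀ K A : ℝ) (hc : 0 < c) (h1 : 0 ≤ C₁) (h2 : 0 ≤ C₂)
    (h4 : 0 ≤ C₄) (hM : 0 ≤ M) (hS : 0 ≤ S₀) (hK : 0 ≤ K) (hA : 0 ≤ A) :
    ∃ Cs : ℝ, 0 ≤ Cs ∧ ∀ (t₀ t₁ : ℝ) (Z : Set E) (O : Set (ℝ × E))
      (L : ℝ → E → (E → ℝ) → ℝ) (G : ℝ → E → (E → ℝ) → (E → ℝ) → ℝ) (ψ : E → ℝ) (a b : ℝ)
      (p s y : ℝ → E → ℝ),
      t₀ ≤ t₁ → IsCompact Z → IsOpen O → Set.Icc t₀ t₁ ×ˢ Z ⊆ O →
      ContDiff ℝ 2 ψ →
      ContDiffOn ℝ 2 (fun q : ℝ × E => p q.1 q.2) O →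
      ContDiffOn ℝ 2 (fun q : ℝ × E => s q.1 q.2) O →
      (∀ t ∈ Set.Icc t₀ t₁, ∀ x ∈ Z, Diffu x (L t x) (G t x)) →
      (∀ t ∈ Set.Icc t₀ t₁, ∀ x ∈ Z, 0 ≤ p t x ∧ p t x ≤ M ∧ 0 ≤ s t x ∧ 0 ≤ y t x) →
      (∀ x ∈ Z, 0 ≤ ψ x ∧ ψ x ≤ 1) → (∀ x ∈ Z, x ∉ interior Z → ψ x = 0) →
      0 ≤ a → a ≤ A → (∀ t ∈ Set.Icc t₀ t₁, 0 ≤ a * t + b ∧ a * t + b ≤ 1) →
      (∀ t ∈ Set.Icc t₀ t₁, ∀ x ∈ Z, - L t x ψ ≤ K ∧ G t x ψ ψ ≤ K) →
      (∀ t ∈ Set.Icc t₀ t₁, ∀ x ∈ Z,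
        deriv (fun r => p r x) t - L t x (p t) ≤ - c * s t x + C₁ ∧
        deriv (fun r => s r x) t - L t x (s t) ≤ - y t x + C₂ * (1 + s t x * Real.sqrt (s t x)) ∧
        G t x (p t) (p t) ≤ C₄ * s t x ∧ G t x (s t) (s t) ≤ C₄ * s t x * y t x) →
      (∀ x ∈ Z, (a * t₀ + b) * (ψ x * ψ x) * s t₀ x ≤ S₀) →
      ∀ t ∈ Set.Icc t₀ t₁, ∀ x ∈ Z, (a * t + b) * (ψ x * ψ x) * s t x ≤ Cs := by
  obtain ⟨Cs, hCs, H⟩ := shi_mp (E := E) c C₁ C₂ (A + 4 * K) C₄ M S₀ hc h1 h2 (by positivity) h4 hM hS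
  refine ⟨Cs, hCs, ?_⟩
  intro t₀ t₁ Z O L G ψ a b p s y ht hZ hO hsub hψ hp hs hD hbd hψ01 hψ0 ha0 haA hθ hLG hineq hinit
  have hη : ContDiffOn ℝ 2 (fun q : ℝ × E => (a * q.1 + b) * (ψ q.2 * ψ q.2)) O := by
    have : ContDiff ℝ 2 (fun q : ℝ × E => (a * q.1 + b) * (ψ q.2 * ψ q.2)) :=
      ((contDiff_const.mul contDiff_fst).add contDiff_const).mul
        ((hψ.comp contDiff_snd).mul (hψ.comp contDiff_snd))
    exact this.contDiffOn
  refine H t₀ t₁ Z O L G (fun t x => (a * t + b) * (ψ x * ψ x)) p s y ht hZ hO hsub hη hp hs hD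
    ?_ ?_ ?_ hineq hinit
  · intro t ht' x hx
    obtain ⟨b1, b2, b3, b4⟩ := hbd t ht' x hx
    obtain ⟨q1, q2⟩ := hψ01 x hx
    obtain ⟨r1, r2⟩ := hθ t ht'
    have hχ1 : ψ x * ψ x ≤ 1 := mul_le_one₀ q2 q1 q2
    exact ⟨mul_nonneg r1 (mul_nonneg q1 q1), mul_le_one₀ r2 (mul_nonneg q1 q1) hχ1, b1, b2, b3, b4⟩
  · intro t _ x hx hxi
    simp [hψ0 x hx hxi]
  · intro t ht' x hx
    have D := hD t ht' x hx
    obtain ⟨q1, q2⟩ := hψ01 x hx
    obtain ⟨r1, r2⟩ := hθ t ht'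
    obtain ⟨k1, k2⟩ := hLG t ht' x hx
    have eψ : ContDiffAt ℝ 2 ψ x := hψ.contDiffAt
    have eχ : ContDiffAt ℝ 2 (fun w => ψ w * ψ w) x := eψ.mul eψ
    have hχ0 : 0 ≤ ψ x * ψ x := mul_nonneg q1 q1
    have hχ1 : ψ x * ψ x ≤ 1 := mul_le_one₀ q2 q1 q2
    have g0 := D.G_nonneg ψ
    have dt : deriv (fun r => (a * r + b) * (ψ x * ψ x)) t = a * (ψ x * ψ x) := by
      have : HasDerivAt (fun r => (a * r + b) * (ψ x * ψ x)) (a * (ψ x * ψ x)) t := by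
        have := (((hasDerivAt_id t).const_mul a).add_const b).mul_const (ψ x * ψ x)
        simpa using this
      exact this.deriv
    constructor
    · rw [dt, D.L_const_mul _ eχ, D.L_sq eψ]
      have u1 : a * (ψ x * ψ x) ≤ A := (mul_le_of_le_one_right ha0 hχ1).trans haA
      have u2 : - (ψ x * L t x ψ) ≤ K := by
        have : ψ x * (- L t x ψ) ≤ ψ x * K := mul_le_mul_of_nonneg_left k1 q1
        have : ψ x * K ≤ K := mul_le_of_le_one_left hK q2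
        linarith
      have u3 : - (2 * ψ x * L t x ψ + 2 * G t x ψ ψ) ≤ 2 * K := by linarith
      have u4 : (a * t + b) * (- (2 * ψ x * L t x ψ + 2 * G t x ψ ψ)) ≤ (a * t + b) * (2 * K) :=
        mul_le_mul_of_nonneg_left u3 r1
      have u5 : (a * t + b) * (2 * K) ≤ 2 * K := mul_le_of_le_one_left (by positivity) r2
      linarith
    · have eθχ : ContDiffAt ℝ 2 (fun w => (a * t + b) * (ψ w * ψ w)) x := contDiffAt_const.mul eχ
      rw [D.G_const_mul_left _ eχ eθχ, D.G_symm, D.G_const_mul_left _ eχ eχ, D.G_sq eψ]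
      have v1 : 4 * (ψ x * ψ x) * G t x ψ ψ ≤ 4 * (ψ x * ψ x) * K :=
        mul_le_mul_of_nonneg_left k2 (by positivity)
      have v2 : (a * t + b) * (4 * (ψ x * ψ x) * G t x ψ ψ) ≤ 1 * (4 * (ψ x * ψ x) * K) :=
        mul_le_mul r2 v1 (by positivity) zero_le_one
      have v3 := mul_le_mul_of_nonneg_left v2 r1
      have v4 : 0 ≤ A * ((a * t + b) * (ψ x * ψ x)) := by positivity
      nlinarith

/-- the two local estimates (up to the initial time / interior in time) for an abstract diffusion. -/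
theorem shi_local_abs (δ c C₁ C₂ C₄ M S₀ K : ℝ) (hδ : 0 < δ) (hc : 0 < c) (h1 : 0 ≤ C₁)
    (h2 : 0 ≤ C₂) (h4 : 0 ≤ C₄) (hM : 0 ≤ M) (hS : 0 ≤ S₀) (hK : 0 ≤ K) :
    ∃ Cs : ℝ, 0 ≤ Cs ∧ ∀ (t₀ t₁ : ℝ) (Z : Set E) (O : Set (ℝ × E))
      (L : ℝ → E → (E → ℝ) → ℝ) (G : ℝ → E → (E → ℝ) → (E → ℝ) → ℝ) (ψ : E → ℝ)
      (p s y : ℝ → E → ℝ),
      t₀ ≤ t₁ → IsCompact Z → IsOpen O → Set.Icc t₀ t₁ ×ˢ Z ⊆ O →
      ContDiff ℝ 2 ψ →
      ContDiffOn ℝ 2 (fun q : ℝ × E => p q.1 q.2) O →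
      ContDiffOn ℝ 2 (fun q : ℝ × E => s q.1 q.2) O →
      (∀ t ∈ Set.Icc t₀ t₁, ∀ x ∈ Z, Diffu x (L t x) (G t x)) →
      (∀ t ∈ Set.Icc t₀ t₁, ∀ x ∈ Z, 0 ≤ p t x ∧ p t x ≤ M ∧ 0 ≤ s t x ∧ 0 ≤ y t x) →
      (∀ x ∈ Z, 0 ≤ ψ x ∧ ψ x ≤ 1) → (∀ x ∈ Z, x ∉ interior Z → ψ x = 0) →
      (∀ t ∈ Set.Icc t₀ t₁, ∀ x ∈ Z, - L t x ψ ≤ K ∧ G t x ψ ψ ≤ K) →
      (∀ t ∈ Set.Icc t₀ t₁, ∀ x ∈ Z,
        deriv (fun r => p r x) t - L t x (p t) ≤ - c * s t x + C₁ ∧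
        deriv (fun r => s r x) t - L t x (s t) ≤ - y t x + C₂ * (1 + s t x * Real.sqrt (s t x)) ∧
        G t x (p t) (p t) ≤ C₄ * s t x ∧ G t x (s t) (s t) ≤ C₄ * s t x * y t x) →
      ((∀ x ∈ Z, s t₀ x ≤ S₀) → ∀ t ∈ Set.Icc t₀ t₁, ∀ x ∈ Z, ψ x = 1 → s t x ≤ Cs) ∧
      (∀ t ∈ Set.Icc (t₀ + δ) t₁, ∀ x ∈ Z, ψ x = 1 → s t x ≤ Cs) := by
  obtain ⟨Ca, hCa, Ha⟩ := shi_cut (E := E) c C₁ C₂ C₄ M S₀ K 0 hc h1 h2 h4 hM hS hK le_rfl
  obtain ⟨Cb, hCb, Hb⟩ := shi_cut (E := E) c C₁ C₂ C₄ M 0 K (1 / δ) hc h1 h2 h4 hM le_rfl hK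
    (by positivity)
  refine ⟨max Ca Cb, le_max_of_le_left hCa, ?_⟩
  intro t₀ t₁ Z O L G ψ p s y ht hZ hO hsub hψ hp hs hD hbd hψ01 hψ0 hLG hineq
  constructor
  · intro hinit t ht' x hx hx1
    have := Ha t₀ t₁ Z O L G ψ 0 1 p s y ht hZ hO hsub hψ hp hs hD hbd hψ01 hψ0 le_rfl le_rfl
      (fun t _ => by norm_num) hLG hineq (fun x hx => by
        obtain ⟨q1, q2⟩ := hψ01 x hx
        obtain ⟨_, _, b3, _⟩ := hbd t₀ ⟨le_rfl, ht⟩ x hx
        have hχ1 : ψ x * ψ x ≤ 1 := mul_le_one₀ q2 q1 q2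
        have : (ψ x * ψ x) * s t₀ x ≤ 1 * S₀ := mul_le_mul hχ1 (hinit x hx) b3 zero_le_one
        simpa using this) t ht' x hx
    rw [hx1] at this
    exact le_trans (by simpa using this) (le_max_left _ _)
  · intro t ht' x hx hx1
    have hsubI : Set.Icc (t - δ) t ⊆ Set.Icc t₀ t₁ := by
      intro r hr
      exact ⟨by linarith [hr.1, ht'.1], hr.2.trans ht'.2⟩
    have e0 : 1 / δ * (t - δ) + -(t - δ) / δ = 0 := by field_simp; ring
    have e1 : 1 / δ * t + -(t - δ) / δ = 1 := by field_simp; ring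
    have := Hb (t - δ) t Z O L G ψ (1 / δ) (-(t - δ) / δ) p s y (by linarith) hZ hO
      ((Set.prod_mono hsubI subset_rfl).trans hsub) hψ hp hs
      (fun r hr => hD r (hsubI hr)) (fun r hr => hbd r (hsubI hr)) hψ01 hψ0 (by positivity) le_rfl
      (fun r hr => by
        have e : 1 / δ * r + -(t - δ) / δ = (r - (t - δ)) / δ := by field_simp; ring
        rw [e]
        constructor
        · exact div_nonneg (by linarith [hr.1]) hδ.le
        · rw [div_le_one hδ]; linarith [hr.2])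
      (fun r hr => hLG r (hsubI hr)) (fun r hr => hineq r (hsubI hr))
      (fun x _ => by rw [e0]; simp) t ⟨by linarith, le_rfl⟩ x hx
    rw [hx1, e1] at this
    exact le_trans (by simpa using this) (le_max_right _ _)

end Abstract

/-! ### The real instance -/

section Real

variable {E : Type} [NormedAddCommGroup E] [NormedSpace ℝ E] {κ : Type} [Fintype κ]

/-- `𝓛 f = ∑ a_{ij} D²f(x)(e_i, e_j)`. -/
noncomputable def Lre (e : κ → E) (a : κ → κ → ℝ) (x : E) (f : E → ℝ) : ℝ :=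
  ∑ i, ∑ j, a i j * fderiv ℝ (fun w => fderiv ℝ f w (e j)) x (e i)

/-- `Γ(f,g) = ∑ a_{ij} D_i f D_j g`. -/
noncomputable def Gre (e : κ → E) (a : κ → κ → ℝ) (x : E) (f g : E → ℝ) : ℝ :=
  ∑ i, ∑ j, a i j * (fderiv ℝ f x (e i) * fderiv ℝ g x (e j))

/-- symmetric, `0 ≤ a ≤ Λ` as a quadratic form on `ℝ^κ`. -/
structure CoefOK (a : κ → κ → ℝ) (Λ : ℝ) : Prop where
  symm : ∀ i j, a i j = a j i
  nonneg : ∀ ξ : κ → ℝ, 0 ≤ ∑ i, ∑ j, a i j * (ξ i * ξ j)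
  le : ∀ ξ : κ → ℝ, ∑ i, ∑ j, a i j * (ξ i * ξ j) ≤ Λ * ∑ i, ξ i ^ 2

/-- a symmetric positive semidefinite coefficient matrix is a Gram matrix. -/
theorem coefOK_gram {a : κ → κ → ℝ} {Λ : ℝ} (ha : CoefOK a Λ) :
    ∃ B : κ → κ → ℝ, ∀ i j, a i j = ∑ k, B k i * B k j := by
  classical
  have hA : (Matrix.of a).PosSemidef := by
    apply Matrix.PosSemidef.of_dotProduct_mulVec_nonneg
    · ext i j
      simp [Matrix.conjTranspose_apply, ha.symm j i]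
    · intro ξ
      have := ha.nonneg ξ
      have e : star ξ ⬝ᵥ (Matrix.of a).mulVec ξ = ∑ i, ∑ j, a i j * (ξ i * ξ j) := by
        simp only [dotProduct, Matrix.mulVec, Matrix.of_apply, Finset.mul_sum, Pi.star_apply,
          star_trivial]
        refine Finset.sum_congr rfl fun i _ => Finset.sum_congr rfl fun j _ => ?_
        ring
      rw [e]; exact this
  open scoped MatrixOrder in
  obtain ⟨B, hB⟩ := CStarAlgebra.nonneg_iff_eq_star_mul_self.mp hA.nonneg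
  refine ⟨B, fun i j => ?_⟩
  have := congrFun (congrFun hB i) j
  simpa [Matrix.mul_apply, Matrix.star_eq_conjTranspose, Matrix.conjTranspose_apply] using this

/-- Cauchy-Schwarz for a positive semidefinite symmetric form. -/
theorem coefOK_cs {a : κ → κ → ℝ} {Λ : ℝ} (ha : CoefOK a Λ) (ξ ζ : κ → ℝ) :
    (∑ i, ∑ j, a i j * (ξ i * ζ j)) ^ 2
      ≤ (∑ i, ∑ j, a i j * (ξ i * ξ j)) * (∑ i, ∑ j, a i j * (ζ i * ζ j)) := by
  have hs : ∑ i, ∑ j, a i j * (ζ i * ξ j) = ∑ i, ∑ j, a i j * (ξ i * ζ j) := by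
    rw [Finset.sum_comm]
    refine Finset.sum_congr rfl fun i _ => Finset.sum_congr rfl fun j _ => ?_
    rw [ha.symm j i]; ring
  have key : ∀ r : ℝ, 0 ≤ (∑ i, ∑ j, a i j * (ζ i * ζ j)) * (r * r)
      + (2 * ∑ i, ∑ j, a i j * (ξ i * ζ j)) * r + ∑ i, ∑ j, a i j * (ξ i * ξ j) := by
    intro r
    have h := ha.nonneg (fun i => ξ i + r * ζ i)
    have e : ∑ i, ∑ j, a i j * ((ξ i + r * ζ i) * (ξ j + r * ζ j))
        = (∑ i, ∑ j, a i j * (ζ i * ζ j)) * (r * r)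
          + (∑ i, ∑ j, a i j * (ξ i * ζ j) + ∑ i, ∑ j, a i j * (ζ i * ξ j)) * r
          + ∑ i, ∑ j, a i j * (ξ i * ξ j) := by
      simp only [Finset.sum_mul, ← Finset.sum_add_distrib]
      refine Finset.sum_congr rfl fun i _ => Finset.sum_congr rfl fun j _ => ?_
      ring
    rw [e, hs] at h
    linarith
  have := discrim_le_zero key
  rw [discrim] at this
  nlinarith

theorem shi_fderiv_mul {f g : E → ℝ} {x : E} (hf : DifferentiableAt ℝ f x)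
    (hg : DifferentiableAt ℝ g x) (v : E) :
    fderiv ℝ (fun w => f w * g w) x v = f x * fderiv ℝ g x v + g x * fderiv ℝ f x v := by
  rw [fderiv_fun_mul hf hg]; simp

theorem shi_diff_fderiv {f : E → ℝ} {x : E} (hf : ContDiffAt ℝ 2 f x) (v : E) :
    DifferentiableAt ℝ (fun w => fderiv ℝ f w v) x := by
  have h1 : ContDiffAt ℝ 1 (fderiv ℝ f) x := hf.fderiv_right (m := 1) (by norm_num)
  exact (h1.differentiableAt (by norm_num)).clm_apply (differentiableAt_const v)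

theorem shi_ev_diff {f : E → ℝ} {x : E} (hf : ContDiffAt ℝ 2 f x) :
    ∀ᶠ w in 𝓝 x, DifferentiableAt ℝ f w := by
  filter_upwards [hf.eventually (by simp)] with w hw
  exact hw.differentiableAt (by norm_num)

theorem shi_d2_mul {f g : E → ℝ} {x : E} (hf : ContDiffAt ℝ 2 f x) (hg : ContDiffAt ℝ 2 g x)
    (u v : E) :
    fderiv ℝ (fun w => fderiv ℝ (fun y => f y * g y) w v) x u
      = f x * fderiv ℝ (fun w => fderiv ℝ g w v) x u + g x * fderiv ℝ (fun w => fderiv ℝ f w v) x u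
        + fderiv ℝ f x u * fderiv ℝ g x v + fderiv ℝ g x u * fderiv ℝ f x v := by
  have h : (fun w => fderiv ℝ (fun y => f y * g y) w v)
      =ᶠ[𝓝 x] fun w => f w * fderiv ℝ g w v + g w * fderiv ℝ f w v := by
    filter_upwards [shi_ev_diff hf, shi_ev_diff hg] with w h1 h2
    exact shi_fderiv_mul h1 h2 v
  have df : DifferentiableAt ℝ f x := hf.differentiableAt (by norm_num)
  have dg : DifferentiableAt ℝ g x := hg.differentiableAt (by norm_num)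
  have hA : DifferentiableAt ℝ (fun w => f w * fderiv ℝ g w v) x := df.mul (shi_diff_fderiv hg v)
  have hB : DifferentiableAt ℝ (fun w => g w * fderiv ℝ f w v) x := dg.mul (shi_diff_fderiv hf v)
  rw [h.fderiv_eq, fderiv_fun_add hA hB]
  simp only [add_apply]
  rw [shi_fderiv_mul df (shi_diff_fderiv hg v), shi_fderiv_mul dg (shi_diff_fderiv hf v)]
  ring

/-- second derivative along a line. -/
theorem shi_d2_line {f : E → ℝ} {x : E} (hf : ContDiffAt ℝ 2 f x) (v : E) :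
    deriv (deriv (fun r : ℝ => f (x + r • v))) 0 = fderiv ℝ (fun w => fderiv ℝ f w v) x v := by
  have hl : ∀ r : ℝ, HasDerivAt (fun r : ℝ => x + r • v) v r := by
    intro r
    have := ((hasDerivAt_id r).smul_const v).const_add x
    simpa using this
  have hc : Filter.Tendsto (fun r : ℝ => x + r • v) (𝓝 0) (𝓝 x) := by
    have hc : Continuous fun r : ℝ => x + r • v := by fun_prop
    simpa using hc.tendsto 0
  have h1 : deriv (fun r : ℝ => f (x + r • v)) =ᶠ[𝓝 0] fun r => fderiv ℝ f (x + r • v) v := by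
    filter_upwards [hc.eventually (shi_ev_diff hf)] with r hr
    exact (hr.hasFDerivAt.comp_hasDerivAt r (hl r)).deriv
  rw [h1.deriv_eq]
  have h2 : DifferentiableAt ℝ (fun w => fderiv ℝ f w v) (x + (0 : ℝ) • v) := by
    simpa using shi_diff_fderiv hf v
  have := (h2.hasFDerivAt.comp_hasDerivAt (0 : ℝ) (hl 0)).deriv
  simpa [Function.comp_def] using this

theorem shi_d2_nonpos {f : E → ℝ} {x : E} (hf : ContDiffAt ℝ 2 f x) (hm : IsLocalMax f x) (v : E) :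
    fderiv ℝ (fun w => fderiv ℝ f w v) x v ≤ 0 := by
  rw [← shi_d2_line hf v]
  have hA : ContDiff ℝ 2 (fun s : ℝ => x + s • v) :=
    contDiff_const.add (contDiff_id.smul contDiff_const)
  have hf' : ContDiffAt ℝ 2 f (x + (0 : ℝ) • v) := by simpa using hf
  have hc : Filter.Tendsto (fun r : ℝ => x + r • v) (𝓝 0) (𝓝 x) := by
    have hc : Continuous fun r : ℝ => x + r • v := by fun_prop
    simpa using hc.tendsto 0
  apply deriv_deriv_nonpos_of_isLocalMax (hf'.comp (0 : ℝ) hA.contDiffAt)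
  filter_upwards [hc.eventually hm] with s hs
  simpa using hs

/-- bilinearity of the second derivative in the frozen direction. -/
theorem shi_d2_sum {f : E → ℝ} {x : E} (hf : ContDiffAt ℝ 2 f x) (e : κ → E) (b : κ → ℝ) :
    fderiv ℝ (fun w => fderiv ℝ f w (∑ j, b j • e j)) x (∑ i, b i • e i)
      = ∑ i, ∑ j, (b i * b j) * fderiv ℝ (fun w => fderiv ℝ f w (e j)) x (e i) := by
  have h : (fun w => fderiv ℝ f w (∑ j, b j • e j))
      = fun w => ∑ j, b j * fderiv ℝ f w (e j) := by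
    funext w; simp
  rw [h, fderiv_fun_sum (fun j _ => (shi_diff_fderiv hf (e j)).const_mul (b j))]
  simp only [map_sum, sum_apply, map_smul, smul_eq_mul]
  refine Finset.sum_congr rfl fun i _ => ?_
  rw [Finset.mul_sum]
  refine Finset.sum_congr rfl fun j _ => ?_
  rw [fderiv_const_mul (shi_diff_fderiv hf (e j))]
  simp; ring

/-- **B9-SHI-INST (real).**  (`L_max`: write `a = ∑_k v_k v_kᵀ` (spectral theorem / `Matrix.PosSemidef`), or use
`∑ a_ij H_ij ≤ 0` for `a ≥ 0`, `H ≤ 0` symmetric; `D²f(x)(v,v) ≤ 0` at a local max along the line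
`r ↦ x + r v`, `v = ∑ ξ_i e_i`: `deriv_deriv_nonpos_of_isLocalMax`.) -/
theorem diffu_real (e : κ → E) (a : κ → κ → ℝ) (Λ : ℝ) (ha : CoefOK a Λ) (x : E) :
    Diffu x (Lre e a x) (Gre e a x) := by
  have hsymm : ∀ f g : E → ℝ, Gre e a x f g = Gre e a x g f := by
    intro f g
    unfold Gre
    rw [Finset.sum_comm]
    refine Finset.sum_congr rfl fun i _ => Finset.sum_congr rfl fun j _ => ?_
    rw [ha.symm j i]; ring
  refine ⟨?_, ?_, ?_, ?_, hsymm, ?_, ?_, ?_⟩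
  · intro f g hf hg
    have : 2 * Gre e a x f g = Gre e a x f g + Gre e a x g f := by rw [hsymm g f]; ring
    rw [this]
    unfold Lre Gre
    simp only [Finset.mul_sum, ← Finset.sum_add_distrib]
    refine Finset.sum_congr rfl fun i _ => Finset.sum_congr rfl fun j _ => ?_
    rw [shi_d2_mul hf hg]; ring
  · intro b f
    unfold Lre
    simp only [fderiv_const_add]
  · intro f g h hf hg _
    unfold Gre
    simp only [Finset.mul_sum, ← Finset.sum_add_distrib]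
    refine Finset.sum_congr rfl fun i _ => Finset.sum_congr rfl fun j _ => ?_
    rw [shi_fderiv_mul (hf.differentiableAt (by norm_num)) (hg.differentiableAt (by norm_num))]
    ring
  · intro b f h
    unfold Gre
    simp only [fderiv_const_add]
  · intro f g
    exact coefOK_cs ha _ _
  · intro f
    exact ha.nonneg _
  · intro f hf hm
    obtain ⟨B, hB⟩ := coefOK_gram ha
    have : Lre e a x f = ∑ k, fderiv ℝ (fun w => fderiv ℝ f w (∑ j, B k j • e j)) x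
        (∑ i, B k i • e i) := by
      unfold Lre
      simp only [shi_d2_sum hf, hB, Finset.sum_mul]
      rw [Finset.sum_comm (s := Finset.univ) (t := Finset.univ)
        (f := fun k i => ∑ j, B k i * B k j * fderiv ℝ (fun w => fderiv ℝ f w (e j)) x (e i))]
      exact Finset.sum_congr rfl fun i _ => Finset.sum_comm
    rw [this]
    exact Finset.sum_nonpos fun k _ => shi_d2_nonpos hf hm _

theorem coefOK_abs_le {a : κ → κ → ℝ} {Λ : ℝ} (ha : CoefOK a Λ) (k l : κ) : |a k l| ≤ Λ := by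
  classical
  have e : ∀ k l : κ, ∑ i, ∑ j, a i j * ((Pi.single k 1 : κ → ℝ) i * (Pi.single l 1 : κ → ℝ) j)
      = a k l := by
    intro k l
    simp [Pi.single_apply]
  have d : ∀ k : κ, 0 ≤ a k k ∧ a k k ≤ Λ := by
    intro k
    have h1 := ha.nonneg (Pi.single k 1)
    have h2 := ha.le (Pi.single k 1)
    rw [e] at h1 h2
    refine ⟨h1, h2.trans (le_of_eq ?_)⟩
    simp [Pi.single_apply]
  have h := coefOK_cs ha (Pi.single k 1) (Pi.single l 1)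
  rw [e, e, e] at h
  have hΛ : 0 ≤ Λ := (d k).1.trans (d k).2
  apply abs_le_of_sq_le_sq _ hΛ
  calc a k l ^ 2 ≤ a k k * a l l := h
    _ ≤ Λ * Λ := mul_le_mul (d k).2 (d l).2 (d l).1 hΛ
    _ = Λ ^ 2 := by ring


/-- a fixed radial cutoff. -/
theorem shi_bump [FiniteDimensional ℝ E] (ρ' ρ : ℝ) (hρ' : 0 < ρ') (hρ : ρ' < ρ) :
    ∃ ψ₀ : E → ℝ, ContDiff ℝ 2 ψ₀ ∧ (∀ w, 0 ≤ ψ₀ w ∧ ψ₀ w ≤ 1) ∧ (∀ w, ρ ≤ ‖w‖ → ψ₀ w = 0) ∧
      (∀ w, ‖w‖ ≤ ρ' → ψ₀ w = 1) := by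
  let ψ₀ : ContDiffBump (0 : E) := ⟨ρ', ρ, hρ', hρ⟩
  refine ⟨ψ₀, ψ₀.contDiff, fun w => ⟨ψ₀.nonneg, ψ₀.le_one⟩, fun w hw => ?_, fun w hw => ?_⟩
  · apply ψ₀.zero_of_le_dist
    rw [dist_zero_right]; exact hw
  · apply ψ₀.one_of_mem_closedBall
    rw [mem_closedBall_zero_iff]; exact hw

theorem shi_cutoff_real [FiniteDimensional ℝ E] (e : κ → E) (ρ' ρ : ℝ) (hρ' : 0 < ρ')
    (hρ : ρ' < ρ) :
    ∃ (ψ₀ : E → ℝ) (K₁ K₂ : ℝ), 0 ≤ K₁ ∧ 0 ≤ K₂ ∧ ContDiff ℝ 2 ψ₀ ∧ (∀ w, 0 ≤ ψ₀ w ∧ ψ₀ w ≤ 1) ∧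
      (∀ w, ρ ≤ ‖w‖ → ψ₀ w = 0) ∧ (∀ w, ‖w‖ ≤ ρ' → ψ₀ w = 1) ∧
      (∀ w, ‖w‖ ≤ ρ → ∑ i, (fderiv ℝ ψ₀ w (e i)) ^ 2 ≤ K₁) ∧
      (∀ w, ‖w‖ ≤ ρ → ∑ i, ∑ j, |fderiv ℝ (fun y => fderiv ℝ ψ₀ y (e j)) w (e i)| ≤ K₂) := by
  obtain ⟨ψ₀, hψ₀, h01, h0, h1⟩ := shi_bump (E := E) ρ' ρ hρ' hρ
  have c1 : ∀ i, ContDiff ℝ 1 (fun w => fderiv ℝ ψ₀ w (e i)) := fun i =>
    (hψ₀.fderiv_right (m := 1) (by norm_num)).clm_apply contDiff_const
  have c2 : ∀ i j, Continuous (fun w => fderiv ℝ (fun y => fderiv ℝ ψ₀ y (e j)) w (e i)) :=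
    fun i j => (((c1 j).fderiv_right (m := 0) (by norm_num)).clm_apply contDiff_const).continuous
  have hcpt : IsCompact (Metric.closedBall (0 : E) ρ) := isCompact_closedBall _ _
  have d1 : Continuous (fun w => ∑ i, (fderiv ℝ ψ₀ w (e i)) ^ 2) :=
    continuous_finsetSum _ fun i _ => ((c1 i).continuous.pow 2)
  have d2 : Continuous (fun w => ∑ i, ∑ j, |fderiv ℝ (fun y => fderiv ℝ ψ₀ y (e j)) w (e i)|) :=
    continuous_finsetSum _ fun i _ => continuous_finsetSum _ fun j _ => (c2 i j).abs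
  obtain ⟨K₁, hK₁⟩ := hcpt.exists_bound_of_continuousOn d1.continuousOn
  obtain ⟨K₂, hK₂⟩ := hcpt.exists_bound_of_continuousOn d2.continuousOn
  have h00 : (0 : E) ∈ Metric.closedBall (0 : E) ρ := by
    rw [mem_closedBall_zero_iff, norm_zero]; linarith
  refine ⟨ψ₀, K₁, K₂, (norm_nonneg _).trans (hK₁ 0 h00), (norm_nonneg _).trans (hK₂ 0 h00), hψ₀,
    h01, h0, h1, fun w hw => ?_, fun w hw => ?_⟩
  · exact (Real.le_norm_self _).trans (hK₁ w (mem_closedBall_zero_iff.2 hw))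
  · exact (Real.le_norm_self _).trans (hK₂ w (mem_closedBall_zero_iff.2 hw))

theorem shi_Lre_bound (e : κ → E) {a : κ → κ → ℝ} {Λ : ℝ} (hA : CoefOK a Λ) (ψ₀ : E → ℝ)
    (x x₀ : E) :
    - Lre e a x (fun x => ψ₀ (x - x₀))
      ≤ Λ * ∑ i, ∑ j, |fderiv ℝ (fun y => fderiv ℝ ψ₀ y (e j)) (x - x₀) (e i)| := by
  have f1 : ∀ w, fderiv ℝ (fun x => ψ₀ (x - x₀)) w = fderiv ℝ ψ₀ (w - x₀) := fun w =>
    fderiv_comp_sub (f := ψ₀) x₀
  have f2 : ∀ (j : κ) (w : E), fderiv ℝ (fun u => fderiv ℝ (fun x => ψ₀ (x - x₀)) u (e j)) w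
      = fderiv ℝ (fun y => fderiv ℝ ψ₀ y (e j)) (w - x₀) := by
    intro j w
    simp only [f1]
    exact fderiv_comp_sub (f := fun y => fderiv ℝ ψ₀ y (e j)) x₀
  unfold Lre
  rw [← Finset.sum_neg_distrib, Finset.mul_sum]
  refine Finset.sum_le_sum fun i _ => ?_
  rw [← Finset.sum_neg_distrib, Finset.mul_sum]
  refine Finset.sum_le_sum fun j _ => ?_
  rw [f2]
  calc - (a i j * _) ≤ |a i j * _| := neg_le_abs _
    _ = |a i j| * |_| := abs_mul _ _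
    _ ≤ Λ * |_| := mul_le_mul_of_nonneg_right (coefOK_abs_le hA i j) (abs_nonneg _)

theorem shi_Gre_bound (e : κ → E) {a : κ → κ → ℝ} {Λ : ℝ} (hA : CoefOK a Λ) (ψ₀ : E → ℝ)
    (x x₀ : E) :
    Gre e a x (fun x => ψ₀ (x - x₀)) (fun x => ψ₀ (x - x₀))
      ≤ Λ * ∑ i, (fderiv ℝ ψ₀ (x - x₀) (e i)) ^ 2 := by
  have f1 : ∀ w, fderiv ℝ (fun x => ψ₀ (x - x₀)) w = fderiv ℝ ψ₀ (w - x₀) := fun w =>
    fderiv_comp_sub (f := ψ₀) x₀
  unfold Gre
  rw [f1]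
  exact hA.le _

/-- **B9-SHI-LOC (real).** -/
theorem shi_local_real [FiniteDimensional ℝ E] (e : κ → E) (ρ' ρ δ Λ c C₁ C₂ C₄ M S₀ : ℝ)
    (hρ' : 0 < ρ') (hρ : ρ' < ρ) (hδ : 0 < δ) (hΛ : 0 ≤ Λ) (hc : 0 < c) (h1 : 0 ≤ C₁) (h2 : 0 ≤ C₂)
    (h4 : 0 ≤ C₄) (hM : 0 ≤ M) (hS : 0 ≤ S₀) :
    ∃ Cs : ℝ, 0 ≤ Cs ∧ ∀ (t₀ t₁ : ℝ) (x₀ : E) (O : Set (ℝ × E)) (a : ℝ → E → κ → κ → ℝ)
      (p s y : ℝ → E → ℝ),
      t₀ ≤ t₁ → IsOpen O → Set.Icc t₀ t₁ ×ˢ Metric.closedBall x₀ ρ ⊆ O →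
      ContDiffOn ℝ 2 (fun q : ℝ × E => p q.1 q.2) O →
      ContDiffOn ℝ 2 (fun q : ℝ × E => s q.1 q.2) O →
      (∀ t ∈ Set.Icc t₀ t₁, ∀ x ∈ Metric.closedBall x₀ ρ, CoefOK (a t x) Λ ∧
        0 ≤ p t x ∧ p t x ≤ M ∧ 0 ≤ s t x ∧ 0 ≤ y t x ∧
        deriv (fun r => p r x) t - Lre e (a t x) x (p t) ≤ - c * s t x + C₁ ∧
        deriv (fun r => s r x) t - Lre e (a t x) x (s t)
          ≤ - y t x + C₂ * (1 + s t x * Real.sqrt (s t x)) ∧
        Gre e (a t x) x (p t) (p t) ≤ C₄ * s t x ∧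
        Gre e (a t x) x (s t) (s t) ≤ C₄ * s t x * y t x) →
      ((∀ x ∈ Metric.closedBall x₀ ρ, s t₀ x ≤ S₀) →
        ∀ t ∈ Set.Icc t₀ t₁, ∀ x ∈ Metric.closedBall x₀ ρ', s t x ≤ Cs) ∧
      (∀ t ∈ Set.Icc (t₀ + δ) t₁, ∀ x ∈ Metric.closedBall x₀ ρ', s t x ≤ Cs) := by
  obtain ⟨ψ₀, K₁, K₂, hK₁0, hK₂0, hψ₀, h01, hz, ho, hK₁, hK₂⟩ := shi_cutoff_real e ρ' ρ hρ' hρ
  obtain ⟨Cs, hCs, H⟩ := shi_local_abs (E := E) δ c C₁ C₂ C₄ M S₀ (Λ * K₁ + Λ * K₂) hδ hc h1 h2 h4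
    hM hS (by positivity)
  refine ⟨Cs, hCs, ?_⟩
  intro t₀ t₁ x₀ O a p s y ht hO hsub hp hs hyp
  have hρ0 : 0 < ρ := hρ'.trans hρ
  have H' := H t₀ t₁ (Metric.closedBall x₀ ρ) O (fun t x => Lre e (a t x) x)
    (fun t x => Gre e (a t x) x) (fun x => ψ₀ (x - x₀)) p s y ht (isCompact_closedBall _ _) hO hsub
    (hψ₀.comp (contDiff_id.sub contDiff_const)) hp hs
    (fun t ht' x hx => diffu_real e _ Λ (hyp t ht' x hx).1 x)
    (fun t ht' x hx => by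
      obtain ⟨_, b1, b2, b3, b4, _⟩ := hyp t ht' x hx
      exact ⟨b1, b2, b3, b4⟩)
    (fun x _ => h01 _)
    (fun x _ hxi => by
      rw [interior_closedBall x₀ hρ0.ne', Metric.mem_ball, not_lt] at hxi
      apply hz
      rw [← dist_eq_norm]
      exact hxi)
    (fun t ht' x hx => by
      have hA := (hyp t ht' x hx).1
      have hx' : ‖x - x₀‖ ≤ ρ := by
        rw [← dist_eq_norm]; exact hx
      have u1 := mul_le_mul_of_nonneg_left (hK₁ _ hx') hΛ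
      have u2 := mul_le_mul_of_nonneg_left (hK₂ _ hx') hΛ
      have v1 : 0 ≤ Λ * K₁ := by positivity
      have v2 : 0 ≤ Λ * K₂ := by positivity
      exact ⟨by linarith [shi_Lre_bound e hA ψ₀ x x₀], by linarith [shi_Gre_bound e hA ψ₀ x x₀]⟩)
    (fun t ht' x hx => by
      obtain ⟨_, _, _, _, _, b⟩ := hyp t ht' x hx
      exact b)
  have hone : ∀ x ∈ Metric.closedBall x₀ ρ', ψ₀ (x - x₀) = 1 := by
    intro x hx
    apply ho
    rw [← dist_eq_norm]; exact hx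
  have hsubB : Metric.closedBall x₀ ρ' ⊆ Metric.closedBall x₀ ρ :=
    Metric.closedBall_subset_closedBall hρ.le
  exact ⟨fun hi t ht' x hx => H'.1 hi t ht' x (hsubB hx) (hone x hx),
    fun t ht' x hx => H'.2 t ht' x (hsubB hx) (hone x hx)⟩

end Real

/-! ### The complex instance -/

section Cplx

variable {ι : Type} [Fintype ι] [DecidableEq ι]

/-- `Δ_G f = tr (G levi f) = ∑ G_{pq} ∂_p ∂̄_q f`  (`G = K⁻¹`). -/
noncomputable def Lcx (G : Matrix ι ι ℂ) (z : CE ι) (f : CE ι → ℝ) : ℝ := (G * levi f z).trace.re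

/-- `Γ(f,g) = Re ∑ G_{pq} ∂_p f \overline{∂_q g}`. -/
noncomputable def Gcx (G : Matrix ι ι ℂ) (z : CE ι) (f g : CE ι → ℝ) : ℝ :=
  (∑ p, ∑ q, G p q * (grad10 f z p * star (grad10 g z q))).re

/-- the sesquilinear form of `Gcx`. -/
noncomputable def hfm (G : Matrix ι ι ℂ) (ξ ζ : ι → ℂ) : ℝ :=
  (∑ p, ∑ q, G p q * (ξ p * star (ζ q))).re

theorem hfm_symm {G : Matrix ι ι ℂ} (hG : G.IsHermitian) (ξ ζ : ι → ℂ) :
    hfm G ξ ζ = hfm G ζ ξ := by
  unfold hfm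
  rw [← Complex.conj_re, map_sum, Finset.sum_comm]
  congr 1
  simp only [map_sum]
  refine Finset.sum_congr rfl fun p _ => Finset.sum_congr rfl fun q _ => ?_
  have : G p q = star (G q p) := (hG.apply p q).symm
  rw [this]
  simp only [map_mul, Complex.star_def, Complex.conj_conj]
  ring

theorem hfm_nonneg {G : Matrix ι ι ℂ} (hG : G.PosSemidef) (ξ : ι → ℂ) : 0 ≤ hfm G ξ ξ := by
  have h := hG.dotProduct_mulVec_nonneg (star ξ)
  have e : star (star ξ) ⬝ᵥ G.mulVec (star ξ) = ∑ p, ∑ q, G p q * (ξ p * star (ξ q)) := by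
    simp only [dotProduct, Matrix.mulVec, Finset.mul_sum, star_star, Pi.star_apply]
    refine Finset.sum_congr rfl fun p _ => Finset.sum_congr rfl fun q _ => ?_
    ring
  rw [e] at h
  exact (Complex.le_def.1 h).1

theorem hfm_add_smul (G : Matrix ι ι ℂ) (ξ ζ : ι → ℂ) (r : ℝ) :
    hfm G (fun p => ξ p + (r : ℂ) * ζ p) (fun p => ξ p + (r : ℂ) * ζ p)
      = hfm G ζ ζ * (r * r) + (hfm G ξ ζ + hfm G ζ ξ) * r + hfm G ξ ξ := by
  unfold hfm
  have : ∑ p, ∑ q, G p q * ((ξ p + (r : ℂ) * ζ p) * star (ξ q + (r : ℂ) * ζ q))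
      = (∑ p, ∑ q, G p q * (ζ p * star (ζ q))) * ((r * r : ℝ) : ℂ)
        + ((∑ p, ∑ q, G p q * (ξ p * star (ζ q))) + ∑ p, ∑ q, G p q * (ζ p * star (ξ q))) * (r : ℂ)
        + ∑ p, ∑ q, G p q * (ξ p * star (ξ q)) := by
    simp only [Finset.sum_mul, ← Finset.sum_add_distrib]
    refine Finset.sum_congr rfl fun p _ => Finset.sum_congr rfl fun q _ => ?_
    simp
    ring
  rw [this]
  simp only [Complex.add_re, Complex.re_mul_ofReal]

theorem hfm_cs {G : Matrix ι ι ℂ} (hG : G.PosSemidef) (ξ ζ : ι → ℂ) :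
    (hfm G ξ ζ) ^ 2 ≤ hfm G ξ ξ * hfm G ζ ζ := by
  have key : ∀ r : ℝ, 0 ≤ hfm G ζ ζ * (r * r) + (2 * hfm G ξ ζ) * r + hfm G ξ ξ := by
    intro r
    have h := hfm_nonneg hG (fun p => ξ p + (r : ℂ) * ζ p)
    rw [hfm_add_smul, hfm_symm hG.isHermitian ζ ξ] at h
    linarith
  have := discrim_le_zero key
  rw [discrim] at this
  nlinarith

theorem grad10_const_add (b : ℝ) (f : CE ι → ℝ) (z : CE ι) :
    grad10 (fun w => b + f w) z = grad10 f z := by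
  funext k
  simp only [grad10, dz_def, Complex.ofReal_add]
  rw [fderiv_const_add]

theorem levi_const_add (b : ℝ) (f : CE ι → ℝ) (z : CE ι) :
    levi (fun w => b + f w) z = levi f z := by
  have : (fun w => b + f w) = fun w => f w + b := by funext w; ring
  rw [this, levi_add_const]

/-- **B9-SHI-INST (complex).**  `levi_mul`, `grad10_mul`, `neg_levi_posSemidef_of_isLocalMax`; trace of a
product of two positive semidefinite matrices is `≥ 0`; Cauchy-Schwarz for the positive semidefinite form `Gᵀ`. -/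
theorem diffu_cplx (G : Matrix ι ι ℂ) (hG : G.PosSemidef) (z : CE ι) :
    Diffu z (Lcx G z) (Gcx G z) := by
  have hsymm : ∀ f g : CE ι → ℝ, Gcx G z f g = Gcx G z g f :=
    fun f g => hfm_symm hG.isHermitian _ _
  refine ⟨?_, ?_, ?_, ?_, hsymm, ?_, ?_, ?_⟩
  · intro f g hf hg
    have : 2 * Gcx G z f g = Gcx G z f g + Gcx G z g f := by rw [hsymm g f]; ring
    rw [this]
    unfold Lcx Gcx
    have e : (G * levi (fun w => f w * g w) z).trace
        = (f z : ℂ) * (G * levi g z).trace + (g z : ℂ) * (G * levi f z).trace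
          + ∑ p, ∑ q, G p q * (grad10 f z p * star (grad10 g z q))
          + ∑ p, ∑ q, G p q * (grad10 g z p * star (grad10 f z q)) := by
      simp only [Matrix.trace, Matrix.diag, Matrix.mul_apply, Finset.mul_sum,
        ← Finset.sum_add_distrib]
      refine Finset.sum_congr rfl fun p _ => Finset.sum_congr rfl fun q _ => ?_
      rw [levi_mul hf hg]
      simp
      ring
    rw [e]
    simp only [Complex.add_re, Complex.re_ofReal_mul]
    ring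
  · intro b f
    unfold Lcx
    rw [levi_const_add]
  · intro f g h hf hg _
    unfold Gcx
    rw [grad10_mul (hf.differentiableAt (by norm_num)) (hg.differentiableAt (by norm_num))]
    have e : ∑ p, ∑ q, G p q * (((f z : ℂ) • grad10 g z + (g z : ℂ) • grad10 f z) p
          * star (grad10 h z q))
        = (f z : ℂ) * (∑ p, ∑ q, G p q * (grad10 g z p * star (grad10 h z q)))
          + (g z : ℂ) * ∑ p, ∑ q, G p q * (grad10 f z p * star (grad10 h z q)) := by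
      simp only [Finset.mul_sum, ← Finset.sum_add_distrib]
      refine Finset.sum_congr rfl fun p _ => Finset.sum_congr rfl fun q _ => ?_
      simp
      ring
    rw [e]
    simp only [Complex.add_re, Complex.re_ofReal_mul]
  · intro b f h
    unfold Gcx
    rw [grad10_const_add]
  · intro f g
    exact hfm_cs hG _ _
  · intro f
    exact hfm_nonneg hG _
  · intro f hf hm
    have h := trace_mul_nonneg hG (neg_levi_posSemidef_of_isLocalMax hf hm)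
    unfold Lcx
    rw [Matrix.mul_neg, Matrix.trace_neg, Complex.neg_re] at h
    linarith

theorem shi_cutoff_cplx (ρ' ρ : ℝ) (hρ' : 0 < ρ') (hρ : ρ' < ρ) :
    ∃ (ψ₀ : CE ι → ℝ) (K₁ K₂ : ℝ), 0 ≤ K₁ ∧ 0 ≤ K₂ ∧ ContDiff ℝ 2 ψ₀ ∧
      (∀ w, 0 ≤ ψ₀ w ∧ ψ₀ w ≤ 1) ∧
      (∀ w, ρ ≤ ‖w‖ → ψ₀ w = 0) ∧ (∀ w, ‖w‖ ≤ ρ' → ψ₀ w = 1) ∧
      (∀ w, ‖w‖ ≤ ρ → ∑ p, ∑ q, ‖grad10 ψ₀ w p‖ * ‖grad10 ψ₀ w q‖ ≤ K₁) ∧
      (∀ w, ‖w‖ ≤ ρ → ∑ p, ∑ q, ‖levi ψ₀ w q p‖ ≤ K₂) := by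
  obtain ⟨ψ₀, hψ₀, h01, h0, h1⟩ := shi_bump (E := CE ι) ρ' ρ hρ' hρ
  have c1 : ∀ p, Continuous (fun w => grad10 ψ₀ w p) := fun p =>
    continuous_iff_continuousAt.2 fun w =>
      (contDiffAt_grad10 (m := 0) hψ₀.contDiffAt (by norm_num)).continuousAt
  have c2 : ∀ p q, Continuous (fun w => levi ψ₀ w q p) := fun p q =>
    continuous_iff_continuousAt.2 fun w =>
      (contDiffAt_levi (m := 0) hψ₀.contDiffAt (by norm_num)).continuousAt
  have hcpt : IsCompact (Metric.closedBall (0 : CE ι) ρ) := isCompact_closedBall _ _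
  have d1 : Continuous (fun w => ∑ p, ∑ q, ‖grad10 ψ₀ w p‖ * ‖grad10 ψ₀ w q‖) :=
    continuous_finsetSum _ fun p _ => continuous_finsetSum _ fun q _ =>
      (c1 p).norm.mul (c1 q).norm
  have d2 : Continuous (fun w => ∑ p, ∑ q, ‖levi ψ₀ w q p‖) :=
    continuous_finsetSum _ fun p _ => continuous_finsetSum _ fun q _ => (c2 p q).norm
  obtain ⟨K₁, hK₁⟩ := hcpt.exists_bound_of_continuousOn d1.continuousOn
  obtain ⟨K₂, hK₂⟩ := hcpt.exists_bound_of_continuousOn d2.continuousOn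
  have h00 : (0 : CE ι) ∈ Metric.closedBall (0 : CE ι) ρ := by
    rw [mem_closedBall_zero_iff, norm_zero]; linarith
  refine ⟨ψ₀, K₁, K₂, (norm_nonneg _).trans (hK₁ 0 h00), (norm_nonneg _).trans (hK₂ 0 h00), hψ₀,
    h01, h0, h1, fun w hw => ?_, fun w hw => ?_⟩
  · exact (Real.le_norm_self _).trans (hK₁ w (mem_closedBall_zero_iff.2 hw))
  · exact (Real.le_norm_self _).trans (hK₂ w (mem_closedBall_zero_iff.2 hw))

theorem shi_entry_le {G : Matrix ι ι ℂ} {Λ : ℝ} (hΛ : 0 ≤ Λ) (hG : G.PosSemidef)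
    (hle : leM G (cI Λ)) (p q : ι) : ‖G p q‖ ≤ Λ :=
  norm_entry_le_of_loewner hle (hG.add (posSemidef_smul_real hΛ Matrix.PosSemidef.one)) p q

theorem shi_Lcx_bound {G : Matrix ι ι ℂ} {Λ : ℝ} (hΛ : 0 ≤ Λ) (hG : G.PosSemidef)
    (hle : leM G (cI Λ)) (ψ₀ : CE ι → ℝ) (z z₀ : CE ι) :
    - Lcx G z (fun x => ψ₀ (x - z₀)) ≤ Λ * ∑ p, ∑ q, ‖levi ψ₀ (z - z₀) q p‖ := by
  have f2 : levi (fun x => ψ₀ (x - z₀)) z = levi ψ₀ (z - z₀) := by
    have := levi_comp_add_const (z := z) ψ₀ (- z₀)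
    simpa [sub_eq_add_neg] using this
  unfold Lcx
  rw [f2]
  calc - ((G * levi ψ₀ (z - z₀)).trace).re ≤ ‖(G * levi ψ₀ (z - z₀)).trace‖ :=
        (neg_le_abs _).trans (Complex.abs_re_le_norm _)
    _ ≤ ∑ p, ∑ q, ‖G p q‖ * ‖levi ψ₀ (z - z₀) q p‖ := by
        simp only [Matrix.trace, Matrix.diag, Matrix.mul_apply]
        refine (norm_sum_le _ _).trans (Finset.sum_le_sum fun p _ => ?_)
        refine (norm_sum_le _ _).trans (Finset.sum_le_sum fun q _ => ?_)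
        rw [norm_mul]
    _ ≤ Λ * ∑ p, ∑ q, ‖levi ψ₀ (z - z₀) q p‖ := by
        rw [Finset.mul_sum]
        refine Finset.sum_le_sum fun p _ => ?_
        rw [Finset.mul_sum]
        refine Finset.sum_le_sum fun q _ => ?_
        exact mul_le_mul_of_nonneg_right (shi_entry_le hΛ hG hle p q) (norm_nonneg _)

theorem shi_Gcx_bound {G : Matrix ι ι ℂ} {Λ : ℝ} (hΛ : 0 ≤ Λ) (hG : G.PosSemidef)
    (hle : leM G (cI Λ)) (ψ₀ : CE ι → ℝ) (z z₀ : CE ι) :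
    Gcx G z (fun x => ψ₀ (x - z₀)) (fun x => ψ₀ (x - z₀))
      ≤ Λ * ∑ p, ∑ q, ‖grad10 ψ₀ (z - z₀) p‖ * ‖grad10 ψ₀ (z - z₀) q‖ := by
  have f1 : grad10 (fun x => ψ₀ (x - z₀)) z = grad10 ψ₀ (z - z₀) := by
    have := grad10_comp_add_const (z := z) ψ₀ (- z₀)
    simpa [sub_eq_add_neg] using this
  unfold Gcx
  rw [f1]
  refine (Complex.re_le_norm _).trans ?_
  rw [Finset.mul_sum]
  refine (norm_sum_le _ _).trans (Finset.sum_le_sum fun p _ => ?_)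
  rw [Finset.mul_sum]
  refine (norm_sum_le _ _).trans (Finset.sum_le_sum fun q _ => ?_)
  rw [norm_mul, norm_mul, norm_star]
  exact mul_le_mul_of_nonneg_right (shi_entry_le hΛ hG hle p q) (by positivity)

/-- **B9-SHI-LOC (complex).** -/
theorem shi_local_cplx (ρ' ρ δ Λ c C₁ C₂ C₄ M S₀ : ℝ)
    (hρ' : 0 < ρ') (hρ : ρ' < ρ) (hδ : 0 < δ) (hΛ : 0 ≤ Λ) (hc : 0 < c) (h1 : 0 ≤ C₁) (h2 : 0 ≤ C₂)
    (h4 : 0 ≤ C₄) (hM : 0 ≤ M) (hS : 0 ≤ S₀) :
    ∃ Cs : ℝ, 0 ≤ Cs ∧ ∀ (t₀ t₁ : ℝ) (z₀ : CE ι) (O : Set (ℝ × CE ι)) (G : ℝ → CE ι → Matrix ι ι ℂ)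
      (p s y : ℝ → CE ι → ℝ),
      t₀ ≤ t₁ → IsOpen O → Set.Icc t₀ t₁ ×ˢ Metric.closedBall z₀ ρ ⊆ O →
      ContDiffOn ℝ 2 (fun q : ℝ × CE ι => p q.1 q.2) O →
      ContDiffOn ℝ 2 (fun q : ℝ × CE ι => s q.1 q.2) O →
      (∀ t ∈ Set.Icc t₀ t₁, ∀ z ∈ Metric.closedBall z₀ ρ, (G t z).PosSemidef ∧ leM (G t z) (cI Λ) ∧
        0 ≤ p t z ∧ p t z ≤ M ∧ 0 ≤ s t z ∧ 0 ≤ y t z ∧
        deriv (fun r => p r z) t - Lcx (G t z) z (p t) ≤ - c * s t z + C₁ ∧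
        deriv (fun r => s r z) t - Lcx (G t z) z (s t)
          ≤ - y t z + C₂ * (1 + s t z * Real.sqrt (s t z)) ∧
        Gcx (G t z) z (p t) (p t) ≤ C₄ * s t z ∧
        Gcx (G t z) z (s t) (s t) ≤ C₄ * s t z * y t z) →
      ((∀ z ∈ Metric.closedBall z₀ ρ, s t₀ z ≤ S₀) →
        ∀ t ∈ Set.Icc t₀ t₁, ∀ z ∈ Metric.closedBall z₀ ρ', s t z ≤ Cs) ∧
      (∀ t ∈ Set.Icc (t₀ + δ) t₁, ∀ z ∈ Metric.closedBall z₀ ρ', s t z ≤ Cs) := by
  obtain ⟨ψ₀, K₁, K₂, hK₁0, hK₂0, hψ₀, h01, hz, ho, hK₁, hK₂⟩ :=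
    shi_cutoff_cplx (ι := ι) ρ' ρ hρ' hρ
  obtain ⟨Cs, hCs, H⟩ := shi_local_abs (E := CE ι) δ c C₁ C₂ C₄ M S₀ (Λ * K₁ + Λ * K₂) hδ hc h1 h2
    h4 hM hS (by positivity)
  refine ⟨Cs, hCs, ?_⟩
  intro t₀ t₁ x₀ O G p s y ht hO hsub hp hs hyp
  have hρ0 : 0 < ρ := hρ'.trans hρ
  have H' := H t₀ t₁ (Metric.closedBall x₀ ρ) O (fun t x => Lcx (G t x) x)
    (fun t x => Gcx (G t x) x) (fun x => ψ₀ (x - x₀)) p s y ht (isCompact_closedBall _ _) hO hsub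
    (hψ₀.comp (contDiff_id.sub contDiff_const)) hp hs
    (fun t ht' x hx => diffu_cplx _ (hyp t ht' x hx).1 x)
    (fun t ht' x hx => by
      obtain ⟨_, _, b1, b2, b3, b4, _⟩ := hyp t ht' x hx
      exact ⟨b1, b2, b3, b4⟩)
    (fun x _ => h01 _)
    (fun x _ hxi => by
      rw [interior_closedBall x₀ hρ0.ne', Metric.mem_ball, not_lt] at hxi
      apply hz
      rw [← dist_eq_norm]
      exact hxi)
    (fun t ht' x hx => by
      have hA := (hyp t ht' x hx).1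
      have hB := (hyp t ht' x hx).2.1
      have hx' : ‖x - x₀‖ ≤ ρ := by
        rw [← dist_eq_norm]; exact hx
      have u1 := mul_le_mul_of_nonneg_left (hK₁ _ hx') hΛ
      have u2 := mul_le_mul_of_nonneg_left (hK₂ _ hx') hΛ
      have v1 : 0 ≤ Λ * K₁ := by positivity
      have v2 : 0 ≤ Λ * K₂ := by positivity
      exact ⟨by linarith [shi_Lcx_bound hΛ hA hB ψ₀ x x₀],
        by linarith [shi_Gcx_bound hΛ hA hB ψ₀ x x₀]⟩)
    (fun t ht' x hx => by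
      obtain ⟨_, _, _, _, _, _, b⟩ := hyp t ht' x hx
      exact b)
  have hone : ∀ x ∈ Metric.closedBall x₀ ρ', ψ₀ (x - x₀) = 1 := by
    intro x hx
    apply ho
    rw [← dist_eq_norm]; exact hx
  have hsubB : Metric.closedBall x₀ ρ' ⊆ Metric.closedBall x₀ ρ :=
    Metric.closedBall_subset_closedBall hρ.le
  exact ⟨fun hi t ht' x hx => H'.1 hi t ht' x (hsubB hx) (hone x hx),
    fun t ht' x hx => H'.2 t ht' x (hsubB hx) (hone x hx)⟩

end Cplx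

end Claimed.Agent.R316.B9
end

/- ===== packed: Claimed.Agent.R316.B9.QLDefs ===== -/
section
/-!
# Row 316, package B9: quasilinear parabolic systems with scalar principal part.  DEFINITIONS

Real calculus on space-time `ℝ × E`.  A family `u : ℝ × E → α → 𝕍` (`α` a finite index type, `𝕍` a finite dimensional
real inner product space, e.g. `ℂ`), directions `e : κ → E`.

* `Dd v f q = fderiv ℝ f q v`, `Dl [v₁, …, v_m] f = D_{v_m} ⋯ D_{v_1} f` (INNERMOST FIRST);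
* `tm = (1,0)`, `sp e i = (0, e i)`, `dir e : Option κ → ℝ × E` (`none ↦ tm`);
* `QSys κ α 𝕍`: the data `(dom, act, a, Φ)` of the system
    `D_t u_β = ∑ a_ij(u) D_i D_j u_β + Φ(u, Du)_β`   for the ACTIVE components `β` (`act β`);
  the other components are PASSIVE (given data with bounded jets, e.g. the torsion);
* `pro e u = (u, D_1 u, …)` (index `Option κ × α`) and the prolonged system `S.prolong`, which is AFFINE in the gradient slot;
* `Hop e a f = D_t f - ∑ a_ij D_i D_j f`.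

## Plan (files `QLCalc`, `QLGrad`, `QLProl`, `QLTower`)
1. `grad_est` (T1): Bernstein-Shi gradient estimate (`shi_local_real`, `p = ∑ |u_β|²`, `s = ∑ |D_d u_β|²`) for ANY smooth family `u`
   and coefficients `A` with `|D A| ≤ C_A` such that `f := (∂_t - 𝓛) u` obeys `|f| ≤ C (1 + √s)`, `|D_d f| ≤ C (1 + s + √y)`.
2. `pro_sol` (T2): `pro e u` solves `S.prolong`.  `prolong_AG`: affine growth of `S.prolong` on compact sets.
3. `stage1`: all spatial derivatives, by induction on the order over ALL systems (`S ↦ S.prolong`).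
4. `stage2`: time and mixed derivatives, algebraically (`D_t u = Ψ ∘ (u, Du, D²u)`, `Dl_comp_bound`, `Dl_perm`).
5. `QLConv`: `Dl` versus `iteratedFDeriv`.
-/

set_option autoImplicit false
set_option maxSynthPendingDepth 3
open scoped ContDiff Topology

namespace Claimed.Agent.R316.B9

section Gen

variable {P F : Type} [NormedAddCommGroup P] [NormedSpace ℝ P] [NormedAddCommGroup F]
  [NormedSpace ℝ F]

/-- directional derivative. -/
noncomputable def Dd (v : P) (f : P → F) (q : P) : F := fderiv ℝ f q v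

/-- iterated directional derivative, innermost direction first. -/
noncomputable def Dl : List P → (P → F) → P → F
  | [], f => f
  | v :: L, f => Dl L (Dd v f)

end Gen

section ST

variable {E : Type} [NormedAddCommGroup E] [NormedSpace ℝ E] {κ : Type}

/-- the time direction. -/
def tm : ℝ × E := (1, 0)

/-- the spatial directions. -/
def sp (e : κ → E) (i : κ) : ℝ × E := (0, e i)

/-- all directions. -/
def dir (e : κ → E) : Option κ → ℝ × E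
  | none => tm
  | some i => sp e i

/-- the closed cylinder. -/
def cyl (t₀ t₁ : ℝ) (x₀ : E) (ρ : ℝ) : Set (ℝ × E) := Set.Icc t₀ t₁ ×ˢ Metric.closedBall x₀ ρ

variable [Fintype κ] {F : Type} [NormedAddCommGroup F] [NormedSpace ℝ F]

/-- the heat operator `D_t - ∑ a_ij D_i D_j` with frozen coefficients `a`. -/
noncomputable def Hop (e : κ → E) (a : κ → κ → ℝ) (f : ℝ × E → F) (q : ℝ × E) : F :=
  Dd tm f q - ∑ i, ∑ j, a i j • Dd (sp e i) (Dd (sp e j) f) q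

end ST

/-- the data of a quasilinear system. -/
structure QSys (κ α 𝕍 : Type) where
  dom : Set (α → 𝕍)
  act : α → Prop
  a : κ → κ → (α → 𝕍) → ℝ
  Φ : (α → 𝕍) × (κ → α → 𝕍) → α → 𝕍

section Sys

variable {E : Type} [NormedAddCommGroup E] [NormedSpace ℝ E] {κ : Type} [Fintype κ]
variable {α : Type} [Fintype α] {𝕍 : Type} [NormedAddCommGroup 𝕍] [InnerProductSpace ℝ 𝕍]

/-- regularity of the data. -/
structure QSys.Reg (S : QSys κ α 𝕍) : Prop where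
  isOpen : IsOpen S.dom
  a_smooth : ∀ i j, ContDiffOn ℝ ∞ (S.a i j) S.dom
  Φ_smooth : ContDiffOn ℝ ∞ S.Φ (S.dom ×ˢ Set.univ)

/-- `𝒦` is a compact set of values on which the system is uniformly parabolic. -/
structure QSys.Good (S : QSys κ α 𝕍) (𝒦 : Set (α → 𝕍)) (lam Lam : ℝ) : Prop where
  reg : S.Reg
  lam_pos : 0 < lam
  Lam_nonneg : 0 ≤ Lam
  compact : IsCompact 𝒦
  sub : 𝒦 ⊆ S.dom
  coef : ∀ W ∈ 𝒦, CoefOK (fun i j => S.a i j W) Lam
  ell : ∀ W ∈ 𝒦, ∀ ξ : κ → ℝ, lam * ∑ i, ξ i ^ 2 ≤ ∑ i, ∑ j, S.a i j W * (ξ i * ξ j)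

/-- `u` solves the system on `O`. -/
def QSys.Sol (S : QSys κ α 𝕍) (e : κ → E) (u : ℝ × E → α → 𝕍) (O : Set (ℝ × E)) : Prop :=
  ∀ q ∈ O, ∀ β, S.act β →
    Dd tm u q β = (∑ i, ∑ j, S.a i j (u q) • Dd (sp e i) (Dd (sp e j) u) q β)
      + S.Φ (u q, fun i => Dd (sp e i) u q) β

/-- affine growth in the gradient slot over `𝒦`. -/
def QSys.AG (S : QSys κ α 𝕍) (𝒦 : Set (α → 𝕍)) (C : ℝ) : Prop :=
  ∀ W ∈ 𝒦, ∀ Q : κ → α → 𝕍, ‖S.Φ (W, Q)‖ ≤ C * (1 + ‖Q‖) ∧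
    ∀ (W' : α → 𝕍) (Q' : κ → α → 𝕍),
      ‖fderiv ℝ S.Φ (W, Q) (W', Q')‖ ≤ C * ((1 + ‖Q‖) * ‖W'‖ + ‖Q'‖)

/-- the order zero part of a prolonged value. -/
def nn (W : Option κ × α → 𝕍) : α → 𝕍 := fun β => W (none, β)

/-- the first order part of a prolonged value. -/
def sm (W : Option κ × α → 𝕍) : κ → α → 𝕍 := fun i β => W (some i, β)

/-- the prolongation `(u, Du)`. -/
noncomputable def pro (e : κ → E) (u : ℝ × E → α → 𝕍) (q : ℝ × E) : Option κ × α → 𝕍 :=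
  fun b => match b with
    | (none, β) => u q β
    | (some d, β) => Dd (sp e d) u q β

/-- the system solved by `pro e u`. -/
noncomputable def QSys.prolong (S : QSys κ α 𝕍) : QSys κ (Option κ × α) 𝕍 where
  dom := {W | nn W ∈ S.dom}
  act := fun b => S.act b.2
  a := fun i j W => S.a i j (nn W)
  Φ := fun p b => match b with
    | (none, β) => S.Φ (nn p.1, sm p.1) β
    | (some d, β) =>
        (∑ i, ∑ j, (fderiv ℝ (S.a i j) (nn p.1) (sm p.1 d)) • p.2 i (some j, β))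
          + fderiv ℝ S.Φ (nn p.1, sm p.1) (sm p.1 d, fun i β' => p.2 d (some i, β')) β

end Sys

end Claimed.Agent.R316.B9
end

/- ===== packed: Claimed.Agent.R316.B9.QLCalc ===== -/
section
/-!
# Row 316, package B9: calculus of iterated directional derivatives `Dd`, `Dl`   (Mathlib only)

Leaves
* **B9-QL-CALC1**: `Dd_*`, `Dl_congr`, `contDiffAt_Dl`, `Dl_append`, `Dd_comm`, `Dl_perm`, `Dl_clm`, `Dl_apply`, `Dl_prodMk`, `Dl_pi`.
  (`Dd_comm`: `ContDiffAt.isSymmSndFDerivAt` / `second_derivative_symmetric`; write `Dd v (Dd w f) q = fderiv (fderiv f) q v w`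
  with `fderiv_clm_apply`.  `Dl_perm`: induction on `List.Perm`; `swap` case is `Dd_comm` in a neighbourhood + `Dl_congr`.)
* **B9-QL-CL**: `Dl_comp_bound`.  Induction on `L` over all `(X, F, Ψ, U, 𝒦, B)`.  `L = []`: `IsCompact.exists_bound_of_continuousOn`.
  `L = d :: L₁`: near `q`, `Dd d (Ψ ∘ h) = TΨ ∘ (h, Dd d h)` with `TΨ (x, v) = fderiv ℝ Ψ x v`, smooth on `U ×ˢ univ`
  (`ContDiffOn.fderiv_of_isOpen`, `ContDiffOn.clm_apply`); compact set `𝒦 ×ˢ closedBall 0 B`; `Dl L' (h, Dd d h) = (Dl L' h, Dl (d :: L') h)`.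
* **B9-QL-CONV**: `iteratedFDeriv_eq_Dl`, `norm_Dl_le`, `norm_iteratedFDeriv_le_of_Dl`, `Dl_slice`, `hop_slice`.
  (`iteratedFDeriv_succ_apply_right`, `ContinuousLinearMap.iteratedFDeriv_comp_left`; expansion of vectors in a spanning family:
  choose a linear right inverse of `(κ' → ℝ) → P`, `c ↦ ∑ c i • 𝔡 i`, continuous by finite dimension; `ContinuousMultilinearMap.map_sum`,
  `ContinuousMultilinearMap.opNorm_le_bound`.)
-/

set_option autoImplicit false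
set_option maxSynthPendingDepth 3
open scoped ContDiff Topology

namespace Claimed.Agent.R316.B9

section Gen

variable {P F G : Type} [NormedAddCommGroup P] [NormedSpace ℝ P] [NormedAddCommGroup F]
  [NormedSpace ℝ F] [NormedAddCommGroup G] [NormedSpace ℝ G]

/-! ### B9-QL-CALC1 -/

theorem Dd_congr {f g : P → F} {q : P} (h : f =ᶠ[𝓝 q] g) (v : P) : Dd v f =ᶠ[𝓝 q] Dd v g := by
  filter_upwards [h.eventually_nhds] with x hx
  have hx' : f =ᶠ[𝓝 x] g := hx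
  simp only [Dd, hx'.fderiv_eq]

theorem Dl_congr {f g : P → F} {q : P} (h : f =ᶠ[𝓝 q] g) (L : List P) :
    Dl L f =ᶠ[𝓝 q] Dl L g := by
  induction L generalizing f g with
  | nil => exact h
  | cons v L ih => exact ih (Dd_congr h v)

theorem Dl_congr_at {f g : P → F} {q : P} (h : f =ᶠ[𝓝 q] g) (L : List P) :
    Dl L f q = Dl L g q := by
  exact (Dl_congr h L).self_of_nhds

/-- finite regularity version. -/
theorem contDiffAt_Dd_nat {f : P → F} {q : P} {n : ℕ} (hf : ContDiffAt ℝ (n + 1 : ℕ) f q) (v : P) :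
    ContDiffAt ℝ n (Dd v f) q :=
  (hf.fderiv_right (m := n) (by norm_cast)).clm_apply contDiffAt_const

theorem ev_contDiffAt_nat {f : P → F} {q : P} {n : ℕ} (hf : ContDiffAt ℝ n f q) :
    ∀ᶠ x in 𝓝 q, ContDiffAt ℝ n f x := hf.eventually (by simp)

theorem ev_diff_nat {f : P → F} {q : P} {n : ℕ} (hf : ContDiffAt ℝ (n + 1 : ℕ) f q) :
    ∀ᶠ x in 𝓝 q, DifferentiableAt ℝ f x := by
  filter_upwards [ev_contDiffAt_nat hf] with x hx
  exact hx.differentiableAt (by norm_cast)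

theorem contDiffAt_nat_of_top {f : P → F} {q : P} (hf : ContDiffAt ℝ ∞ f q) (n : ℕ) :
    ContDiffAt ℝ n f q := hf.of_le (by exact_mod_cast le_top)

theorem contDiffAt_Dd {f : P → F} {q : P} (hf : ContDiffAt ℝ ∞ f q) (v : P) :
    ContDiffAt ℝ ∞ (Dd v f) q := by
  exact (hf.fderiv_right (m := ∞) (by simp)).clm_apply contDiffAt_const

theorem contDiffOn_Dd {f : P → F} {O : Set P} (hO : IsOpen O) (hf : ContDiffOn ℝ ∞ f O) (v : P) :
    ContDiffOn ℝ ∞ (Dd v f) O := by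
  intro x hx
  exact (contDiffAt_Dd (hf.contDiffAt (hO.mem_nhds hx)) v).contDiffWithinAt

theorem contDiffAt_Dl {f : P → F} {q : P} (hf : ContDiffAt ℝ ∞ f q) (L : List P) :
    ContDiffAt ℝ ∞ (Dl L f) q := by
  induction L generalizing f with
  | nil => exact hf
  | cons v L ih => exact ih (contDiffAt_Dd hf v)

theorem contDiffOn_Dl {f : P → F} {O : Set P} (hO : IsOpen O) (hf : ContDiffOn ℝ ∞ f O)
    (L : List P) : ContDiffOn ℝ ∞ (Dl L f) O := by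
  intro x hx
  exact (contDiffAt_Dl (hf.contDiffAt (hO.mem_nhds hx)) L).contDiffWithinAt

theorem Dl_append (L₁ L₂ : List P) (f : P → F) : Dl (L₁ ++ L₂) f = Dl L₂ (Dl L₁ f) := by
  induction L₁ generalizing f with
  | nil => rfl
  | cons v L ih => exact ih (Dd v f)

theorem Dd_comm_two {f : P → F} {q : P} (hf : ContDiffAt ℝ (2 : ℕ) f q) (v w : P) :
    Dd v (Dd w f) q = Dd w (Dd v f) q := by
  have h1 : DifferentiableAt ℝ (fderiv ℝ f) q :=
    (hf.fderiv_right (m := 1) (by norm_num)).differentiableAt (by norm_num)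
  have e : ∀ a b : P, Dd a (Dd b f) q = fderiv ℝ (fderiv ℝ f) q a b := by
    intro a b
    have : Dd b f = fun x => fderiv ℝ f x b := rfl
    rw [Dd, this, fderiv_clm_apply h1 (differentiableAt_const b)]
    simp
  rw [e, e]
  have hs : IsSymmSndFDerivAt ℝ f q := hf.isSymmSndFDerivAt (by simp)
  exact hs.eq v w

theorem Dd_comm {f : P → F} {q : P} (hf : ContDiffAt ℝ ∞ f q) (v w : P) :
    Dd v (Dd w f) q = Dd w (Dd v f) q := by
  exact Dd_comm_two (contDiffAt_nat_of_top hf 2) v w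

theorem Dl_perm_nat {q : P} {L₁ L₂ : List P} (h : L₁.Perm L₂) :
    ∀ {f : P → F}, ContDiffAt ℝ (L₁.length : ℕ) f q → Dl L₁ f q = Dl L₂ f q := by
  induction h with
  | nil => intro f _; rfl
  | cons v _ ih => intro f hf; exact ih (contDiffAt_Dd_nat hf v)
  | swap v w L =>
    intro f hf
    have hf2 : ContDiffAt ℝ (2 : ℕ) f q := hf.of_le (by
      simp only [List.length_cons]; norm_cast; omega)
    show Dl L (Dd v (Dd w f)) q = Dl L (Dd w (Dd v f)) q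
    apply Dl_congr_at
    filter_upwards [ev_contDiffAt_nat hf2] with x hx
    exact Dd_comm_two hx v w
  | trans h1 _ ih1 ih2 =>
    intro f hf
    exact (ih1 hf).trans (ih2 (h1.length_eq ▸ hf))

theorem Dl_perm {f : P → F} {q : P} (hf : ContDiffAt ℝ ∞ f q) {L₁ L₂ : List P}
    (h : L₁.Perm L₂) : Dl L₁ f q = Dl L₂ f q := by
  exact Dl_perm_nat h (contDiffAt_nat_of_top hf _)

theorem Dd_add {f g : P → F} {q : P} (hf : DifferentiableAt ℝ f q) (hg : DifferentiableAt ℝ g q)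
    (v : P) : Dd v (fun x => f x + g x) q = Dd v f q + Dd v g q := by
  simp only [Dd]
  rw [fderiv_fun_add hf hg]; rfl

theorem Dd_sub {f g : P → F} {q : P} (hf : DifferentiableAt ℝ f q) (hg : DifferentiableAt ℝ g q)
    (v : P) : Dd v (fun x => f x - g x) q = Dd v f q - Dd v g q := by
  simp only [Dd]
  rw [fderiv_fun_sub hf hg]; rfl

theorem Dd_sum {ι : Type} (s : Finset ι) {f : ι → P → F} {q : P}
    (hf : ∀ i ∈ s, DifferentiableAt ℝ (f i) q) (v : P) :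
    Dd v (fun x => ∑ i ∈ s, f i x) q = ∑ i ∈ s, Dd v (f i) q := by
  simp only [Dd]
  rw [fderiv_fun_sum hf]; simp

theorem Dd_smul {c : P → ℝ} {f : P → F} {q : P} (hc : DifferentiableAt ℝ c q)
    (hf : DifferentiableAt ℝ f q) (v : P) :
    Dd v (fun x => c x • f x) q = c q • Dd v f q + Dd v c q • f q := by
  simp only [Dd]
  rw [fderiv_fun_smul hc hf]; simp

/-- chain rule. -/
theorem Dd_comp {Ψ : F → G} {h : P → F} {q : P} (hΨ : DifferentiableAt ℝ Ψ (h q))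
    (hh : DifferentiableAt ℝ h q) (v : P) :
    Dd v (fun x => Ψ (h x)) q = fderiv ℝ Ψ (h q) (Dd v h q) := by
  simp only [Dd]
  have := fderiv_comp q hΨ hh
  rw [show (fun x => Ψ (h x)) = Ψ ∘ h from rfl, this]; rfl

theorem Dd_clm (T : F →L[ℝ] G) {f : P → F} {q : P} (hf : DifferentiableAt ℝ f q) (v : P) :
    Dd v (fun x => T (f x)) q = T (Dd v f q) := by
  rw [Dd_comp T.differentiableAt hf, T.fderiv]

theorem Dl_clm_nat (T : F →L[ℝ] G) {q : P} (L : List P) :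
    ∀ {f : P → F}, ContDiffAt ℝ (L.length : ℕ) f q → Dl L (fun x => T (f x)) q = T (Dl L f q) := by
  induction L with
  | nil => intro f _; rfl
  | cons v L ih =>
    intro f hf
    have h1 : Dd v (fun x => T (f x)) =ᶠ[𝓝 q] fun x => T (Dd v f x) := by
      filter_upwards [ev_diff_nat hf] with x hx
      exact Dd_clm T hx v
    show Dl L (Dd v (fun x => T (f x))) q = T (Dl L (Dd v f) q)
    rw [Dl_congr_at h1, ih (contDiffAt_Dd_nat hf v)]

theorem Dl_clm (T : F →L[ℝ] G) {f : P → F} {q : P} (hf : ContDiffAt ℝ ∞ f q) (L : List P) :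
    Dl L (fun x => T (f x)) q = T (Dl L f q) := by
  exact Dl_clm_nat T L (contDiffAt_nat_of_top hf _)

theorem Dd_apply {α : Type} [Fintype α] {f : P → α → F} {q : P} (hf : DifferentiableAt ℝ f q)
    (v : P) (β : α) : Dd v f q β = Dd v (fun x => f x β) q := by
  exact (Dd_clm (ContinuousLinearMap.proj (R := ℝ) (φ := fun _ : α => F) β) hf v).symm

theorem Dl_apply {α : Type} [Fintype α] {f : P → α → F} {q : P} (hf : ContDiffAt ℝ ∞ f q)
    (L : List P) (β : α) : Dl L f q β = Dl L (fun x => f x β) q := by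
  exact (Dl_clm (ContinuousLinearMap.proj (R := ℝ) (φ := fun _ : α => F) β) hf L).symm

theorem Dl_prodMk_nat {q : P} (L : List P) :
    ∀ {f : P → F} {g : P → G}, ContDiffAt ℝ (L.length : ℕ) f q → ContDiffAt ℝ (L.length : ℕ) g q →
      Dl L (fun x => (f x, g x)) q = (Dl L f q, Dl L g q) := by
  induction L with
  | nil => intro f g _ _; rfl
  | cons v L ih =>
    intro f g hf hg
    have h1 : Dd v (fun x => (f x, g x)) =ᶠ[𝓝 q] fun x => (Dd v f x, Dd v g x) := by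
      filter_upwards [ev_diff_nat hf, ev_diff_nat hg] with x hx hy
      simp only [Dd]
      rw [hx.fderiv_prodMk hy]
      rfl
    show Dl L (Dd v (fun x => (f x, g x))) q = (Dl L (Dd v f) q, Dl L (Dd v g) q)
    rw [Dl_congr_at h1, ih (contDiffAt_Dd_nat hf v) (contDiffAt_Dd_nat hg v)]

theorem Dl_prodMk {f : P → F} {g : P → G} {q : P} (hf : ContDiffAt ℝ ∞ f q)
    (hg : ContDiffAt ℝ ∞ g q) (L : List P) :
    Dl L (fun x => (f x, g x)) q = (Dl L f q, Dl L g q) := by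
  exact Dl_prodMk_nat L (contDiffAt_nat_of_top hf _) (contDiffAt_nat_of_top hg _)

/-- real inner products. -/
theorem Dd_inner {𝕍 : Type} [NormedAddCommGroup 𝕍] [InnerProductSpace ℝ 𝕍] {f g : P → 𝕍} {q : P}
    (hf : DifferentiableAt ℝ f q) (hg : DifferentiableAt ℝ g q) (v : P) :
    Dd v (fun x => inner ℝ (f x) (g x)) q = inner ℝ (Dd v f q) (g q) + inner ℝ (f q) (Dd v g q) := by
  simp only [Dd]
  rw [fderiv_inner_apply ℝ hf hg]
  ring

theorem Dd_normSq {𝕍 : Type} [NormedAddCommGroup 𝕍] [InnerProductSpace ℝ 𝕍] {f : P → 𝕍} {q : P}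
    (hf : DifferentiableAt ℝ f q) (v : P) :
    Dd v (fun x => ‖f x‖ ^ 2) q = 2 * inner ℝ (f q) (Dd v f q) := by
  have : (fun x => ‖f x‖ ^ 2) = fun x => inner ℝ (f x) (f x) := by
    funext x; rw [real_inner_self_eq_norm_sq]
  rw [this, Dd_inner hf hf, real_inner_comm]; ring

/-! ### B9-QL-CL -/

/-- **composition lemma**: `D_L (Ψ ∘ h)` is bounded in terms of `Ψ`, a compact set containing `h q`, and bounds of `D_{L'} h`,
`L'` a sublist of `L`. -/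
theorem Dl_comp_bound (L : List P) : ∀ (X Y : Type) [NormedAddCommGroup X] [NormedSpace ℝ X]
    [FiniteDimensional ℝ X] [NormedAddCommGroup Y] [NormedSpace ℝ Y] (Ψ : X → Y) (U 𝒦 : Set X),
    IsOpen U → ContDiffOn ℝ ∞ Ψ U → IsCompact 𝒦 → 𝒦 ⊆ U → ∀ B : ℝ, ∃ C : ℝ, 0 ≤ C ∧
      ∀ (h : P → X) (q : P), ContDiffAt ℝ ∞ h q → h q ∈ 𝒦 →
        (∀ L' : List P, L'.Sublist L → ‖Dl L' h q‖ ≤ B) → ‖Dl L (fun x => Ψ (h x)) q‖ ≤ C := by
  induction L with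
  | nil =>
    intro X Y _ _ _ _ _ Ψ U 𝒦 hU hΨ hK hKU B
    obtain ⟨C, hC⟩ := hK.exists_bound_of_continuousOn (hΨ.continuousOn.mono hKU)
    exact ⟨max C 0, le_max_right _ _, fun h q _ hq _ => (hC _ hq).trans (le_max_left _ _)⟩
  | cons d L ih =>
    intro X Y _ _ _ _ _ Ψ U 𝒦 hU hΨ hK hKU B
    have hT : ContDiffOn ℝ ∞ (fun p : X × X => fderiv ℝ Ψ p.1 p.2) (U ×ˢ Set.univ) := by
      have h1 : ContDiffOn ℝ ∞ (fderiv ℝ Ψ) U := hΨ.fderiv_of_isOpen hU (by simp)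
      exact (h1.comp contDiffOn_fst (fun p hp => hp.1)).clm_apply contDiffOn_snd
    obtain ⟨C, hC0, hC⟩ := ih (X × X) Y (fun p => fderiv ℝ Ψ p.1 p.2) (U ×ˢ Set.univ)
      (𝒦 ×ˢ Metric.closedBall 0 B) (hU.prod isOpen_univ) hT (hK.prod (isCompact_closedBall _ _))
      (Set.prod_mono hKU (Set.subset_univ _)) B
    refine ⟨C, hC0, fun h q hh hq hB => ?_⟩
    have e : Dd d (fun x => Ψ (h x)) =ᶠ[𝓝 q] fun x => fderiv ℝ Ψ (h x) (Dd d h x) := by
      have hc : ∀ᶠ x in 𝓝 q, h x ∈ U := hh.continuousAt.eventually (hU.mem_nhds (hKU hq))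
      filter_upwards [hc, ev_diff_nat (n := 0) (contDiffAt_nat_of_top hh 1)] with x hx hd
      exact Dd_comp ((hΨ.contDiffAt (hU.mem_nhds hx)).differentiableAt (by simp)) hd d
    show ‖Dl L (Dd d (fun x => Ψ (h x))) q‖ ≤ C
    rw [Dl_congr_at e]
    apply hC (fun x => (h x, Dd d h x)) q (hh.prodMk (contDiffAt_Dd hh d)) ⟨hq, ?_⟩
    · intro L' hL'
      rw [Dl_prodMk hh (contDiffAt_Dd hh d)]
      exact max_le (hB L' (hL'.cons d)) (hB (d :: L') (hL'.cons_cons d))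
    · rw [mem_closedBall_zero_iff]
      exact hB [d] ((List.nil_sublist L).cons_cons d)

/-! ### B9-QL-CONV -/

theorem iteratedFDeriv_eq_Dl_nat {q : P} (m : ℕ) :
    ∀ {f : P → F}, ContDiffAt ℝ m f q → ∀ v : Fin m → P,
      iteratedFDeriv ℝ m f q v = Dl (List.ofFn v) f q := by
  induction m with
  | zero => intro f _ v; simp [Dl]
  | succ n ih =>
    intro f hf v
    have hD : ContDiffAt ℝ n (fderiv ℝ f) q := hf.fderiv_right (m := n) (by norm_cast)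
    have h1 := (ContinuousLinearMap.apply ℝ F (v (Fin.last n))).iteratedFDeriv_comp_left hD
      (i := n) le_rfl
    have h2 : (ContinuousLinearMap.apply ℝ F (v (Fin.last n))) ∘ (fderiv ℝ f)
        = Dd (v (Fin.last n)) f := rfl
    rw [h2] at h1
    rw [iteratedFDeriv_succ_apply_right]
    have h3 := ih (contDiffAt_Dd_nat hf (v (Fin.last n))) (Fin.init v)
    rw [h1] at h3
    have h4 : Dl (List.ofFn (Fin.init v)) (Dd (v (Fin.last n)) f) q
        = Dl (v (Fin.last n) :: List.ofFn (Fin.init v)) f q := rfl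
    rw [h4] at h3
    have hp : (v (Fin.last n) :: List.ofFn (Fin.init v)).Perm (List.ofFn v) := by
      rw [List.ofFn_succ_last]
      exact (List.perm_append_singleton _ _).symm
    rw [← Dl_perm_nat hp (by simpa using hf), ← h3]
    rfl

theorem iteratedFDeriv_eq_Dl {f : P → F} {q : P} (hf : ContDiffAt ℝ ∞ f q) (m : ℕ)
    (v : Fin m → P) : iteratedFDeriv ℝ m f q v = Dl (List.ofFn v) f q := by
  exact iteratedFDeriv_eq_Dl_nat m (contDiffAt_nat_of_top hf m) v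

theorem norm_Dl_le {f : P → F} {q : P} (hf : ContDiffAt ℝ ∞ f q) (L : List P) :
    ‖Dl L f q‖ ≤ ‖iteratedFDeriv ℝ L.length f q‖ * (L.map (fun v => ‖v‖)).prod := by
  have h := iteratedFDeriv_eq_Dl hf L.length L.get
  rw [List.ofFn_get] at h
  rw [← h]
  refine (ContinuousMultilinearMap.le_opNorm _ _).trans (le_of_eq ?_)
  congr 1
  exact Fin.prod_univ_fun_getElem L (fun v => ‖v‖)

theorem norm_iteratedFDeriv_le_of_Dl [FiniteDimensional ℝ P] {κ' : Type} [Fintype κ']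
    (𝔡 : κ' → P) (hspan : Submodule.span ℝ (Set.range 𝔡) = ⊤) (m : ℕ) :
    ∃ C : ℝ, 0 ≤ C ∧ ∀ (f : P → F) (q : P) (B : ℝ), ContDiffAt ℝ ∞ f q →
      (∀ L : List κ', L.length = m → ‖Dl (L.map 𝔡) f q‖ ≤ B) →
      ‖iteratedFDeriv ℝ m f q‖ ≤ C * B := by
  classical
  have hπ : LinearMap.range (Fintype.linearCombination ℝ 𝔡) = ⊤ := by
    rw [Fintype.range_linearCombination, hspan]
  obtain ⟨σ, hσ⟩ := (Fintype.linearCombination ℝ 𝔡).exists_rightInverse_of_surjective hπ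
  obtain ⟨σ', hσ'⟩ : ∃ σ' : P →L[ℝ] (κ' → ℝ), ∀ x, σ' x = σ x :=
    ⟨LinearMap.toContinuousLinearMap σ, fun _ => rfl⟩
  have hexp : ∀ x : P, x = ∑ i, σ' x i • 𝔡 i := by
    intro x
    have := LinearMap.congr_fun hσ x
    simp only [LinearMap.comp_apply, Fintype.linearCombination_apply, LinearMap.id_apply] at this
    rw [hσ']; exact this.symm
  refine ⟨(Fintype.card κ' * ‖σ'‖) ^ m, by positivity, fun f q B hf hB => ?_⟩
  have hCB : 0 ≤ (Fintype.card κ' * ‖σ'‖) ^ m * B := by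
    rcases isEmpty_or_nonempty κ' with he | ⟨⟨i₀⟩⟩
    · rcases Nat.eq_zero_or_pos m with rfl | hm
      · have := hB [] rfl
        have : 0 ≤ B := (norm_nonneg _).trans this
        simpa using this
      · simp [Fintype.card_eq_zero, hm.ne']
    · have := hB (List.replicate m i₀) (by simp)
      have : 0 ≤ B := (norm_nonneg _).trans this
      positivity
  refine ContinuousMultilinearMap.opNorm_le_bound hCB fun v => ?_
  have hv : v = fun k => ∑ i, σ' (v k) i • 𝔡 i := funext fun k => hexp (v k)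
  have hBr : ∀ r : Fin m → κ', ‖iteratedFDeriv ℝ m f q (fun k => 𝔡 (r k))‖ ≤ B := by
    intro r
    rw [iteratedFDeriv_eq_Dl hf]
    have := hB (List.ofFn r) (by simp)
    rwa [List.map_ofFn] at this
  have hB0 : (Nonempty (Fin m → κ')) → 0 ≤ B := fun ⟨r⟩ => (norm_nonneg _).trans (hBr r)
  conv_lhs => rw [hv]
  rw [ContinuousMultilinearMap.map_sum]
  calc ‖∑ r : Fin m → κ', iteratedFDeriv ℝ m f q (fun k => σ' (v k) (r k) • 𝔡 (r k))‖
      ≤ ∑ r : Fin m → κ', (∏ k, (‖σ'‖ * ‖v k‖)) * B := by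
        refine (norm_sum_le _ _).trans (Finset.sum_le_sum fun r _ => ?_)
        rw [ContinuousMultilinearMap.map_smul_univ, norm_smul, norm_prod]
        refine mul_le_mul ?_ (hBr r) (norm_nonneg _) (by positivity)
        refine Finset.prod_le_prod (fun k _ => norm_nonneg _) fun k _ => ?_
        exact (norm_le_pi_norm _ _).trans (σ'.le_opNorm _)
    _ = (Fintype.card κ' * ‖σ'‖) ^ m * B * ∏ k, ‖v k‖ := by
        rw [Finset.sum_const, Finset.prod_mul_distrib, Finset.prod_const, Finset.card_univ,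
          Finset.card_univ, Fintype.card_fun, Fintype.card_fin, nsmul_eq_mul, mul_pow]
        push_cast
        ring

end Gen

section ST

variable {E F : Type} [NormedAddCommGroup E] [NormedSpace ℝ E] [NormedAddCommGroup F]
  [NormedSpace ℝ F] {κ : Type}

theorem Dd_slice {f : ℝ × E → F} {t : ℝ} {x : E} (hf : DifferentiableAt ℝ f (t, x)) (v : E) :
    Dd ((0 : ℝ), v) f (t, x) = Dd v (fun y => f (t, y)) x := by
  have h1 : HasFDerivAt (fun y : E => (t, y)) (ContinuousLinearMap.inr ℝ ℝ E) x :=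
    hasFDerivAt_prodMk_right t x
  have h2 := (hf.hasFDerivAt.comp x h1).fderiv
  simp only [Dd]
  rw [show (fun y => f (t, y)) = f ∘ fun y : E => (t, y) from rfl, h2]
  simp

theorem Dl_slice_nat {t : ℝ} {x : E} (L : List E) :
    ∀ {f : ℝ × E → F}, ContDiffAt ℝ (L.length : ℕ) f (t, x) →
      Dl (L.map (fun v => ((0 : ℝ), v))) f (t, x) = Dl L (fun y => f (t, y)) x := by
  induction L with
  | nil => intro f _; rfl
  | cons v L ih =>
    intro f hf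
    show Dl (L.map (fun v => ((0 : ℝ), v))) (Dd ((0 : ℝ), v) f) (t, x)
      = Dl L (Dd v (fun y => f (t, y))) x
    rw [ih (contDiffAt_Dd_nat hf _)]
    apply Dl_congr_at
    have hc : Filter.Tendsto (fun y : E => (t, y)) (𝓝 x) (𝓝 (t, x)) :=
      (Continuous.prodMk_right t).tendsto x
    filter_upwards [hc.eventually (ev_diff_nat hf)] with y hy
    exact Dd_slice hy v

/-- spatial derivatives are derivatives of the time slices. -/
theorem Dl_slice {f : ℝ × E → F} {t : ℝ} {x : E} (hf : ContDiffAt ℝ ∞ f (t, x)) (L : List E) :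
    Dl (L.map (fun v => ((0 : ℝ), v))) f (t, x) = Dl L (fun y => f (t, y)) x := by
  exact Dl_slice_nat L (contDiffAt_nat_of_top hf _)

theorem Dd_tm_eq_deriv {f : ℝ × E → F} {t : ℝ} {x : E} (hf : DifferentiableAt ℝ f (t, x)) :
    Dd tm f (t, x) = deriv (fun r => f (r, x)) t := by
  have h1 : HasDerivAt (fun r : ℝ => (r, x)) ((1 : ℝ), (0 : E)) t :=
    (hasDerivAt_id t).prodMk (hasDerivAt_const t x)
  exact ((hf.hasFDerivAt.comp_hasDerivAt t h1).deriv).symm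

/-- `Hop` versus the operators of `Shi.lean`. -/
theorem hop_slice [Fintype κ] (e : κ → E) (a : κ → κ → ℝ) {f : ℝ × E → ℝ} {t : ℝ} {x : E}
    (hf : ContDiffAt ℝ ∞ f (t, x)) :
    deriv (fun r => f (r, x)) t - Lre e a x (fun y => f (t, y)) = Hop e a f (t, x) := by
  rw [Hop, Dd_tm_eq_deriv (hf.differentiableAt (by simp))]
  congr 1
  unfold Lre
  refine Finset.sum_congr rfl fun i _ => Finset.sum_congr rfl fun j _ => ?_
  have := Dl_slice hf [e j, e i]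
  rw [smul_eq_mul]
  congr 1
  exact this.symm

theorem gre_slice [Fintype κ] (e : κ → E) (a : κ → κ → ℝ) {f g : ℝ × E → ℝ} {t : ℝ} {x : E}
    (hf : DifferentiableAt ℝ f (t, x)) (hg : DifferentiableAt ℝ g (t, x)) :
    Gre e a x (fun y => f (t, y)) (fun y => g (t, y))
      = ∑ i, ∑ j, a i j * (Dd (sp e i) f (t, x) * Dd (sp e j) g (t, x)) := by
  unfold Gre
  refine Finset.sum_congr rfl fun i _ => Finset.sum_congr rfl fun j _ => ?_
  have h1 := Dd_slice hf (e i)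
  have h2 := Dd_slice hg (e j)
  simp only [sp]
  rw [h1, h2]; rfl

end ST

end Claimed.Agent.R316.B9
end

/- ===== packed: Claimed.Agent.R316.B9.CalDefs ===== -/
section
/-!
# Row 316, package B9: Calabi's third order quantity in a chart, flat reference.  DEFINITIONS

Conventions of `Core/Basic.lean`: `K j k = K_{k \bar j}` (column convention), `G = K⁻¹`, `G p q = K^{p \bar q}`,
`∂_l = dzM l`, `∂̄_l = dzbM l` (entrywise), `Δ_K f = ∑ G p q ∂_p ∂̄_q f = Lcx G z f`.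

* `Acn K l = G ∂_l K`           connection matrices `(A_l)^a_k = Γ_{lk}^a` of the Chern connection of `K`
* `Fcv K q l = ∂̄_q A_l`          (minus) the curvature
* sections of `𝔼 = T^* ⊗ End T` are families `B : ι → Matrix ι ι ℂ` (`B l`, `l` the form index)
* `actE X B`                     derivation action of an endomorphism `X` of `T` on `𝔼`
* `nabE K p B = ∂_p B + actE (A_p) B`, `barE q B = ∂̄_q B`   the Chern connection of `𝔼`
* `pairE K B C = ∑ G l m tr (G (C m)ᴴ K (B l))`            the Hermitian metric of `𝔼` (linear in `B`)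
* `Scal K = |A|²`, `Ycal K = |∇A|² + |∂̄A|²`
* `Rse K = ∑ G p q F_{q p}`      second Chern-Ricci endomorphism (with the sign of `G ∂_t K`)
* `Een K = G ∂_t K`, `Tdf K = Een K - Rse K` (vanishes for the Kaehler-Ricci flow), `Tor` the torsion.

All identities of `CalId.lean` were checked numerically (jets of random non-Kaehler `K`, `n = 2`).
-/

set_option autoImplicit false
open scoped ContDiff ComplexOrder Topology Matrix

namespace Claimed.Agent.R316.B9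

variable {ι : Type} [Fintype ι] [DecidableEq ι]

/-- connection matrices `A_l = K⁻¹ ∂_l K`. -/
noncomputable def Acn (K : CE ι → Matrix ι ι ℂ) (l : ι) (z : CE ι) : Matrix ι ι ℂ :=
  (K z)⁻¹ * dzM l K z

/-- `F_{q l} = ∂̄_q A_l`. -/
noncomputable def Fcv (K : CE ι → Matrix ι ι ℂ) (q l : ι) (z : CE ι) : Matrix ι ι ℂ :=
  dzbM q (Acn K l) z

/-- derivation action of `X ∈ End T` on `T^* ⊗ End T`. -/
def actE (X : Matrix ι ι ℂ) (B : ι → Matrix ι ι ℂ) (l : ι) : Matrix ι ι ℂ :=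
  X * B l - B l * X - ∑ m, X m l • B m

/-- `(∇_p B)_l`. -/
noncomputable def nabE (K : CE ι → Matrix ι ι ℂ) (p : ι) (B : ι → CE ι → Matrix ι ι ℂ) (l : ι)
    (z : CE ι) : Matrix ι ι ℂ :=
  dzM p (B l) z + actE (Acn K p z) (fun l' => B l' z) l

/-- `(∂̄_q B)_l`. -/
noncomputable def barE (q : ι) (B : ι → CE ι → Matrix ι ι ℂ) (l : ι) (z : CE ι) : Matrix ι ι ℂ :=
  dzbM q (B l) z

/-- the Hermitian metric of `T^* ⊗ End T` induced by the matrix `Km`. -/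
noncomputable def pairE (Km : Matrix ι ι ℂ) (B C : ι → Matrix ι ι ℂ) : ℂ :=
  ∑ l, ∑ m, Km⁻¹ l m * (Km⁻¹ * (C m)ᴴ * Km * B l).trace

/-- `∑ G p q ∇_p ∂̄_q B`. -/
noncomputable def lapE (K : CE ι → Matrix ι ι ℂ) (B : ι → CE ι → Matrix ι ι ℂ) (l : ι) (z : CE ι) :
    Matrix ι ι ℂ :=
  ∑ p, ∑ q, (K z)⁻¹ p q • nabE K p (fun l' w => barE q B l' w) l z

/-- `|∇B|² + |∂̄B|²`. -/
noncomputable def enE (K : CE ι → Matrix ι ι ℂ) (B : ι → CE ι → Matrix ι ι ℂ) (z : CE ι) : ℝ :=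
  (∑ p, ∑ q, (K z)⁻¹ p q *
    (pairE (K z) (fun l => nabE K p B l z) (fun l => nabE K q B l z)
      + pairE (K z) (fun l => barE q B l z) (fun l => barE p B l z))).re

/-- second Chern-Ricci endomorphism. -/
noncomputable def Rse (K : CE ι → Matrix ι ι ℂ) (z : CE ι) : Matrix ι ι ℂ :=
  ∑ p, ∑ q, (K z)⁻¹ p q • Fcv K q p z

/-- Calabi's quantity `S = |K⁻¹ ∂K|²_K`. -/
noncomputable def Scal (K : CE ι → Matrix ι ι ℂ) (z : CE ι) : ℝ :=
  (pairE (K z) (fun l => Acn K l z) (fun l => Acn K l z)).re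

/-- `|∇A|² + |∂̄A|²`. -/
noncomputable def Ycal (K : CE ι → Matrix ι ι ℂ) (z : CE ι) : ℝ := enE K (Acn K) z

/-- torsion `T_{pl}^m`. -/
noncomputable def Tor (K : CE ι → Matrix ι ι ℂ) (p l m : ι) (z : CE ι) : ℂ :=
  Acn K p z m l - Acn K l z m p

/-- `∑ G p q tr (A_qᴴ K A_p)`: `S` with the two lower indices measured in the flat metric. -/
noncomputable def Str (K : CE ι → Matrix ι ι ℂ) (z : CE ι) : ℝ :=
  (∑ p, ∑ q, (K z)⁻¹ p q * ((Acn K q z)ᴴ * K z * Acn K p z).trace).re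

/-! ### time dependent matrices -/

/-- entrywise time derivative. -/
noncomputable def dtM (K : ℝ → CE ι → Matrix ι ι ℂ) (t : ℝ) (z : CE ι) : Matrix ι ι ℂ :=
  fun j k => deriv (fun r => K r z j k) t

/-- `E = K⁻¹ ∂_t K`. -/
noncomputable def Een (K : ℝ → CE ι → Matrix ι ι ℂ) (t : ℝ) (z : CE ι) : Matrix ι ι ℂ :=
  (K t z)⁻¹ * dtM K t z

/-- the defect `𝒯 = E - ΛF`. -/
noncomputable def Tdf (K : ℝ → CE ι → Matrix ι ι ℂ) (t : ℝ) (z : CE ι) : Matrix ι ι ℂ :=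
  Een K t z - Rse (K t) z

/-- `𝒩_l = (∂_t - ∑ G ∇ ∂̄) A_l = ∇_l 𝒯 + ∑ G p q T_{pl}^m F_{q m}`. -/
noncomputable def Ncal (K : ℝ → CE ι → Matrix ι ι ℂ) (t : ℝ) (z : CE ι) (l : ι) : Matrix ι ι ℂ :=
  dzM l (Tdf K t) z + (Acn (K t) l z * Tdf K t z - Tdf K t z * Acn (K t) l z)
    + ∑ p, ∑ q, ∑ m, ((K t z)⁻¹ p q * Tor (K t) p l m z) • Fcv (K t) q m z

/-- smooth positive definite time dependent matrix function on an open set of space-time. -/
structure SPD (O : Set (ℝ × CE ι)) (K : ℝ → CE ι → Matrix ι ι ℂ) : Prop where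
  isOpen : IsOpen O
  smooth : ∀ j k, ContDiffOn ℝ ∞ (fun q : ℝ × CE ι => K q.1 q.2 j k) O
  posDef : ∀ q ∈ O, (K q.1 q.2).PosDef

/-- **Chern-Ricci flow in a chart** on an open set `O` of space-time: `∂_t K = levi (log det K)`, time independent
torsion `τ`, `Λ⁻¹ ≤ K ≤ Λ`, `|D^m τ| ≤ Bτ m`. -/
structure CRC (O : Set (ℝ × CE ι)) (K : ℝ → CE ι → Matrix ι ι ℂ) (τ : CE ι → ι → ι → ι → ℂ)
    (Λ : ℝ) (Bτ : ℕ → ℝ) : Prop where
  isOpen : IsOpen O
  smooth : ∀ j k, ContDiffOn ℝ ∞ (fun q : ℝ × CE ι => K q.1 q.2 j k) O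
  herm : ∀ q ∈ O, (K q.1 q.2).IsHermitian
  lower : ∀ q ∈ O, leM (cI Λ⁻¹) (K q.1 q.2)
  upper : ∀ q ∈ O, leM (K q.1 q.2) (cI Λ)
  flow : ∀ q ∈ O, ∀ j k, deriv (fun r => K r q.2 j k) q.1
    = levi (fun y => Real.log (K q.1 y).det.re) q.2 j k
  tors : ∀ q ∈ O, ∀ j k l,
    dz l (fun y => K q.1 y j k) q.2 - dz k (fun y => K q.1 y j l) q.2 = τ q.2 j k l
  tbd : ∀ q ∈ O, ∀ (m : ℕ) (j k l : ι), ‖iteratedFDeriv ℝ m (fun y => τ y j k l) q.2‖ ≤ Bτ m

end Claimed.Agent.R316.B9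
end
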