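/- Packed by merge_tool.py (helper293): 4 modules of Claimed.Agent.R316 in one file, same declarations.
   Old modules, in this order: BR.Gauss, Base.Emb.Series, Base.Emb.Baire, S7.Clk.Real -/
import Mathlib
import Claimed.Agent.R316.Pack031
import Claimed.Agent.R316.Pack007

/- ===== packed: Claimed.Agent.R316.BR.Gauss ===== -/
section
/-!
# Row 316, BR-5: the Gauss equation: `bisec gram Φ z v w = ½ gaussB Φ z v w`

Owner: helper193.

NOTATION (`φ_a = cof Φ a`): `P_j = dz j φ`, `Q_j = dzb j φ`, `P2_{jl} = dz l (dz j φ)`, `B2_{km} = dzb m (dzb k φ) = conj P2_{km}`,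
`N1_{j m} = dzb m (dz j φ)` (mixed, NORMAL by Lemma K), `conj N1_{jm} = N1_{mj}`, `H = gram Φ z`.

STEP 1 (`KImm.dzb_dz_gram`).  By `KImm.dz_gram` on the open set `U`: `∂_l H_{kj} = 2 ∑_a Q_k P2_{jl}` NEAR `z`; apply `∂̄_m` (product rule):
`∂̄_m ∂_l H_{kj} = 2 ∑_a B2_{km} P2_{jl} + 2 ∑_a Q_k ∂̄_m P2_{jl}`.  Differentiate Lemma K' `∑_a N1_{jm} Q_k = 0` (on `U`) by `∂_l`:
`∑_a ∂_l N1_{jm} Q_k + ∑_a N1_{jm} ∂_l Q_k = 0`, `∂_l N1_{jm} = ∂̄_m P2_{jl}` (`dz_dzb_comm` for `dz j φ`), `∂_l Q_k = N1_{lk}` (`dz_dzb_comm`).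
STEP 2 (`KImm.Rm_gram`): definition of `Rm` + `dz_gram`, `dzb_gram`.
STEP 3 (`KImm.bisec_gram_eq`): contraction with `v_j \bar v_k w_l \bar w_m`:  `bisec = 2 ∑_a |X_a|² - 2 ∑_a |Y_a|² + 4 qf H⁻¹ u`,
`X_a = ∑ N1_{jm} v_j \bar w_m`, `Y_a = ∑ P2_{jl} v_j w_l`, `u_q = ∑_a Q_q Y_a`.
STEP 4 (`Xv_eq`, `Yv_eq`): `4 X = D(v,w) + D(iv,iw) + i (D(v,iw) - D(iv,w))`, `4 Y = D(v,w) - D(iv,iw) - i (D(v,iw) + D(iv,w))`, `D = D2 Φ z`.
STEP 5: `D = T + S`, `T(x,y) = tanP (D x y) = dΦ γ(x,y)`, `S = sff`.  Kaehler: `T(x, i y) = T(i x, y) = dΦ (i γ(x,y))`, `T(ix,iy) = - T(x,y)`.  With `Γ = dΦ γ(v,w)`, `Γ' = dΦ (i γ(v,w))`: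
`4 X = S(v,w) + S(iv,iw) + i (S(v,iw) - S(iv,w))`, `4 Y = 2 (Γ - i Γ') + S(v,w) - S(iv,iw) - i (S(v,iw) + S(iv,w))`;
`∑|Y_a|² = ½ ‖Γ‖² + (1/16)(‖S(v,w) - S(iv,iw)‖² + ‖S(v,iw) + S(iv,w)‖²)` (`S ⟂ Γ, Γ'`, `‖Γ'‖ = ‖Γ‖`); `u = ½ H γ` (`sum_dz_cof`, `gram_mulVec`, `S ⟂` tangent), so `4 qf H⁻¹ u = qf H γ = ‖Γ‖²`.
Total: `(1/8) (4 ⟨S(v,w), S(iv,iw)⟩ - 4 ⟨S(v,iw), S(iv,w)⟩) = ½ gaussB`.
-/

set_option autoImplicit false
set_option linter.unusedSectionVars false
open scoped ContDiff ComplexOrder ComplexConjugate Topology Matrix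

namespace Claimed.Agent.R316.BR

variable {ι : Type} [Fintype ι] [DecidableEq ι] {N : ℕ}
variable {Φ : CE ι → EN N} {U : Set (CE ι)} {z : CE ι}

/-! ### Steps 1, 2 -/

theorem two_le_infty : (2 : WithTop ℕ∞) ≤ ∞ := by
  have : ((2 : ℕ∞) : WithTop ℕ∞) ≤ ((⊤ : ℕ∞) : WithTop ℕ∞) := by exact_mod_cast le_top
  exact this

theorem conj_dzb_dz_cof (hs : ContDiffAt ℝ 2 Φ z) (a : Fin N) (j m : ι) :
    conj (dzb m (dz j (cof Φ a)) z) = dzb j (dz m (cof Φ a)) z := by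
  rw [← dz_conj]
  have e : (fun w => conj (dz j (cof Φ a) w)) = dzb j (cof Φ a) := by
    funext w
    exact (dzb_cof Φ a j w).symm
  rw [e]
  exact dz_dzb_comm (cof_contDiffAt hs a)

theorem dzb_dzb_cof (Φ : CE ι → EN N) (z : CE ι) (a : Fin N) (k m : ι) :
    dzb m (dzb k (cof Φ a)) z = conj (dz m (dz k (cof Φ a)) z) := by
  rw [← dzb_conj]
  have e : (fun w => conj (dz k (cof Φ a) w)) = dzb k (cof Φ a) := by
    funext w
    exact (dzb_cof Φ a k w).symm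
  rw [e]

theorem KImm.cd_dz (h : KImm Φ U) (hz : z ∈ U) (a : Fin N) (j : ι) :
    ContDiffAt ℝ ∞ (dz j (cof Φ a)) z :=
  contDiffAt_dz (h.cof_contDiffAt hz a) (by simp)

theorem KImm.cd_dzb (h : KImm Φ U) (hz : z ∈ U) (a : Fin N) (j : ι) :
    ContDiffAt ℝ ∞ (dzb j (cof Φ a)) z :=
  contDiffAt_dzb (h.cof_contDiffAt hz a) (by simp)

theorem KImm.cd_dz_dz (h : KImm Φ U) (hz : z ∈ U) (a : Fin N) (j l : ι) :
    ContDiffAt ℝ ∞ (dz l (dz j (cof Φ a))) z :=
  contDiffAt_dz (h.cd_dz hz a j) (by simp)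

theorem KImm.cd_dzb_dz (h : KImm Φ U) (hz : z ∈ U) (a : Fin N) (j m : ι) :
    ContDiffAt ℝ ∞ (dzb m (dz j (cof Φ a))) z :=
  contDiffAt_dzb (h.cd_dz hz a j) (by simp)

theorem KImm.dzb_dz_gram (h : KImm Φ U) (hz : z ∈ U) (j k l m : ι) :
    dzb m (fun w => dz l (fun y => gram Φ y k j) w) z =
      2 * ∑ a, dzb m (dzb k (cof Φ a)) z * dz l (dz j (cof Φ a)) z -
        2 * ∑ a, dzb m (dz j (cof Φ a)) z * dzb k (dz l (cof Φ a)) z := by
  have hinf : (∞ : WithTop ℕ∞) ≠ 0 := by simp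
  -- the first derivative near `z`
  have e1 : (fun w => dz l (fun y => gram Φ y k j) w) =ᶠ[𝓝 z]
      fun w => 2 * ∑ a, dzb k (cof Φ a) w * dz l (dz j (cof Φ a)) w := by
    filter_upwards [h.isOpen.mem_nhds hz] with w hw
    exact h.dz_gram hw k j l
  rw [dzb_congr e1]
  have d1 : ∀ a, DifferentiableAt ℝ (dzb k (cof Φ a)) z := fun a =>
    (h.cd_dzb hz a k).differentiableAt hinf
  have d2 : ∀ a, DifferentiableAt ℝ (dz l (dz j (cof Φ a))) z := fun a =>
    (h.cd_dz_dz hz a j l).differentiableAt hinf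
  have d3 : ∀ a ∈ (Finset.univ : Finset (Fin N)),
      DifferentiableAt ℝ (fun w => dzb k (cof Φ a) w * dz l (dz j (cof Φ a)) w) z :=
    fun a _ => (d1 a).mul (d2 a)
  rw [dzb_const_mul 2 (DifferentiableAt.fun_sum d3), dzb_sum _ _ d3]
  have e2 : ∀ a, dzb m (fun w => dzb k (cof Φ a) w * dz l (dz j (cof Φ a)) w) z
      = dzb m (dzb k (cof Φ a)) z * dz l (dz j (cof Φ a)) z
        + dzb k (cof Φ a) z * dzb m (dz l (dz j (cof Φ a))) z := fun a => dzb_mul (d1 a) (d2 a)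
  simp only [e2, Finset.sum_add_distrib]
  -- differentiate Lemma K'
  have e3 : (fun w => ∑ a, dzb m (dz j (cof Φ a)) w * dzb k (cof Φ a) w) =ᶠ[𝓝 z]
      fun _ => (0 : ℂ) := by
    filter_upwards [h.isOpen.mem_nhds hz] with w hw
    exact h.sum_mixed_mul_dzb hw j m k
  have e4 := dz_congr (j := l) e3
  rw [dz_const] at e4
  have d4 : ∀ a, DifferentiableAt ℝ (dzb m (dz j (cof Φ a))) z := fun a =>
    (h.cd_dzb_dz hz a j m).differentiableAt hinf
  have d5 : ∀ a ∈ (Finset.univ : Finset (Fin N)),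
      DifferentiableAt ℝ (fun w => dzb m (dz j (cof Φ a)) w * dzb k (cof Φ a) w) z :=
    fun a _ => (d4 a).mul (d1 a)
  rw [dz_sum _ _ d5] at e4
  have e5 : ∀ a, dz l (fun w => dzb m (dz j (cof Φ a)) w * dzb k (cof Φ a) w) z
      = dzb m (dz l (dz j (cof Φ a))) z * dzb k (cof Φ a) z
        + dzb m (dz j (cof Φ a)) z * dzb k (dz l (cof Φ a)) z := by
    intro a
    rw [dz_mul (d4 a) (d1 a)]
    have c1 : ContDiffAt ℝ 2 (dz j (cof Φ a)) z := (h.cd_dz hz a j).of_le two_le_infty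
    have c2 : ContDiffAt ℝ 2 (cof Φ a) z := (h.cof_contDiffAt hz a).of_le two_le_infty
    rw [dz_dzb_comm c1, dz_dzb_comm c2]
  simp only [e5, Finset.sum_add_distrib] at e4
  have e6 : ∑ a, dzb k (cof Φ a) z * dzb m (dz l (dz j (cof Φ a))) z
      = - ∑ a, dzb m (dz j (cof Φ a)) z * dzb k (dz l (cof Φ a)) z := by
    have : ∑ a, dzb k (cof Φ a) z * dzb m (dz l (dz j (cof Φ a))) z
        = ∑ a, dzb m (dz l (dz j (cof Φ a))) z * dzb k (cof Φ a) z :=
      Finset.sum_congr rfl fun a _ => mul_comm _ _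
    rw [this]
    exact eq_neg_of_add_eq_zero_left e4
  rw [e6]
  ring

theorem KImm.Rm_gram (h : KImm Φ U) (hz : z ∈ U) (j k l m : ι) :
    Rm gram Φ z j k l m =
      2 * ∑ a, dzb m (dz j (cof Φ a)) z * dzb k (dz l (cof Φ a)) z -
        2 * ∑ a, dzb m (dzb k (cof Φ a)) z * dz l (dz j (cof Φ a)) z +
        ∑ p, ∑ q, (gram Φ z)⁻¹ p q * (2 * ∑ a, dzb q (cof Φ a) z * dz l (dz j (cof Φ a)) z) *
          (2 * ∑ a, dzb m (dzb k (cof Φ a)) z * dz p (cof Φ a) z) := by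
  unfold Rm
  rw [h.dzb_dz_gram hz j k l m]
  simp only [h.dz_gram hz, h.dzb_gram hz]
  ring

/-! ### Step 3 -/

section sums

variable {ι α : Type} [Fintype ι] [Fintype α]

theorem sum4_comm (f : ι → ι → ι → ι → α → ℂ) :
    ∑ j, ∑ k, ∑ l, ∑ m, ∑ a, f j k l m a = ∑ a, ∑ j, ∑ k, ∑ l, ∑ m, f j k l m a := by
  calc ∑ j, ∑ k, ∑ l, ∑ m, ∑ a, f j k l m a
      = ∑ j, ∑ k, ∑ l, ∑ a, ∑ m, f j k l m a :=
        Finset.sum_congr rfl fun j _ => Finset.sum_congr rfl fun k _ =>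
          Finset.sum_congr rfl fun l _ => Finset.sum_comm
    _ = ∑ j, ∑ k, ∑ a, ∑ l, ∑ m, f j k l m a :=
        Finset.sum_congr rfl fun j _ => Finset.sum_congr rfl fun k _ => Finset.sum_comm
    _ = ∑ j, ∑ a, ∑ k, ∑ l, ∑ m, f j k l m a :=
        Finset.sum_congr rfl fun j _ => Finset.sum_comm
    _ = ∑ a, ∑ j, ∑ k, ∑ l, ∑ m, f j k l m a := Finset.sum_comm

theorem sum2_comm (f : ι → ι → α → ℂ) :
    ∑ j, ∑ k, ∑ a, f j k a = ∑ a, ∑ j, ∑ k, f j k a := by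
  calc ∑ j, ∑ k, ∑ a, f j k a = ∑ j, ∑ a, ∑ k, f j k a :=
        Finset.sum_congr rfl fun j _ => Finset.sum_comm
    _ = ∑ a, ∑ j, ∑ k, f j k a := Finset.sum_comm

theorem sum2_mul_sum2 (p q : ι → ι → ℂ) :
    (∑ j, ∑ m, p j m) * (∑ l, ∑ k, q l k) = ∑ j, ∑ m, ∑ l, ∑ k, p j m * q l k := by
  rw [Finset.sum_mul]
  refine Finset.sum_congr rfl fun j _ => ?_
  rw [Finset.sum_mul]
  refine Finset.sum_congr rfl fun m _ => ?_
  rw [Finset.mul_sum]
  refine Finset.sum_congr rfl fun l _ => ?_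
  rw [Finset.mul_sum]

/-- `∑_{jklm} p_{jm} q_{lk} = (∑_{jm} p_{jm}) (∑_{lk} q_{lk})`. -/
theorem sum4_fact1 (p q : ι → ι → ℂ) :
    ∑ j, ∑ k, ∑ l, ∑ m, p j m * q l k = (∑ j, ∑ m, p j m) * (∑ l, ∑ k, q l k) := by
  rw [sum2_mul_sum2]
  refine Finset.sum_congr rfl fun j _ => ?_
  calc ∑ k, ∑ l, ∑ m, p j m * q l k = ∑ k, ∑ m, ∑ l, p j m * q l k :=
        Finset.sum_congr rfl fun k _ => Finset.sum_comm
    _ = ∑ m, ∑ k, ∑ l, p j m * q l k := Finset.sum_comm
    _ = ∑ m, ∑ l, ∑ k, p j m * q l k := Finset.sum_congr rfl fun m _ => Finset.sum_comm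

/-- `∑_{jklm} p_{jl} q_{km} = (∑_{jl} p_{jl}) (∑_{km} q_{km})`. -/
theorem sum4_fact2 (p q : ι → ι → ℂ) :
    ∑ j, ∑ k, ∑ l, ∑ m, p j l * q k m = (∑ j, ∑ l, p j l) * (∑ k, ∑ m, q k m) := by
  rw [sum2_mul_sum2]
  refine Finset.sum_congr rfl fun j _ => ?_
  exact Finset.sum_comm

theorem contr1 (F G : ι → ι → α → ℂ) (c : ℂ) (x x' y y' : ι → ℂ) :
    ∑ j, ∑ k, ∑ l, ∑ m, (c * ∑ a, F j m a * G l k a) * x j * x' k * y l * y' m =
      c * ∑ a, (∑ j, ∑ m, F j m a * x j * y' m) * (∑ l, ∑ k, G l k a * y l * x' k) := by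
  have e : ∀ j k l m, (c * ∑ a, F j m a * G l k a) * x j * x' k * y l * y' m
      = ∑ a, c * ((F j m a * x j * y' m) * (G l k a * y l * x' k)) := by
    intro j k l m
    simp only [Finset.mul_sum, Finset.sum_mul]
    exact Finset.sum_congr rfl fun a _ => by ring
  simp only [e]
  rw [sum4_comm, Finset.mul_sum]
  refine Finset.sum_congr rfl fun a _ => ?_
  rw [← sum4_fact1]
  simp only [Finset.mul_sum]

theorem contr2 (F G : ι → ι → α → ℂ) (c : ℂ) (x x' y y' : ι → ℂ) :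
    ∑ j, ∑ k, ∑ l, ∑ m, (c * ∑ a, F k m a * G j l a) * x j * x' k * y l * y' m =
      c * ∑ a, (∑ j, ∑ l, G j l a * x j * y l) * (∑ k, ∑ m, F k m a * x' k * y' m) := by
  have e : ∀ j k l m, (c * ∑ a, F k m a * G j l a) * x j * x' k * y l * y' m
      = ∑ a, c * ((G j l a * x j * y l) * (F k m a * x' k * y' m)) := by
    intro j k l m
    simp only [Finset.mul_sum, Finset.sum_mul]
    exact Finset.sum_congr rfl fun a _ => by ring
  simp only [e]
  rw [sum4_comm, Finset.mul_sum]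
  refine Finset.sum_congr rfl fun a _ => ?_
  rw [← sum4_fact2]
  simp only [Finset.mul_sum]

theorem contr3 (Hi : ι → ι → ℂ) (A B : ι → ι → ι → ℂ) (x x' y y' : ι → ℂ) :
    ∑ j, ∑ k, ∑ l, ∑ m, (∑ p, ∑ q, Hi p q * A q j l * B p k m) * x j * x' k * y l * y' m =
      ∑ p, ∑ q, Hi p q * (∑ j, ∑ l, A q j l * x j * y l) * (∑ k, ∑ m, B p k m * x' k * y' m) := by
  have e : ∀ j k l m, (∑ p, ∑ q, Hi p q * A q j l * B p k m) * x j * x' k * y l * y' m
      = ∑ p, ∑ q, Hi p q * ((A q j l * x j * y l) * (B p k m * x' k * y' m)) := by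
    intro j k l m
    simp only [Finset.sum_mul]
    exact Finset.sum_congr rfl fun p _ => Finset.sum_congr rfl fun q _ => by ring
  simp only [e]
  rw [sum4_comm]
  refine Finset.sum_congr rfl fun p _ => ?_
  rw [sum4_comm]
  refine Finset.sum_congr rfl fun q _ => ?_
  rw [mul_assoc, ← sum4_fact2]
  simp only [Finset.mul_sum]

theorem contrA (Q : α → ℂ) (P2 : ι → ι → α → ℂ) (c : ℂ) (x y : ι → ℂ) :
    ∑ j, ∑ l, (c * ∑ a, Q a * P2 j l a) * x j * y l =
      c * ∑ a, Q a * ∑ j, ∑ l, P2 j l a * x j * y l := by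
  have e : ∀ j l, (c * ∑ a, Q a * P2 j l a) * x j * y l
      = ∑ a, c * (Q a * (P2 j l a * x j * y l)) := by
    intro j l
    simp only [Finset.mul_sum, Finset.sum_mul]
    exact Finset.sum_congr rfl fun a _ => by ring
  simp only [e]
  rw [sum2_comm]
  simp only [Finset.mul_sum]

theorem contrA' (Q : α → ℂ) (P2 : ι → ι → α → ℂ) (c : ℂ) (x y : ι → ℂ) :
    ∑ j, ∑ l, (c * ∑ a, P2 j l a * Q a) * x j * y l =
      c * ∑ a, Q a * ∑ j, ∑ l, P2 j l a * x j * y l := by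
  rw [← contrA]
  simp only [mul_comm (Q _)]

end sums

/-- `X_a = ∑ ∂̄_m ∂_j φ_a v_j \bar w_m`. -/
noncomputable def Xv (Φ : CE ι → EN N) (z : CE ι) (v w : ι → ℂ) (a : Fin N) : ℂ :=
  ∑ j, ∑ m, dzb m (dz j (cof Φ a)) z * v j * conj (w m)

/-- `Y_a = ∑ ∂_l ∂_j φ_a v_j w_l`. -/
noncomputable def Yv (Φ : CE ι → EN N) (z : CE ι) (v w : ι → ℂ) (a : Fin N) : ℂ :=
  ∑ j, ∑ l, dz l (dz j (cof Φ a)) z * v j * w l

/-- `u_q = ∑_a Q_q^a Y_a`. -/
noncomputable def uv (Φ : CE ι → EN N) (z : CE ι) (v w : ι → ℂ) (q : ι) : ℂ :=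
  ∑ a, dzb q (cof Φ a) z * Yv Φ z v w a

theorem conj_Xv (hs : ContDiffAt ℝ 2 Φ z) (v w : ι → ℂ) (a : Fin N) :
    conj (Xv Φ z v w a) = Xv Φ z w v a := by
  unfold Xv
  simp only [map_sum, map_mul, conj_dzb_dz_cof hs, Complex.conj_conj]
  rw [Finset.sum_comm]
  exact Finset.sum_congr rfl fun m _ => Finset.sum_congr rfl fun j _ => by ring

theorem conj_Yv (Φ : CE ι → EN N) (z : CE ι) (v w : ι → ℂ) (a : Fin N) :
    conj (Yv Φ z v w a) = ∑ k, ∑ m, dzb m (dzb k (cof Φ a)) z * conj (v k) * conj (w m) := by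
  unfold Yv
  simp only [map_sum, map_mul, dzb_dzb_cof]

theorem conj_uv (Φ : CE ι → EN N) (z : CE ι) (v w : ι → ℂ) (p : ι) :
    conj (uv Φ z v w p) = ∑ a, dz p (cof Φ a) z * conj (Yv Φ z v w a) := by
  unfold uv
  simp only [map_sum, map_mul]
  exact Finset.sum_congr rfl fun a _ => by rw [← dz_cof]

theorem KImm.bisec_gram_eq (h : KImm Φ U) (hz : z ∈ U) (v w : ι → ℂ) :
    bisec gram Φ z v w = 2 * ∑ a, ‖Xv Φ z v w a‖ ^ 2 - 2 * ∑ a, ‖Yv Φ z v w a‖ ^ 2 +
      4 * qf (gram Φ z)⁻¹ (uv Φ z v w) := by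
  have hs : ContDiffAt ℝ 2 Φ z := (h.contDiffAt hz).of_le two_le_infty
  unfold bisec
  simp only [h.Rm_gram hz, Complex.star_def, add_mul, sub_mul, Finset.sum_add_distrib,
    Finset.sum_sub_distrib]
  have S1 : ∑ j, ∑ k, ∑ l, ∑ m,
      (2 * ∑ a, dzb m (dz j (cof Φ a)) z * dzb k (dz l (cof Φ a)) z) * v j * conj (v k) * w l
        * conj (w m) = 2 * ∑ a, Xv Φ z v w a * Xv Φ z w v a :=
    contr1 (fun j m a => dzb m (dz j (cof Φ a)) z) (fun l k a => dzb k (dz l (cof Φ a)) z) 2 v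
      (fun k => conj (v k)) w (fun m => conj (w m))
  have S2 : ∑ j, ∑ k, ∑ l, ∑ m,
      (2 * ∑ a, dzb m (dzb k (cof Φ a)) z * dz l (dz j (cof Φ a)) z) * v j * conj (v k) * w l
        * conj (w m) = 2 * ∑ a, Yv Φ z v w a *
          (∑ k, ∑ m, dzb m (dzb k (cof Φ a)) z * conj (v k) * conj (w m)) :=
    contr2 (fun k m a => dzb m (dzb k (cof Φ a)) z) (fun j l a => dz l (dz j (cof Φ a)) z) 2 v
      (fun k => conj (v k)) w (fun m => conj (w m))
  have S3 : ∑ j, ∑ k, ∑ l, ∑ m,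
      (∑ p, ∑ q, (gram Φ z)⁻¹ p q * (2 * ∑ a, dzb q (cof Φ a) z * dz l (dz j (cof Φ a)) z) *
          (2 * ∑ a, dzb m (dzb k (cof Φ a)) z * dz p (cof Φ a) z)) * v j * conj (v k) * w l
        * conj (w m) = ∑ p, ∑ q, (gram Φ z)⁻¹ p q *
          (∑ j, ∑ l, (2 * ∑ a, dzb q (cof Φ a) z * dz l (dz j (cof Φ a)) z) * v j * w l) *
          (∑ k, ∑ m, (2 * ∑ a, dzb m (dzb k (cof Φ a)) z * dz p (cof Φ a) z) * conj (v k)
            * conj (w m)) :=
    contr3 (fun p q => (gram Φ z)⁻¹ p q)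
      (fun q j l => 2 * ∑ a, dzb q (cof Φ a) z * dz l (dz j (cof Φ a)) z)
      (fun p k m => 2 * ∑ a, dzb m (dzb k (cof Φ a)) z * dz p (cof Φ a) z) v
      (fun k => conj (v k)) w (fun m => conj (w m))
  have A1 : ∀ q, ∑ j, ∑ l, (2 * ∑ a, dzb q (cof Φ a) z * dz l (dz j (cof Φ a)) z) * v j * w l
      = 2 * uv Φ z v w q := fun q =>
    contrA (fun a => dzb q (cof Φ a) z) (fun j l a => dz l (dz j (cof Φ a)) z) 2 v w
  have A2 : ∀ p, ∑ k, ∑ m, (2 * ∑ a, dzb m (dzb k (cof Φ a)) z * dz p (cof Φ a) z) * conj (v k)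
      * conj (w m) = 2 * conj (uv Φ z v w p) := by
    intro p
    rw [conj_uv]
    simp only [conj_Yv]
    exact contrA' (fun a => dz p (cof Φ a) z) (fun k m a => dzb m (dzb k (cof Φ a)) z) 2
      (fun k => conj (v k)) (fun m => conj (w m))
  rw [S1, S2, S3]
  simp only [A1, A2, ← conj_Yv, ← conj_Xv hs v w]
  have T3 : ∑ p, ∑ q, (gram Φ z)⁻¹ p q * (2 * uv Φ z v w q) * (2 * conj (uv Φ z v w p))
      = 4 * ∑ p, ∑ q, conj (uv Φ z v w p) * (gram Φ z)⁻¹ p q * uv Φ z v w q := by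
    simp only [Finset.mul_sum]
    exact Finset.sum_congr rfl fun p _ => Finset.sum_congr rfl fun q _ => by ring
  have r2 : ∀ x : ℂ, (2 * x).re = 2 * x.re := fun x => by simp
  have r4 : ∀ x : ℂ, (4 * x).re = 4 * x.re := fun x => by simp
  rw [T3, qf_eq_sum, Complex.add_re, Complex.sub_re, r2, r2, r4, Complex.re_sum, Complex.re_sum]
  simp only [Complex.mul_conj, Complex.ofReal_re, Complex.normSq_eq_norm_sq]

/-! ### Step 4 -/

section expand

variable {f : CE ι → ℂ}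

noncomputable def s20 (f : CE ι → ℂ) (z x y : CE ι) : ℂ := ∑ l, ∑ j, dz l (dz j f) z * y j * x l
noncomputable def s11 (f : CE ι → ℂ) (z x y : CE ι) : ℂ :=
  ∑ l, ∑ j, dz l (dzb j f) z * conj (y j) * x l
noncomputable def s11' (f : CE ι → ℂ) (z x y : CE ι) : ℂ :=
  ∑ l, ∑ j, dzb l (dz j f) z * y j * conj (x l)
noncomputable def s02 (f : CE ι → ℂ) (z x y : CE ι) : ℂ :=
  ∑ l, ∑ j, dzb l (dzb j f) z * conj (y j) * conj (x l)

theorem snd_expand (hf : ContDiffAt ℝ 2 f z) (x y : CE ι) :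
    fderiv ℝ (fderiv ℝ f) z x y = s20 f z x y + s11 f z x y + s11' f z x y + s02 f z x y := by
  have h1 : DifferentiableAt ℝ (fderiv ℝ f) z :=
    (hf.fderiv_right (m := 1) (by norm_num)).differentiableAt (by norm_num)
  have e1 : fderiv ℝ (fderiv ℝ f) z x y = fderiv ℝ (fun w => fderiv ℝ f w y) z x := by
    rw [fderiv_clm_apply h1 (differentiableAt_const y)]
    simp
  have e2 : (fun w => fderiv ℝ f w y) = fun w => ∑ j, (dz j f w * y j + dzb j f w * conj (y j)) := by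
    funext w
    exact fderiv_eq_sum y
  have d1 : ∀ j, DifferentiableAt ℝ (dz j f) z := fun j =>
    (contDiffAt_dz (m := 1) hf (by norm_num)).differentiableAt (by norm_num)
  have d2 : ∀ j, DifferentiableAt ℝ (dzb j f) z := fun j =>
    (contDiffAt_dzb (m := 1) hf (by norm_num)).differentiableAt (by norm_num)
  have d3 : ∀ j ∈ (Finset.univ : Finset ι),
      DifferentiableAt ℝ (fun w => dz j f w * y j + dzb j f w * conj (y j)) z := fun j _ =>
    ((d1 j).mul_const _).add ((d2 j).mul_const _)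
  rw [e1, e2, fderiv_eq_sum x]
  have e3 : ∀ l, dz l (fun w => ∑ j, (dz j f w * y j + dzb j f w * conj (y j))) z
      = ∑ j, (dz l (dz j f) z * y j + dz l (dzb j f) z * conj (y j)) := by
    intro l
    rw [dz_sum _ _ d3]
    refine Finset.sum_congr rfl fun j _ => ?_
    rw [dz_add ((d1 j).mul_const _) ((d2 j).mul_const _), dz_mul_const _ (d1 j),
      dz_mul_const _ (d2 j)]
  have e4 : ∀ l, dzb l (fun w => ∑ j, (dz j f w * y j + dzb j f w * conj (y j))) z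
      = ∑ j, (dzb l (dz j f) z * y j + dzb l (dzb j f) z * conj (y j)) := by
    intro l
    rw [dzb_sum _ _ d3]
    refine Finset.sum_congr rfl fun j _ => ?_
    rw [dzb_add ((d1 j).mul_const _) ((d2 j).mul_const _), dzb_mul_const _ (d1 j),
      dzb_mul_const _ (d2 j)]
  simp only [e3, e4]
  simp only [s20, s11, s11', s02, Finset.sum_add_distrib, Finset.sum_mul, add_mul]
  ring

theorem s20_I_left (f : CE ι → ℂ) (z x y : CE ι) :
    s20 f z (Complex.I • x) y = Complex.I * s20 f z x y := by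
  simp only [s20, Finset.mul_sum, PiLp.smul_apply, smul_eq_mul]
  exact Finset.sum_congr rfl fun l _ => Finset.sum_congr rfl fun j _ => by ring

theorem s20_I_right (f : CE ι → ℂ) (z x y : CE ι) :
    s20 f z x (Complex.I • y) = Complex.I * s20 f z x y := by
  simp only [s20, Finset.mul_sum, PiLp.smul_apply, smul_eq_mul]
  exact Finset.sum_congr rfl fun l _ => Finset.sum_congr rfl fun j _ => by ring

theorem s11_I_left (f : CE ι → ℂ) (z x y : CE ι) :
    s11 f z (Complex.I • x) y = Complex.I * s11 f z x y := by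
  simp only [s11, Finset.mul_sum, PiLp.smul_apply, smul_eq_mul]
  exact Finset.sum_congr rfl fun l _ => Finset.sum_congr rfl fun j _ => by ring

theorem s11_I_right (f : CE ι → ℂ) (z x y : CE ι) :
    s11 f z x (Complex.I • y) = - Complex.I * s11 f z x y := by
  simp only [s11, Finset.mul_sum, PiLp.smul_apply, smul_eq_mul, map_mul, Complex.conj_I]
  exact Finset.sum_congr rfl fun l _ => Finset.sum_congr rfl fun j _ => by ring

theorem s11'_I_left (f : CE ι → ℂ) (z x y : CE ι) :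
    s11' f z (Complex.I • x) y = - Complex.I * s11' f z x y := by
  simp only [s11', Finset.mul_sum, PiLp.smul_apply, smul_eq_mul, map_mul, Complex.conj_I]
  exact Finset.sum_congr rfl fun l _ => Finset.sum_congr rfl fun j _ => by ring

theorem s11'_I_right (f : CE ι → ℂ) (z x y : CE ι) :
    s11' f z x (Complex.I • y) = Complex.I * s11' f z x y := by
  simp only [s11', Finset.mul_sum, PiLp.smul_apply, smul_eq_mul]
  exact Finset.sum_congr rfl fun l _ => Finset.sum_congr rfl fun j _ => by ring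

theorem s02_I_left (f : CE ι → ℂ) (z x y : CE ι) :
    s02 f z (Complex.I • x) y = - Complex.I * s02 f z x y := by
  simp only [s02, Finset.mul_sum, PiLp.smul_apply, smul_eq_mul, map_mul, Complex.conj_I]
  exact Finset.sum_congr rfl fun l _ => Finset.sum_congr rfl fun j _ => by ring

theorem s02_I_right (f : CE ι → ℂ) (z x y : CE ι) :
    s02 f z x (Complex.I • y) = - Complex.I * s02 f z x y := by
  simp only [s02, Finset.mul_sum, PiLp.smul_apply, smul_eq_mul, map_mul, Complex.conj_I]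
  exact Finset.sum_congr rfl fun l _ => Finset.sum_congr rfl fun j _ => by ring

theorem four_s11 (hf : ContDiffAt ℝ 2 f z) (x y : CE ι) :
    4 * s11 f z x y = fderiv ℝ (fderiv ℝ f) z x y
      + fderiv ℝ (fderiv ℝ f) z (Complex.I • x) (Complex.I • y)
      + Complex.I * (fderiv ℝ (fderiv ℝ f) z x (Complex.I • y)
        - fderiv ℝ (fderiv ℝ f) z (Complex.I • x) y) := by
  simp only [snd_expand hf, s20_I_left, s20_I_right, s11_I_left, s11_I_right, s11'_I_left,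
    s11'_I_right, s02_I_left, s02_I_right]
  linear_combination (- s20 f z x y + 3 * s11 f z x y - s11' f z x y - s02 f z x y) * Complex.I_mul_I

theorem four_s20 (hf : ContDiffAt ℝ 2 f z) (x y : CE ι) :
    4 * s20 f z x y = fderiv ℝ (fderiv ℝ f) z x y
      - fderiv ℝ (fderiv ℝ f) z (Complex.I • x) (Complex.I • y)
      - Complex.I * (fderiv ℝ (fderiv ℝ f) z x (Complex.I • y)
        + fderiv ℝ (fderiv ℝ f) z (Complex.I • x) y) := by
  simp only [snd_expand hf, s20_I_left, s20_I_right, s11_I_left, s11_I_right, s11'_I_left,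
    s11'_I_right, s02_I_left, s02_I_right]
  linear_combination (3 * s20 f z x y - s11 f z x y - s11' f z x y - s02 f z x y) * Complex.I_mul_I

end expand

theorem Xv_eq (hs : ContDiffAt ℝ 2 Φ z) (v w : CE ι) (a : Fin N) :
    Xv Φ z v w a = (1 / 4 : ℂ) *
      ((((D2 Φ z v w a + D2 Φ z (Complex.I • v) (Complex.I • w) a : ℝ)) : ℂ) +
        Complex.I * (((D2 Φ z v (Complex.I • w) a - D2 Φ z (Complex.I • v) w a : ℝ)) : ℂ)) := by
  have hf := cof_contDiffAt hs a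
  have e : Xv Φ z v w a = s11 (cof Φ a) z v w := by
    unfold Xv s11
    refine Finset.sum_congr rfl fun j _ => Finset.sum_congr rfl fun m _ => ?_
    rw [dz_dzb_comm hf]
    ring
  have h4 := four_s11 hf v w
  simp only [snd_fderiv_cof hs] at h4
  rw [e]
  push_cast
  linear_combination (1 / 4 : ℂ) * h4

theorem Yv_eq (hs : ContDiffAt ℝ 2 Φ z) (v w : CE ι) (a : Fin N) :
    Yv Φ z v w a = (1 / 4 : ℂ) *
      ((((D2 Φ z v w a - D2 Φ z (Complex.I • v) (Complex.I • w) a : ℝ)) : ℂ) -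
        Complex.I * (((D2 Φ z v (Complex.I • w) a + D2 Φ z (Complex.I • v) w a : ℝ)) : ℂ)) := by
  have hf := cof_contDiffAt hs a
  have e : Yv Φ z v w a = s20 (cof Φ a) z v w := by
    unfold Yv s20
    refine Finset.sum_congr rfl fun j _ => Finset.sum_congr rfl fun l _ => ?_
    rw [dz_dz_comm hf]
    ring
  have h4 := four_s20 hf v w
  simp only [snd_fderiv_cof hs] at h4
  rw [e]
  push_cast
  linear_combination (1 / 4 : ℂ) * h4

/-! ### Step 5 -/

/-- the Christoffel vector is complex bilinear. -/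
theorem KImm.tanP_D2_I_right (h : KImm Φ U) (hz : z ∈ U) {x y γ : CE ι}
    (hγ : tanP Φ z (D2 Φ z x y) = fderiv ℝ Φ z γ) :
    tanP Φ z (D2 Φ z x (Complex.I • y)) = fderiv ℝ Φ z (Complex.I • γ) := by
  obtain ⟨c, hc⟩ := exists_tanP_eq Φ z (D2 Φ z x (Complex.I • y))
  rw [hc]
  refine fderiv_eq_of_inner_eq Φ z fun e => ?_
  rw [← hc, inner_tanP_fderiv, h.kahler z hz, ← inner_tanP_fderiv, hγ, ← h.isom z hz (Complex.I • γ) e,
    smul_smul, Complex.I_mul_I, neg_one_smul, map_neg, inner_neg_left]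

theorem KImm.tanP_D2_I_left (h : KImm Φ U) (hz : z ∈ U) {x y γ : CE ι}
    (hγ : tanP Φ z (D2 Φ z x y) = fderiv ℝ Φ z γ) :
    tanP Φ z (D2 Φ z (Complex.I • x) y) = fderiv ℝ Φ z (Complex.I • γ) := by
  have hs : ContDiffAt ℝ 2 Φ z := (h.contDiffAt hz).of_le two_le_infty
  rw [D2_symm hs]
  rw [D2_symm hs] at hγ
  exact h.tanP_D2_I_right hz hγ

theorem KImm.tanP_D2_I_I (h : KImm Φ U) (hz : z ∈ U) {x y γ : CE ι}
    (hγ : tanP Φ z (D2 Φ z x y) = fderiv ℝ Φ z γ) :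
    tanP Φ z (D2 Φ z (Complex.I • x) (Complex.I • y)) = - fderiv ℝ Φ z γ := by
  have h1 := h.tanP_D2_I_right hz (h.tanP_D2_I_left hz hγ)
  rw [h1, smul_smul, Complex.I_mul_I, neg_one_smul, map_neg]

theorem sum_normSq_pair (R S : EN N) :
    ∑ a, ‖(1 / 4 : ℂ) * (((R a : ℝ) : ℂ) + Complex.I * ((S a : ℝ) : ℂ))‖ ^ 2 =
      (1 / 16 : ℝ) * (‖R‖ ^ 2 + ‖S‖ ^ 2) := by
  rw [EuclideanSpace.norm_sq_eq, EuclideanSpace.norm_sq_eq, ← Finset.sum_add_distrib,
    Finset.mul_sum]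
  refine Finset.sum_congr rfl fun a _ => ?_
  rw [Complex.sq_norm, Complex.normSq_apply]
  simp only [Real.norm_eq_abs, sq_abs]
  simp
  ring

theorem sum_normSq_pair' (R S : EN N) :
    ∑ a, ‖(1 / 4 : ℂ) * (((R a : ℝ) : ℂ) - Complex.I * ((S a : ℝ) : ℂ))‖ ^ 2 =
      (1 / 16 : ℝ) * (‖R‖ ^ 2 + ‖S‖ ^ 2) := by
  have := sum_normSq_pair R (-S)
  rw [norm_neg] at this
  rw [← this]
  refine Finset.sum_congr rfl fun a _ => ?_
  congr 3
  simp
  ring

theorem D2_decomp (Φ : CE ι → EN N) (z x y : CE ι) :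
    D2 Φ z x y = tanP Φ z (D2 Φ z x y) + sff Φ z x y := by
  unfold sff
  abel

theorem KImm.sum_normSq_Xv (h : KImm Φ U) (hz : z ∈ U) (v w : CE ι) :
    ∑ a, ‖Xv Φ z v w a‖ ^ 2 = (1 / 16 : ℝ) *
      (‖sff Φ z v w + sff Φ z (Complex.I • v) (Complex.I • w)‖ ^ 2 +
        ‖sff Φ z v (Complex.I • w) - sff Φ z (Complex.I • v) w‖ ^ 2) := by
  have hs : ContDiffAt ℝ 2 Φ z := (h.contDiffAt hz).of_le two_le_infty
  obtain ⟨γ, hγ⟩ := exists_tanP_eq Φ z (D2 Φ z v w)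
  have e1 : D2 Φ z v w + D2 Φ z (Complex.I • v) (Complex.I • w) =
      sff Φ z v w + sff Φ z (Complex.I • v) (Complex.I • w) := by
    rw [D2_decomp Φ z v w, D2_decomp Φ z (Complex.I • v) (Complex.I • w), hγ, h.tanP_D2_I_I hz hγ]
    abel
  have e2 : D2 Φ z v (Complex.I • w) - D2 Φ z (Complex.I • v) w =
      sff Φ z v (Complex.I • w) - sff Φ z (Complex.I • v) w := by
    rw [D2_decomp Φ z v (Complex.I • w), D2_decomp Φ z (Complex.I • v) w,
      h.tanP_D2_I_right hz hγ, h.tanP_D2_I_left hz hγ]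
    abel
  rw [← e1, ← e2, ← sum_normSq_pair]
  refine Finset.sum_congr rfl fun a _ => ?_
  rw [Xv_eq hs]
  rfl

theorem KImm.sum_normSq_Yv (h : KImm Φ U) (hz : z ∈ U) (v w : CE ι) {γ : CE ι}
    (hγ : tanP Φ z (D2 Φ z v w) = fderiv ℝ Φ z γ) :
    ∑ a, ‖Yv Φ z v w a‖ ^ 2 = (1 / 2 : ℝ) * ‖fderiv ℝ Φ z γ‖ ^ 2 + (1 / 16 : ℝ) *
      (‖sff Φ z v w - sff Φ z (Complex.I • v) (Complex.I • w)‖ ^ 2 +
        ‖sff Φ z v (Complex.I • w) + sff Φ z (Complex.I • v) w‖ ^ 2) := by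
  have hs : ContDiffAt ℝ 2 Φ z := (h.contDiffAt hz).of_le two_le_infty
  have e1 : D2 Φ z v w - D2 Φ z (Complex.I • v) (Complex.I • w) =
      (2 : ℝ) • fderiv ℝ Φ z γ + (sff Φ z v w - sff Φ z (Complex.I • v) (Complex.I • w)) := by
    rw [D2_decomp Φ z v w, D2_decomp Φ z (Complex.I • v) (Complex.I • w), hγ, h.tanP_D2_I_I hz hγ,
      two_smul]
    abel
  have e2 : D2 Φ z v (Complex.I • w) + D2 Φ z (Complex.I • v) w =
      (2 : ℝ) • fderiv ℝ Φ z (Complex.I • γ) +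
        (sff Φ z v (Complex.I • w) + sff Φ z (Complex.I • v) w) := by
    rw [D2_decomp Φ z v (Complex.I • w), D2_decomp Φ z (Complex.I • v) w,
      h.tanP_D2_I_right hz hγ, h.tanP_D2_I_left hz hγ, two_smul]
    abel
  have n1 : ‖(2 : ℝ) • fderiv ℝ Φ z γ + (sff Φ z v w - sff Φ z (Complex.I • v) (Complex.I • w))‖ ^ 2
      = 4 * ‖fderiv ℝ Φ z γ‖ ^ 2 + ‖sff Φ z v w - sff Φ z (Complex.I • v) (Complex.I • w)‖ ^ 2 := by
    rw [norm_add_sq_real, inner_smul_left, inner_sub_right, real_inner_comm, inner_sff_fderiv,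
      real_inner_comm, inner_sff_fderiv, norm_smul]
    simp
    ring
  have n2 : ‖(2 : ℝ) • fderiv ℝ Φ z (Complex.I • γ) +
        (sff Φ z v (Complex.I • w) + sff Φ z (Complex.I • v) w)‖ ^ 2
      = 4 * ‖fderiv ℝ Φ z γ‖ ^ 2 + ‖sff Φ z v (Complex.I • w) + sff Φ z (Complex.I • v) w‖ ^ 2 := by
    have hn : ‖fderiv ℝ Φ z (Complex.I • γ)‖ ^ 2 = ‖fderiv ℝ Φ z γ‖ ^ 2 := by
      rw [← real_inner_self_eq_norm_sq, ← real_inner_self_eq_norm_sq, h.isom z hz]
    rw [norm_add_sq_real, inner_smul_left, inner_add_right, real_inner_comm, inner_sff_fderiv,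
      real_inner_comm, inner_sff_fderiv, norm_smul, mul_pow, hn]
    norm_num
  have key : ∑ a, ‖Yv Φ z v w a‖ ^ 2 = (1 / 16 : ℝ) *
      (‖D2 Φ z v w - D2 Φ z (Complex.I • v) (Complex.I • w)‖ ^ 2 +
        ‖D2 Φ z v (Complex.I • w) + D2 Φ z (Complex.I • v) w‖ ^ 2) := by
    rw [← sum_normSq_pair']
    refine Finset.sum_congr rfl fun a _ => ?_
    rw [Yv_eq hs]
    rfl
  rw [key, e1, e2, n1, n2]
  ring


theorem sum_dzb_cof_mul_normal (hd : DifferentiableAt ℝ Φ z) (q : ι) (n : EN N)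
    (hn : ∀ c, inner ℝ n (fderiv ℝ Φ z c) = 0) :
    ∑ a, dzb q (cof Φ a) z * ((n a : ℝ) : ℂ) = 0 := by
  have h1 := hn (eb q)
  have h2 := hn (Complex.I • eb q)
  rw [PiLp.inner_apply] at h1 h2
  simp only [RCLike.inner_apply, conj_trivial] at h1 h2
  have e : ∀ a, dzb q (cof Φ a) z * ((n a : ℝ) : ℂ) =
      (1 / 2 : ℂ) * ((fderiv ℝ Φ z (eb q) a * n a : ℝ) : ℂ) +
        (1 / 2 : ℂ) * Complex.I * ((fderiv ℝ Φ z (Complex.I • eb q) a * n a : ℝ) : ℂ) := by
    intro a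
    rw [dzb_cof, dz_cof_eq hd]
    simp only [map_mul, map_sub, Complex.conj_ofReal, Complex.conj_I, map_div₀, map_one, map_ofNat]
    push_cast
    ring
  simp only [e]
  rw [Finset.sum_add_distrib, ← Finset.mul_sum, ← Finset.mul_sum, ← Complex.ofReal_sum,
    ← Complex.ofReal_sum, h1, h2]
  simp

theorem KImm.uv_eq (h : KImm Φ U) (hz : z ∈ U) (v w : CE ι) {γ : CE ι}
    (hγ : tanP Φ z (D2 Φ z v w) = fderiv ℝ Φ z γ) :
    uv Φ z v w = (1 / 2 : ℂ) • (gram Φ z *ᵥ γ) := by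
  have hs : ContDiffAt ℝ 2 Φ z := (h.contDiffAt hz).of_le two_le_infty
  have hd : DifferentiableAt ℝ Φ z := hs.differentiableAt (by norm_num)
  have e1 : D2 Φ z v w - D2 Φ z (Complex.I • v) (Complex.I • w) =
      (2 : ℝ) • fderiv ℝ Φ z γ + (sff Φ z v w - sff Φ z (Complex.I • v) (Complex.I • w)) := by
    rw [D2_decomp Φ z v w, D2_decomp Φ z (Complex.I • v) (Complex.I • w), hγ, h.tanP_D2_I_I hz hγ,
      two_smul]
    abel
  have e2 : D2 Φ z v (Complex.I • w) + D2 Φ z (Complex.I • v) w =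
      (2 : ℝ) • fderiv ℝ Φ z (Complex.I • γ) +
        (sff Φ z v (Complex.I • w) + sff Φ z (Complex.I • v) w) := by
    rw [D2_decomp Φ z v (Complex.I • w), D2_decomp Φ z (Complex.I • v) w,
      h.tanP_D2_I_right hz hγ, h.tanP_D2_I_left hz hγ, two_smul]
    abel
  have hY : ∀ a, Yv Φ z v w a = ∑ p, dz p (cof Φ a) z * γ p +
      ((1 / 4 : ℂ) * (((sff Φ z v w - sff Φ z (Complex.I • v) (Complex.I • w)) a : ℝ) : ℂ) -
        (1 / 4 : ℂ) * Complex.I *
          (((sff Φ z v (Complex.I • w) + sff Φ z (Complex.I • v) w) a : ℝ) : ℂ)) := by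
    intro a
    have f1 := congrArg (fun x : EN N => x a) e1
    have f2 := congrArg (fun x : EN N => x a) e2
    simp only [PiLp.sub_apply, PiLp.add_apply, PiLp.smul_apply, smul_eq_mul] at f1 f2
    rw [Yv_eq hs, sum_dz_cof hd, f1, f2]
    simp only [PiLp.sub_apply, PiLp.add_apply]
    push_cast
    ring
  funext q
  rw [Pi.smul_apply, gram_mulVec, uv]
  simp only [hY, mul_add, mul_sub, Finset.sum_add_distrib, Finset.sum_sub_distrib]
  have z1 := sum_dzb_cof_mul_normal hd q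
    (sff Φ z v w - sff Φ z (Complex.I • v) (Complex.I • w)) (fun c => by
      rw [inner_sub_left, inner_sff_fderiv, inner_sff_fderiv, sub_zero])
  have z2 := sum_dzb_cof_mul_normal hd q
    (sff Φ z v (Complex.I • w) + sff Φ z (Complex.I • v) w) (fun c => by
      rw [inner_add_left, inner_sff_fderiv, inner_sff_fderiv, add_zero])
  have y1 : ∑ a, dzb q (cof Φ a) z *
      ((1 / 4 : ℂ) * (((sff Φ z v w - sff Φ z (Complex.I • v) (Complex.I • w)) a : ℝ) : ℂ)) = 0 := by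
    have : ∀ a, dzb q (cof Φ a) z *
      ((1 / 4 : ℂ) * (((sff Φ z v w - sff Φ z (Complex.I • v) (Complex.I • w)) a : ℝ) : ℂ)) =
      (1 / 4 : ℂ) * (dzb q (cof Φ a) z *
        (((sff Φ z v w - sff Φ z (Complex.I • v) (Complex.I • w)) a : ℝ) : ℂ)) := fun a => by ring
    simp only [this]
    rw [← Finset.mul_sum, z1, mul_zero]
  have y2 : ∑ a, dzb q (cof Φ a) z * ((1 / 4 : ℂ) * Complex.I *
          (((sff Φ z v (Complex.I • w) + sff Φ z (Complex.I • v) w) a : ℝ) : ℂ)) = 0 := by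
    have : ∀ a, dzb q (cof Φ a) z * ((1 / 4 : ℂ) * Complex.I *
          (((sff Φ z v (Complex.I • w) + sff Φ z (Complex.I • v) w) a : ℝ) : ℂ)) =
      (1 / 4 : ℂ) * Complex.I * (dzb q (cof Φ a) z *
          (((sff Φ z v (Complex.I • w) + sff Φ z (Complex.I • v) w) a : ℝ) : ℂ)) := fun a => by ring
    simp only [this]
    rw [← Finset.mul_sum, z2, mul_zero]
  rw [y1, y2, smul_eq_mul]
  ring

theorem KImm.qf_inv_uv (h : KImm Φ U) (hz : z ∈ U) (v w : CE ι) {γ : CE ι}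
    (hγ : tanP Φ z (D2 Φ z v w) = fderiv ℝ Φ z γ) :
    4 * qf (gram Φ z)⁻¹ (uv Φ z v w) = ‖fderiv ℝ Φ z γ‖ ^ 2 := by
  have hH := h.gram_posDef hz
  rw [h.uv_eq hz v w hγ, qf_smul_vec, ← qf_inv_mulVec hH, Matrix.mulVec_mulVec,
    Matrix.nonsing_inv_mul _ (isUnit_iff_ne_zero.2 hH.det_pos.ne'), Matrix.one_mulVec,
    h.qf_gram hz]
  norm_num
  ring

/-- **Gauss equation**. -/
theorem KImm.bisec_gram (h : KImm Φ U) (hz : z ∈ U) (v w : CE ι) :
    bisec gram Φ z v w = (1 / 2 : ℝ) * gaussB Φ z v w := by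
  obtain ⟨γ, hγ⟩ := exists_tanP_eq Φ z (D2 Φ z v w)
  rw [h.bisec_gram_eq hz, h.sum_normSq_Xv hz, h.sum_normSq_Yv hz v w hγ, h.qf_inv_uv hz v w hγ]
  unfold gaussB
  rw [norm_add_sq_real, norm_sub_sq_real, norm_add_sq_real, norm_sub_sq_real,
    real_inner_comm (sff Φ z v w)]
  ring

end Claimed.Agent.R316.BR
end

/- ===== packed: Claimed.Agent.R316.Base.Emb.Series ===== -/
section
/-!
# Row 316, `BP-G12` (architect helper286), file `Emb/Series.lean`: normally convergent series of holomorphic maps; three elementary tools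

PAPER FREE, Mathlib + `CW/HolSmooth.lean` only.

* `EmbLocSummable f P` : every point of `P` has a neighbourhood on which `‖f k ·‖ ≤ u k` with `u` summable.
* `emb_hasFDerivAt_tsum` : termwise differentiation (Cauchy estimate `hs_norm_fderiv_le` + `hasFDerivAt_tsum_of_isPreconnected` on a ball).
* `emb_dense_compl_image` : a `C¹` image of an open subset of a space of smaller dimension has dense complement (`dimH`).
* `emb_exists_compact_cover` : an open subset of a proper metric space is a countable union of compact sets.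
* `emb_exists_weights` : positive weights making countably many sequences summable.
-/

set_option autoImplicit false
open scoped ContDiff Topology
open Filter

namespace Claimed.Agent.R316

/-- normally (locally uniformly, absolutely) summable family of maps on `P`. -/
def EmbLocSummable {X E : Type} [TopologicalSpace X] [Norm E] (f : ℕ → X → E) (P : Set X) : Prop :=
  ∀ p ∈ P, ∃ T ∈ 𝓝 p, ∃ u : ℕ → ℝ, Summable u ∧ ∀ k, ∀ q ∈ T, ‖f k q‖ ≤ u k

section general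

variable {X Y E : Type} [TopologicalSpace X] [TopologicalSpace Y] [NormedAddCommGroup E]
  {f : ℕ → X → E} {P : Set X}

theorem EmbLocSummable.summable_norm (h : EmbLocSummable f P) {p : X} (hp : p ∈ P) :
    Summable fun k => ‖f k p‖ := by
  obtain ⟨T, hT, u, hu, hb⟩ := h p hp
  exact Summable.of_nonneg_of_le (fun _ => norm_nonneg _) (fun k => hb k p (mem_of_mem_nhds hT)) hu

theorem EmbLocSummable.summable [CompleteSpace E] (h : EmbLocSummable f P) {p : X} (hp : p ∈ P) :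
    Summable fun k => f k p := (h.summable_norm hp).of_norm

theorem EmbLocSummable.mono (h : EmbLocSummable f P) {P' : Set X} (hP : P' ⊆ P) :
    EmbLocSummable f P' := fun p hp => h p (hP hp)

/-- one summable bound on a compact set. -/
theorem EmbLocSummable.exists_bound (h : EmbLocSummable f P) {C : Set X} (hC : IsCompact C)
    (hCP : C ⊆ P) : ∃ u : ℕ → ℝ, Summable u ∧ ∀ k, ∀ q ∈ C, ‖f k q‖ ≤ u k := by
  classical
  choose! T hT u hu hb using h
  obtain ⟨t, ht, hcov⟩ := hC.elim_nhds_subcover T (fun x hx => hT x (hCP hx))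
  refine ⟨fun k => ∑ x ∈ t, u x k, summable_sum fun x hx => hu x (hCP (ht x hx)), fun k q hq => ?_⟩
  obtain ⟨x, hx, hqx⟩ := Set.mem_iUnion₂.1 (hcov hq)
  have hnn : ∀ y ∈ t, 0 ≤ u y k := fun y hy =>
    (norm_nonneg _).trans (hb y (hCP (ht y hy)) k y (mem_of_mem_nhds (hT y (hCP (ht y hy)))))
  exact (hb x (hCP (ht x hx)) k q hqx).trans (Finset.single_le_sum hnn hx)

/-- pull back by a continuous map. -/
theorem EmbLocSummable.comp (h : EmbLocSummable f P) {φ : Y → X} {P' : Set Y} (hP' : IsOpen P')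
    (hφ : ContinuousOn φ P') (hm : Set.MapsTo φ P' P) :
    EmbLocSummable (fun k y => f k (φ y)) P' := by
  intro y hy
  obtain ⟨T, hT, u, hu, hb⟩ := h (φ y) (hm hy)
  exact ⟨φ ⁻¹' T, (hφ.continuousAt (hP'.mem_nhds hy)) hT, u, hu, fun k q hq => hb k _ hq⟩

theorem EmbLocSummable.add {g : ℕ → X → E} (h : EmbLocSummable f P) (h' : EmbLocSummable g P) :
    EmbLocSummable (fun k q => f k q + g k q) P := by
  intro p hp
  obtain ⟨T, hT, u, hu, hb⟩ := h p hp
  obtain ⟨T', hT', u', hu', hb'⟩ := h' p hp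
  exact ⟨T ∩ T', inter_mem hT hT', fun k => u k + u' k, hu.add hu', fun k q hq =>
    (norm_add_le _ _).trans (add_le_add (hb k q hq.1) (hb' k q hq.2))⟩

theorem EmbLocSummable.sub {g : ℕ → X → E} (h : EmbLocSummable f P) (h' : EmbLocSummable g P) :
    EmbLocSummable (fun k q => f k q - g k q) P := by
  intro p hp
  obtain ⟨T, hT, u, hu, hb⟩ := h p hp
  obtain ⟨T', hT', u', hu', hb'⟩ := h' p hp
  exact ⟨T ∩ T', inter_mem hT hT', fun k => u k + u' k, hu.add hu', fun k q hq =>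
    (norm_sub_le _ _).trans (add_le_add (hb k q hq.1) (hb' k q hq.2))⟩

/-- domination by a locally bounded multiple. -/
theorem EmbLocSummable.of_le {E' : Type} [NormedAddCommGroup E'] {g : ℕ → X → E'} {c : X → ℝ}
    (h : EmbLocSummable f P) (hc : ∀ p ∈ P, ∃ T ∈ 𝓝 p, ∃ B : ℝ, ∀ q ∈ T, c q ≤ B)
    (hg : ∀ k, ∀ q, ‖g k q‖ ≤ c q * ‖f k q‖) : EmbLocSummable g P := by
  intro p hp
  obtain ⟨T, hT, u, hu, hb⟩ := h p hp
  obtain ⟨T', hT', B, hB⟩ := hc p hp
  refine ⟨T ∩ T', inter_mem hT hT', fun k => |B| * u k, hu.mul_left _, fun k q hq => ?_⟩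
  have h1 : c q * ‖f k q‖ ≤ |B| * ‖f k q‖ :=
    mul_le_mul_of_nonneg_right ((hB q hq.2).trans (le_abs_self B)) (norm_nonneg _)
  exact (hg k q).trans (h1.trans (mul_le_mul_of_nonneg_left (hb k q hq.1) (abs_nonneg B)))

end general

section hol

variable {Q E : Type} [NormedAddCommGroup Q] [NormedSpace ℂ Q] [FiniteDimensional ℂ Q]
  [NormedAddCommGroup E] [NormedSpace ℂ E] [FiniteDimensional ℂ E]
  {f : ℕ → Q → E} {P : Set Q}

/-- local form: summable bounds for the maps on `ball p (2 r)`, hence for the derivatives on `ball p r`. -/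
theorem EmbLocSummable.exists_ball (hP : IsOpen P) (hf : ∀ k, DifferentiableOn ℂ (f k) P)
    (h : EmbLocSummable f P) {p : Q} (hp : p ∈ P) :
    ∃ r : ℝ, 0 < r ∧ Metric.ball p (2 * r) ⊆ P ∧ ∃ u : ℕ → ℝ, Summable u ∧
      (∀ k, ∀ q ∈ Metric.ball p (2 * r), ‖f k q‖ ≤ u k) ∧
      ∀ k, ∀ q ∈ Metric.ball p r, ‖fderiv ℂ (f k) q‖ ≤ u k / (r / 2) := by
  obtain ⟨T, hT, u, hu, hb⟩ := h p hp
  obtain ⟨ρ, hρ, hball⟩ := Metric.mem_nhds_iff.1 (inter_mem hT (hP.mem_nhds hp))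
  have h2 : 2 * (ρ / 2) = ρ := by ring
  refine ⟨ρ / 2, by positivity, ?_, u, hu, ?_, ?_⟩
  · intro q hq
    rw [h2] at hq
    exact (hball hq).2
  · intro k q hq
    rw [h2] at hq
    exact hb k q (hball hq).1
  · intro k q hq
    have hsub : Metric.closedBall q (ρ / 2 / 2) ⊆ Metric.ball p ρ := by
      intro y hy
      rw [Metric.mem_closedBall] at hy
      rw [Metric.mem_ball] at hq ⊢
      calc dist y p ≤ dist y q + dist q p := dist_triangle _ _ _
        _ < ρ / 2 / 2 + ρ / 2 := by linarith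
        _ ≤ ρ := by linarith
    refine hs_norm_fderiv_le (by positivity) (fun y hy => ?_) (fun y hy => hb k y (hball (hsub hy)).1)
    exact (hf k y (hball (hsub hy)).2).differentiableAt (hP.mem_nhds (hball (hsub hy)).2)

/-- the derivatives are normally summable too. -/
theorem EmbLocSummable.fderiv (hP : IsOpen P) (hf : ∀ k, DifferentiableOn ℂ (f k) P)
    (h : EmbLocSummable f P) : EmbLocSummable (fun k q => fderiv ℂ (f k) q) P := by
  intro p hp
  obtain ⟨r, hr, _, u, hu, _, hd⟩ := h.exists_ball hP hf hp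
  exact ⟨Metric.ball p r, Metric.ball_mem_nhds p hr, fun k => u k / (r / 2), hu.div_const _, hd⟩

/-- **termwise differentiation** of a normally convergent series of holomorphic maps. -/
theorem emb_hasFDerivAt_tsum (hP : IsOpen P) (hf : ∀ k, DifferentiableOn ℂ (f k) P)
    (h : EmbLocSummable f P) {p : Q} (hp : p ∈ P) :
    HasFDerivAt (fun q => ∑' k, f k q) (∑' k, fderiv ℂ (f k) p) p := by
  obtain ⟨r, hr, hsub, u, hu, _, hd⟩ := h.exists_ball hP hf hp
  have hsub' : Metric.ball p r ⊆ P := fun q hq =>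
    hsub (Metric.ball_subset_ball (by linarith) hq)
  exact hasFDerivAt_tsum_of_isPreconnected (u := fun k => u k / (r / 2)) (hu.div_const _)
    Metric.isOpen_ball (convex_ball p r).isPreconnected
    (fun k q hq => ((hf k q (hsub' hq)).differentiableAt (hP.mem_nhds (hsub' hq))).hasFDerivAt)
    hd (Metric.mem_ball_self hr) (h.summable hp) (Metric.mem_ball_self hr)

theorem emb_differentiableOn_tsum (hP : IsOpen P) (hf : ∀ k, DifferentiableOn ℂ (f k) P)
    (h : EmbLocSummable f P) : DifferentiableOn ℂ (fun q => ∑' k, f k q) P := fun _ hp =>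
  (emb_hasFDerivAt_tsum hP hf h hp).differentiableAt.differentiableWithinAt

theorem emb_fderiv_tsum (hP : IsOpen P) (hf : ∀ k, DifferentiableOn ℂ (f k) P)
    (h : EmbLocSummable f P) {p : Q} (hp : p ∈ P) :
    fderiv ℂ (fun q => ∑' k, f k q) p = ∑' k, fderiv ℂ (f k) p :=
  (emb_hasFDerivAt_tsum hP hf h hp).fderiv

theorem emb_fderiv_tsum_apply (hP : IsOpen P) (hf : ∀ k, DifferentiableOn ℂ (f k) P)
    (h : EmbLocSummable f P) {p : Q} (hp : p ∈ P) (v : Q) :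
    fderiv ℂ (fun q => ∑' k, f k q) p v = ∑' k, fderiv ℂ (f k) p v := by
  rw [emb_fderiv_tsum hP hf h hp]
  exact (ContinuousLinearMap.apply ℂ E v).map_tsum ((h.fderiv hP hf).summable hp)

end hol

section tools

/-- a `C¹` image of an open subset of a space of smaller dimension has dense complement. -/
theorem emb_dense_compl_image {E F : Type} [NormedAddCommGroup E] [NormedSpace ℝ E]
    [FiniteDimensional ℝ E] [NormedAddCommGroup F] [NormedSpace ℝ F] [FiniteDimensional ℝ F]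
    {f : E → F} {O : Set E} (hO : IsOpen O) (hf : ContDiffOn ℝ 1 f O)
    (hd : Module.finrank ℝ E < Module.finrank ℝ F) : Dense (f '' O)ᶜ := by
  apply dense_compl_of_dimH_lt_finrank
  have h1 : dimH (f '' O) ≤ dimH O := by
    apply dimH_image_le_of_locally_lipschitzOn
    intro x hx
    obtain ⟨K, t, ht, hK⟩ := ((hf x hx).contDiffAt (hO.mem_nhds hx)).exists_lipschitzOnWith
    exact ⟨K, t, mem_nhdsWithin_of_mem_nhds ht, hK⟩
  have h2 : dimH O ≤ (Module.finrank ℝ E : ENNReal) := by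
    rw [← Real.dimH_univ_eq_finrank E]
    exact dimH_mono (Set.subset_univ _)
  refine lt_of_le_of_lt (h1.trans h2) ?_
  exact_mod_cast hd

/-- an open subset of a proper metric space is a countable union of compact sets. -/
theorem emb_exists_compact_cover {Q : Type} [NormedAddCommGroup Q] [ProperSpace Q] {O : Set Q}
    (hO : IsOpen O) : ∃ C : ℕ → Set Q, (∀ m, IsCompact (C m)) ∧ (∀ m, C m ⊆ O) ∧ O ⊆ ⋃ m, C m := by
  obtain ⟨F, hF, hFO, hU, _⟩ := hO.exists_iUnion_isClosed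
  refine ⟨fun m => F m.unpair.1 ∩ Metric.closedBall 0 m.unpair.2, fun m => ?_, fun m => ?_, ?_⟩
  · exact (isCompact_closedBall _ _).inter_left (hF _)
  · exact Set.inter_subset_left.trans (hFO _)
  · intro x hx
    rw [← hU] at hx
    obtain ⟨a, ha⟩ := Set.mem_iUnion.1 hx
    obtain ⟨b, hb⟩ := exists_nat_ge ‖x‖
    refine Set.mem_iUnion.2 ⟨Nat.pair a b, ?_⟩
    simp only [Nat.unpair_pair]
    exact ⟨ha, by simpa using hb⟩

/-- positive weights `w k` such that `∑ w k * s k m < ∞` for every `m`. -/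
theorem emb_exists_weights (s : ℕ → ℕ → ℝ) (hs : ∀ k m, 0 ≤ s k m) :
    ∃ w : ℕ → ℝ, (∀ k, 0 < w k) ∧ ∀ m, Summable fun k => w k * s k m := by
  have hpos : ∀ k, 0 < 1 + ∑ m ∈ Finset.range (k + 1), s k m := fun k =>
    add_pos_of_pos_of_nonneg one_pos (Finset.sum_nonneg fun m _ => hs k m)
  refine ⟨fun k => (1 / 2) ^ k / (1 + ∑ m ∈ Finset.range (k + 1), s k m), fun k =>
    div_pos (by positivity) (hpos k), fun m => ?_⟩
  have hgeo : Summable fun k : ℕ => ((1 : ℝ) / 2) ^ k := summable_geometric_two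
  refine Summable.of_norm_bounded_eventually_nat hgeo ?_
  filter_upwards [eventually_ge_atTop m] with k hk
  have h1 : s k m ≤ 1 + ∑ m ∈ Finset.range (k + 1), s k m := by
    have := Finset.single_le_sum (f := fun m => s k m) (fun i _ => hs k i)
      (Finset.mem_range.2 (Nat.lt_succ_of_le hk))
    linarith
  rw [Real.norm_of_nonneg (mul_nonneg (div_pos (by positivity) (hpos k)).le (hs k m)),
    div_mul_eq_mul_div, div_le_iff₀ (hpos k)]
  exact mul_le_mul_of_nonneg_left h1 (by positivity)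

end tools

end Claimed.Agent.R316
end

/- ===== packed: Claimed.Agent.R316.Base.Emb.Baire ===== -/
section
/-!
# Row 316, `BP-G12` (architect helper286), file `Emb/Baire.lean`: the general position lemma

PAPER FREE, Mathlib + `Emb/Series.lean` only.

`emb_baire`: countably many open sets `P i` of a complex vector space `Q` of REAL dimension `< N`, on each of them a normally summable
sequence of holomorphic functions `γ i k` without common zero.  Then there are bounded REAL coefficient vectors `a k ∈ ℝ^N` such that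
`p ↦ (∑_k γ i k p * a k l)_l ∈ ℂ^N` has no zero on `P i`, for every `i`.

Proof.  Baire category in the Banach space `ℕ →ᵇ (Fin N → ℝ)`.  `{p ∈ P i | γ i k p ≠ 0}` is a countable union of compact sets `C`.
`{a | H a ≠ 0 on C}` is open (`H` is linear in `a`, bounded on `C`, continuous in `p`), and dense: changing `a k` into `a k + b` one gets a zero at `p` only if
`b = Re (- H a p / γ k p)`, and the image of this `C¹` map has dense complement (`emb_dense_compl_image`).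

USE (files `Imm.lean`, `Span.lean`): `Q = ℂⁿ × ℂⁿ`, `N = 4n+1`, and
 * `γ (z,w) = g_k (Φ_i z) - g_k (Φ_j w)` on `{Φ_i z ≠ Φ_j w}`   (injectivity of `F = ∑ g_k a_k`),
 * `γ (z,v) = d(g_k ∘ Φ_i)_z v` on `{v ≠ 0}`                     (immersion),
 * `γ (z,ξ) = ξ · Y_k(z)` on `{ξ ≠ 0}`                           (the fields `X_l = ∑ a_{k l} Y_k` span).
Real coefficients are used because a tangent field in ambient representation can only be multiplied by real numbers.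
-/

set_option autoImplicit false
set_option linter.unusedSectionVars false
open scoped ContDiff Topology BoundedContinuousFunction
open Filter

namespace Claimed.Agent.R316

variable {Q : Type} [NormedAddCommGroup Q] [NormedSpace ℂ Q] [FiniteDimensional ℂ Q] {N : ℕ}

/-- `H(a,p)_l = ∑_k γ_k(p) a_{k l}`. -/
noncomputable def embH (γ : ℕ → Q → ℂ) (a : ℕ → Fin N → ℝ) (p : Q) : Fin N → ℂ :=
  fun l => ∑' k, γ k p * (a k l : ℂ)

section fixed

variable {γ : ℕ → Q → ℂ} {P : Set Q}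

theorem emb_norm_term_le {a : ℕ → Fin N → ℝ} {c : ℝ} (ha : ∀ k, ‖a k‖ ≤ c) (k : ℕ) (l : Fin N)
    (q : Q) : ‖γ k q * (a k l : ℂ)‖ ≤ c * ‖γ k q‖ := by
  rw [norm_mul, mul_comm, Complex.norm_real]
  exact mul_le_mul_of_nonneg_right ((norm_le_pi_norm (a k) l).trans (ha k)) (norm_nonneg _)

theorem emb_locSummable_term (hs : EmbLocSummable γ P) {a : ℕ → Fin N → ℝ} {c : ℝ}
    (ha : ∀ k, ‖a k‖ ≤ c) (l : Fin N) : EmbLocSummable (fun k q => γ k q * (a k l : ℂ)) P :=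
  hs.of_le (c := fun _ => c) (fun _ _ => ⟨Set.univ, univ_mem, c, fun _ _ => le_rfl⟩)
    (fun k q => emb_norm_term_le ha k l q)

theorem embH_add (hs : EmbLocSummable γ P) {a a' : ℕ → Fin N → ℝ} {c c' : ℝ}
    (ha : ∀ k, ‖a k‖ ≤ c) (ha' : ∀ k, ‖a' k‖ ≤ c') {p : Q} (hp : p ∈ P) :
    embH γ (a + a') p = embH γ a p + embH γ a' p := by
  funext l
  simp only [embH, Pi.add_apply, Complex.ofReal_add, mul_add]
  exact ((emb_locSummable_term hs ha l).summable hp).tsum_add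
    ((emb_locSummable_term hs ha' l).summable hp)

theorem embH_single (k : ℕ) (b : Fin N → ℝ) (p : Q) :
    embH γ (Pi.single k b) p = fun l => γ k p * (b l : ℂ) := by
  funext l
  simp only [embH]
  rw [tsum_eq_single k]
  · simp
  · intro k' hk'
    simp [Pi.single_eq_of_ne hk']

theorem embH_differentiableOn (hP : IsOpen P) (hγ : ∀ k, DifferentiableOn ℂ (γ k) P)
    (hs : EmbLocSummable γ P) {a : ℕ → Fin N → ℝ} {c : ℝ} (ha : ∀ k, ‖a k‖ ≤ c) :
    DifferentiableOn ℂ (embH γ a) P :=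
  differentiableOn_pi.2 fun l =>
    emb_differentiableOn_tsum hP (fun k => (hγ k).mul_const _) (emb_locSummable_term hs ha l)

/-- `H` is bounded by a multiple of the norm of `a` on compact sets. -/
theorem embH_norm_le (hs : EmbLocSummable γ P) {C : Set Q} (hC : IsCompact C) (hCP : C ⊆ P) :
    ∃ L : ℝ, 0 ≤ L ∧ ∀ (a : ℕ → Fin N → ℝ) (c : ℝ), (∀ k, ‖a k‖ ≤ c) → ∀ p ∈ C,
      ‖embH γ a p‖ ≤ L * c := by
  obtain ⟨u, hu, hb⟩ := hs.exists_bound hC hCP
  by_cases hne : C.Nonempty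
  · obtain ⟨p₀, hp₀⟩ := hne
    have hu0 : ∀ k, 0 ≤ u k := fun k => (norm_nonneg _).trans (hb k p₀ hp₀)
    refine ⟨∑' k, u k, tsum_nonneg hu0, fun a c ha p hp => ?_⟩
    have hc : 0 ≤ c := (norm_nonneg _).trans (ha 0)
    refine (pi_norm_le_iff_of_nonneg (mul_nonneg (tsum_nonneg hu0) hc)).2 fun l => ?_
    have h1 : Summable fun k => ‖γ k p * (a k l : ℂ)‖ :=
      (emb_locSummable_term hs ha l).summable_norm (hCP hp)
    calc ‖embH γ a p l‖ ≤ ∑' k, ‖γ k p * (a k l : ℂ)‖ := norm_tsum_le_tsum_norm h1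
      _ ≤ ∑' k, u k * c := by
          refine h1.tsum_le_tsum (fun k => ?_) (hu.mul_right c)
          calc ‖γ k p * (a k l : ℂ)‖ ≤ c * ‖γ k p‖ := emb_norm_term_le ha k l p
            _ ≤ c * u k := mul_le_mul_of_nonneg_left (hb k p hp) hc
            _ = u k * c := mul_comm _ _
      _ = (∑' k, u k) * c := tsum_mul_right
  · exact ⟨0, le_rfl, fun a c _ p hp => absurd ⟨p, hp⟩ hne⟩

/-- the good set of a compact piece is open. -/
theorem emb_isOpen_good (hP : IsOpen P) (hγ : ∀ k, DifferentiableOn ℂ (γ k) P)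
    (hs : EmbLocSummable γ P) {C : Set Q} (hC : IsCompact C) (hCP : C ⊆ P) :
    IsOpen {a : ℕ →ᵇ (Fin N → ℝ) | ∀ p ∈ C, embH γ (fun k => a k) p ≠ 0} := by
  rw [Metric.isOpen_iff]
  intro a ha
  by_cases hne : C.Nonempty
  · obtain ⟨L, hL, hLb⟩ := embH_norm_le (N := N) hs hC hCP
    have hcont : ContinuousOn (fun p => ‖embH γ (fun k => a k) p‖) C :=
      ((embH_differentiableOn hP hγ hs (fun k => a.norm_coe_le_norm k)).continuousOn.mono hCP).norm
    obtain ⟨p₀, hp₀, hmin⟩ := hC.exists_isMinOn hne hcont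
    have hδ : 0 < ‖embH γ (fun k => a k) p₀‖ := norm_pos_iff.2 (ha p₀ hp₀)
    refine ⟨‖embH γ (fun k => a k) p₀‖ / (L + 1), div_pos hδ (by linarith), fun a' ha' p hp h0 => ?_⟩
    rw [Metric.mem_ball, dist_eq_norm] at ha'
    have hsplit : embH γ (fun k => a' k) p
        = embH γ (fun k => a k) p + embH γ (fun k => (a' - a) k) p := by
      rw [← embH_add hs (fun k => a.norm_coe_le_norm k) (fun k => (a' - a).norm_coe_le_norm k)
        (hCP hp)]
      congr 1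
      funext k
      simp
    have h1 : ‖embH γ (fun k => (a' - a) k) p‖ ≤ L * ‖a' - a‖ :=
      hLb _ _ (fun k => (a' - a).norm_coe_le_norm k) p hp
    have h2 : ‖embH γ (fun k => a k) p‖ = ‖embH γ (fun k => (a' - a) k) p‖ := by
      rw [h0] at hsplit
      rw [eq_neg_of_add_eq_zero_left hsplit.symm, norm_neg]
    have h3 : ‖embH γ (fun k => a k) p₀‖ ≤ ‖embH γ (fun k => a k) p‖ := hmin hp
    have h4 : ‖a' - a‖ * (L + 1) < ‖embH γ (fun k => a k) p₀‖ := (lt_div_iff₀ (by linarith)).1 ha'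
    nlinarith [norm_nonneg (a' - a)]
  · exact ⟨1, one_pos, fun a' _ p hp => absurd ⟨p, hp⟩ hne⟩

/-- the good set of a piece on which `γ k` does not vanish is dense. -/
theorem emb_dense_good (hd : Module.finrank ℝ Q < N) (hP : IsOpen P)
    (hγ : ∀ k, DifferentiableOn ℂ (γ k) P) (hs : EmbLocSummable γ P) (k : ℕ) {C : Set Q}
    (hCk : C ⊆ {p | p ∈ P ∧ γ k p ≠ 0}) :
    Dense {a : ℕ →ᵇ (Fin N → ℝ) | ∀ p ∈ C, embH γ (fun k => a k) p ≠ 0} := by
  rw [Metric.dense_iff]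
  intro a r hr
  have hO : IsOpen {p | p ∈ P ∧ γ k p ≠ 0} :=
    (hγ k).continuousOn.isOpen_inter_preimage hP isOpen_ne
  have hsub : {p | p ∈ P ∧ γ k p ≠ 0} ⊆ P := fun p hp => hp.1
  -- the map whose image must be avoided
  have hR : ContDiffOn ℝ 1 (fun p => fun l => (-(γ k p)⁻¹ * embH γ (fun k => a k) p l).re)
      {p | p ∈ P ∧ γ k p ≠ 0} := by
    refine contDiffOn_pi.2 fun l => ?_
    have h1 : DifferentiableOn ℂ (fun p => -(γ k p)⁻¹ * embH γ (fun k => a k) p l)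
        {p | p ∈ P ∧ γ k p ≠ 0} := by
      refine DifferentiableOn.mul (((hγ k).mono hsub).inv fun p hp => hp.2).neg ?_
      exact (differentiableOn_pi.1
        (embH_differentiableOn hP hγ hs (fun k => a.norm_coe_le_norm k)) l).mono hsub
    exact Complex.reCLM.contDiff.comp_contDiffOn ((hol_contDiffOn_real hO h1).of_le (by simp))
  have hdense := emb_dense_compl_image hO hR (by simpa using hd)
  obtain ⟨b, hbr, hb⟩ := hdense.inter_open_nonempty (Metric.ball 0 r) Metric.isOpen_ball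
    ⟨0, Metric.mem_ball_self hr⟩
  rw [mem_ball_zero_iff] at hbr
  have hsingle : ∀ k', ‖(Pi.single k b : ℕ → Fin N → ℝ) k'‖ ≤ ‖b‖ := by
    intro k'
    by_cases h : k' = k
    · subst h; simp
    · simp [Pi.single_eq_of_ne h]
  refine ⟨a + BoundedContinuousFunction.ofNormedAddCommGroupDiscrete (Pi.single k b) ‖b‖ hsingle,
    ?_, fun p hp h0 => hb ⟨p, hCk hp, ?_⟩⟩
  · rw [Metric.mem_ball, dist_eq_norm, add_sub_cancel_left]
    exact lt_of_le_of_lt ((BoundedContinuousFunction.norm_le (norm_nonneg b)).2 hsingle) hbr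
  · have hsplit : embH γ (fun k' => (a + BoundedContinuousFunction.ofNormedAddCommGroupDiscrete
        (Pi.single k b) ‖b‖ hsingle) k') p
        = embH γ (fun k => a k) p + embH γ (Pi.single k b) p := by
      rw [← embH_add hs (fun k => a.norm_coe_le_norm k) hsingle (hCk hp).1]
      rfl
    rw [h0, embH_single] at hsplit
    funext l
    have hl := congrFun hsplit l
    simp only [Pi.zero_apply, Pi.add_apply] at hl
    have hk : γ k p ≠ 0 := (hCk hp).2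
    have : -(γ k p)⁻¹ * embH γ (fun k => a k) p l = (b l : ℂ) := by
      have h5 : embH γ (fun k => a k) p l = -(γ k p * (b l : ℂ)) := by
        linear_combination -hl
      rw [h5]
      field_simp
    show (-(γ k p)⁻¹ * embH γ (fun k => a k) p l).re = b l
    rw [this, Complex.ofReal_re]

end fixed

/-- **General position lemma.** -/
theorem emb_baire (hd : Module.finrank ℝ Q < N) {ι : Type} [Countable ι] (P : ι → Set Q)
    (γ : ι → ℕ → Q → ℂ) (hP : ∀ i, IsOpen (P i)) (hγ : ∀ i k, DifferentiableOn ℂ (γ i k) (P i))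
    (hs : ∀ i, EmbLocSummable (γ i) (P i)) (hne : ∀ i, ∀ p ∈ P i, ∃ k, γ i k p ≠ 0) :
    ∃ a : ℕ → Fin N → ℝ, (∀ k l, |a k l| ≤ 1) ∧
      ∀ i, ∀ p ∈ P i, ∃ l, ∑' k, γ i k p * (a k l : ℂ) ≠ 0 := by
  have hO : ∀ i k, IsOpen {p | p ∈ P i ∧ γ i k p ≠ 0} := fun i k =>
    (hγ i k).continuousOn.isOpen_inter_preimage (hP i) isOpen_ne
  choose C hCc hCsub hCcov using fun i k => emb_exists_compact_cover (hO i k)
  have hdense : Dense (⋂ j : ι × ℕ × ℕ, {a : ℕ →ᵇ (Fin N → ℝ) |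
      ∀ p ∈ C j.1 j.2.1 j.2.2, embH (γ j.1) (fun k => a k) p ≠ 0}) := by
    refine dense_iInter_of_isOpen (fun j => ?_) (fun j => ?_)
    · exact emb_isOpen_good (hP j.1) (hγ j.1) (hs j.1) (hCc _ _ _)
        (fun p hp => (hCsub _ _ _ hp).1)
    · exact emb_dense_good hd (hP j.1) (hγ j.1) (hs j.1) j.2.1 (hCsub _ _ _)
  obtain ⟨a, ha1, ha⟩ := hdense.inter_open_nonempty (Metric.ball 0 1) Metric.isOpen_ball
    ⟨0, Metric.mem_ball_self one_pos⟩
  rw [mem_ball_zero_iff] at ha1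
  refine ⟨fun k => a k, fun k l => ?_, fun i p hp => ?_⟩
  · exact ((norm_le_pi_norm (a k) l).trans (a.norm_coe_le_norm k)).trans ha1.le
  · obtain ⟨k, hk⟩ := hne i p hp
    obtain ⟨m, hm⟩ := Set.mem_iUnion.1 (hCcov i k ⟨hp, hk⟩)
    exact Function.ne_iff.1 (Set.mem_iInter.1 ha (i, k, m) p hm)

end Claimed.Agent.R316
end

/- ===== packed: Claimed.Agent.R316.S7.Clk.Real ===== -/
section
/-!
# Row 316, BP-S7-4 (sub-captain helper11): Proposition 7.4, the REAL ANALYSIS of the volume clock (Mathlib only)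

Leaves `L-S7-4-1 … L-S7-4-4`: ALL PROVED (helper11), the file is sorry free.  Nothing of `R316/` is imported.

`R t = R(o, t)` (scalar curvature at the base point), `ρ t = ρ(o, t)` (volume clock), `ckT ρ s = t(s)` (inverse of the clock on `[0, ∞)`),
`ckQ R ρ s = q(s) = t(s) R(t(s))`.  All facts about the flow which the clock needs are the fields of `Clock R ρ`.

## L-S7-4-1 (section `basic`)
* `strictMonoOn`: `strictMonoOn_of_deriv_pos (convex_Ici 0)`; continuity from `dρ`; in the interior `Ioi 0` the derivative is `R t > 0` (`HasDerivWithinAt.hasDerivAt (Ici_mem_nhds ht)`).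
* `mul_mono`: `(t R)' = t (R' + R / t) ≥ 0` on `Ioi 0` (`monotoneOn_of_deriv_nonneg (convex_Ioi 0)`).
* `log_le`: for `0 < t₀ ≤ t₁` the function `G v = ρ v - t₀ R t₀ log v` is monotone on `[t₀, t₁]` (`G' v = R v - t₀ R t₀ / v ≥ 0` by `mul_mono`).
* `tendsto`: `log_le` with `t₀ = 1`: `ρ t ≥ ρ 1 + R 1 log t`; `Real.tendsto_log_atTop`, `tendsto_atTop_mono'`.
* `surj`: intermediate value theorem on `[0, t]` with `ρ t ≥ s` (`intermediate_value_Icc`), `ρ 0 = 0`.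
* `T_mem`, `ρ_T`: `Function.invFunOn_mem`, `Function.invFunOn_eq` applied to `surj`.  `T_ρ`: injectivity (`strictMonoOn.injOn`).
* `T_strictMonoOn`, `T_le_iff`: from `strictMonoOn.lt_iff_lt`/`le_iff_le` and `ρ_T`.
* `T_tendsto`: `tendsto_atTop.2`: for `b` and `s ≥ ρ (max b 0)`: `ckT ρ s ≥ max b 0`.
* `Q_ρ`: `T_ρ`.  `Q_mono`: `s = 0`: `ckQ 0 = 0 ≤ ` (`T_zero`); `0 < s ≤ s'`: `mul_mono`.  `Q_le`: `R_le`.

## L-S7-4-2 (section `growth`)
* `Q_liminf`: by contradiction `2 s < q s` for all `s ≥ S` (w.l.o.g. `S ≥ 1`); `T₀ = ckT ρ S > 0`; for `t ≥ T₀`: `2 ρ t < t R t` (`Q_ρ`, monotonicity of `ρ`); `F t = ρ t / t ^ 2` has `F' = (t R t - 2 ρ t) / t ^ 3 ≥ 0` on `[T₀, ∞)`, so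
  `ρ t ≥ c t ^ 2`, `c = S / T₀ ^ 2 > 0`; with `ρ t ≤ C (1 + t)`: `c t ^ 2 ≤ C (1 + t)` for all `t ≥ T₀`, false for `t = max T₀ (max 1 (2 C / c + 1))`.
* `log_T_le` is `log_le` at `t₀ = ckT ρ s₀`, `t₁ = ckT ρ s₁`.

## L-S7-4-3 (section `windows`)
`L = 2 / a0 > 2`, `K0 = L ^ 2`.
* `good_window`: otherwise `q (L r) > K0 q r` for all `r ≥ r₀` (`r = a0 S`, w.l.o.g. `r₀ ≥ 1`); induction: `q (L ^ k r₀) ≥ K0 ^ k q r₀`; for `s ≥ L ^ k r₀` choose `j ≥ k` with `L ^ j r₀ ≤ s < L ^ (j+1) r₀`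
  (`exists_nat_pow_near` for `s / r₀`): `q s ≥ L ^ (2 j) q r₀ > 2 L ^ (j+1) r₀ > 2 s` as soon as `L ^ (k-1) q r₀ > 2 r₀`; contradiction with `Q_liminf`.
* `window_point` (one window): `u₀ = ckT (5S/4) < u₁ = ckT (7S/4)`; Cauchy's mean value theorem (`exists_ratio_hasDerivAt_eq_ratio_slope`) for `ψ t = log (t R t)` (`ψ' = (R' + R / t) / R`) and `ρ` (`ρ' = R`) on `[u₀, u₁]` gives `t ∈ (u₀, u₁)` with
  `(S / 2) (R' + R / t) / R = (log q (7S/4) - log q (5S/4)) R`, and `q (7S/4) ≤ q (2S) ≤ K0 q (a0 S) ≤ K0 q (5S/4)`.  So `0 ≤ defect ≤ 2 log K0 / S`.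
  With `s = ρ t ∈ (5S/4, 7S/4)`: `t R t = q s ≤ q (2S) ≤ K0 q (a0 S) ≤ K0 q (a0 s)`.
  Buffer: `u₂ = ckT (2S)`; for `v ∈ [t, u₂]`: `R v = v R v / v ≤ q (2S) / t ≤ K0 R t`, hence `S / 4 ≤ ρ u₂ - ρ t ≤ K0 R t (u₂ - t)` (mean value inequality: `v ↦ K0 R t v - ρ v` is monotone on `[t, u₂]`), so `t' = t + 2 δ / R t ≤ u₂` if `S ≥ 8 K0 δ`;
  then `t' R t' ≤ q (2S) ≤ K0 t R t ≤ K0 t' R t`.
* `windows`: `δ = q 1 / 8`; `S_i ≥ max (i + 1) (max s₁ (8 K0 δ))` from `good_window`; `t_i` from `window_point`; `t_i > ckT (5 S_i / 4) ≥ ckT (i + 1) → ∞`; `4 δ < q 1 ≤ q (ρ t_i)`; squeeze for the defect.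

## L-S7-4-4 (section `ratio`)
`a = ρ(x, ·)`, `b = ρ(o, ·)`.  `F t = (1 + ε) b (t + 1) - a t` is monotone on `[T, ∞)` (`h1`), so `a t - a T ≤ (1 + ε) (b (t + 1) - b (T + 1)) ≤ (1 + ε) (b t + CR)` (`b (t + 1) - b t ≤ CR`: `v ↦ CR v - b v` monotone).
In the same way (`h2`) `b t - b T ≤ (1 + ε) a (t + 1)` and `a (t + 1) - a t ≤ (1 + ε) CR` (`A v ≤ (1 + ε) B (v + 1) ≤ (1 + ε) CR`).  Divide by `b t`.
-/

set_option autoImplicit false
open scoped Topology
open Filter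

namespace Claimed.Agent.R316

/-- the facts about `R(o, ·)` and `ρ(o, ·)` on which the volume clock rests. -/
structure Clock (R ρ : ℝ → ℝ) : Prop where
  dρ : ∀ t : ℝ, 0 ≤ t → HasDerivWithinAt ρ (R t) (Set.Ici 0) t
  ρ_zero : ρ 0 = 0
  R_pos : ∀ t : ℝ, 0 ≤ t → 0 < R t
  R_diff : ∀ t : ℝ, 0 < t → DifferentiableAt ℝ R t
  harnack : ∀ t : ℝ, 0 < t → 0 ≤ deriv R t + R t / t
  R_le : ∃ C : ℝ, ∀ t : ℝ, 0 ≤ t → R t ≤ C
  ρ_le : ∃ C : ℝ, ∀ t : ℝ, 0 ≤ t → ρ t ≤ C * (1 + t)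

/-- the time `t(s)` of the clock value `s`. -/
noncomputable def ckT (ρ : ℝ → ℝ) (s : ℝ) : ℝ := Function.invFunOn ρ (Set.Ici 0) s

/-- `q(s) = t(s) R(t(s))`. -/
noncomputable def ckQ (R ρ : ℝ → ℝ) (s : ℝ) : ℝ := ckT ρ s * R (ckT ρ s)

namespace Clock

variable {R ρ : ℝ → ℝ}

section basic

theorem hasDerivAt (c : Clock R ρ) {t : ℝ} (ht : 0 < t) : HasDerivAt ρ (R t) t :=
  (c.dρ t ht.le).hasDerivAt (Ici_mem_nhds ht)

theorem continuousOn (c : Clock R ρ) : ContinuousOn ρ (Set.Ici 0) :=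
  fun t ht => (c.dρ t ht).continuousWithinAt

theorem strictMonoOn (c : Clock R ρ) : StrictMonoOn ρ (Set.Ici 0) := by
  apply strictMonoOn_of_deriv_pos (convex_Ici 0) c.continuousOn
  intro t ht
  rw [interior_Ici] at ht
  rw [(c.hasDerivAt ht).deriv]
  exact c.R_pos t (le_of_lt ht)

theorem mul_mono (c : Clock R ρ) {s t : ℝ} (hs : 0 < s) (hst : s ≤ t) : s * R s ≤ t * R t := by
  have hd : ∀ x ∈ Set.Ioi (0 : ℝ), HasDerivAt (fun x => x * R x) (1 * R x + x * deriv R x) x :=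
    fun x hx => (hasDerivAt_id x).mul (c.R_diff x hx).hasDerivAt
  have hm : MonotoneOn (fun x => x * R x) (Set.Ioi 0) := by
    apply monotoneOn_of_deriv_nonneg (convex_Ioi 0)
    · exact fun x hx => (hd x hx).continuousAt.continuousWithinAt
    · rw [interior_Ioi]
      exact fun x hx => (hd x hx).differentiableAt.differentiableWithinAt
    · rw [interior_Ioi]
      intro x hx
      rw [(hd x hx).deriv]
      have h := c.harnack x hx
      have hx' : (0 : ℝ) < x := hx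
      have : 1 * R x + x * deriv R x = x * (deriv R x + R x / x) := by
        field_simp; ring
      rw [this]
      exact mul_nonneg hx'.le h
  exact hm hs (lt_of_lt_of_le hs hst) hst

theorem log_le (c : Clock R ρ) {t₀ t₁ : ℝ} (h0 : 0 < t₀) (h01 : t₀ ≤ t₁) :
    t₀ * R t₀ * (Real.log t₁ - Real.log t₀) ≤ ρ t₁ - ρ t₀ := by
  have hd : ∀ x ∈ Set.Ici t₀, HasDerivAt (fun x => ρ x - t₀ * R t₀ * Real.log x)
      (R x - t₀ * R t₀ * x⁻¹) x := fun x hx => by
    have hx' : 0 < x := lt_of_lt_of_le h0 hx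
    exact (c.hasDerivAt hx').sub ((Real.hasDerivAt_log hx'.ne').const_mul _)
  have hm : MonotoneOn (fun x => ρ x - t₀ * R t₀ * Real.log x) (Set.Ici t₀) := by
    apply monotoneOn_of_deriv_nonneg (convex_Ici t₀)
    · exact fun x hx => (hd x hx).continuousAt.continuousWithinAt
    · rw [interior_Ici]
      exact fun x hx => (hd x (Set.mem_Ici.2 (le_of_lt hx))).differentiableAt.differentiableWithinAt
    · rw [interior_Ici]
      intro x hx
      rw [(hd x (Set.mem_Ici.2 (le_of_lt hx))).deriv]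
      have hx' : 0 < x := lt_trans h0 hx
      have h := c.mul_mono h0 (le_of_lt hx)
      have : R x - t₀ * R t₀ * x⁻¹ = (x * R x - t₀ * R t₀) * x⁻¹ := by
        field_simp
      rw [this]
      exact mul_nonneg (by linarith) (inv_nonneg.2 hx'.le)
  have := hm (Set.mem_Ici.2 le_rfl) (Set.mem_Ici.2 h01) h01
  simp only at this
  linarith

theorem tendsto (c : Clock R ρ) : Tendsto ρ atTop atTop := by
  have h1 : Tendsto (fun t => ρ 1 + 1 * R 1 * (Real.log t - Real.log 1)) atTop atTop := by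
    apply tendsto_atTop_add_const_left
    apply Tendsto.const_mul_atTop (by simpa using c.R_pos 1 zero_le_one)
    simpa using Real.tendsto_log_atTop
  apply tendsto_atTop_mono' _ _ h1
  filter_upwards [eventually_ge_atTop 1] with t ht
  have := c.log_le one_pos ht
  linarith

theorem surj (c : Clock R ρ) {s : ℝ} (hs : 0 ≤ s) : ∃ t ∈ Set.Ici (0 : ℝ), ρ t = s := by
  obtain ⟨t, ht0, hts⟩ := ((c.tendsto.eventually_ge_atTop s).and (eventually_ge_atTop 0)).exists.imp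
    fun t h => And.intro h.2 h.1
  have := intermediate_value_Icc ht0 (c.continuousOn.mono Set.Icc_subset_Ici_self)
  obtain ⟨x, hx, hxs⟩ := this (show s ∈ Set.Icc (ρ 0) (ρ t) from ⟨by rw [c.ρ_zero]; exact hs, hts⟩)
  exact ⟨x, hx.1, hxs⟩

theorem T_nonneg (c : Clock R ρ) {s : ℝ} (hs : 0 ≤ s) : 0 ≤ ckT ρ s :=
  Function.invFunOn_mem (c.surj hs)

theorem ρ_T (c : Clock R ρ) {s : ℝ} (hs : 0 ≤ s) : ρ (ckT ρ s) = s :=
  Function.invFunOn_eq (c.surj hs)

theorem ρ_nonneg (c : Clock R ρ) {t : ℝ} (ht : 0 ≤ t) : 0 ≤ ρ t := by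
  rw [← c.ρ_zero]
  exact c.strictMonoOn.monotoneOn (Set.mem_Ici.2 le_rfl) ht ht

theorem ρ_pos (c : Clock R ρ) {t : ℝ} (ht : 0 < t) : 0 < ρ t := by
  rw [← c.ρ_zero]
  exact c.strictMonoOn (Set.mem_Ici.2 le_rfl) ht.le ht

theorem T_ρ (c : Clock R ρ) {t : ℝ} (ht : 0 ≤ t) : ckT ρ (ρ t) = t :=
  c.strictMonoOn.injOn (c.T_nonneg (c.ρ_nonneg ht)) ht (c.ρ_T (c.ρ_nonneg ht))

theorem T_zero (c : Clock R ρ) : ckT ρ 0 = 0 := by
  have := c.T_ρ le_rfl
  rwa [c.ρ_zero] at this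

theorem T_strictMonoOn (c : Clock R ρ) : StrictMonoOn (ckT ρ) (Set.Ici 0) := by
  intro s hs s' hs' hss'
  rw [← c.strictMonoOn.lt_iff_lt (c.T_nonneg hs) (c.T_nonneg hs'), c.ρ_T hs, c.ρ_T hs']
  exact hss'

theorem T_pos (c : Clock R ρ) {s : ℝ} (hs : 0 < s) : 0 < ckT ρ s := by
  rw [← c.T_zero]
  exact c.T_strictMonoOn (Set.mem_Ici.2 le_rfl) hs.le hs

/-- `t ≤ t(s) ↔ ρ(t) ≤ s`. -/
theorem le_T_iff (c : Clock R ρ) {t s : ℝ} (ht : 0 ≤ t) (hs : 0 ≤ s) : t ≤ ckT ρ s ↔ ρ t ≤ s := by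
  rw [← c.strictMonoOn.le_iff_le ht (c.T_nonneg hs), c.ρ_T hs]

theorem T_tendsto (c : Clock R ρ) : Tendsto (ckT ρ) atTop atTop := by
  rw [tendsto_atTop]
  intro b
  filter_upwards [eventually_ge_atTop (ρ (max b 0)), eventually_ge_atTop 0] with s hs hs0
  exact le_trans (le_max_left b 0) ((c.le_T_iff (le_max_right b 0) hs0).2 hs)

theorem Q_ρ (c : Clock R ρ) {t : ℝ} (ht : 0 ≤ t) : ckQ R ρ (ρ t) = t * R t := by
  rw [ckQ, c.T_ρ ht]

theorem Q_mono (c : Clock R ρ) : MonotoneOn (ckQ R ρ) (Set.Ici 0) := by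
  intro s hs s' hs' hss'
  rcases eq_or_lt_of_le (Set.mem_Ici.1 hs) with h | h
  · rw [← h, ckQ, c.T_zero, zero_mul]
    exact mul_nonneg (c.T_nonneg hs') (c.R_pos _ (c.T_nonneg hs')).le
  · exact c.mul_mono (c.T_pos h) (c.T_strictMonoOn.monotoneOn hs hs' hss')

theorem Q_pos (c : Clock R ρ) {s : ℝ} (hs : 0 < s) : 0 < ckQ R ρ s :=
  mul_pos (c.T_pos hs) (c.R_pos _ (c.T_pos hs).le)

theorem Q_le (c : Clock R ρ) : ∃ C : ℝ, ∀ s : ℝ, 0 ≤ s → ckQ R ρ s ≤ C * ckT ρ s := by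
  obtain ⟨C, hC⟩ := c.R_le
  refine ⟨C, fun s hs => ?_⟩
  rw [ckQ, mul_comm]
  exact mul_le_mul_of_nonneg_right (hC _ (c.T_nonneg hs)) (c.T_nonneg hs)

end basic

section growth

theorem Q_liminf (c : Clock R ρ) (S : ℝ) : ∃ s : ℝ, S ≤ s ∧ ckQ R ρ s ≤ 2 * s := by
  by_contra hcon
  push Not at hcon
  set S' : ℝ := max S 1 with hS'
  have hS1 : 1 ≤ S' := le_max_right _ _
  have hS0 : 0 < S' := lt_of_lt_of_le one_pos hS1
  set T₀ : ℝ := ckT ρ S' with hT₀
  have hT0 : 0 < T₀ := c.T_pos hS0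
  have hkey : ∀ t : ℝ, T₀ ≤ t → 2 * ρ t < t * R t := by
    intro t ht
    have ht0 : 0 ≤ t := hT0.le.trans ht
    have h1 : S' ≤ ρ t := by
      have := c.strictMonoOn.monotoneOn (Set.mem_Ici.2 hT0.le) (Set.mem_Ici.2 ht0) ht
      rwa [hT₀, c.ρ_T hS0.le] at this
    have := hcon (ρ t) ((le_max_left _ _).trans h1)
    rwa [c.Q_ρ ht0] at this
  have hd : ∀ x ∈ Set.Ici T₀, HasDerivAt (fun x => ρ x / x ^ 2)
      ((R x * x ^ 2 - ρ x * (2 * x)) / (x ^ 2) ^ 2) x := fun x hx => by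
    have hx' : 0 < x := lt_of_lt_of_le hT0 hx
    have h2 : HasDerivAt (fun x : ℝ => x ^ 2) (2 * x) x := by
      simpa using hasDerivAt_pow 2 x
    exact (c.hasDerivAt hx').div h2 (pow_ne_zero 2 hx'.ne')
  have hm : MonotoneOn (fun x => ρ x / x ^ 2) (Set.Ici T₀) := by
    apply monotoneOn_of_deriv_nonneg (convex_Ici T₀)
    · exact fun x hx => (hd x hx).continuousAt.continuousWithinAt
    · rw [interior_Ici]
      exact fun x hx => (hd x (Set.mem_Ici.2 (le_of_lt hx))).differentiableAt.differentiableWithinAt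
    · rw [interior_Ici]
      intro x hx
      rw [(hd x (Set.mem_Ici.2 (le_of_lt hx))).deriv]
      have hx' : 0 < x := lt_trans hT0 hx
      have h := hkey x (le_of_lt hx)
      apply div_nonneg _ (by positivity)
      have : R x * x ^ 2 - ρ x * (2 * x) = x * (x * R x - 2 * ρ x) := by ring
      rw [this]
      exact mul_nonneg hx'.le (by linarith)
  obtain ⟨C, hC⟩ := c.ρ_le
  set k : ℝ := S' / T₀ ^ 2 with hk
  have hk0 : 0 < k := by positivity
  have hlow : ∀ t : ℝ, T₀ ≤ t → k * t ^ 2 ≤ C * (1 + t) := by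
    intro t ht
    have ht0 : 0 < t := lt_of_lt_of_le hT0 ht
    have h1 := hm (Set.mem_Ici.2 le_rfl) (Set.mem_Ici.2 ht) ht
    simp only at h1
    rw [hT₀, c.ρ_T hS0.le, ← hT₀, ← hk, le_div_iff₀ (by positivity)] at h1
    exact h1.trans (hC t ht0.le)
  set t : ℝ := max T₀ (max 1 (2 * C / k + 1)) with ht
  have h1 : T₀ ≤ t := le_max_left _ _
  have h2 : 1 ≤ t := (le_max_left _ _).trans (le_max_right _ _)
  have h3 : 2 * C / k + 1 ≤ t := (le_max_right _ _).trans (le_max_right _ _)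
  have h4 := hlow t h1
  have h5 : 2 * C < k * t := by
    have : 2 * C / k < t := by linarith
    rw [div_lt_iff₀ hk0] at this
    linarith
  have h6 : C * (1 + t) ≤ 2 * C * t ∨ C < 0 := by
    rcases le_or_gt 0 C with hC0 | hC0
    · left; nlinarith
    · right; exact hC0
  rcases h6 with h6 | h6
  · have : 2 * C * t < k * t * t := by
      apply mul_lt_mul_of_pos_right h5 (by linarith)
    nlinarith
  · have : 0 < k * t ^ 2 := by positivity
    have : C * (1 + t) < 0 := mul_neg_of_neg_of_pos h6 (by linarith)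
    linarith

/-- `τ(s₁) - τ(s₀) = ∫ dv / q(v) ≤ (s₁ - s₀) / q(s₀)`. -/
theorem log_T_le (c : Clock R ρ) {s₀ s₁ : ℝ} (h0 : 0 < s₀) (h01 : s₀ ≤ s₁) :
    ckQ R ρ s₀ * (Real.log (ckT ρ s₁) - Real.log (ckT ρ s₀)) ≤ s₁ - s₀ := by
  have h := c.log_le (c.T_pos h0)
    (c.T_strictMonoOn.monotoneOn (Set.mem_Ici.2 h0.le) (Set.mem_Ici.2 (h0.le.trans h01)) h01)
  rwa [c.ρ_T h0.le, c.ρ_T (h0.le.trans h01)] at h

end growth

section windows

/-- (7.12) good windows occur arbitrarily far out. -/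
theorem good_window (c : Clock R ρ) {a0 : ℝ} (h0 : 0 < a0) (h1 : a0 < 1) (S₀ : ℝ) :
    ∃ S : ℝ, S₀ ≤ S ∧ ckQ R ρ (2 * S) ≤ (2 / a0) ^ 2 * ckQ R ρ (a0 * S) := by
  by_contra hcon
  push Not at hcon
  set L : ℝ := 2 / a0 with hL
  have hL2 : 2 < L := by
    rw [hL, lt_div_iff₀ h0]; linarith
  have hL0 : 0 < L := by linarith
  have hL1 : 1 < L := by linarith
  set r₀ : ℝ := max (a0 * S₀) 1 with hr₀
  have hr1 : 1 ≤ r₀ := le_max_right _ _
  have hr0 : 0 < r₀ := lt_of_lt_of_le one_pos hr1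
  have hstep : ∀ r : ℝ, r₀ ≤ r → L ^ 2 * ckQ R ρ r < ckQ R ρ (L * r) := by
    intro r hr
    have hS : S₀ ≤ r / a0 := by
      rw [le_div_iff₀ h0]
      have := (le_max_left (a0 * S₀) 1).trans hr
      linarith
    have := hcon (r / a0) hS
    have e1 : a0 * (r / a0) = r := by field_simp
    have e2 : 2 * (r / a0) = L * r := by rw [hL]; ring
    rwa [e1, e2] at this
  set c₀ : ℝ := ckQ R ρ r₀ / r₀ ^ 2 with hc₀
  have hc0 : 0 < c₀ := div_pos (c.Q_pos hr0) (by positivity)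
  have hind : ∀ k : ℕ, c₀ * (L ^ k * r₀) ^ 2 ≤ ckQ R ρ (L ^ k * r₀) := by
    intro k
    induction k with
    | zero =>
      simp only [pow_zero, one_mul]
      rw [hc₀, div_mul_cancel₀ _ (by positivity)]
    | succ k ih =>
      have hk : r₀ ≤ L ^ k * r₀ := by
        have : 1 ≤ L ^ k := one_le_pow₀ hL1.le
        nlinarith
      have := hstep _ hk
      have e : L ^ (k + 1) * r₀ = L * (L ^ k * r₀) := by ring
      rw [e]
      have e2 : c₀ * (L * (L ^ k * r₀)) ^ 2 = L ^ 2 * (c₀ * (L ^ k * r₀) ^ 2) := by ring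
      rw [e2]
      have : L ^ 2 * (c₀ * (L ^ k * r₀) ^ 2) ≤ L ^ 2 * ckQ R ρ (L ^ k * r₀) :=
        mul_le_mul_of_nonneg_left ih (by positivity)
      linarith
  set c₁ : ℝ := c₀ / L ^ 2 with hc₁
  have hc10 : 0 < c₁ := div_pos hc0 (by positivity)
  have hquad : ∀ s : ℝ, r₀ ≤ s → c₁ * s ^ 2 ≤ ckQ R ρ s := by
    intro s hs
    have hs0 : 0 < s := lt_of_lt_of_le hr0 hs
    obtain ⟨j, hj1, hj2⟩ := exists_nat_pow_near (x := s / r₀) ((one_le_div hr0).2 hs) hL1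
    rw [le_div_iff₀ hr0] at hj1
    rw [div_lt_iff₀ hr0] at hj2
    have hpos : 0 < L ^ j * r₀ := by positivity
    have h3 : ckQ R ρ (L ^ j * r₀) ≤ ckQ R ρ s :=
      c.Q_mono (Set.mem_Ici.2 hpos.le) (Set.mem_Ici.2 hs0.le) hj1
    have h4 : s ≤ L * (L ^ j * r₀) := by
      have : L ^ (j + 1) * r₀ = L * (L ^ j * r₀) := by ring
      linarith
    have h5 : s ^ 2 ≤ (L * (L ^ j * r₀)) ^ 2 := pow_le_pow_left₀ hs0.le h4 2
    have h6 : c₁ * s ^ 2 ≤ c₀ * (L ^ j * r₀) ^ 2 := by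
      have : c₁ * (L * (L ^ j * r₀)) ^ 2 = c₀ * (L ^ j * r₀) ^ 2 := by
        rw [hc₁]; field_simp
      rw [← this]
      exact mul_le_mul_of_nonneg_left h5 hc10.le
    exact h6.trans ((hind j).trans h3)
  obtain ⟨s, hs1, hs2⟩ := c.Q_liminf (max r₀ (2 / c₁ + 1))
  have hsr : r₀ ≤ s := (le_max_left _ _).trans hs1
  have hs0 : 0 < s := lt_of_lt_of_le hr0 hsr
  have hsc : 2 / c₁ < s := by
    have := (le_max_right r₀ (2 / c₁ + 1)).trans hs1
    linarith
  rw [div_lt_iff₀ hc10] at hsc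
  have := hquad s hsr
  nlinarith

/-- the selected time in one good window. -/
theorem window_point (c : Clock R ρ) {a0 K0 S δ : ℝ} (h0 : 0 < a0) (h1 : a0 < 1) (hK : 1 ≤ K0)
    (hδ : 0 < δ) (hS : 0 < S) (hSδ : 8 * K0 * δ ≤ S)
    (hw : ckQ R ρ (2 * S) ≤ K0 * ckQ R ρ (a0 * S)) :
    ∃ t : ℝ, ckT ρ (5 * S / 4) < t ∧ 5 * S / 4 < ρ t ∧
      t * R t ≤ K0 * ckQ R ρ (a0 * ρ t) ∧
      R (t + 2 * δ / R t) ≤ K0 * R t ∧
      (deriv R t + R t / t) / R t ^ 2 ≤ 2 * Real.log K0 / S := by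
  have hK0 : 0 < K0 := lt_of_lt_of_le one_pos hK
  have hs0 : 0 < 5 * S / 4 := by positivity
  have hs1 : 0 < 7 * S / 4 := by positivity
  have hs2 : 0 < 2 * S := by positivity
  set u₀ : ℝ := ckT ρ (5 * S / 4) with hu₀
  set u₁ : ℝ := ckT ρ (7 * S / 4) with hu₁
  set u₂ : ℝ := ckT ρ (2 * S) with hu₂
  have hu0 : 0 < u₀ := c.T_pos hs0
  have hu01 : u₀ < u₁ := c.T_strictMonoOn (Set.mem_Ici.2 hs0.le) (Set.mem_Ici.2 hs1.le) (by linarith)
  have hψ : ∀ x : ℝ, 0 < x → HasDerivAt (fun x => Real.log (x * R x))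
      ((1 * R x + x * deriv R x) / (x * R x)) x := fun x hx =>
    ((hasDerivAt_id x).mul (c.R_diff x hx).hasDerivAt).log (mul_pos hx (c.R_pos x hx.le)).ne'
  obtain ⟨t, ht, hMVT⟩ := exists_ratio_hasDerivAt_eq_ratio_slope (fun x => Real.log (x * R x))
    (fun x => (1 * R x + x * deriv R x) / (x * R x)) hu01
    (fun x hx => (hψ x (lt_of_lt_of_le hu0 hx.1)).continuousAt.continuousWithinAt)
    (fun x hx => hψ x (lt_trans hu0 hx.1)) ρ R
    (c.continuousOn.mono fun x hx => Set.mem_Ici.2 (hu0.le.trans hx.1))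
    (fun x hx => c.hasDerivAt (lt_trans hu0 hx.1))
  have ht0 : 0 < t := lt_trans hu0 ht.1
  have hRt : 0 < R t := c.R_pos t ht0.le
  have hρ0 : ρ u₀ = 5 * S / 4 := c.ρ_T hs0.le
  have hρ1 : ρ u₁ = 7 * S / 4 := c.ρ_T hs1.le
  have hρ2 : ρ u₂ = 2 * S := c.ρ_T hs2.le
  have hρt0 : 5 * S / 4 < ρ t := by
    rw [← hρ0]; exact c.strictMonoOn (Set.mem_Ici.2 hu0.le) (Set.mem_Ici.2 ht0.le) ht.1
  have hρt1 : ρ t < 7 * S / 4 := by
    rw [← hρ1]
    exact c.strictMonoOn (Set.mem_Ici.2 ht0.le) (Set.mem_Ici.2 (ht0.le.trans ht.2.le)) ht.2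
  have hρt_pos : 0 < ρ t := lt_trans hs0 hρt0
  have haS : 0 < a0 * S := mul_pos h0 hS
  have haS' : a0 * S ≤ S := by nlinarith
  -- comparison of the values of `q`
  have q1 : ckQ R ρ (7 * S / 4) ≤ K0 * ckQ R ρ (5 * S / 4) := by
    have a := c.Q_mono (Set.mem_Ici.2 hs1.le) (Set.mem_Ici.2 hs2.le) (by linarith)
    have b := c.Q_mono (Set.mem_Ici.2 haS.le) (Set.mem_Ici.2 hs0.le) (by linarith)
    have := mul_le_mul_of_nonneg_left b hK0.le
    linarith
  have q2 : ckQ R ρ (2 * S) ≤ K0 * (t * R t) := by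
    have b := c.Q_mono (Set.mem_Ici.2 haS.le) (Set.mem_Ici.2 hρt_pos.le) (by linarith)
    rw [c.Q_ρ ht0.le] at b
    have := mul_le_mul_of_nonneg_left b hK0.le
    linarith
  have q3 : t * R t ≤ K0 * ckQ R ρ (a0 * ρ t) := by
    have a := c.Q_mono (Set.mem_Ici.2 hρt_pos.le) (Set.mem_Ici.2 hs2.le) (by linarith)
    rw [c.Q_ρ ht0.le] at a
    have b := c.Q_mono (Set.mem_Ici.2 haS.le) (Set.mem_Ici.2 (mul_pos h0 hρt_pos).le)
      (mul_le_mul_of_nonneg_left (by linarith) h0.le)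
    have := mul_le_mul_of_nonneg_left b hK0.le
    linarith
  refine ⟨t, ht.1, hρt0, q3, ?_, ?_⟩
  · -- the buffer
    have htu2 : t < u₂ := by
      have : u₁ < u₂ := c.T_strictMonoOn (Set.mem_Ici.2 hs1.le) (Set.mem_Ici.2 hs2.le) (by linarith)
      exact lt_trans ht.2 this
    have hRv : ∀ v : ℝ, t ≤ v → v ≤ u₂ → v * R v ≤ K0 * (t * R t) := by
      intro v hv1 hv2
      have := c.mul_mono (lt_of_lt_of_le ht0 hv1) hv2
      have e : u₂ * R u₂ = ckQ R ρ (2 * S) := rfl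
      linarith
    have hd : ∀ x ∈ Set.Icc t u₂, HasDerivAt (fun x => K0 * R t * x - ρ x) (K0 * R t * 1 - R x) x :=
      fun x hx => ((hasDerivAt_id x).const_mul _).sub (c.hasDerivAt (lt_of_lt_of_le ht0 hx.1))
    have hm : MonotoneOn (fun x => K0 * R t * x - ρ x) (Set.Icc t u₂) := by
      apply monotoneOn_of_deriv_nonneg (convex_Icc t u₂)
      · exact fun x hx => (hd x hx).continuousAt.continuousWithinAt
      · rw [interior_Icc]
        exact fun x hx => (hd x (Set.Ioo_subset_Icc_self hx)).differentiableAt.differentiableWithinAt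
      · rw [interior_Icc]
        intro x hx
        rw [(hd x (Set.Ioo_subset_Icc_self hx)).deriv]
        have hx0 : 0 < x := lt_trans ht0 hx.1
        have h3 := hRv x hx.1.le hx.2.le
        have h4 : t * (K0 * R t) ≤ x * (K0 * R t) :=
          mul_le_mul_of_nonneg_right hx.1.le (mul_pos hK0 hRt).le
        have h5 : x * R x ≤ x * (K0 * R t) := by linarith
        have := le_of_mul_le_mul_left h5 hx0
        linarith
    have h6 := hm (Set.left_mem_Icc.2 htu2.le) (Set.right_mem_Icc.2 htu2.le) htu2.le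
    simp only at h6
    rw [hρ2] at h6
    set t' : ℝ := t + 2 * δ / R t with ht'
    have htt' : t ≤ t' := by
      have : 0 ≤ 2 * δ / R t := by positivity
      linarith
    have e1 : K0 * R t * t' = K0 * R t * t + 2 * K0 * δ := by
      rw [ht']; field_simp
    have h7 : K0 * R t * t' ≤ K0 * R t * u₂ := by
      rw [e1]; linarith
    have ht'u : t' ≤ u₂ := le_of_mul_le_mul_left h7 (mul_pos hK0 hRt)
    have h8 := hRv t' htt' ht'u
    have h9 : t * (K0 * R t) ≤ t' * (K0 * R t) :=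
      mul_le_mul_of_nonneg_right htt' (mul_pos hK0 hRt).le
    have h10 : t' * R t' ≤ t' * (K0 * R t) := by linarith
    exact le_of_mul_le_mul_left h10 (lt_of_lt_of_le ht0 htt')
  · -- the defect
    rw [hρ0, hρ1] at hMVT
    have e0 : u₀ * R u₀ = ckQ R ρ (5 * S / 4) := rfl
    have e1 : u₁ * R u₁ = ckQ R ρ (7 * S / 4) := rfl
    rw [e0, e1] at hMVT
    have hq0 : 0 < ckQ R ρ (5 * S / 4) := c.Q_pos hs0
    have hq1 : 0 < ckQ R ρ (7 * S / 4) := c.Q_pos hs1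
    have hlog : Real.log (ckQ R ρ (7 * S / 4)) - Real.log (ckQ R ρ (5 * S / 4)) ≤ Real.log K0 := by
      have := Real.log_le_log hq1 q1
      rw [Real.log_mul hK0.ne' hq0.ne'] at this
      linarith
    have e2 : (deriv R t + R t / t) / R t ^ 2 =
        2 / S * ((7 * S / 4 - 5 * S / 4) * ((1 * R t + t * deriv R t) / (t * R t))) / R t := by
      field_simp
      ring
    rw [e2, hMVT]
    have e3 : 2 / S * ((Real.log (ckQ R ρ (7 * S / 4)) - Real.log (ckQ R ρ (5 * S / 4))) * R t) / R t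
        = 2 * (Real.log (ckQ R ρ (7 * S / 4)) - Real.log (ckQ R ρ (5 * S / 4))) / S := by
      field_simp
    rw [e3]
    apply div_le_div_of_nonneg_right _ hS.le
    linarith

/-- **the selected times** `t_i`. -/
theorem windows (c : Clock R ρ) {a0 : ℝ} (h0 : 0 < a0) (h1 : a0 < 1) (s₁ : ℝ) :
    ∃ (ti : ℕ → ℝ) (δ K0 : ℝ), 0 < δ ∧ 1 ≤ K0 ∧ Tendsto ti atTop atTop ∧
      (∀ i, 0 < ti i ∧ 4 * δ < ti i * R (ti i) ∧ s₁ ≤ ρ (ti i) ∧
        ti i * R (ti i) ≤ K0 * ckQ R ρ (a0 * ρ (ti i)) ∧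
        R (ti i + 2 * δ / R (ti i)) ≤ K0 * R (ti i)) ∧
      Tendsto (fun i => (deriv R (ti i) + R (ti i) / ti i) / R (ti i) ^ 2) atTop (𝓝 0) := by
  set K0 : ℝ := (2 / a0) ^ 2 with hK0
  have hK1 : 1 ≤ K0 := by
    have : 1 ≤ 2 / a0 := by rw [le_div_iff₀ h0]; linarith
    rw [hK0]; exact one_le_pow₀ this
  set δ : ℝ := ckQ R ρ 1 / 8 with hδ
  have hq1 : 0 < ckQ R ρ 1 := c.Q_pos one_pos
  have hδ0 : 0 < δ := by positivity
  have hex : ∀ i : ℕ, ∃ S : ℝ, max ((i : ℝ) + 1) (max s₁ (8 * K0 * δ)) ≤ S ∧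
      ckQ R ρ (2 * S) ≤ K0 * ckQ R ρ (a0 * S) := fun i => c.good_window h0 h1 _
  choose S hS1 hS2 using hex
  have hSi : ∀ i : ℕ, (i : ℝ) + 1 ≤ S i := fun i => (le_max_left _ _).trans (hS1 i)
  have hSs : ∀ i : ℕ, s₁ ≤ S i := fun i => (le_max_left _ _).trans ((le_max_right _ _).trans (hS1 i))
  have hSδ : ∀ i : ℕ, 8 * K0 * δ ≤ S i :=
    fun i => (le_max_right _ _).trans ((le_max_right _ _).trans (hS1 i))
  have hS0 : ∀ i : ℕ, 0 < S i := fun i => lt_of_lt_of_le (by positivity) (hSi i)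
  have hpt := fun i : ℕ => c.window_point h0 h1 hK1 hδ0 (hS0 i) (hSδ i) (hS2 i)
  choose ti h_a h_b h_c h_d h_e using hpt
  have hti0 : ∀ i, 0 < ti i := fun i =>
    lt_of_le_of_lt (c.T_nonneg (by have := hS0 i; positivity)) (h_a i)
  refine ⟨ti, δ, K0, hδ0, hK1, ?_, fun i => ⟨hti0 i, ?_, ?_, h_c i, h_d i⟩, ?_⟩
  · have h2 : Tendsto (fun i : ℕ => ckT ρ ((i : ℝ) + 1)) atTop atTop :=
      c.T_tendsto.comp (tendsto_atTop_add_const_right _ _ tendsto_natCast_atTop_atTop)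
    apply tendsto_atTop_mono _ h2
    intro i
    have h3 : ckT ρ ((i : ℝ) + 1) ≤ ckT ρ (5 * S i / 4) :=
      c.T_strictMonoOn.monotoneOn (Set.mem_Ici.2 (by positivity))
        (Set.mem_Ici.2 (by have := hS0 i; positivity)) (by have := hSi i; have := hS0 i; linarith)
    exact h3.trans (h_a i).le
  · have h2 : (1 : ℝ) ≤ ρ (ti i) := by
      have := hSi i
      have := h_b i
      have : (0 : ℝ) ≤ i := Nat.cast_nonneg i
      linarith
    have h3 := c.Q_mono (Set.mem_Ici.2 zero_le_one) (Set.mem_Ici.2 (zero_le_one.trans h2)) h2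
    rw [c.Q_ρ (hti0 i).le] at h3
    rw [hδ]
    linarith
  · have := hSs i
    have := h_b i
    have := hS0 i
    linarith
  · have hlog : 0 ≤ Real.log K0 := Real.log_nonneg hK1
    have hup : Tendsto (fun i : ℕ => 2 * Real.log K0 / ((i : ℝ) + 1)) atTop (𝓝 0) :=
      Tendsto.div_atTop tendsto_const_nhds
        (tendsto_atTop_add_const_right _ _ tendsto_natCast_atTop_atTop)
    apply squeeze_zero _ _ hup
    · intro i
      exact div_nonneg (c.harnack _ (hti0 i)) (by positivity)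
    · intro i
      apply (h_e i).trans
      apply div_le_div_of_nonneg_left (by positivity) (by positivity) (hSi i)

end windows
end Clock

section ratio

/-- comparison of increments from comparison of derivatives. -/
theorem ck_incr_le {f F k G : ℝ → ℝ}
    (hf : ∀ t : ℝ, 0 ≤ t → HasDerivWithinAt f (F t) (Set.Ici 0) t)
    (hk : ∀ t : ℝ, 0 ≤ t → HasDerivWithinAt k (G t) (Set.Ici 0) t) {T t : ℝ} (hT : 0 ≤ T)
    (ht : T ≤ t) (hle : ∀ v : ℝ, T ≤ v → F v ≤ G v) : f t - f T ≤ k t - k T := by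
  have hd : ∀ x ∈ Set.Ioi T, HasDerivAt (fun x => k x - f x) (G x - F x) x := fun x hx => by
    have hx0 : 0 < x := lt_of_le_of_lt hT hx
    exact ((hk x hx0.le).hasDerivAt (Ici_mem_nhds hx0)).sub
      ((hf x hx0.le).hasDerivAt (Ici_mem_nhds hx0))
  have hm : MonotoneOn (fun x => k x - f x) (Set.Ici T) := by
    apply monotoneOn_of_deriv_nonneg (convex_Ici T)
    · intro x hx
      have hx0 : 0 ≤ x := hT.trans hx
      exact (((hk x hx0).continuousWithinAt).sub ((hf x hx0).continuousWithinAt)).mono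
        (Set.Ici_subset_Ici.2 hT)
    · rw [interior_Ici]
      exact fun x hx => (hd x hx).differentiableAt.differentiableWithinAt
    · rw [interior_Ici]
      intro x hx
      rw [(hd x hx).deriv]
      have := hle x (le_of_lt hx)
      linarith
  have := hm (Set.mem_Ici.2 le_rfl) (Set.mem_Ici.2 ht) ht
  simp only at this
  linarith

theorem ck_shift {f F : ℝ → ℝ} (hf : ∀ t : ℝ, 0 ≤ t → HasDerivWithinAt f (F t) (Set.Ici 0) t)
    (m : ℝ) (t : ℝ) (ht : 0 ≤ t) :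
    HasDerivWithinAt (fun v => m * f (v + 1)) (m * F (t + 1)) (Set.Ici 0) t := by
  have h1 : (0 : ℝ) < t + 1 := by linarith
  have := ((hf (t + 1) h1.le).hasDerivAt (Ici_mem_nhds h1)).comp_add_const t 1
  exact (this.const_mul m).hasDerivWithinAt

/-- two primitives whose derivatives are comparable after a time shift by one have ratio close to one. -/
theorem ck_ratio_bound {a b A B : ℝ → ℝ} {ε CR T M : ℝ} (hε : 0 < ε) (hT : 0 ≤ T)
    (ha : ∀ t : ℝ, 0 ≤ t → HasDerivWithinAt a (A t) (Set.Ici 0) t)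
    (hb : ∀ t : ℝ, 0 ≤ t → HasDerivWithinAt b (B t) (Set.Ici 0) t)
    (ha0 : ∀ t : ℝ, 0 ≤ t → 0 ≤ a t) (hb0 : ∀ t : ℝ, 0 ≤ t → 0 ≤ b t)
    (hBC : ∀ t : ℝ, 0 ≤ t → B t ≤ CR)
    (h1 : ∀ v : ℝ, T ≤ v → A v ≤ (1 + ε) * B (v + 1))
    (h2 : ∀ v : ℝ, T ≤ v → B v ≤ (1 + ε) * A (v + 1))
    (haT : a T ≤ M) {t : ℝ} (ht : T ≤ t) (hbpos : 0 < b t)
    (hbt : M + b T + (1 + ε) * CR ≤ ε * b t) :
    |a t / b t - 1| ≤ 2 * ε := by
  have ht0 : 0 ≤ t := hT.trans ht
  have hX : 0 < 1 + ε := by linarith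
  have hlin : ∀ m : ℝ, ∀ t : ℝ, 0 ≤ t → HasDerivWithinAt (fun v : ℝ => m * v) m (Set.Ici 0) t :=
    fun m t _ => by simpa using ((hasDerivAt_id t).const_mul m).hasDerivWithinAt
  -- the four increments
  have i1 : a t - a T ≤ (1 + ε) * b (t + 1) - (1 + ε) * b (T + 1) :=
    ck_incr_le ha (ck_shift hb (1 + ε)) hT ht h1
  have i2 : b (t + 1) - b t ≤ CR * (t + 1) - CR * t :=
    ck_incr_le hb (hlin CR) ht0 (by linarith) fun v hv => hBC v (ht0.trans hv)
  have i3 : b t - b T ≤ (1 + ε) * a (t + 1) - (1 + ε) * a (T + 1) :=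
    ck_incr_le hb (ck_shift ha (1 + ε)) hT ht h2
  have i4 : a (t + 1) - a t ≤ (1 + ε) * CR * (t + 1) - (1 + ε) * CR * t :=
    ck_incr_le ha (hlin ((1 + ε) * CR)) ht0 (by linarith) fun v hv =>
      (h1 v (ht.trans hv)).trans
        (mul_le_mul_of_nonneg_left (hBC _ (by linarith [ht0.trans hv])) hX.le)
  have hbT1 : 0 ≤ b (T + 1) := hb0 _ (by linarith)
  have haT1 : 0 ≤ a (T + 1) := ha0 _ (by linarith)
  have hbT : 0 ≤ b T := hb0 _ hT
  have haT0 : 0 ≤ a T := ha0 _ hT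
  have j1 : 0 ≤ (1 + ε) * b (T + 1) := mul_nonneg hX.le hbT1
  have j2 : 0 ≤ (1 + ε) * a (T + 1) := mul_nonneg hX.le haT1
  have j3 : (1 + ε) * b (t + 1) ≤ (1 + ε) * (b t + CR) :=
    mul_le_mul_of_nonneg_left (by linarith) hX.le
  have j4 : (1 + ε) * a (t + 1) ≤ (1 + ε) * (a t + (1 + ε) * CR) :=
    mul_le_mul_of_nonneg_left (by linarith) hX.le
  rw [abs_le]
  constructor
  · rw [le_sub_iff_add_le, le_div_iff₀ hbpos]
    -- `(1 - 2 ε) b ≤ a`
    have k1 : b t ≤ b T + (1 + ε) * (a t + (1 + ε) * CR) := by linarith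
    have k2 : (1 + ε) * (b T + (1 + ε) * CR) ≤ (1 + ε) * (ε * b t) :=
      mul_le_mul_of_nonneg_left (by linarith) hX.le
    have k3 : 0 ≤ ε * b T := mul_nonneg hε.le hbT
    have k4 : 0 ≤ ε * ε * b t := by positivity
    have k5 : (1 + ε) * ((-(2 * ε) + 1) * b t) ≤ (1 + ε) * a t := by nlinarith
    exact le_of_mul_le_mul_left k5 hX
  · rw [sub_le_iff_le_add, div_le_iff₀ hbpos]
    nlinarith

end ratio
end Claimed.Agent.R316
end
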