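/- Packed by merge_tool.py (helper293): 10 modules of Claimed.Agent.R316 in one file, same declarations.
   Old modules, in this order: B4.Api, S2.Statements, Base.LiYau.Main, Base.Heat.L2.Api, Base.Emb.Fam, Base.Emb.Imm, Base.Emb.Span, Base.Emb.Main, S7.Rate.Common, S7.Rate.Jets -/
import Claimed.Agent.R316.B4.Alg
import Claimed.Agent.R316.B4.Core
import Claimed.Agent.R316.B4.GeoGraph
import Claimed.Agent.R316.B4.Geo
import Claimed.Agent.R316.Base.LiYau.Reg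
import Claimed.Agent.R316.Base.LiYau.MaxPr
import Claimed.Agent.R316.Base.Heat.L2.Kernel
import Claimed.Agent.R316.Base.LiYau.Core
import Claimed.Agent.R316.B5.Mfd
import Claimed.Agent.R316.S7.Rate.Clock
import Claimed.Agent.R316.B5.Hol
import Claimed.Agent.R316.Pack018
import Claimed.Agent.R316.Pack016
import Claimed.Agent.R316.Pack021
import Claimed.Agent.R316.Pack003

/- ===== packed: Claimed.Agent.R316.B4.Api ===== -/
section
set_option autoImplicit false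

/-!
# Row 316, B4-Local: the Newlander–Nirenberg theorem for a normalised almost complex structure on a ball of `ℂ^ι` (assembly)

`frame_of_ACS` (algebra: commuting normalised frame `a`) + `exists_frame_coordinates` (analysis: functions `w_l` killed by the frame, `dw_l(0) = dz_l`).
-/

section SecLocal
open scoped ContDiff ComplexOrder ComplexConjugate Topology

namespace Claimed.Agent.R316.B4

variable {ι : Type} [Fintype ι] [DecidableEq ι] [Nonempty ι]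

/-- **Newlander–Nirenberg, local form.** -/
theorem newlander_nirenberg_local {r₀ : ℝ} (hr₀ : 0 < r₀) {Jh : CE ι → CE ι →L[ℝ] CE ι}
    (hJ : IsACS r₀ Jh) :
    ∃ (r : ℝ) (F : CE ι → CE ι), 0 < r ∧ r ≤ r₀ ∧ ContDiffOn ℝ ∞ F (Metric.ball 0 r) ∧ F 0 = 0 ∧
      fderiv ℝ F 0 = ContinuousLinearMap.id ℝ (CE ι) ∧
      ∀ z ∈ Metric.ball (0 : CE ι) r, ∀ v, fderiv ℝ F z (Jh z v) = Complex.I • fderiv ℝ F z v := by
  obtain ⟨r₁, a, hr₁, hr₁₀, ha, ha0, hda0, hcomm, hhol⟩ := frame_of_ACS hr₀ hJ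
  obtain ⟨r, w, hr, hrr₁, hw, hZ, hw0, hdw0⟩ := exists_frame_coordinates ha ha0 hda0 hr₁ hcomm
  set F : CE ι → CE ι := fun z => WithLp.toLp 2 (fun l => w l z) with hF
  have hFs : ContDiffOn ℝ ∞ F (Metric.ball 0 r) := by
    rw [contDiffOn_piLp]
    intro l
    exact hw l
  have hFd : ∀ z ∈ Metric.ball (0 : CE ι) r, DifferentiableAt ℝ F z := fun z hz =>
    (hFs.contDiffAt (Metric.isOpen_ball.mem_nhds hz)).differentiableAt (by simp)
  -- the components of the derivative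
  have hcomp : ∀ z ∈ Metric.ball (0 : CE ι) r, ∀ v l, fderiv ℝ F z v l = fderiv ℝ (w l) z v := by
    intro z hz v l
    have h1 : w l = ((EuclideanSpace.proj l : CE ι →L[ℂ] ℂ).restrictScalars ℝ) ∘ F := rfl
    rw [h1, fderiv_comp z (ContinuousLinearMap.differentiableAt _) (hFd z hz),
      ContinuousLinearMap.fderiv]
    rfl
  have h0mem : (0 : CE ι) ∈ Metric.ball (0 : CE ι) r := Metric.mem_ball_self hr
  refine ⟨r, F, hr, hrr₁.trans hr₁₀, hFs, ?_, ?_, ?_⟩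
  · ext l
    simp [hF, hw0]
  · ext v l
    rw [hcomp 0 h0mem v l, hdw0 l v]
    rfl
  · intro z hz v
    ext l
    rw [hcomp z hz _ l, hhol z (Metric.ball_subset_ball hrr₁ hz) (w l) (fun j => hZ z hz j l) v,
      ← hcomp z hz v l]
    rfl

end Claimed.Agent.R316.B4

end SecLocal

/-!
# Row 316, B4-Api: holomorphic parametrisations of the embedded Kähler manifold (the export of package B4)

`exists_holParam` is the hypothesis `StNN` of the bridge BP-BR: around every point of `M` there is an embedded parametrisation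
`Φ : U ⊆ ℂⁿ → M` with `dΦ(i v) = J dΦ(v)`.
Other exports for the bridge: `reCE`, `IsJHol` (`GeoDefs`), `IsParam.comp_injOn`, `IsParam.mono`, `IsParam.congr`, `isParam_of_isLocalParam`, `isLocalParam_of_isParam` (`GeoParam`),
`kahler_clauses` (`GeoKahler`), `exists_smooth_local_inverse` (`GeoInv`), `newlander_nirenberg_local` (`Local`).
-/

section SecApi
open scoped ContDiff ComplexOrder ComplexConjugate Topology

namespace Claimed.Agent.R316.B4

/-- **holomorphic charts** (Newlander–Nirenberg for the embedded Kähler manifold of `Def_0500`). -/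
theorem exists_holParam {n N : ℕ} (hn : 1 ≤ n) {M : Set (EuclideanSpace ℝ (Fin N))}
    {J : EuclideanSpace ℝ (Fin N) → EuclideanSpace ℝ (Fin N) →L[ℝ] EuclideanSpace ℝ (Fin N)}
    (hJ : Claims.C0500.IsKahlerEmbedded n M J)
    (hsub : ∀ p ∈ M, ∃ (ψ : EuclideanSpace ℝ (Fin (2 * n)) → EuclideanSpace ℝ (Fin N))
      (U : Set (EuclideanSpace ℝ (Fin (2 * n)))), Claims.C0500.IsLocalParam M ψ U ∧ p ∈ ψ '' U)
    {p : EuclideanSpace ℝ (Fin N)} (hp : p ∈ M) :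
    ∃ (Φ : CE (Fin n) → EuclideanSpace ℝ (Fin N)) (U : Set (CE (Fin n))),
      IsParam M Φ U ∧ p ∈ Φ '' U ∧ IsJHol J Φ U := by
  have : Nonempty (Fin n) := ⟨⟨0, hn⟩⟩
  obtain ⟨ψ₀, U₀, h₀, hp₀⟩ := hsub p hp
  obtain ⟨Ψ, r₀, Λ, hr₀, hΨ, hΨ0, hΛ, hproj, hi⟩ := exists_graph_param hJ h₀ hp₀
  have hACS := isACS_pullJ hJ hr₀ hΨ hΨ0 hΛ hproj hi
  obtain ⟨r, F, hr, hrr₀, hF, hF0, hdF0, hFJ⟩ := newlander_nirenberg_local hr₀ hACS
  obtain ⟨ρ, G, hρ, hG, hG0, hGmaps, hFG, hGF', hFG'⟩ := exists_smooth_local_inverse hr hF hF0 hdF0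
  have hsubball : Metric.ball (0 : CE (Fin n)) r ⊆ Metric.ball 0 r₀ := Metric.ball_subset_ball hrr₀
  have hinj : Set.InjOn G (Metric.ball 0 ρ) := by
    intro x hx y hy hxy
    rw [← hFG x hx, ← hFG y hy, hxy]
  have hder : ∀ y ∈ Metric.ball (0 : CE (Fin n)) ρ, Function.Injective (fderiv ℝ G y) := by
    intro y hy v w hvw
    rw [← hFG' y hy v, ← hFG' y hy w, hvw]
  have hmaps : Set.MapsTo G (Metric.ball 0 ρ) (Metric.ball 0 r₀) := fun y hy => hsubball (hGmaps hy)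
  refine ⟨Ψ ∘ G, Metric.ball 0 ρ, IsParam.comp_injOn hΨ Metric.isOpen_ball hG hinj hder hmaps,
    ⟨0, Metric.mem_ball_self hρ, by simp [hG0, hΨ0]⟩, ?_⟩
  intro y hy v
  have hGy : G y ∈ Metric.ball (0 : CE (Fin n)) r := hGmaps hy
  have hdΨ : DifferentiableAt ℝ Ψ (G y) :=
    ((hΨ.smooth.contDiffAt (Metric.isOpen_ball.mem_nhds (hsubball hGy))).differentiableAt (by simp))
  have hdG : DifferentiableAt ℝ G y :=
    ((hG.contDiffAt (Metric.isOpen_ball.mem_nhds hy)).differentiableAt (by simp))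
  rw [fderiv_comp y hdΨ hdG]
  simp only [ContinuousLinearMap.comp_apply, Function.comp_apply]
  -- `dG (i v) = Ĵ dG v`
  have key : fderiv ℝ G y (Complex.I • v) = pullJ Λ J Ψ (G y) (fderiv ℝ G y v) := by
    have h1 := hFJ (G y) hGy (fderiv ℝ G y v)
    rw [hFG' y hy v] at h1
    rw [← h1, hGF' y hy]
  rw [key, pull_intertwine hJ hΨ hΛ (hsubball hGy)]

end Claimed.Agent.R316.B4

end SecApi
end

/- ===== packed: Claimed.Agent.R316.S2.Statements ===== -/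
section
/-!
# Row 316, Section 2 (`preliminaries.tex`): the chain of statements behind Proposition 2.1

Owner: helper97 (section captain).  Only definitions / statements (`def St2… : Prop`), no `sorry`.
`S2/Assembly.lean` proves `Nonempty (PrelimData 𝓜 g o)` from them.

ROUTE (differs from the paper where this saves base layer):
* no singular weights: jets are interpolated with the smooth weights `log(|z|² + δ)` and closedness
  of finite dimensional images;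
* tangent fields come from sections of `K⁻¹` contracted with `dF₁ ∧ … ∧ dF_{n-1}`;
* Lemma 2.2 (Hodge heat) is replaced by the tensor maximum principle `HeatData.nt1` for SMOOTH data, after a
  Richberg smoothing of the distance truncations;
* no currents: `log |S|²` is replaced by the smooth functions `log (|S|² + δ)`;
* no Bishop-Gromov by polar coordinates: volume comparison (up to a constant) is the field `HeatData.vol`;
* `HeatData` (Base/Heat/Defs.lean) contains the facts proved for the concrete kernel (`sol`, `init`, `nt1`, `nt2`, Gaussian bounds); the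
  statements `St2Heat…` below hold for EVERY `HD : HeatData 𝓜 g` (they follow from its fields).
-/

set_option autoImplicit false
open scoped ContDiff ComplexOrder Topology
open MeasureTheory

namespace Claimed.Agent.R316

variable {V : Type} [NormedAddCommGroup V] [NormedSpace ℝ V] [MeasurableSpace V] [BorelSpace V]
variable {n : ℕ}

/-- the zero form. -/
def zeroF : HFam V (Fin n) := fun _ _ => 0

/-- strictly plurisubharmonic smooth function. -/
def StrictPsh (𝓜 : CMfd V (Fin n)) (ψ : V → ℝ) : Prop :=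
  ∀ (Φ : CE (Fin n) → V) (U : Set (CE (Fin n))), 𝓜.IsHol Φ U → ∀ z ∈ U, (ddc ψ Φ z).PosDef

section

variable (𝓜 : CMfd V (Fin n)) (g : HFam V (Fin n)) (o : V)

/-! ### Geometry of the initial metric -/

/-- positivity of the Ricci form (trace of the bisectional curvature). -/
def St2RicPos : Prop := InitialData 𝓜 g →
  ∀ (Φ : CE (Fin n) → V) (U : Set (CE (Fin n))), 𝓜.IsHol Φ U → ∀ z ∈ U, (ricF g Φ z).PosDef

/-- existence of the heat kernel with all estimates (`BP-G8`, `BP-G9`, `BP-G10`). -/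
def St2Heat : Prop := InitialData 𝓜 g → Nonempty (HeatData 𝓜 g)

/-- **(i)** smooth strictly psh `ψ ≤ C (1 + r)` (Busemann function + Richberg; `BP-G5` SV2, `BP-G13`). -/
def St2Psi : Prop := InitialData 𝓜 g → o ∈ 𝓜.carrier →
  ∃ ψ : V → ℝ, 𝓜.Smooth ψ ∧ StrictPsh 𝓜 ψ ∧ ∃ C : ℝ, ∀ y ∈ 𝓜.carrier, ψ y ≤ C * (1 + hdist 𝓜 g o y)

/-! ### Interpolation (`BP-G11`) -/

/-- holomorphic functions separate points. -/
def SepPoints : Prop :=
  ∀ x ∈ 𝓜.carrier, ∀ y ∈ 𝓜.carrier, x ≠ y → ∃ f : V → ℂ, 𝓜.HolFun f ∧ f x = 1 ∧ f y = 0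

/-- holomorphic functions realise every differential at every point. -/
def AllCovectors : Prop :=
  ∀ (Φ : CE (Fin n) → V) (U : Set (CE (Fin n))), 𝓜.IsHol Φ U → ∀ z ∈ U,
    ∀ l : CE (Fin n) →L[ℂ] ℂ, ∃ f : V → ℂ, 𝓜.HolFun f ∧ fderiv ℂ (f ∘ Φ) z = l

/-- holomorphic tangent fields realise every tangent vector at every point. -/
def AllVectors : Prop :=
  ∀ (Φ : CE (Fin n) → V) (U : Set (CE (Fin n))), 𝓜.IsHol Φ U → ∀ z ∈ U,
    ∀ a : CE (Fin n), ∃ X : V → V, 𝓜.HolField X ∧ X (Φ z) = fderiv ℝ Φ z a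

/-- canonical sections, nonzero at a prescribed point, with a weighted `L²` bound. -/
def CanL2 (ψ : V → ℝ) : Prop :=
  ∀ x ∈ 𝓜.carrier, ∃ (S : (CE (Fin n) → V) → CE (Fin n) → ℂ) (k : ℝ), IsCanSection 𝓜 S ∧ 0 ≤ k ∧
    0 < canNormSq 𝓜 g S x ∧
    Integrable (fun y => canNormSq 𝓜 g S y * Real.exp (-(k * ψ y))) (hvol 𝓜 g)

/-- the interpolation package: all four, from a smooth strictly psh function. -/
def St2Interp : Prop := InitialData 𝓜 g →
  ∀ ψ : V → ℝ, 𝓜.Smooth ψ → StrictPsh 𝓜 ψ →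
    SepPoints 𝓜 ∧ AllCovectors 𝓜 ∧ AllVectors 𝓜 ∧ CanL2 𝓜 g ψ

/-! ### Finite tuples (`BP-G12`) -/

/-- **(ii)** a finite injective holomorphic immersion. -/
def St2Immersion : Prop := InitialData 𝓜 g → SepPoints 𝓜 → AllCovectors 𝓜 →
  ∃ (NF : ℕ) (F : V → CE (Fin NF)),
    (∀ (Φ : CE (Fin n) → V) (U : Set (CE (Fin n))), 𝓜.IsHol Φ U → DifferentiableOn ℂ (F ∘ Φ) U) ∧
    Set.InjOn F 𝓜.carrier ∧
    ∀ (Φ : CE (Fin n) → V) (U : Set (CE (Fin n))), 𝓜.IsHol Φ U →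
      ∀ z ∈ U, Function.Injective (fderiv ℂ (F ∘ Φ) z)

/-- **(ii)** finitely many spanning holomorphic tangent fields. -/
def St2Spanning : Prop := InitialData 𝓜 g → AllVectors 𝓜 →
  ∃ (mX : ℕ) (X : Fin mX → V → V), (∀ i, 𝓜.HolField (X i)) ∧
    ∀ (Φ : CE (Fin n) → V) (U : Set (CE (Fin n))), 𝓜.IsHol Φ U → ∀ z ∈ U,
      Submodule.span ℂ (Set.range fun i => coVec Φ z (X i (Φ z))) = ⊤

/-! ### Heat semigroup: the consumer level facts (`BP-G9`, `BP-G10`) -/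

variable {𝓜 g} in
/-- first moment of the kernel. -/
def St2HeatMoment (HD : HeatData 𝓜 g) : Prop := InitialData 𝓜 g →
  ∃ C : ℝ, ∀ a : ℝ, 0 < a → ∀ x ∈ 𝓜.carrier,
    Integrable (fun y => HD.Hk a x y * hdist 𝓜 g x y) (hvol 𝓜 g) ∧
    ∫ y, HD.Hk a x y * hdist 𝓜 g x y ∂(hvol 𝓜 g) ≤ C * Real.sqrt a

variable {𝓜 g} in
/-- Li-Yau applied to `1 + H_a f` and `2 - H_a f`: time derivative and gradient of bounded
solutions. -/
def St2HeatLY (HD : HeatData 𝓜 g) : Prop := InitialData 𝓜 g →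
  ∃ C : ℝ, ∀ f : V → ℝ, Measurable f → (∀ y, 0 ≤ f y ∧ f y ≤ 1) → ∀ a : ℝ, 0 < a → ∀ x ∈ 𝓜.carrier,
    |lap 𝓜 g (HD.P a f) x| ≤ C / a ∧ gradSq 𝓜 g (HD.P a f) x ≤ C / a

variable {𝓜 g} in
/-- heat sub-mean value inequality for smooth subharmonic functions in the class `SubGauss`
(cutoffs with two-sided Laplacian bound + pointwise bounds of the kernel and of its gradient). -/
def St2Submean (HD : HeatData 𝓜 g) : Prop := InitialData 𝓜 g → o ∈ 𝓜.carrier → DyadicCutoffs 𝓜 g o →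
  ∀ w : V → ℝ, 𝓜.Smooth w → (∀ x ∈ 𝓜.carrier, 0 ≤ lap 𝓜 g w x) → SubGauss 𝓜 g o w →
    ∀ t : ℝ, 0 < t → ∀ x ∈ 𝓜.carrier, w x ≤ HD.P t w x

/-! ### Canonical sections: growth, `Ξ` -/

/-- linear logarithmic growth of a canonical section. -/
def CanGrowth (S : (CE (Fin n) → V) → CE (Fin n) → ℂ) : Prop :=
  ∃ C : ℝ, ∀ y ∈ 𝓜.carrier, canNormSq 𝓜 g S y ≤ Real.exp (C * (1 + hdist 𝓜 g o y))

/-- **(iii)** weighted `L²` bound ⟹ linear logarithmic growth
(`|S|²` is smooth subharmonic; `St2Submean` at time `1`, Gaussian upper bound, volume comparison). -/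
def St2CanGrowth : Prop := InitialData 𝓜 g → o ∈ 𝓜.carrier → DyadicCutoffs 𝓜 g o →
  ∀ HD : HeatData 𝓜 g, St2Submean o HD →
  ∀ (ψ : V → ℝ) (S : (CE (Fin n) → V) → CE (Fin n) → ℂ) (k : ℝ), 𝓜.Smooth ψ → 0 ≤ k →
    (∃ C : ℝ, ∀ y ∈ 𝓜.carrier, ψ y ≤ C * (1 + hdist 𝓜 g o y)) → IsCanSection 𝓜 S →
    Integrable (fun y => canNormSq 𝓜 g S y * Real.exp (-(k * ψ y))) (hvol 𝓜 g) →
    CanGrowth 𝓜 g o S

/-- **(iii)** the function `Ξ = log ∑ c_i |S_i|²` from pointwise nonvanishing sections with growth. -/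
def St2Xi : Prop := InitialData 𝓜 g → o ∈ 𝓜.carrier →
  (∀ x ∈ 𝓜.carrier, ∃ S : (CE (Fin n) → V) → CE (Fin n) → ℂ, IsCanSection 𝓜 S ∧
    0 < canNormSq 𝓜 g S x ∧ CanGrowth 𝓜 g o S) →
  ∃ Xi : V → ℝ, 𝓜.Smooth Xi ∧ leF 𝓜 (ricF g) (ddc Xi) ∧
    ∃ C : ℝ, ∀ y ∈ 𝓜.carrier, Xi y ≤ C * (1 + (hdist 𝓜 g o y) ^ (3 / 2 : ℝ))

/-! ### Dyadic smoothing: the exhaustion `u` -/

/-- smooth approximations of the distance truncations `f_L` (second variation SV1 + Richberg):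
`0 ≤ f ≤ 1`, `f = 0` on `r ≤ L`, `f = 1` on `r ≥ 2L` up to the error `η`, Lipschitz constant `C/L`,
one-sided Hessian bound `dd f ≤ C L⁻² g`, constant outside a compact set. -/
def St2Trunc : Prop := InitialData 𝓜 g → o ∈ 𝓜.carrier →
  ∃ C : ℝ, ∀ η : ℝ, 0 < η → ∀ L : ℝ, 1 ≤ L → ∃ f : V → ℝ, 𝓜.Smooth f ∧ Measurable f ∧
    (∀ y, 0 ≤ f y ∧ f y ≤ 1) ∧
    (∀ y ∈ 𝓜.carrier, hdist 𝓜 g o y ≤ L → f y ≤ η) ∧
    (∀ y ∈ 𝓜.carrier, 2 * L ≤ hdist 𝓜 g o y → 1 - η ≤ f y) ∧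
    (∀ y ∈ 𝓜.carrier, 3 * L ≤ hdist 𝓜 g o y → f y = 1) ∧
    (∀ x ∈ 𝓜.carrier, ∀ y ∈ 𝓜.carrier, |f x - f y| ≤ C / L * hdist 𝓜 g x y + η) ∧
    leF 𝓜 (ddc f) (smulF (fun _ => C / L ^ 2) g)

/-- heat smoothing of the truncations gives the dyadic cutoffs (fields `sol`, `nt1`, `mass` of `HD`). -/
def St2Cutoffs : Prop := InitialData 𝓜 g → o ∈ 𝓜.carrier → ∀ HD : HeatData 𝓜 g,
  St2HeatMoment HD → St2HeatLY HD → St2Trunc 𝓜 g o → DyadicCutoffs 𝓜 g o

/-- **(iv)** the exhaustion `u = 1 + ∑ 2^j v_{2^j}`. -/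
def St2Exhaustion : Prop := InitialData 𝓜 g → o ∈ 𝓜.carrier → DyadicCutoffs 𝓜 g o →
  ∃ (u : V → ℝ) (Cu : ℝ), 𝓜.Smooth u ∧ 0 < Cu ∧ (∀ y ∈ 𝓜.carrier, 1 ≤ u y) ∧
    (∀ y ∈ 𝓜.carrier, Cu⁻¹ * (1 + hdist 𝓜 g o y) ≤ u y) ∧
    (∀ y ∈ 𝓜.carrier, u y ≤ Cu * (1 + hdist 𝓜 g o y)) ∧
    (∀ y ∈ 𝓜.carrier, gradSq 𝓜 g u y ≤ Cu ^ 2) ∧
    leF 𝓜 (ddc u) (smulF (fun y => Cu / u y) g) ∧
    leF 𝓜 (smulF (fun y => -(Cu / u y)) g) (ddc u)

/-! ### Averages -/

/-- **(v)**, first estimate. -/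
def AvgLog : Prop :=
  ∀ S : (CE (Fin n) → V) → CE (Fin n) → ℂ, IsCanSection 𝓜 S → 0 < canNormSq 𝓜 g S o →
    CanGrowth 𝓜 g o S →
    ∃ C : ℝ, ∀ L : ℝ, 1 ≤ L →
      IntegrableOn (fun y => |Real.log (canNormSq 𝓜 g S y)|) (hball 𝓜 g o L) (hvol 𝓜 g) ∧
      ∫ y in hball 𝓜 g o L, |Real.log (canNormSq 𝓜 g S y)| ∂(hvol 𝓜 g) ≤ C * L * Vb 𝓜 g o L

/-- the uniform estimate for the smooth regularisations `log (|S|² + δ)`, `0 < δ ≤ 1` (this form also shows that the zero set of `S` is a null set,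
which `AvgLog` does not, because `Real.log 0 = 0`). -/
def AvgLogD : Prop :=
  ∀ S : (CE (Fin n) → V) → CE (Fin n) → ℂ, IsCanSection 𝓜 S → 0 < canNormSq 𝓜 g S o →
    CanGrowth 𝓜 g o S →
    ∃ C : ℝ, ∀ L : ℝ, 1 ≤ L → ∀ δ : ℝ, 0 < δ → δ ≤ 1 →
      ∫ y in hball 𝓜 g o L, |Real.log (canNormSq 𝓜 g S y + δ)| ∂(hvol 𝓜 g) ≤ C * L * Vb 𝓜 g o L

/-- `log(|S|²+δ)` is smooth subharmonic of linear growth; sub-mean value at `o` at time `L²`, first moment,
lower kernel bound on `B(o,L)`. -/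
def St2AvgLogD : Prop := InitialData 𝓜 g → o ∈ 𝓜.carrier → DyadicCutoffs 𝓜 g o →
  ∀ HD : HeatData 𝓜 g, St2Submean o HD → St2HeatMoment HD → AvgLogD 𝓜 g o

/-- Fatou, `δ ↓ 0`. -/
def St2AvgLog : Prop := InitialData 𝓜 g → o ∈ 𝓜.carrier → AvgLogD 𝓜 g o → AvgLog 𝓜 g o

/-- **(v)**, second estimate: integrate `Δ log(|S|²+δ) ≥ |S|²/(|S|²+δ) R_g` against a cutoff. -/
def St2AvgR : Prop := InitialData 𝓜 g → o ∈ 𝓜.carrier → VolComparison 𝓜 g → DyadicCutoffs 𝓜 g o →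
  AvgLogD 𝓜 g o →
  (∃ S : (CE (Fin n) → V) → CE (Fin n) → ℂ, IsCanSection 𝓜 S ∧ 0 < canNormSq 𝓜 g S o ∧
    CanGrowth 𝓜 g o S) →
  ∃ C : ℝ, ∀ L : ℝ, 1 ≤ L →
    ∫ y in hball 𝓜 g o L, scalCurv 𝓜 g y ∂(hvol 𝓜 g) ≤ C / L * Vb 𝓜 g o L

end

end Claimed.Agent.R316
end

/- ===== packed: Claimed.Agent.R316.Base.LiYau.Main ===== -/
section
/-!
# Row 316, `BP-G9`, file 14: assembly of `HeatData` from `HeatCore` (glue, sorry free)

Sub-captain: helper201.  `nt1`, `nt2` (package `BP-G10`) are hypotheses about the kernel `HC.Hk`.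
-/

set_option autoImplicit false
open scoped ContDiff ComplexOrder Topology
open MeasureTheory Filter

namespace Claimed.Agent.R316

variable {V : Type} [NormedAddCommGroup V] [NormedSpace ℝ V] [FiniteDimensional ℝ V]
  [MeasurableSpace V] [BorelSpace V]
variable {n : ℕ} {𝓜 : CMfd V (Fin n)} {g : HFam V (Fin n)}

/-- the statement of `HeatData.nt1` for a kernel. -/
def LyNT1 (𝓜 : CMfd V (Fin n)) (g : HFam V (Fin n)) (Hk : ℝ → V → V → ℝ) : Prop :=
  ∀ (f : V → ℝ) (C c : ℝ) (K : Set V), 𝓜.Smooth f → IsCompact K → K ⊆ 𝓜.carrier →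
    (∀ y ∈ 𝓜.carrier, y ∉ K → f y = c) → 0 ≤ C → leF 𝓜 (ddc f) (smulF (fun _ => C) g) →
    ∀ a : ℝ, 0 < a → leF 𝓜 (ddc (fun x => ∫ y, Hk a x y * f y ∂(hvol 𝓜 g))) (smulF (fun _ => C) g)

/-- the statement of `HeatData.nt2` for a kernel. -/
def LyNT2 (𝓜 : CMfd V (Fin n)) (g : HFam V (Fin n)) (Hk : ℝ → V → V → ℝ) : Prop :=
  ∀ A : HFam V (Fin n), IsHForm 𝓜 A → IsClosedForm 𝓜 A → leF 𝓜 0 A → leF 𝓜 A g →
    ∀ b : ℝ, 0 < b →
      𝓜.Smooth (fun x => ∫ s in (0 : ℝ)..b, ∫ y, Hk s x y * tr 𝓜 g A y ∂(hvol 𝓜 g)) ∧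
      leF 𝓜 0 (A + ddc (fun x => ∫ s in (0 : ℝ)..b, ∫ y, Hk s x y * tr 𝓜 g A y ∂(hvol 𝓜 g)))

/-- **assembly.** -/
noncomputable def lyHeatData (hReg : S3.StLinLocalReg) (S : AnaSetting 𝓜 g) (HC : HeatCore 𝓜 g)
    (h1 : LyNT1 𝓜 g HC.Hk) (h2 : LyNT2 𝓜 g HC.Hk) : HeatData 𝓜 g where
  Hk := HC.Hk
  off := HC.off
  pos := fun _ ht _ hx _ hy => ly_Hk_pos HC S ht hx hy
  symm := HC.symm
  cont := HC.cont
  integrable := HC.integrable
  mass := fun _ ht _ hx => ly_mass HC S ht hx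
  semigroup := fun s t hs ht x hx y hy => (HC.semigroup s t hs ht x hx y hy).2
  smooth := HC.smooth
  heat := HC.heat
  vol := ly_volComparison HC S
  upper := ly_upper HC S
  lower := ly_lower HC S
  grad := ly_grad HC S
  sol := fun _ ho _ hf => ly_sol HC hReg S ho hf
  init := fun _ ho _ hf hs => ly_init HC hReg S ho hf hs
  nt1 := h1
  nt2 := h2

end Claimed.Agent.R316
end

/- ===== packed: Claimed.Agent.R316.Base.Heat.L2.Api ===== -/
section
/-!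
# Row 316, BP-G8: heat semigroup and heat kernel of a complete Kaehler metric, `L²` construction (EXPORT FILE)

Sub-captain: helper55.  Consumers import THIS file.  Hypotheses: `V` finite dimensional, `IsKahler 𝓜 g`; for positivity / sub-Markov / comparison also
`IsConnected 𝓜.carrier`, `IsProperMetric 𝓜 g`.  NO curvature hypothesis, no `GoodDist`.  `Δ = lap 𝓜 g`, `μ = hvol 𝓜 g`, `L2M 𝓜 g = Lp ℝ 2 μ`.

| object | file | meaning |
|---|---|---|
| `rfc R f` | RFC | `f(R)`, `R` selfadjoint `0 ≤ R ≤ 1` on a real Hilbert space, `f ∈ C[0,1]` |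
| `sg R t`, `sgE R j t` | SgAbs | `e^{-t(R⁻¹-1)}`, `(R⁻¹-1)^j e^{-t(R⁻¹-1)}` |
| `toL2 𝓜 g u`, `𝓜.IsTest φ` | Form | class of a function; test functions |
| `heatR 𝓜 g` | Form | `(1-Δ)⁻¹` (Friedrichs) |
| `crep 𝓜 g F`, `HasRep` | Reg | continuous representative |
| `heatEv 𝓜 g j t x`, `heatL 𝓜 g t f x` | Sol | `f ↦ ((-Δ)^j e^{tΔ} f)(x)`; `(e^{tΔ} f)(x)` for `f : L2M 𝓜 g` |
| `heatPt`, `heatK 𝓜 g t x y`, `heatP 𝓜 g t f x` | Kernel | kernel, `∫ heatK t x y f y` |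

MAIN EXPORTS
* kernel: `heatK_off`, `heatK_symm`, `heatK_nonneg`, `continuousOn_heatK`, `contDiffOn_heatK` (jointly smooth), `smoothST_heatK`, `hasDerivAt_heatK`,
  `integral_heatK_mul_heatK` (Chapman-Kolmogorov), `integrable_heatK`, `integral_heatK_le_one`, `memLp_heatK`.
* semigroup on `L²`: `heatP_eq_heatL`, `smoothST_heatP`, `hasDerivAt_heatP`, `integral_heatL_sq_le`, `tendsto_toL2_heatL`, `heatL_add_time`, `exists_abs_heatL_le`,
  `heatL_nonneg`, `heatL_le_of_le`, `heatL_mono`, `abs_heatP_le`.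
* test data: `smoothST_heatP_test` (smooth on `[0,∞) × M`), `lap_heatP_test`.
* comparison: `exists_hasDerivAt_integral_sq_posPart`, `integral_sq_posPart_le` (energy inequality with Lipschitz cutoffs), `le_zero_of_subsolution`,
  `eq_heatL_of_solution` (uniqueness in `L²`), `heatL_le_of_supersolution` (minimality), `exists_lip_cutoff`.
* calculus: `contDiffOn_clm_of_scalarwise`, `contDiffOn_of_tendsto_of_cauchy` (CkLim).
* interface to `BP-G9`: `heatCore_exists : Nonempty (HeatCore 𝓜 g)` (below; sorry-free glue).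
-/

set_option autoImplicit false
set_option maxSynthPendingDepth 6
open scoped ContDiff ComplexOrder Topology
open MeasureTheory Set Filter

namespace Claimed.Agent.R316

/-- **the output of `BP-G8` in the form consumed by `BP-G9`**. -/
theorem heatCore_exists {V : Type} [NormedAddCommGroup V] [NormedSpace ℝ V] [FiniteDimensional ℝ V]
    [MeasurableSpace V] [BorelSpace V] {n : ℕ} {𝓜 : CMfd V (Fin n)} {g : HFam V (Fin n)}
    (hK : IsKahler 𝓜 g) (hconn : IsConnected 𝓜.carrier) (hp : IsProperMetric 𝓜 g) :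
    Nonempty (HeatCore 𝓜 g) := by
  have hg : IsMetric 𝓜 g := hK.toIsMetric
  exact ⟨{
    Hk := heatK 𝓜 g
    off := fun t x y h => heatK_off 𝓜 g t h
    nonneg := fun t ht x y => heatK_nonneg hK hconn hp ht x y
    symm := heatK_symm 𝓜 g
    cont := continuousOn_heatK hg
    integrable := fun t ht x _ => integrable_heatK hK hconn hp ht x
    submarkov := fun t ht x _ => integral_heatK_le_one hK hconn hp ht x
    semigroup := fun s t hs ht x hx y hy => by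
      refine ⟨integrable_heatK_mul hg hs x ?_, integral_heatK_mul_heatK hg hs ht hx hy⟩
      have h1 : (fun z => heatK 𝓜 g t z y) = heatK 𝓜 g t y := by
        funext z
        exact heatK_symm 𝓜 g t z y
      rw [h1]
      exact memLp_heatK hg ht y
    smooth := fun y _ => smoothST_heatK hg y
    heat := fun t ht x hx y _ => hasDerivAt_heatK hK ht hx y
    solL2 := fun f hf => ⟨smoothST_heatP hg hf,
      fun t ht x hx => (hasDerivAt_heatP hK ht hx hf).hasDerivWithinAt⟩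
    test := fun f hf hc => smoothST_heatP_test hK ⟨hf, hc⟩ }⟩

end Claimed.Agent.R316
end

/- ===== packed: Claimed.Agent.R316.Base.Emb.Fam ===== -/
section
/-!
# Row 316, `BP-G12` (architect helper286), file `Emb/Fam.lean`: countable atlas, countable normalised families

PAPER FREE.  Black boxes: `CM/Param`, `CM/Trans`, `CM/Top`.

* `EmbAtlas 𝓜` : countably many parametrisations `Φ i` on `ball 0 (2 r i)` whose half balls `D i = ball 0 (r i)` cover.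
* `emb_exists_sep`, `emb_exists_imm`, `emb_exists_vec` : Lindelöf (`TopologicalSpace.isOpen_iUnion_countable` in `ℂⁿ × ℂⁿ`): countably many holomorphic functions separate the points /
  detect all tangent vectors; countably many holomorphic fields detect all covectors.
* `emb_exists_fun_family`, `emb_exists_field_family` : the same families as SEQUENCES, multiplied by positive weights (`emb_exists_weights`) so that they are
  uniformly summable on every `D i`.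
-/

set_option autoImplicit false
set_option linter.unusedSectionVars false
open scoped ContDiff Topology
open Filter

namespace Claimed.Agent.R316

variable {V : Type} [NormedAddCommGroup V] [NormedSpace ℝ V]
variable {n : ℕ} {𝓜 : CMfd V (Fin n)}

/-- countable atlas by balls whose halves cover. -/
structure EmbAtlas (𝓜 : CMfd V (Fin n)) where
  Φ : ℕ → CE (Fin n) → V
  r : ℕ → ℝ
  r_pos : ∀ i, 0 < r i
  hol2 : ∀ i, 𝓜.IsHol (Φ i) (Metric.ball 0 (2 * r i))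
  cover : 𝓜.carrier = ⋃ i, Φ i '' Metric.ball 0 (r i)

/-- the half ball. -/
def EmbAtlas.D (A : EmbAtlas 𝓜) (i : ℕ) : Set (CE (Fin n)) := Metric.ball 0 (A.r i)

theorem emb_exists_atlas [FiniteDimensional ℝ V] (hne : 𝓜.carrier.Nonempty) :
    Nonempty (EmbAtlas 𝓜) := by
  have : ProperSpace V := FiniteDimensional.proper_real V
  obtain ⟨Φ, r, h1, h2, h3⟩ := 𝓜.exists_seq_atlas_balls hne
  exact ⟨⟨Φ, r, h1, h2, h3⟩⟩

namespace EmbAtlas

variable (A : EmbAtlas 𝓜)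

theorem isOpen_D (i : ℕ) : IsOpen (A.D i) := Metric.isOpen_ball

theorem D_subset (i : ℕ) : A.D i ⊆ Metric.ball 0 (2 * A.r i) :=
  Metric.ball_subset_ball (by linarith [A.r_pos i])

theorem closedBall_subset (i : ℕ) :
    Metric.closedBall (0 : CE (Fin n)) (A.r i) ⊆ Metric.ball 0 (2 * A.r i) :=
  Metric.closedBall_subset_ball (by linarith [A.r_pos i])

theorem hol (i : ℕ) : 𝓜.IsHol (A.Φ i) (A.D i) :=
  𝓜.isHol_mono (A.hol2 i) (A.isOpen_D i) (A.D_subset i)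

theorem exists_eq {x : V} (hx : x ∈ 𝓜.carrier) : ∃ i, ∃ z ∈ A.D i, A.Φ i z = x := by
  rw [A.cover] at hx
  obtain ⟨i, z, hz, rfl⟩ := Set.mem_iUnion.1 hx
  exact ⟨i, z, hz, rfl⟩

theorem continuousOn (i : ℕ) : ContinuousOn (A.Φ i) (A.D i) := (𝓜.isParam (A.hol i)).continuousOn

end EmbAtlas

/-- the components of a holomorphic field are holomorphic. -/
theorem emb_coVec_hol {X : V → V} (hX : 𝓜.HolField X) {Φ : CE (Fin n) → V} {U : Set (CE (Fin n))}
    (hΦ : 𝓜.IsHol Φ U) :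
    DifferentiableOn ℂ (fun z => coVec Φ z (X (Φ z))) U ∧
      ∀ z ∈ U, X (Φ z) = fderiv ℝ Φ z (coVec Φ z (X (Φ z))) := by
  obtain ⟨a, ha, hXa⟩ := hX Φ U hΦ
  have h : ∀ z ∈ U, coVec Φ z (X (Φ z)) = a z := fun z hz => by
    rw [hXa z hz, (𝓜.isParam hΦ).coVec_fderiv hz]
  exact ⟨ha.congr h, fun z hz => by rw [h z hz, hXa z hz]⟩

/-! ### Lindelöf -/

/-- countably many holomorphic functions separate the points. -/
theorem emb_exists_sep (A : EmbAtlas 𝓜) (hsep : SepPoints 𝓜) :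
    ∃ S : Set (V → ℂ), S.Countable ∧ (∀ f ∈ S, 𝓜.HolFun f) ∧
      ∀ x ∈ 𝓜.carrier, ∀ y ∈ 𝓜.carrier, x ≠ y → ∃ f ∈ S, f x ≠ f y := by
  have key : ∀ i j : ℕ, ∃ T : Set {f : V → ℂ // 𝓜.HolFun f}, T.Countable ∧
      ⋃ f ∈ T, {q : CE (Fin n) × CE (Fin n) | q ∈ A.D i ×ˢ A.D j ∧
        f.1 (A.Φ i q.1) - f.1 (A.Φ j q.2) ≠ 0} =
      ⋃ f : {f : V → ℂ // 𝓜.HolFun f}, {q : CE (Fin n) × CE (Fin n) | q ∈ A.D i ×ˢ A.D j ∧
        f.1 (A.Φ i q.1) - f.1 (A.Φ j q.2) ≠ 0} := by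
    intro i j
    refine TopologicalSpace.isOpen_iUnion_countable _ fun f => ?_
    have h1 : ContinuousOn (fun q : CE (Fin n) × CE (Fin n) => f.1 (A.Φ i q.1))
        (A.D i ×ˢ A.D j) :=
      (f.2 _ _ (A.hol i)).continuousOn.comp continuousOn_fst (fun q hq => hq.1)
    have h2 : ContinuousOn (fun q : CE (Fin n) × CE (Fin n) => f.1 (A.Φ j q.2))
        (A.D i ×ˢ A.D j) :=
      (f.2 _ _ (A.hol j)).continuousOn.comp continuousOn_snd (fun q hq => hq.2)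
    exact (h1.sub h2).isOpen_inter_preimage ((A.isOpen_D i).prod (A.isOpen_D j)) isOpen_ne
  choose T hTc hT using key
  refine ⟨⋃ i, ⋃ j, Subtype.val '' T i j, ?_, ?_, ?_⟩
  · exact Set.countable_iUnion fun i => Set.countable_iUnion fun j => (hTc i j).image _
  · intro f hf
    obtain ⟨i, hf⟩ := Set.mem_iUnion.1 hf
    obtain ⟨j, f', _, rfl⟩ := Set.mem_iUnion.1 hf
    exact f'.2
  · intro x hx y hy hxy
    obtain ⟨i, z, hz, rfl⟩ := A.exists_eq hx
    obtain ⟨j, w, hw, rfl⟩ := A.exists_eq hy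
    obtain ⟨f, hf, hf1, hf0⟩ := hsep _ hx _ hy hxy
    have hmem : (z, w) ∈ ⋃ f : {f : V → ℂ // 𝓜.HolFun f}, {q : CE (Fin n) × CE (Fin n) |
        q ∈ A.D i ×ˢ A.D j ∧ f.1 (A.Φ i q.1) - f.1 (A.Φ j q.2) ≠ 0} := by
      refine Set.mem_iUnion.2 ⟨⟨f, hf⟩, ⟨hz, hw⟩, ?_⟩
      simp [hf1, hf0]
    rw [← hT i j] at hmem
    obtain ⟨f', hf'T, _, hne⟩ := Set.mem_iUnion₂.1 hmem
    exact ⟨f'.1, Set.mem_iUnion.2 ⟨i, Set.mem_iUnion.2 ⟨j, f', hf'T, rfl⟩⟩, sub_ne_zero.1 hne⟩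

/-- countably many holomorphic functions detect all tangent vectors. -/
theorem emb_exists_imm (A : EmbAtlas 𝓜) (hcov : AllCovectors 𝓜) :
    ∃ S : Set (V → ℂ), S.Countable ∧ (∀ f ∈ S, 𝓜.HolFun f) ∧
      ∀ i, ∀ z ∈ A.D i, ∀ v : CE (Fin n), v ≠ 0 → ∃ f ∈ S, fderiv ℂ (f ∘ A.Φ i) z v ≠ 0 := by
  have key : ∀ i : ℕ, ∃ T : Set {f : V → ℂ // 𝓜.HolFun f}, T.Countable ∧
      ⋃ f ∈ T, {q : CE (Fin n) × CE (Fin n) | q ∈ A.D i ×ˢ (Set.univ : Set (CE (Fin n))) ∧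
        fderiv ℂ (f.1 ∘ A.Φ i) q.1 q.2 ≠ 0} =
      ⋃ f : {f : V → ℂ // 𝓜.HolFun f}, {q : CE (Fin n) × CE (Fin n) |
        q ∈ A.D i ×ˢ (Set.univ : Set (CE (Fin n))) ∧ fderiv ℂ (f.1 ∘ A.Φ i) q.1 q.2 ≠ 0} := by
    intro i
    refine TopologicalSpace.isOpen_iUnion_countable _ fun f => ?_
    have h1 : ContinuousOn (fun q : CE (Fin n) × CE (Fin n) => fderiv ℂ (f.1 ∘ A.Φ i) q.1)
        (A.D i ×ˢ (Set.univ : Set (CE (Fin n)))) :=
      (hol_differentiableOn_fderiv (A.isOpen_D i) (f.2 _ _ (A.hol i))).continuousOn.comp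
        continuousOn_fst (fun q hq => hq.1)
    exact (h1.clm_apply continuousOn_snd).isOpen_inter_preimage
      ((A.isOpen_D i).prod isOpen_univ) isOpen_ne
  choose T hTc hT using key
  refine ⟨⋃ i, Subtype.val '' T i, ?_, ?_, ?_⟩
  · exact Set.countable_iUnion fun i => (hTc i).image _
  · intro f hf
    obtain ⟨i, f', _, rfl⟩ := Set.mem_iUnion.1 hf
    exact f'.2
  · intro i z hz v hv
    obtain ⟨l, _, hl⟩ := exists_dual_vector ℂ v (norm_ne_zero_iff.2 hv)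
    obtain ⟨f, hf, hfl⟩ := hcov _ _ (A.hol i) z hz l
    have hmem : (z, v) ∈ ⋃ f : {f : V → ℂ // 𝓜.HolFun f}, {q : CE (Fin n) × CE (Fin n) |
        q ∈ A.D i ×ˢ (Set.univ : Set (CE (Fin n))) ∧ fderiv ℂ (f.1 ∘ A.Φ i) q.1 q.2 ≠ 0} := by
      refine Set.mem_iUnion.2 ⟨⟨f, hf⟩, ⟨hz, Set.mem_univ _⟩, ?_⟩
      show fderiv ℂ (f ∘ A.Φ i) z v ≠ 0
      rw [hfl, hl]
      simpa using hv
    rw [← hT i] at hmem
    obtain ⟨f', hf'T, _, hne⟩ := Set.mem_iUnion₂.1 hmem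
    exact ⟨f'.1, Set.mem_iUnion.2 ⟨i, f', hf'T, rfl⟩, hne⟩

/-- countably many holomorphic fields detect all covectors. -/
theorem emb_exists_vec (A : EmbAtlas 𝓜) (hvec : AllVectors 𝓜) :
    ∃ S : Set (V → V), S.Countable ∧ (∀ X ∈ S, 𝓜.HolField X) ∧
      ∀ i, ∀ z ∈ A.D i, ∀ ξ : CE (Fin n), ξ ≠ 0 →
        ∃ X ∈ S, ∑ l, ξ l * coVec (A.Φ i) z (X (A.Φ i z)) l ≠ 0 := by
  have key : ∀ i : ℕ, ∃ T : Set {X : V → V // 𝓜.HolField X}, T.Countable ∧
      ⋃ X ∈ T, {q : CE (Fin n) × CE (Fin n) | q ∈ A.D i ×ˢ (Set.univ : Set (CE (Fin n))) ∧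
        ∑ l, q.2 l * coVec (A.Φ i) q.1 (X.1 (A.Φ i q.1)) l ≠ 0} =
      ⋃ X : {X : V → V // 𝓜.HolField X}, {q : CE (Fin n) × CE (Fin n) |
        q ∈ A.D i ×ˢ (Set.univ : Set (CE (Fin n))) ∧
        ∑ l, q.2 l * coVec (A.Φ i) q.1 (X.1 (A.Φ i q.1)) l ≠ 0} := by
    intro i
    refine TopologicalSpace.isOpen_iUnion_countable _ fun X => ?_
    have h1 : ContinuousOn (fun q : CE (Fin n) × CE (Fin n) =>
        coVec (A.Φ i) q.1 (X.1 (A.Φ i q.1))) (A.D i ×ˢ (Set.univ : Set (CE (Fin n)))) :=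
      (emb_coVec_hol X.2 (A.hol i)).1.continuousOn.comp continuousOn_fst (fun q hq => hq.1)
    have h2 : ContinuousOn (fun q : CE (Fin n) × CE (Fin n) =>
        ∑ l, q.2 l * coVec (A.Φ i) q.1 (X.1 (A.Φ i q.1)) l)
        (A.D i ×ˢ (Set.univ : Set (CE (Fin n)))) := by
      refine continuousOn_finsetSum _ fun l _ => ContinuousOn.mul ?_ ?_
      · exact ((EuclideanSpace.proj l : CE (Fin n) →L[ℂ] ℂ).continuous.comp
          continuous_snd).continuousOn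
      · exact (EuclideanSpace.proj l : CE (Fin n) →L[ℂ] ℂ).continuous.comp_continuousOn h1
    exact h2.isOpen_inter_preimage ((A.isOpen_D i).prod isOpen_univ) isOpen_ne
  choose T hTc hT using key
  refine ⟨⋃ i, Subtype.val '' T i, ?_, ?_, ?_⟩
  · exact Set.countable_iUnion fun i => (hTc i).image _
  · intro f hf
    obtain ⟨i, f', _, rfl⟩ := Set.mem_iUnion.1 hf
    exact f'.2
  · intro i z hz ξ hξ
    obtain ⟨l₀, hl₀⟩ : ∃ l₀, ξ l₀ ≠ 0 := by
      by_contra hcon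
      push Not at hcon
      exact hξ (by ext l; simpa using hcon l)
    obtain ⟨X, hX, hXz⟩ := hvec _ _ (A.hol i) z hz (EuclideanSpace.single l₀ (1 : ℂ))
    have hmem : (z, ξ) ∈ ⋃ X : {X : V → V // 𝓜.HolField X}, {q : CE (Fin n) × CE (Fin n) |
        q ∈ A.D i ×ˢ (Set.univ : Set (CE (Fin n))) ∧
        ∑ l, q.2 l * coVec (A.Φ i) q.1 (X.1 (A.Φ i q.1)) l ≠ 0} := by
      refine Set.mem_iUnion.2 ⟨⟨X, hX⟩, ⟨hz, Set.mem_univ _⟩, ?_⟩
      show ∑ l, ξ l * coVec (A.Φ i) z (X (A.Φ i z)) l ≠ 0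
      rw [hXz, (𝓜.isParam (A.hol i)).coVec_fderiv hz]
      simpa using hl₀
    rw [← hT i] at hmem
    obtain ⟨f', hf'T, _, hne⟩ := Set.mem_iUnion₂.1 hmem
    exact ⟨f'.1, Set.mem_iUnion.2 ⟨i, f', hf'T, rfl⟩, hne⟩

/-! ### Normalised sequences -/

/-- **normalised sequence of functions.** -/
theorem emb_exists_fun_family (A : EmbAtlas 𝓜) (hsep : SepPoints 𝓜) (hcov : AllCovectors 𝓜) :
    ∃ g : ℕ → V → ℂ, (∀ k, 𝓜.HolFun (g k)) ∧
      (∀ x ∈ 𝓜.carrier, ∀ y ∈ 𝓜.carrier, x ≠ y → ∃ k, g k x ≠ g k y) ∧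
      (∀ i, ∀ z ∈ A.D i, ∀ v : CE (Fin n), v ≠ 0 → ∃ k, fderiv ℂ (g k ∘ A.Φ i) z v ≠ 0) ∧
      ∀ i, ∃ u : ℕ → ℝ, Summable u ∧ ∀ k, ∀ z ∈ A.D i, ‖g k (A.Φ i z)‖ ≤ u k := by
  obtain ⟨S₁, hc₁, hh₁, hs₁⟩ := emb_exists_sep A hsep
  obtain ⟨S₂, hc₂, hh₂, hs₂⟩ := emb_exists_imm A hcov
  obtain ⟨g₀, hg₀⟩ := ((hc₁.union hc₂).union (Set.countable_singleton (fun _ : V => (0 : ℂ)))).exists_eq_range
    ⟨_, Or.inr rfl⟩
  have hol : ∀ k, 𝓜.HolFun (g₀ k) := by
    intro k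
    have hk : g₀ k ∈ (S₁ ∪ S₂) ∪ {fun _ : V => (0 : ℂ)} := hg₀ ▸ Set.mem_range_self k
    rcases hk with (hk | hk) | hk
    · exact hh₁ _ hk
    · exact hh₂ _ hk
    · rw [Set.mem_singleton_iff.1 hk]
      exact fun Φ U _ => differentiableOn_const (c := (0 : ℂ))
  have hbd : ∀ k m, ∃ B : ℝ, ∀ z ∈ Metric.closedBall (0 : CE (Fin n)) (A.r m),
      ‖g₀ k (A.Φ m z)‖ ≤ B := fun k m =>
    (isCompact_closedBall _ _).exists_bound_of_continuousOn
      ((hol k _ _ (A.hol2 m)).continuousOn.mono (A.closedBall_subset m))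
  choose B hB using hbd
  obtain ⟨w, hw, hsum⟩ := emb_exists_weights (fun k m => |B k m|) (fun _ _ => abs_nonneg _)
  have hwc : ∀ k, (w k : ℂ) ≠ 0 := fun k => Complex.ofReal_ne_zero.2 (hw k).ne'
  refine ⟨fun k x => (w k : ℂ) * g₀ k x, fun k Φ U hΦ => (hol k Φ U hΦ).const_mul _, ?_, ?_, ?_⟩
  · intro x hx y hy hxy
    obtain ⟨f, hf, hne⟩ := hs₁ x hx y hy hxy
    obtain ⟨k, rfl⟩ : f ∈ Set.range g₀ := hg₀ ▸ Or.inl (Or.inl hf)
    exact ⟨k, fun h => hne (mul_left_cancel₀ (hwc k) h)⟩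
  · intro i z hz v hv
    obtain ⟨f, hf, hne⟩ := hs₂ i z hz v hv
    obtain ⟨k, rfl⟩ : f ∈ Set.range g₀ := hg₀ ▸ Or.inl (Or.inr hf)
    refine ⟨k, ?_⟩
    have hd : DifferentiableAt ℂ (g₀ k ∘ A.Φ i) z :=
      (hol k _ _ (A.hol i) z hz).differentiableAt ((A.isOpen_D i).mem_nhds hz)
    have he : ((fun x => (w k : ℂ) * g₀ k x) ∘ A.Φ i) = fun y => (w k : ℂ) * (g₀ k ∘ A.Φ i) y := rfl
    rw [he, fderiv_const_mul hd]
    simpa using ⟨(hw k).ne', hne⟩
  · intro i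
    refine ⟨fun k => w k * |B k i|, hsum i, fun k z hz => ?_⟩
    rw [norm_mul, Complex.norm_real, Real.norm_of_nonneg (hw k).le]
    exact mul_le_mul_of_nonneg_left
      ((hB k i z (Metric.ball_subset_closedBall hz)).trans (le_abs_self _)) (hw k).le

/-- real multiples of a holomorphic field. -/
theorem emb_holField_smul {X : V → V} (hX : 𝓜.HolField X) (w : ℝ) :
    𝓜.HolField (fun x => w • X x) := by
  intro Φ U hΦ
  obtain ⟨a, ha, hXa⟩ := hX Φ U hΦ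
  refine ⟨fun z => (w : ℂ) • a z, ha.fun_const_smul _, fun z hz => ?_⟩
  show w • X (Φ z) = fderiv ℝ Φ z ((w : ℂ) • a z)
  rw [hXa z hz, Complex.coe_smul, map_smul]

theorem emb_coVec_smul {X : V → V} (hX : 𝓜.HolField X) {Φ : CE (Fin n) → V}
    {U : Set (CE (Fin n))} (hΦ : 𝓜.IsHol Φ U) {z : CE (Fin n)} (hz : z ∈ U) (w : ℝ) :
    coVec Φ z (w • X (Φ z)) = (w : ℂ) • coVec Φ z (X (Φ z)) := by
  have h := (emb_coVec_hol hX hΦ).2 z hz
  rw [Complex.coe_smul]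
  conv_lhs => rw [h, ← map_smul]
  exact (𝓜.isParam hΦ).coVec_fderiv hz _

/-- **normalised sequence of fields.** -/
theorem emb_exists_field_family (A : EmbAtlas 𝓜) (hvec : AllVectors 𝓜) :
    ∃ Y : ℕ → V → V, (∀ k, 𝓜.HolField (Y k)) ∧
      (∀ i, ∀ z ∈ A.D i, ∀ ξ : CE (Fin n), ξ ≠ 0 →
        ∃ k, ∑ l, ξ l * coVec (A.Φ i) z (Y k (A.Φ i z)) l ≠ 0) ∧
      ∀ i, ∃ u : ℕ → ℝ, Summable u ∧
        ∀ k, ∀ z ∈ A.D i, ‖coVec (A.Φ i) z (Y k (A.Φ i z))‖ ≤ u k := by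
  obtain ⟨S, hc, hh, hs⟩ := emb_exists_vec A hvec
  obtain ⟨Y₀, hY₀⟩ := (hc.union (Set.countable_singleton (fun _ : V => (0 : V)))).exists_eq_range
    ⟨_, Or.inr rfl⟩
  have hol : ∀ k, 𝓜.HolField (Y₀ k) := by
    intro k
    have hk : Y₀ k ∈ S ∪ {fun _ : V => (0 : V)} := hY₀ ▸ Set.mem_range_self k
    rcases hk with hk | hk
    · exact hh _ hk
    · rw [Set.mem_singleton_iff.1 hk]
      exact fun Φ U _ => ⟨fun _ => 0, differentiableOn_const _, fun z _ => by simp⟩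
  have hbd : ∀ k m, ∃ B : ℝ, ∀ z ∈ Metric.closedBall (0 : CE (Fin n)) (A.r m),
      ‖coVec (A.Φ m) z (Y₀ k (A.Φ m z))‖ ≤ B := fun k m =>
    (isCompact_closedBall _ _).exists_bound_of_continuousOn
      ((emb_coVec_hol (hol k) (A.hol2 m)).1.continuousOn.mono (A.closedBall_subset m))
  choose B hB using hbd
  obtain ⟨w, hw, hsum⟩ := emb_exists_weights (fun k m => |B k m|) (fun _ _ => abs_nonneg _)
  refine ⟨fun k x => w k • Y₀ k x, fun k => emb_holField_smul (hol k) _, ?_, ?_⟩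
  · intro i z hz ξ hξ
    obtain ⟨X, hX, hne⟩ := hs i z hz ξ hξ
    obtain ⟨k, rfl⟩ : X ∈ Set.range Y₀ := hY₀ ▸ Or.inl hX
    refine ⟨k, ?_⟩
    rw [emb_coVec_smul (hol k) (A.hol i) hz]
    have : ∑ l, ξ l * ((w k : ℂ) • coVec (A.Φ i) z (Y₀ k (A.Φ i z))) l
        = (w k : ℂ) * ∑ l, ξ l * coVec (A.Φ i) z (Y₀ k (A.Φ i z)) l := by
      rw [Finset.mul_sum]
      refine Finset.sum_congr rfl fun l _ => ?_
      simp only [PiLp.smul_apply, smul_eq_mul]
      ring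
    rw [this]
    exact mul_ne_zero (Complex.ofReal_ne_zero.2 (hw k).ne') hne
  · intro i
    refine ⟨fun k => w k * |B k i|, hsum i, fun k z hz => ?_⟩
    rw [emb_coVec_smul (hol k) (A.hol i) hz, norm_smul, Complex.norm_real,
      Real.norm_of_nonneg (hw k).le]
    exact mul_le_mul_of_nonneg_left
      ((hB k i z (Metric.ball_subset_closedBall hz)).trans (le_abs_self _)) (hw k).le

end Claimed.Agent.R316
end

/- ===== packed: Claimed.Agent.R316.Base.Emb.Imm ===== -/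
section
/-!
# Row 316, `BP-G12` (architect helper286), file `Emb/Imm.lean`: a finite injective holomorphic immersion

PAPER FREE.  `F = (f_l)_{l < 4n+1}`, `f_l = ∑_k a_{k l} g_k`, `(g_k)` the normalised sequence of `Emb/Fam.lean`, `a` from `emb_baire` applied to
`γ (z,w) = g_k (Φ_i z) - g_k (Φ_j w)` on `{Φ_i z ≠ Φ_j w}` and `γ (z,v) = d(g_k ∘ Φ_i)_z v` on `{v ≠ 0}`.
-/

set_option autoImplicit false
set_option linter.unusedSectionVars false
open scoped ContDiff Topology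
open Filter

namespace Claimed.Agent.R316

variable {V : Type} [NormedAddCommGroup V] [NormedSpace ℝ V]
variable {n N : ℕ} {𝓜 : CMfd V (Fin n)}

/-- uniform summability on the half balls gives normal summability in every parametrisation. -/
theorem emb_locSummable_chart {E : Type} [NormedAddCommGroup E] (A : EmbAtlas 𝓜) {g : ℕ → V → E}
    (hb : ∀ i, ∃ u : ℕ → ℝ, Summable u ∧ ∀ k, ∀ z ∈ A.D i, ‖g k (A.Φ i z)‖ ≤ u k)
    {Φ : CE (Fin n) → V} {U : Set (CE (Fin n))} (hΦ : 𝓜.IsHol Φ U) :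
    EmbLocSummable (fun k z => g k (Φ z)) U := by
  intro z hz
  obtain ⟨i, w, hw, hwz⟩ := A.exists_eq (CMfd.mem_carrier hΦ hz)
  obtain ⟨u, hu, hub⟩ := hb i
  refine ⟨Φ ⁻¹' (A.Φ i '' A.D i), ?_, u, hu, ?_⟩
  · have h1 : A.Φ i '' A.D i ∈ 𝓝[𝓜.carrier] (A.Φ i w) := by
      rw [← (𝓜.isParam (A.hol i)).map_nhds_eq hw]
      exact image_mem_map ((A.isOpen_D i).mem_nhds hw)
    rw [hwz, ← (𝓜.isParam hΦ).map_nhds_eq hz] at h1
    exact h1
  · rintro k q ⟨y, hy, hyq⟩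
    show ‖g k (Φ q)‖ ≤ u k
    rw [← hyq]
    exact hub k y hy

/-- `f_l = ∑_k a_{k l} g_k`. -/
noncomputable def embF (g : ℕ → V → ℂ) (a : ℕ → Fin N → ℝ) (l : Fin N) (x : V) : ℂ :=
  ∑' k, g k x * (a k l : ℂ)

section series

variable (A : EmbAtlas 𝓜) {g : ℕ → V → ℂ} (hg : ∀ k, 𝓜.HolFun (g k))
  (hb : ∀ i, ∃ u : ℕ → ℝ, Summable u ∧ ∀ k, ∀ z ∈ A.D i, ‖g k (A.Φ i z)‖ ≤ u k)
  {a : ℕ → Fin N → ℝ} (ha : ∀ k l, |a k l| ≤ 1)
  {Φ : CE (Fin n) → V} {U : Set (CE (Fin n))} (hΦ : 𝓜.IsHol Φ U)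

include hb ha hΦ in
theorem emb_locSummable_term_chart (l : Fin N) :
    EmbLocSummable (fun k z => g k (Φ z) * (a k l : ℂ)) U :=
  (emb_locSummable_chart A hb hΦ).of_le (c := fun _ => 1)
    (fun _ _ => ⟨Set.univ, univ_mem, 1, fun _ _ => le_rfl⟩) (fun k q => by
      rw [norm_mul, mul_comm, Complex.norm_real]
      exact mul_le_mul_of_nonneg_right (ha k l) (norm_nonneg _))

include hg hb ha in
theorem embF_holFun (l : Fin N) : 𝓜.HolFun (embF g a l) := fun _ _ hΦ =>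
  emb_differentiableOn_tsum (CMfd.isOpen_dom hΦ) (fun k => (hg k _ _ hΦ).mul_const _)
    (emb_locSummable_term_chart A hb ha hΦ l)

include hg hb ha hΦ in
theorem embF_fderiv (l : Fin N) {z : CE (Fin n)} (hz : z ∈ U) (v : CE (Fin n)) :
    fderiv ℂ (embF g a l ∘ Φ) z v = ∑' k, fderiv ℂ (g k ∘ Φ) z v * (a k l : ℂ) := by
  have h := emb_fderiv_tsum_apply (CMfd.isOpen_dom hΦ) (fun k => (hg k _ _ hΦ).mul_const _)
    (emb_locSummable_term_chart A hb ha hΦ l) hz v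
  have he : (embF g a l ∘ Φ) = fun q => ∑' k, (g k ∘ Φ) q * (a k l : ℂ) := rfl
  rw [he, h]
  refine tsum_congr fun k => ?_
  have hd : DifferentiableAt ℂ (g k ∘ Φ) z :=
    (hg k _ _ hΦ z hz).differentiableAt ((CMfd.isOpen_dom hΦ).mem_nhds hz)
  rw [fderiv_mul_const hd]
  simp [mul_comm]

include hb ha in
theorem embF_sub (l : Fin N) {x y : V} (hx : x ∈ 𝓜.carrier) (hy : y ∈ 𝓜.carrier) :
    embF g a l x - embF g a l y = ∑' k, (g k x - g k y) * (a k l : ℂ) := by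
  obtain ⟨i, z, hz, rfl⟩ := A.exists_eq hx
  obtain ⟨j, w, hw, rfl⟩ := A.exists_eq hy
  have h1 := (emb_locSummable_term_chart A hb ha (A.hol i) l).summable hz
  have h2 := (emb_locSummable_term_chart A hb ha (A.hol j) l).summable hw
  simp only [embF, sub_mul]
  exact (h1.tsum_sub h2).symm

end series

/-- the coefficients. -/
theorem emb_exists_coeff (A : EmbAtlas 𝓜) {g : ℕ → V → ℂ} (hg : ∀ k, 𝓜.HolFun (g k))
    (hsep : ∀ x ∈ 𝓜.carrier, ∀ y ∈ 𝓜.carrier, x ≠ y → ∃ k, g k x ≠ g k y)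
    (himm : ∀ i, ∀ z ∈ A.D i, ∀ v : CE (Fin n), v ≠ 0 → ∃ k, fderiv ℂ (g k ∘ A.Φ i) z v ≠ 0)
    (hb : ∀ i, ∃ u : ℕ → ℝ, Summable u ∧ ∀ k, ∀ z ∈ A.D i, ‖g k (A.Φ i z)‖ ≤ u k) :
    ∃ a : ℕ → Fin (4 * n + 1) → ℝ, (∀ k l, |a k l| ≤ 1) ∧
      (∀ x ∈ 𝓜.carrier, ∀ y ∈ 𝓜.carrier, x ≠ y → ∃ l, ∑' k, (g k x - g k y) * (a k l : ℂ) ≠ 0) ∧
      ∀ i, ∀ z ∈ A.D i, ∀ v : CE (Fin n), v ≠ 0 →
        ∃ l, ∑' k, fderiv ℂ (g k ∘ A.Φ i) z v * (a k l : ℂ) ≠ 0 := by
  have hd : Module.finrank ℝ (CE (Fin n) × CE (Fin n)) < 4 * n + 1 := by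
    rw [finrank_real_of_complex, Module.finrank_prod, finrank_euclideanSpace_fin]
    omega
  refine Exists.elim (emb_baire hd (ι := (ℕ × ℕ) ⊕ ℕ)
    (Sum.elim (fun ij : ℕ × ℕ => {q : CE (Fin n) × CE (Fin n) | q ∈ A.D ij.1 ×ˢ A.D ij.2 ∧
        A.Φ ij.1 q.1 - A.Φ ij.2 q.2 ≠ 0})
      (fun i : ℕ => {q : CE (Fin n) × CE (Fin n) | q ∈ A.D i ×ˢ (Set.univ : Set (CE (Fin n))) ∧
        q.2 ≠ 0}))
    (Sum.elim (fun ij : ℕ × ℕ => fun k q => g k (A.Φ ij.1 q.1) - g k (A.Φ ij.2 q.2))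
      (fun i : ℕ => fun k q => fderiv ℂ (g k ∘ A.Φ i) q.1 q.2))
    ?_ ?_ ?_ ?_) ?_
  · -- open
    rintro (⟨i, j⟩ | i)
    · have h1 : ContinuousOn (fun q : CE (Fin n) × CE (Fin n) => A.Φ i q.1) (A.D i ×ˢ A.D j) :=
        (A.continuousOn i).comp continuousOn_fst (fun q hq => hq.1)
      have h2 : ContinuousOn (fun q : CE (Fin n) × CE (Fin n) => A.Φ j q.2) (A.D i ×ˢ A.D j) :=
        (A.continuousOn j).comp continuousOn_snd (fun q hq => hq.2)
      exact (h1.sub h2).isOpen_inter_preimage ((A.isOpen_D i).prod (A.isOpen_D j)) isOpen_ne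
    · exact ((A.isOpen_D i).prod isOpen_univ).inter (isOpen_ne.preimage continuous_snd)
  · -- holomorphic
    rintro (⟨i, j⟩ | i) k
    · refine DifferentiableOn.sub ?_ ?_
      · exact (hg k _ _ (A.hol i)).comp differentiableOn_fst (fun q hq => hq.1.1)
      · exact (hg k _ _ (A.hol j)).comp differentiableOn_snd (fun q hq => hq.1.2)
    · refine DifferentiableOn.clm_apply ?_ differentiableOn_snd
      exact (hol_differentiableOn_fderiv (A.isOpen_D i) (hg k _ _ (A.hol i))).comp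
        differentiableOn_fst (fun q hq => hq.1.1)
  · -- summable
    rintro (⟨i, j⟩ | i)
    · have hO : IsOpen (A.D i ×ˢ A.D j) := (A.isOpen_D i).prod (A.isOpen_D j)
      have h1 := (emb_locSummable_chart A hb (A.hol i)).comp hO
        (φ := fun q : CE (Fin n) × CE (Fin n) => q.1) continuousOn_fst (fun q hq => hq.1)
      have h2 := (emb_locSummable_chart A hb (A.hol j)).comp hO
        (φ := fun q : CE (Fin n) × CE (Fin n) => q.2) continuousOn_snd (fun q hq => hq.2)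
      exact (h1.sub h2).mono fun q hq => hq.1
    · have hO : IsOpen (A.D i ×ˢ (Set.univ : Set (CE (Fin n)))) := (A.isOpen_D i).prod isOpen_univ
      have h1 := ((emb_locSummable_chart A hb (A.hol i)).fderiv (A.isOpen_D i)
        (fun k => hg k _ _ (A.hol i))).comp hO
        (φ := fun q : CE (Fin n) × CE (Fin n) => q.1) continuousOn_fst (fun q hq => hq.1)
      refine (h1.of_le (c := fun q => ‖q.2‖) (fun p _ => ?_) (fun k q => ?_)).mono fun q hq => hq.1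
      · refine ⟨{q | ‖q.2‖ < ‖p.2‖ + 1}, ?_, ‖p.2‖ + 1, fun q hq => le_of_lt hq⟩
        exact (isOpen_lt (continuous_snd.norm) continuous_const).mem_nhds (by simp)
      · rw [mul_comm]
        exact ContinuousLinearMap.le_opNorm _ _
  · -- no common zero
    rintro (⟨i, j⟩ | i) q hq
    · obtain ⟨k, hk⟩ := hsep _ (CMfd.mem_carrier (A.hol i) hq.1.1) _
        (CMfd.mem_carrier (A.hol j) hq.1.2) (sub_ne_zero.1 hq.2)
      exact ⟨k, sub_ne_zero.2 hk⟩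
    · exact himm i q.1 hq.1.1 q.2 hq.2
  · rintro a ⟨ha, hgood⟩
    refine ⟨a, ha, fun x hx y hy hxy => ?_, fun i z hz v hv => ?_⟩
    · obtain ⟨i, z, hz, rfl⟩ := A.exists_eq hx
      obtain ⟨j, w, hw, rfl⟩ := A.exists_eq hy
      exact hgood (Sum.inl (i, j)) (z, w) ⟨⟨hz, hw⟩, sub_ne_zero.2 hxy⟩
    · exact hgood (Sum.inr i) (z, v) ⟨⟨hz, Set.mem_univ _⟩, hv⟩

/-- the immersion property passes from the atlas to all parametrisations. -/
theorem emb_imm_transfer (A : EmbAtlas 𝓜) {f : Fin N → V → ℂ} (hf : ∀ l, 𝓜.HolFun (f l))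
    (h : ∀ i, ∀ z ∈ A.D i, ∀ v : CE (Fin n), v ≠ 0 → ∃ l, fderiv ℂ (f l ∘ A.Φ i) z v ≠ 0)
    {Φ : CE (Fin n) → V} {U : Set (CE (Fin n))} (hΦ : 𝓜.IsHol Φ U) {z : CE (Fin n)} (hz : z ∈ U)
    {v : CE (Fin n)} (hv : v ≠ 0) : ∃ l, fderiv ℂ (f l ∘ Φ) z v ≠ 0 := by
  obtain ⟨i, w, hw, hwz⟩ := A.exists_eq (CMfd.mem_carrier hΦ hz)
  have hz' : z ∈ U ∩ Φ ⁻¹' (A.Φ i '' A.D i) := ⟨hz, w, hw, hwz⟩
  have hτz : (Function.invFunOn (A.Φ i) (A.D i) ∘ Φ) z = w :=
    CMfd.trans_eq hΦ (A.hol i) hw hwz.symm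
  have hv' : fderiv ℂ (Function.invFunOn (A.Φ i) (A.D i) ∘ Φ) z v ≠ 0 := fun h0 =>
    hv (CMfd.fderiv_trans_injective hΦ (A.hol i) hz' (by rw [h0, map_zero]))
  obtain ⟨l, hl⟩ := h i w hw _ hv'
  refine ⟨l, ?_⟩
  rw [(CMfd.eventually_comp_eq (f l) hΦ (A.hol i) hz').fderiv_eq]
  have hd1 : DifferentiableAt ℂ (f l ∘ A.Φ i) ((Function.invFunOn (A.Φ i) (A.D i) ∘ Φ) z) := by
    rw [hτz]
    exact (hf l _ _ (A.hol i) w hw).differentiableAt ((A.isOpen_D i).mem_nhds hw)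
  rw [fderiv_comp z hd1 (CMfd.trans_differentiableAt hΦ (A.hol i) hz'), hτz]
  exact hl

/-- from scalar functions to a map into `ℂ^N`. -/
theorem emb_assemble {f : Fin N → V → ℂ} (hf : ∀ l, 𝓜.HolFun (f l))
    (hsep : ∀ x ∈ 𝓜.carrier, ∀ y ∈ 𝓜.carrier, x ≠ y → ∃ l, f l x ≠ f l y)
    (himm : ∀ (Φ : CE (Fin n) → V) (U : Set (CE (Fin n))), 𝓜.IsHol Φ U → ∀ z ∈ U,
      ∀ v : CE (Fin n), v ≠ 0 → ∃ l, fderiv ℂ (f l ∘ Φ) z v ≠ 0) :
    ∃ (NF : ℕ) (F : V → CE (Fin NF)),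
      (∀ (Φ : CE (Fin n) → V) (U : Set (CE (Fin n))), 𝓜.IsHol Φ U → DifferentiableOn ℂ (F ∘ Φ) U) ∧
      Set.InjOn F 𝓜.carrier ∧
      ∀ (Φ : CE (Fin n) → V) (U : Set (CE (Fin n))), 𝓜.IsHol Φ U →
        ∀ z ∈ U, Function.Injective (fderiv ℂ (F ∘ Φ) z) := by
  have hF : ∀ (Φ : CE (Fin n) → V) (U : Set (CE (Fin n))), 𝓜.IsHol Φ U →
      DifferentiableOn ℂ ((fun x => (WithLp.toLp 2 (fun l => f l x) : CE (Fin N))) ∘ Φ) U :=
    fun Φ U hΦ => differentiableOn_euclidean.2 fun l => hf l Φ U hΦ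
  refine ⟨N, fun x => WithLp.toLp 2 (fun l => f l x), hF, ?_, ?_⟩
  · intro x hx y hy hxy
    by_contra hne
    obtain ⟨l, hl⟩ := hsep x hx y hy hne
    exact hl (congrArg (fun u : CE (Fin N) => u l) hxy)
  · intro Φ U hΦ z hz
    rw [injective_iff_map_eq_zero]
    intro v hv0
    by_contra hv
    obtain ⟨l, hl⟩ := himm Φ U hΦ z hz v hv
    apply hl
    have hd := ((hF Φ U hΦ z hz).differentiableAt ((CMfd.isOpen_dom hΦ).mem_nhds hz)).hasFDerivAt
    have h1 := ((EuclideanSpace.proj l : CE (Fin N) →L[ℂ] ℂ).hasFDerivAt).comp z hd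
    have he : (f l ∘ Φ) = (EuclideanSpace.proj l : CE (Fin N) →L[ℂ] ℂ) ∘
        ((fun x => (WithLp.toLp 2 (fun l => f l x) : CE (Fin N))) ∘ Φ) := rfl
    rw [he, h1.fderiv, ContinuousLinearMap.comp_apply, hv0, map_zero]

/-- **finite injective holomorphic immersion.** -/
theorem emb_immersion [FiniteDimensional ℝ V] (hne : 𝓜.carrier.Nonempty) (hsep : SepPoints 𝓜)
    (hcov : AllCovectors 𝓜) :
    ∃ (NF : ℕ) (F : V → CE (Fin NF)),
      (∀ (Φ : CE (Fin n) → V) (U : Set (CE (Fin n))), 𝓜.IsHol Φ U → DifferentiableOn ℂ (F ∘ Φ) U) ∧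
      Set.InjOn F 𝓜.carrier ∧
      ∀ (Φ : CE (Fin n) → V) (U : Set (CE (Fin n))), 𝓜.IsHol Φ U →
        ∀ z ∈ U, Function.Injective (fderiv ℂ (F ∘ Φ) z) := by
  obtain ⟨A⟩ := emb_exists_atlas hne
  obtain ⟨g, hg, hs, hi, hb⟩ := emb_exists_fun_family A hsep hcov
  obtain ⟨a, ha, has, hai⟩ := emb_exists_coeff A hg hs hi hb
  refine emb_assemble (f := embF g a) (embF_holFun A hg hb ha) ?_ ?_
  · intro x hx y hy hxy
    obtain ⟨l, hl⟩ := has x hx y hy hxy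
    refine ⟨l, fun h => hl ?_⟩
    rw [← embF_sub A hb ha l hx hy, h, sub_self]
  · intro Φ U hΦ z hz v hv
    refine emb_imm_transfer A (embF_holFun A hg hb ha) (fun i z hz v hv => ?_) hΦ hz hv
    obtain ⟨l, hl⟩ := hai i z hz v hv
    exact ⟨l, by rw [embF_fderiv A hg hb ha (A.hol i) l hz v]; exact hl⟩

end Claimed.Agent.R316
end

/- ===== packed: Claimed.Agent.R316.Base.Emb.Span ===== -/
section
/-!
# Row 316, `BP-G12` (architect helper286), file `Emb/Span.lean`: finitely many spanning holomorphic tangent fields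

PAPER FREE.  `X_l = ∑_k a_{k l} Y_k` (REAL coefficients, sum in the ambient space), `l < 4n+1`, `(Y_k)` the normalised sequence of `Emb/Fam.lean`, `a` from `emb_baire` applied to
`γ (z,ξ) = ∑_m ξ_m (Y_k)_m (z)` on `{ξ ≠ 0}`.
-/

set_option autoImplicit false
set_option linter.unusedSectionVars false
open scoped ContDiff Topology
open Filter

namespace Claimed.Agent.R316

variable {V : Type} [NormedAddCommGroup V] [NormedSpace ℝ V]
variable {n N : ℕ} {𝓜 : CMfd V (Fin n)}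

/-- it is enough to find holomorphic components in parametrisations covering the manifold. -/
theorem emb_holField_of_cover {X : V → V}
    (h : ∀ x ∈ 𝓜.carrier, ∃ (Φ : CE (Fin n) → V) (U : Set (CE (Fin n))) (b : CE (Fin n) → CE (Fin n)),
      𝓜.IsHol Φ U ∧ x ∈ Φ '' U ∧ DifferentiableOn ℂ b U ∧ ∀ z ∈ U, X (Φ z) = fderiv ℝ Φ z (b z)) :
    𝓜.HolField X := by
  intro Ψ W hΨ
  -- the formula for the components near a point
  have key : ∀ w ∈ W, ∃ D : Set (CE (Fin n)), IsOpen D ∧ w ∈ D ∧ D ⊆ W ∧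
      ∃ c : CE (Fin n) → CE (Fin n), DifferentiableOn ℂ c D ∧
        ∀ w' ∈ D, X (Ψ w') = fderiv ℝ Ψ w' (c w') := by
    intro w hw
    obtain ⟨Φ, U, b, hΦ, ⟨z, hz, hzw⟩, hb, hX⟩ := h (Ψ w) (CMfd.mem_carrier hΨ hw)
    refine ⟨W ∩ Ψ ⁻¹' (Φ '' U), CMfd.isOpen_overlap hΨ hΦ, ⟨hw, z, hz, hzw⟩, Set.inter_subset_left,
      fun w' => fderiv ℂ (Function.invFunOn Ψ W ∘ Φ) ((Function.invFunOn Φ U ∘ Ψ) w')
        (b ((Function.invFunOn Φ U ∘ Ψ) w')), ?_, ?_⟩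
    · have hσ : DifferentiableOn ℂ (Function.invFunOn Φ U ∘ Ψ) (W ∩ Ψ ⁻¹' (Φ '' U)) :=
        𝓜.compat hΨ hΦ
      have hmaps := CMfd.trans_mapsTo hΨ hΦ
      refine DifferentiableOn.clm_apply ?_ ?_
      · exact (hol_differentiableOn_fderiv (CMfd.isOpen_overlap hΦ hΨ) (𝓜.compat hΦ hΨ)).comp hσ hmaps
      · exact hb.comp hσ (fun w' hw' => (hmaps hw').1)
    · intro w' hw'
      have hz' := CMfd.trans_mapsTo hΨ hΦ hw'
      have h1 : Φ ((Function.invFunOn Φ U ∘ Ψ) w') = Ψ w' := CMfd.trans_spec hΨ hΦ hw'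
      have h2 : (Function.invFunOn Ψ W ∘ Φ) ((Function.invFunOn Φ U ∘ Ψ) w') = w' :=
        CMfd.trans_leftInv hΨ hΦ hw'
      have h3 := CMfd.fderiv_eq_comp_trans hΦ hΨ hz' (b ((Function.invFunOn Φ U ∘ Ψ) w'))
      rw [h2] at h3
      rw [← h3, ← hX _ hz'.1, h1]
  refine ⟨fun w => coVec Ψ w (X (Ψ w)), ?_, ?_⟩
  · intro w hw
    obtain ⟨D, hD, hwD, hDW, c, hc, hXc⟩ := key w hw
    have heq : ∀ w' ∈ D, coVec Ψ w' (X (Ψ w')) = c w' := fun w' hw' => by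
      rw [hXc w' hw', (𝓜.isParam hΨ).coVec_fderiv (hDW hw')]
    exact (((hc.congr heq) w hwD).differentiableAt (hD.mem_nhds hwD)).differentiableWithinAt
  · intro w hw
    obtain ⟨D, hD, hwD, hDW, c, hc, hXc⟩ := key w hw
    show X (Ψ w) = fderiv ℝ Ψ w (coVec Ψ w (X (Ψ w)))
    conv_rhs => rw [hXc w hwD, (𝓜.isParam hΨ).coVec_fderiv hw]
    exact hXc w hwD

/-- the bilinear pairing with `ξ`, as a continuous linear form. -/
noncomputable def embPair (ξ : CE (Fin n)) : CE (Fin n) →L[ℂ] ℂ :=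
  ∑ m, ξ m • (EuclideanSpace.proj m : CE (Fin n) →L[ℂ] ℂ)

theorem embPair_apply (ξ y : CE (Fin n)) : embPair ξ y = ∑ m, ξ m * y m := by
  simp [embPair]

/-- vectors detected by all nonzero `ξ` span. -/
theorem emb_span_eq_top {x : Fin N → CE (Fin n)}
    (h : ∀ ξ : CE (Fin n), ξ ≠ 0 → ∃ l, ∑ m, ξ m * x l m ≠ 0) :
    Submodule.span ℂ (Set.range x) = ⊤ := by
  by_contra hne
  obtain ⟨φ, hφ, hle⟩ := Submodule.exists_le_ker_of_lt_top _ (lt_top_iff_ne_top.2 hne)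
  have hrep : ∀ y : CE (Fin n), φ y = ∑ m, φ (EuclideanSpace.single m 1) * y m := by
    intro y
    conv_lhs => rw [← (EuclideanSpace.basisFun (Fin n) ℂ).sum_repr y]
    rw [map_sum]
    refine Finset.sum_congr rfl fun m _ => ?_
    rw [map_smul, EuclideanSpace.basisFun_apply, EuclideanSpace.basisFun_repr, smul_eq_mul, mul_comm]
  have hξ : (WithLp.toLp 2 (fun m => φ (EuclideanSpace.single m 1)) : CE (Fin n)) ≠ 0 := by
    intro h0
    apply hφ
    ext y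
    rw [hrep y]
    have : ∀ m, φ (EuclideanSpace.single m 1) = 0 := fun m =>
      congrArg (fun u : CE (Fin n) => u m) h0
    simp [this]
  obtain ⟨l, hl⟩ := h _ hξ
  apply hl
  have h1 : φ (x l) = 0 := hle (Submodule.subset_span (Set.mem_range_self l))
  rw [hrep] at h1
  exact h1

/-- `X_l = ∑_k a_{k l} Y_k`. -/
noncomputable def embX (Y : ℕ → V → V) (a : ℕ → Fin N → ℝ) (l : Fin N) (x : V) : V :=
  ∑' k, a k l • Y k x

/-- the components of `X_l` in the `i`-th parametrisation of the atlas. -/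
noncomputable def embB (A : EmbAtlas 𝓜) (Y : ℕ → V → V) (a : ℕ → Fin N → ℝ) (i : ℕ) (l : Fin N)
    (z : CE (Fin n)) : CE (Fin n) :=
  ∑' k, (a k l : ℂ) • coVec (A.Φ i) z (Y k (A.Φ i z))

section series

variable (A : EmbAtlas 𝓜) {Y : ℕ → V → V} (hY : ∀ k, 𝓜.HolField (Y k))
  (hb : ∀ i, ∃ u : ℕ → ℝ, Summable u ∧
    ∀ k, ∀ z ∈ A.D i, ‖coVec (A.Φ i) z (Y k (A.Φ i z))‖ ≤ u k)
  {a : ℕ → Fin N → ℝ} (ha : ∀ k l, |a k l| ≤ 1)

include hb in
theorem emb_locSummable_coVec (i : ℕ) :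
    EmbLocSummable (fun k z => coVec (A.Φ i) z (Y k (A.Φ i z))) (A.D i) := by
  intro z hz
  obtain ⟨u, hu, hub⟩ := hb i
  exact ⟨A.D i, (A.isOpen_D i).mem_nhds hz, u, hu, hub⟩

include hb ha in
theorem emb_locSummable_smul_coVec (i : ℕ) (l : Fin N) :
    EmbLocSummable (fun k z => (a k l : ℂ) • coVec (A.Φ i) z (Y k (A.Φ i z))) (A.D i) :=
  (emb_locSummable_coVec A hb i).of_le (c := fun _ => 1)
    (fun _ _ => ⟨Set.univ, univ_mem, 1, fun _ _ => le_rfl⟩) (fun k q => by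
      rw [norm_smul, Complex.norm_real]
      exact mul_le_mul_of_nonneg_right (ha k l) (norm_nonneg _))

include hY hb ha in
theorem embB_differentiableOn (i : ℕ) (l : Fin N) : DifferentiableOn ℂ (embB A Y a i l) (A.D i) :=
  emb_differentiableOn_tsum (A.isOpen_D i)
    (fun k => (emb_coVec_hol (hY k) (A.hol i)).1.fun_const_smul _)
    (emb_locSummable_smul_coVec A hb ha i l)

include hY hb ha in
theorem embX_chart (i : ℕ) (l : Fin N) {z : CE (Fin n)} (hz : z ∈ A.D i) :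
    embX Y a l (A.Φ i z) = fderiv ℝ (A.Φ i) z (embB A Y a i l z) := by
  have hsum := (emb_locSummable_smul_coVec A hb ha i l).summable hz
  rw [embB, (fderiv ℝ (A.Φ i) z).map_tsum hsum]
  refine tsum_congr fun k => ?_
  rw [Complex.coe_smul, map_smul, ← (emb_coVec_hol (hY k) (A.hol i)).2 z hz]

include hY hb ha in
theorem embX_holField (l : Fin N) : 𝓜.HolField (embX Y a l) := by
  refine emb_holField_of_cover fun x hx => ?_
  obtain ⟨i, z, hz, rfl⟩ := A.exists_eq hx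
  exact ⟨A.Φ i, A.D i, embB A Y a i l, A.hol i, ⟨z, hz, rfl⟩, embB_differentiableOn A hY hb ha i l,
    fun z hz => embX_chart A hY hb ha i l hz⟩

include hb ha in
theorem embPair_embB (i : ℕ) (l : Fin N) {z : CE (Fin n)} (hz : z ∈ A.D i) (ξ : CE (Fin n)) :
    ∑ m, ξ m * embB A Y a i l z m
      = ∑' k, (∑ m, ξ m * coVec (A.Φ i) z (Y k (A.Φ i z)) m) * (a k l : ℂ) := by
  have hsum := (emb_locSummable_smul_coVec A hb ha i l).summable hz
  rw [← embPair_apply, embB, (embPair ξ).map_tsum hsum]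
  refine tsum_congr fun k => ?_
  rw [map_smul, embPair_apply, smul_eq_mul, mul_comm]

end series

/-- the coefficients. -/
theorem emb_exists_coeff_field (A : EmbAtlas 𝓜) {Y : ℕ → V → V} (hY : ∀ k, 𝓜.HolField (Y k))
    (hdet : ∀ i, ∀ z ∈ A.D i, ∀ ξ : CE (Fin n), ξ ≠ 0 →
      ∃ k, ∑ m, ξ m * coVec (A.Φ i) z (Y k (A.Φ i z)) m ≠ 0)
    (hb : ∀ i, ∃ u : ℕ → ℝ, Summable u ∧
      ∀ k, ∀ z ∈ A.D i, ‖coVec (A.Φ i) z (Y k (A.Φ i z))‖ ≤ u k) :
    ∃ a : ℕ → Fin (4 * n + 1) → ℝ, (∀ k l, |a k l| ≤ 1) ∧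
      ∀ i, ∀ z ∈ A.D i, ∀ ξ : CE (Fin n), ξ ≠ 0 →
        ∃ l, ∑' k, (∑ m, ξ m * coVec (A.Φ i) z (Y k (A.Φ i z)) m) * (a k l : ℂ) ≠ 0 := by
  have hd : Module.finrank ℝ (CE (Fin n) × CE (Fin n)) < 4 * n + 1 := by
    rw [finrank_real_of_complex, Module.finrank_prod, finrank_euclideanSpace_fin]
    omega
  refine Exists.elim (emb_baire hd (ι := ℕ)
    (fun i : ℕ => {q : CE (Fin n) × CE (Fin n) | q ∈ A.D i ×ˢ (Set.univ : Set (CE (Fin n))) ∧
        q.2 ≠ 0})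
    (fun i : ℕ => fun k q => ∑ m, q.2 m * coVec (A.Φ i) q.1 (Y k (A.Φ i q.1)) m)
    ?_ ?_ ?_ ?_) ?_
  · intro i
    exact ((A.isOpen_D i).prod isOpen_univ).inter (isOpen_ne.preimage continuous_snd)
  · intro i k
    refine DifferentiableOn.fun_sum fun m _ => DifferentiableOn.mul ?_ ?_
    · exact ((EuclideanSpace.proj m : CE (Fin n) →L[ℂ] ℂ).differentiable.comp
        differentiable_snd).differentiableOn
    · exact (EuclideanSpace.proj m : CE (Fin n) →L[ℂ] ℂ).differentiable.comp_differentiableOn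
        ((emb_coVec_hol (hY k) (A.hol i)).1.comp differentiableOn_fst (fun q hq => hq.1.1))
  · intro i
    have hO : IsOpen (A.D i ×ˢ (Set.univ : Set (CE (Fin n)))) := (A.isOpen_D i).prod isOpen_univ
    have h1 := (emb_locSummable_coVec A hb i).comp hO
      (φ := fun q : CE (Fin n) × CE (Fin n) => q.1) continuousOn_fst (fun q hq => hq.1)
    refine (h1.of_le (c := fun q => ‖embPair q.2‖) (fun p _ => ?_) (fun k q => ?_)).mono
      fun q hq => hq.1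
    · have hcont : Continuous fun q : CE (Fin n) × CE (Fin n) => ‖embPair q.2‖ := by
        unfold embPair
        refine Continuous.norm (continuous_finsetSum _ fun m _ => Continuous.fun_smul ?_ continuous_const)
        exact (EuclideanSpace.proj m : CE (Fin n) →L[ℂ] ℂ).continuous.comp continuous_snd
      refine ⟨{q | ‖embPair q.2‖ < ‖embPair p.2‖ + 1}, ?_, ‖embPair p.2‖ + 1, fun q hq => le_of_lt hq⟩
      exact (isOpen_lt hcont continuous_const).mem_nhds (by simp)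
    · rw [← embPair_apply]
      exact ContinuousLinearMap.le_opNorm _ _
  · intro i q hq
    exact hdet i q.1 hq.1.1 q.2 hq.2
  · rintro a ⟨ha, hgood⟩
    exact ⟨a, ha, fun i z hz ξ hξ => hgood i (z, ξ) ⟨⟨hz, Set.mem_univ _⟩, hξ⟩⟩

/-- **finitely many spanning holomorphic tangent fields.** -/
theorem emb_spanning [FiniteDimensional ℝ V] (hne : 𝓜.carrier.Nonempty) (hvec : AllVectors 𝓜) :
    ∃ (mX : ℕ) (X : Fin mX → V → V), (∀ i, 𝓜.HolField (X i)) ∧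
      ∀ (Φ : CE (Fin n) → V) (U : Set (CE (Fin n))), 𝓜.IsHol Φ U → ∀ z ∈ U,
        Submodule.span ℂ (Set.range fun i => coVec Φ z (X i (Φ z))) = ⊤ := by
  obtain ⟨A⟩ := emb_exists_atlas hne
  obtain ⟨Y, hY, hdet, hb⟩ := emb_exists_field_family A hvec
  obtain ⟨a, ha, hgood⟩ := emb_exists_coeff_field A hY hdet hb
  refine ⟨4 * n + 1, embX Y a, embX_holField A hY hb ha, fun Ψ W hΨ w hw => ?_⟩
  obtain ⟨i, z, hz, hzw⟩ := A.exists_eq (CMfd.mem_carrier hΨ hw)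
  have hz' : z ∈ A.D i ∩ A.Φ i ⁻¹' (Ψ '' W) := ⟨hz, w, hw, hzw.symm⟩
  have hτz : (Function.invFunOn Ψ W ∘ A.Φ i) z = w := CMfd.trans_eq (A.hol i) hΨ hw hzw
  -- span in the atlas parametrisation
  have hspan : Submodule.span ℂ (Set.range fun l => embB A Y a i l z) = ⊤ := by
    refine emb_span_eq_top fun ξ hξ => ?_
    obtain ⟨l, hl⟩ := hgood i z hz ξ hξ
    exact ⟨l, by rw [embPair_embB A hb ha i l hz ξ]; exact hl⟩
  have hco : ∀ l, coVec Ψ w (embX Y a l (Ψ w))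
      = fderiv ℂ (Function.invFunOn Ψ W ∘ A.Φ i) z (embB A Y a i l z) := by
    intro l
    rw [← hzw, embX_chart A hY hb ha i l hz, ← CMfd.coVec_trans (A.hol i) hΨ hz', hτz]
  have hsurj : Function.Surjective
      ((fderiv ℂ (Function.invFunOn Ψ W ∘ A.Φ i) z : CE (Fin n) →L[ℂ] CE (Fin n)) :
        CE (Fin n) →ₗ[ℂ] CE (Fin n)) :=
    LinearMap.injective_iff_surjective.1 (CMfd.fderiv_trans_injective (A.hol i) hΨ hz')
  have hrange : (Set.range fun l => coVec Ψ w (embX Y a l (Ψ w)))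
      = ((fderiv ℂ (Function.invFunOn Ψ W ∘ A.Φ i) z : CE (Fin n) →L[ℂ] CE (Fin n)) :
        CE (Fin n) →ₗ[ℂ] CE (Fin n)) '' (Set.range fun l => embB A Y a i l z) := by
    rw [← Set.range_comp]
    congr 1
    funext l
    exact hco l
  rw [hrange, Submodule.span_image, hspan, Submodule.map_top, LinearMap.range_eq_top]
  exact hsurj

end Claimed.Agent.R316
end

/- ===== packed: Claimed.Agent.R316.Base.Emb.Main ===== -/
section
/-!
# Row 316, `BP-G12` (architect helper286): exports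

`emb_st2Immersion`, `emb_st2Spanning` = the statements `St2Immersion`, `St2Spanning` of `S2/Statements.lean`.
The package `Base/Emb/` has no `sorry` of its own; it uses `CM/Param`, `CM/Trans`, `CM/Top` (`exists_seq_atlas_balls`) and `CW/HolSmooth`.
-/

set_option autoImplicit false

namespace Claimed.Agent.R316

variable {V : Type} [NormedAddCommGroup V] [NormedSpace ℝ V] [FiniteDimensional ℝ V] {n : ℕ}

theorem emb_st2Immersion (𝓜 : CMfd V (Fin n)) (g : HFam V (Fin n)) : St2Immersion 𝓜 g :=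
  fun I hs hc => emb_immersion I.conn.nonempty hs hc

theorem emb_st2Spanning (𝓜 : CMfd V (Fin n)) (g : HFam V (Fin n)) : St2Spanning 𝓜 g :=
  fun I hv => emb_spanning I.conn.nonempty hv

end Claimed.Agent.R316
end

/- ===== packed: Claimed.Agent.R316.S7.Rate.Common ===== -/
section
/-!
# Row 316, BP-S7-7b: the common exponent (7.17) (charts.tex l. 1003-1027)

No `sorry` in this file.  The psh input is package B5 (`B5/Mfd.lean`, helper4): `CMfd.HolTo.isPshOn_log_max_norm`, `CMfd.eventually_le_of_liouville` (`(limsup)^*` psh + Liouville + Hartogs; replaces `lem:psh-compactness-bridge`).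

`r7u P A s x = s⁻¹ log max(|f_s x|, e^{-A s}) = max(s⁻¹ log |f_s x|, -A)`.

`r7_common`: `K₀` a compact neighbourhood of `o` in `M`, `(C, a, s₁)` from `P.f_local K₀`, `σ = a / 2`, `A = a`.  If (7.17) fails for `K` there are `s_j → ∞`, `x_j ∈ K` with `e^{-σ s_j} < ‖f s_j x_j‖`.  `u j = r7u P a (s_j)` is psh on `Dom (s_j)` with values in `[-a, log max r0 1]`, `limsup u j ≤ -a` on `K₀`; hence eventually `u j ≤ -3a/4` on `K`, but `u j (x_j) > -a/2`.
-/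

set_option autoImplicit false
set_option linter.unusedSectionVars false
open scoped ContDiff ComplexOrder Topology
open MeasureTheory Filter

namespace Claimed.Agent.R316

variable {V : Type} [NormedAddCommGroup V] [NormedSpace ℝ V] [MeasurableSpace V] [BorelSpace V]
variable {n : ℕ} {𝓜 : CMfd V (Fin n)} {g : HFam V (Fin n)} {o : V} {D : FlowData 𝓜 g o}

/-- `max (s⁻¹ log |f_s|) (-A)`. -/
noncomputable def r7u (P : PreCharts D) (A s : ℝ) (x : V) : ℝ :=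
  s⁻¹ * Real.log (max ‖P.f s x‖ (Real.exp (-(A * s))))

theorem r7_u_psh (P : PreCharts D) (A : ℝ) {s : ℝ} (hs : P.s0 ≤ s) :
    𝓜.IsPshOn (P.Dom s) (r7u P A s) := by
  have hs0 : 0 ≤ s⁻¹ := inv_nonneg.2 (by linarith [P.s0_ge])
  exact ((P.f_hol s hs).isPshOn_log_max_norm (P.Dom_open s) (Real.exp_pos _)).const_mul hs0

theorem r7_u_bdd (P : PreCharts D) {A : ℝ} (hA : 0 ≤ A) {s : ℝ} (hs : P.s0 ≤ s) {x : V}
    (hx : x ∈ 𝓜.carrier ∩ P.Dom s) :
    -A ≤ r7u P A s x ∧ r7u P A s x ≤ Real.log (max P.r0 1) := by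
  have hs1 : 1 ≤ s := P.s0_ge.trans hs
  have hspos : 0 < s := by linarith
  have hinv : 0 < s⁻¹ := inv_pos.2 hspos
  have hinv1 : s⁻¹ ≤ 1 := inv_le_one_of_one_le₀ hs1
  have hmpos : 0 < max ‖P.f s x‖ (Real.exp (-(A * s))) := lt_max_of_lt_right (Real.exp_pos _)
  constructor
  · have h1 : -(A * s) ≤ Real.log (max ‖P.f s x‖ (Real.exp (-(A * s)))) := by
      rw [Real.le_log_iff_exp_le hmpos]
      exact le_max_right _ _
    have h2 : s⁻¹ * (-(A * s)) ≤ s⁻¹ * Real.log (max ‖P.f s x‖ (Real.exp (-(A * s)))) :=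
      mul_le_mul_of_nonneg_left h1 hinv.le
    have h3 : s⁻¹ * (-(A * s)) = -A := by field_simp
    rw [h3] at h2
    exact h2
  · have hf : ‖P.f s x‖ < P.r0 := by simpa using P.f_maps s hs x hx
    have he : Real.exp (-(A * s)) ≤ 1 := Real.exp_le_one_iff.2 (by nlinarith)
    have h1 : max ‖P.f s x‖ (Real.exp (-(A * s))) ≤ max P.r0 1 := max_le_max hf.le he
    have h2 : Real.log (max ‖P.f s x‖ (Real.exp (-(A * s)))) ≤ Real.log (max P.r0 1) :=
      Real.log_le_log hmpos h1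
    have h3 : 0 ≤ Real.log (max P.r0 1) := Real.log_nonneg (le_max_right _ _)
    calc r7u P A s x ≤ s⁻¹ * Real.log (max P.r0 1) := mul_le_mul_of_nonneg_left h2 hinv.le
      _ ≤ 1 * Real.log (max P.r0 1) := mul_le_mul_of_nonneg_right hinv1 h3
      _ = Real.log (max P.r0 1) := one_mul _

/-- **(7.17)**: one exponent for all compact sets. -/
theorem r7_common [FiniteDimensional ℝ V] (I : InitialData 𝓜 g) (ho : o ∈ 𝓜.carrier)
    (PL : PshLiouville 𝓜) (P : PreCharts D) :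
    ∃ σ : ℝ, 0 < σ ∧ ∀ K : Set V, IsCompact K → K ⊆ 𝓜.carrier → ∃ sK : ℝ, ∀ s : ℝ, sK ≤ s →
      ∀ x ∈ K, ‖P.f s x‖ ≤ Real.exp (-(σ * s)) := by
  obtain ⟨K₀, hK₀, hK₀M, hK₀n⟩ := 𝓜.exists_compact_nhdsWithin ho (Filter.univ_mem (f := 𝓝 o))
  obtain ⟨C, a, s₁, ha, hloc⟩ := P.f_local K₀ hK₀ (fun x hx => (hK₀M hx).1)
  refine ⟨a / 2, by positivity, fun K hK hKM => ?_⟩
  by_contra hcon
  push Not at hcon
  choose sj hsj xj hxj hbig using fun j : ℕ => hcon (max (j : ℝ) P.s0)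
  have hsj0 : ∀ j, P.s0 ≤ sj j := fun j => (le_max_right _ _).trans (hsj j)
  have hsj1 : ∀ j, 1 ≤ sj j := fun j => P.s0_ge.trans (hsj0 j)
  have htend : Tendsto sj atTop atTop :=
    tendsto_atTop_mono (fun j => (le_max_left _ _).trans (hsj j)) tendsto_natCast_atTop_atTop
  have hexh : ∀ K : Set V, IsCompact K → K ⊆ 𝓜.carrier → ∀ᶠ j in atTop, K ⊆ P.Dom (sj j) := by
    intro K hK hKM
    obtain ⟨sK, h⟩ := P.Dom_exh K hK hKM
    exact (htend.eventually_ge_atTop sK).mono fun j hj => h _ hj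
  have hpsh : ∀ j, 𝓜.IsPshOn (P.Dom (sj j)) (r7u P a (sj j)) := fun j => r7_u_psh P a (hsj0 j)
  have hb : ∀ j, ∀ x ∈ 𝓜.carrier ∩ P.Dom (sj j),
      -a ≤ r7u P a (sj j) x ∧ r7u P a (sj j) x ≤ Real.log (max P.r0 1) :=
    fun j x hx => r7_u_bdd P ha.le (hsj0 j) hx
  -- the limsup near `o`
  have hc : ∀ᶠ x in 𝓝[𝓜.carrier] o, limsup (fun j => r7u P a (sj j) x) atTop ≤ -a := by
    refine Filter.mem_of_superset hK₀n fun x hx => ?_
    have hxM : x ∈ 𝓜.carrier := (hK₀M hx).1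
    have hlow : ∀ᶠ j in atTop, -a ≤ r7u P a (sj j) x := by
      have := hexh {x} isCompact_singleton (by simpa using hxM)
      exact this.mono fun j hj => (hb j x ⟨hxM, hj rfl⟩).1
    have hcob : IsCoboundedUnder (· ≤ ·) atTop fun j => r7u P a (sj j) x :=
      IsBoundedUnder.isCoboundedUnder_le ⟨-a, by simpa using hlow⟩
    show limsup (fun j => r7u P a (sj j) x) atTop ≤ -a
    refine le_of_forall_pos_le_add fun ε hε => ?_
    refine limsup_le_of_le hcob ?_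
    have hlim : Tendsto (fun j => (sj j)⁻¹ * Real.log (max C 1)) atTop (𝓝 0) := by
      simpa using (tendsto_inv_atTop_zero.comp htend).mul_const (Real.log (max C 1))
    filter_upwards [htend.eventually_ge_atTop s₁, hlim.eventually (gt_mem_nhds hε)] with j hj1 hj2
    have hspos : 0 < sj j := by linarith [hsj1 j]
    have hC1 : (1 : ℝ) ≤ max C 1 := le_max_right _ _
    have hCpos : 0 < max C 1 := by linarith
    have hle : max ‖P.f (sj j) x‖ (Real.exp (-(a * sj j))) ≤ max C 1 * Real.exp (-(a * sj j)) := by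
      refine max_le ((hloc _ hj1 x hx).trans ?_) ?_
      · exact mul_le_mul_of_nonneg_right (le_max_left _ _) (Real.exp_pos _).le
      · exact le_mul_of_one_le_left (Real.exp_pos _).le hC1
    have hlog : Real.log (max ‖P.f (sj j) x‖ (Real.exp (-(a * sj j))))
        ≤ Real.log (max C 1) + -(a * sj j) := by
      have := Real.log_le_log (lt_max_of_lt_right (Real.exp_pos _)) hle
      rwa [Real.log_mul hCpos.ne' (Real.exp_pos _).ne', Real.log_exp] at this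
    have h2 : r7u P a (sj j) x ≤ (sj j)⁻¹ * (Real.log (max C 1) + -(a * sj j)) :=
      mul_le_mul_of_nonneg_left hlog (inv_pos.2 hspos).le
    have h3 : (sj j)⁻¹ * (Real.log (max C 1) + -(a * sj j))
        = (sj j)⁻¹ * Real.log (max C 1) - a := by
      field_simp
      ring
    rw [h3] at h2
    linarith
  have hfin := CMfd.eventually_le_of_liouville PL hexh hpsh hb ho hc hK hKM
    (η := a / 4) (by positivity)
  obtain ⟨j, hj⟩ := hfin.exists
  have h1 := hj (xj j) (hxj j)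
  have hspos : 0 < sj j := by linarith [hsj1 j]
  have h2 : -(a / 2 * sj j) < Real.log (max ‖P.f (sj j) (xj j)‖ (Real.exp (-(a * sj j)))) := by
    rw [Real.lt_log_iff_exp_lt (lt_max_of_lt_right (Real.exp_pos _))]
    exact lt_max_of_lt_left (hbig j)
  have h3 : (sj j)⁻¹ * (-(a / 2 * sj j)) < r7u P a (sj j) (xj j) :=
    mul_lt_mul_of_pos_left h2 (inv_pos.2 hspos)
  have h4 : (sj j)⁻¹ * (-(a / 2 * sj j)) = -(a / 2) := by field_simp
  rw [h4] at h3
  linarith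

end Claimed.Agent.R316
end

/- ===== packed: Claimed.Agent.R316.S7.Rate.Jets ===== -/
section
/-!
# Row 316, BP-S7-7b: (7.18) jets and (7.19) small balls from the inner bound (7.21) (pure `ℂⁿ` + real inequalities)

No `sorry` in this file.  Input: package B5 (`B5/Hol.lean`, helper4): `b5_exists_taylor_pmap` (Taylor polynomial maps with Cauchy bounds), `b5_three_circles` (Hadamard).

`InnerSys F r1 Bst s₁ σ`: holomorphic maps `F s u` on `ball 0 r1`, `s₁ ≤ s ≤ u`, bounded by `Bst`, and bounded by `e^{-σ u}` on `ball 0 (e^{-2 s})`, `e^{-2 s} ≤ r1`.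
-/

set_option autoImplicit false
open scoped ContDiff ComplexOrder Topology
open Filter

namespace Claimed.Agent.R316

variable {n : ℕ}

/-- transition maps with the inner bound (7.21). -/
structure InnerSys (F : ℝ → ℝ → CE (Fin n) → CE (Fin n)) (r1 Bst s₁ σ : ℝ) : Prop where
  r1_pos : 0 < r1
  s₁_nonneg : 0 ≤ s₁
  σ_pos : 0 < σ
  hol : ∀ s u : ℝ, s₁ ≤ s → s ≤ u → DifferentiableOn ℂ (F s u) (Metric.ball 0 r1)
  bdd : ∀ s u : ℝ, s₁ ≤ s → s ≤ u → ∀ z ∈ Metric.ball (0 : CE (Fin n)) r1, ‖F s u z‖ ≤ Bst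
  inner : ∀ s u : ℝ, s₁ ≤ s → s ≤ u → Real.exp (-(2 * s)) ≤ r1 ∧
    ∀ z ∈ Metric.ball (0 : CE (Fin n)) (Real.exp (-(2 * s))), ‖F s u z‖ ≤ Real.exp (-(σ * u))

variable {F : ℝ → ℝ → CE (Fin n) → CE (Fin n)} {r1 Bst s₁ σ : ℝ}

/-- **(7.18)** -/
theorem InnerSys.jets (h : InnerSys F r1 Bst s₁ σ) (d : ℕ) :
    ∃ Cd sd : ℝ, ∀ s u : ℝ, sd ≤ s → s ≤ u → ∃ J : PMap n, J.deg ≤ d ∧
      J.cnorm ≤ Cd * min 1 (Real.exp (Cd * s - σ * u)) ∧
      (fun z => F s u z - J.ev z) =O[𝓝 0] fun z => ‖z‖ ^ (d + 1) := by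
  obtain ⟨C, hC, hT⟩ := b5_exists_taylor_pmap n d
  set C₁ : ℝ := C * Bst / (min r1 1) ^ d with hC₁
  set Cd : ℝ := max (max C₁ C) (2 * d) with hCd
  have hCd0 : 0 ≤ Cd := hC.trans ((le_max_right _ _).trans (le_max_left _ _))
  refine ⟨Cd, s₁, fun s u hs hsu => ?_⟩
  obtain ⟨J, hdeg, hO, hbd⟩ := hT (F s u) r1 h.r1_pos (h.hol s u hs hsu)
  refine ⟨J, hdeg, ?_, hO⟩
  have hs0 : 0 ≤ s := h.s₁_nonneg.trans hs
  rw [mul_min_of_nonneg _ _ hCd0, mul_one]
  refine le_min ?_ ?_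
  · have h1 := hbd (min r1 1) Bst (lt_min h.r1_pos one_pos) (min_le_left _ _) (min_le_right _ _)
      (fun z hz => h.bdd s u hs hsu z (Metric.ball_subset_ball (min_le_left _ _) hz))
    exact h1.trans ((le_max_left _ _).trans (le_max_left _ _))
  · obtain ⟨hle, hin⟩ := h.inner s u hs hsu
    have h1 := hbd (Real.exp (-(2 * s))) (Real.exp (-(σ * u))) (Real.exp_pos _) hle
      (Real.exp_le_one_iff.2 (by linarith)) hin
    have e1 : C * Real.exp (-(σ * u)) / Real.exp (-(2 * s)) ^ d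
        = C * Real.exp (2 * d * s - σ * u) := by
      rw [← Real.exp_nat_mul, mul_div_assoc, ← Real.exp_sub]
      congr 2
      ring
    rw [e1] at h1
    refine h1.trans ?_
    have h2 : Real.exp (2 * d * s - σ * u) ≤ Real.exp (Cd * s - σ * u) := by
      apply Real.exp_le_exp.2
      have : (2 * d : ℝ) ≤ Cd := le_max_right _ _
      nlinarith
    have h3 : C ≤ Cd := (le_max_right _ _).trans (le_max_left _ _)
    exact mul_le_mul h3 h2 (Real.exp_pos _).le hCd0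

/-- **(7.19)** with `cγ = σ / 8`, `γ0 = 1`. -/
theorem InnerSys.small (h : InnerSys F r1 Bst s₁ σ) (γ : ℝ) (hγ : 0 < γ) (hγ1 : γ ≤ 1) :
    ∃ sγ : ℝ, ∀ s u : ℝ, sγ ≤ s → s ≤ u → ∀ z : CE (Fin n), ‖z‖ ≤ Real.exp (-(γ * s)) →
      ‖F s u z‖ ≤ Real.exp (-(σ / 8 * γ * u)) := by
  have hσ := h.σ_pos
  set B : ℝ := max Bst 1 with hB
  have hB1 : 1 ≤ B := le_max_right _ _
  have hB0 : 0 < B := by linarith
  set ℓ : ℝ := |Real.log r1| with hℓ
  have hℓ0 : 0 ≤ ℓ := abs_nonneg _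
  refine ⟨max s₁ (max ((2 * ℓ + 1) / γ) (8 * Real.log B / (σ * γ))), fun s u hs hsu z hz => ?_⟩
  have hs1 : s₁ ≤ s := (le_max_left _ _).trans hs
  have hs2 : 2 * ℓ + 1 ≤ γ * s := by
    have := ((le_max_left _ _).trans (le_max_right _ _)).trans hs
    rw [div_le_iff₀ hγ] at this
    linarith
  have hs3 : 8 * Real.log B ≤ σ * γ * s := by
    have := ((le_max_right _ _).trans (le_max_right _ _)).trans hs
    rw [div_le_iff₀ (by positivity)] at this
    linarith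
  have hs0 : 0 ≤ s := h.s₁_nonneg.trans hs1
  have hl1 : -ℓ ≤ Real.log r1 := neg_abs_le _
  have hl2 : Real.log r1 ≤ ℓ := le_abs_self _
  obtain ⟨-, hin⟩ := h.inner s u hs1 hsu
  have hr : Real.exp (-(2 * s)) ≤ Real.exp (-(γ * s)) := Real.exp_le_exp.2 (by nlinarith)
  have hR : Real.exp (-(γ * s)) < r1 := by
    rw [← Real.lt_log_iff_exp_lt h.r1_pos]
    linarith
  have key := b5_three_circles (f := F s u) (Real.exp_pos (-(2 * s))) hr hR
    (Real.exp_pos (-(σ * u))) hB0 (h.hol s u hs1 hsu) hin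
    (fun z hz => (h.bdd s u hs1 hsu z hz).trans (le_max_left _ _)) z hz
  have e1 : Real.log (r1 / Real.exp (-(γ * s))) = Real.log r1 + γ * s := by
    rw [Real.log_div h.r1_pos.ne' (Real.exp_pos _).ne', Real.log_exp]
    ring
  have e2 : Real.log (r1 / Real.exp (-(2 * s))) = Real.log r1 + 2 * s := by
    rw [Real.log_div h.r1_pos.ne' (Real.exp_pos _).ne', Real.log_exp]
    ring
  rw [e1, e2] at key
  set θ : ℝ := (Real.log r1 + γ * s) / (Real.log r1 + 2 * s) with hθ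
  have hden : 0 < Real.log r1 + 2 * s := by nlinarith
  have hθ1 : γ / 4 ≤ θ := by
    rw [hθ, le_div_iff₀ hden]
    nlinarith
  have hθ0 : 0 ≤ θ := le_trans (by positivity) hθ1
  have hm1 : Real.exp (-(σ * u)) ≤ 1 := Real.exp_le_one_iff.2 (by nlinarith)
  have k1 : Real.exp (-(σ * u)) ^ θ ≤ Real.exp (-(σ * u)) ^ (γ / 4) :=
    Real.rpow_le_rpow_of_exponent_ge (Real.exp_pos _) hm1 hθ1
  have k2 : Real.exp (-(σ * u)) ^ (γ / 4) = Real.exp (-(σ * u) * (γ / 4)) := by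
    rw [← Real.exp_mul]
  have k3 : B ^ (1 - θ) ≤ B := by
    calc B ^ (1 - θ) ≤ B ^ (1 : ℝ) := Real.rpow_le_rpow_of_exponent_le hB1 (by linarith)
      _ = B := Real.rpow_one _
  have k4 : B ≤ Real.exp (σ * γ * u / 8) := by
    rw [← Real.log_le_iff_le_exp hB0]
    have : σ * γ * s ≤ σ * γ * u := mul_le_mul_of_nonneg_left hsu (by positivity)
    linarith
  calc ‖F s u z‖ ≤ Real.exp (-(σ * u)) ^ θ * B ^ (1 - θ) := key
    _ ≤ Real.exp (-(σ * u) * (γ / 4)) * Real.exp (σ * γ * u / 8) := by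
        rw [← k2]
        exact mul_le_mul k1 (k3.trans k4) (Real.rpow_nonneg hB0.le _)
          (Real.rpow_nonneg (Real.exp_pos _).le _)
    _ = Real.exp (-(σ / 8 * γ * u)) := by
        rw [← Real.exp_add]
        congr 1
        ring

end Claimed.Agent.R316
end
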