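/- Packed by merge_tool.py (helper293): 7 modules of Claimed.Agent.R316 in one file, same declarations.
   Old modules, in this order: B13.Prox, B13.AlekKey, B13.Exp2, B13.Alek, B13.Jensen, B13.InfConv, B13.Contact -/
import Claimed.Agent.R316.Pack011

/- ===== packed: Claimed.Agent.R316.B13.Prox ===== -/
section
/-!
# B13-2: subgradients and the proximal map of a finite convex function (leaf, ~500 lines, Mathlib only)

The claimer owns this file: replace the `sorry`s IN PLACE, keep the statements (problems: msg helper126).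
Auxiliary lemmas: prefix `subG_` / `prox_`.

`f : E → ℝ` is convex on the whole finite dimensional space, hence continuous and locally Lipschitz
(`ConvexOn.locallyLipschitz`, `ConvexOn.continuousOn isOpen_univ`).

PROOFS.
* `subG_monotone`: add the two subgradient inequalities.
* `subG_segment`: convex combination of the two inequalities.
* `subG_bounded`: `f` is bounded on the compact ball `B(x,2)` by `|f| ≤ m`; if `p' ≠ 0` test with `y = x' + p'/‖p'‖`:
  `‖p'‖ ≤ f y - f x' ≤ 2 m`.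
* `subG_closed`: pass to the limit in the inequality (continuity of `f` and of the inner product).
* `prox_exists`: minimise `φ z = f z + ½ ‖z - y‖²`.  Coercivity WITHOUT subgradients: let `m` be the minimum of `f` on the unit sphere
  around `y`; convexity on the segment `[y, z]`, `R = ‖z - y‖ ≥ 1`, gives `f z ≥ f y + R (m - f y)`, so `φ z > φ y` for `R` large;
  `φ` has a minimum on a closed ball, which is a global minimum `x`.  First variation: for `z`, `0 < t ≤ 1`,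
  `φ (x + t (z - x)) ≥ φ x` and convexity give `f z - f x + ⟪x - y, z - x⟫ + (t/2) ‖z - x‖² ≥ 0`; let `t → 0`.
* `subG_exists`: EITHER Hahn-Banach for the open convex set `{(z,r) | f z < r} ⊆ E × ℝ` and the point `(x, f x)`
  (`geometric_hahn_banach_open_point`), OR from `prox_exists` applied to `λ f`: `x_λ` with `(x - x_λ)/λ ∈ ∂f(x_λ)`;
  `x_λ → x`, the subgradients are bounded (`subG_bounded`), take a cluster point and use `subG_closed`.
* `prox_unique`: `subG_monotone` with `p = y - x`, `p' = y - x'` gives `-‖x - x'‖² ≥ 0`.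
* `prox_lipschitz`: `‖y - y'‖² = ‖x - x'‖² + 2 ⟪x - x', p - p'⟫ + ‖p - p'‖² ≥ ‖x - x'‖²`.
-/

set_option autoImplicit false

open scoped Topology RealInnerProductSpace
open Filter Set

namespace Claimed.Agent.R316.B13

variable {E : Type*} [NormedAddCommGroup E] [InnerProductSpace ℝ E]

theorem subG_monotone {f : E → ℝ} {x x' p p' : E} (h : SubG f x p) (h' : SubG f x' p') :
    0 ≤ ⟪p - p', x - x'⟫ := by
  have h1 := h x'
  have h2 := h' x
  have e : ⟪p - p', x - x'⟫ = -⟪p, x' - x⟫ - ⟪p', x - x'⟫ := by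
    rw [inner_sub_left, ← neg_sub x' x, inner_neg_right, inner_neg_right]
  rw [e]
  linarith

theorem subG_segment {f : E → ℝ} {x p p' : E} (h : SubG f x p) (h' : SubG f x p') {s : ℝ}
    (h0 : 0 ≤ s) (h1 : s ≤ 1) : SubG f x (p + s • (p' - p)) := by
  intro y
  have a := h y
  have b := h' y
  have e : ⟪p + s • (p' - p), y - x⟫ = (1 - s) * ⟪p, y - x⟫ + s * ⟪p', y - x⟫ := by
    rw [inner_add_left, real_inner_smul_left, inner_sub_left]
    ring
  rw [e]
  nlinarith [mul_le_mul_of_nonneg_left a (sub_nonneg.2 h1), mul_le_mul_of_nonneg_left b h0]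

theorem subG_closed {f : E → ℝ} (hc : Continuous f) {α : Type*} {l : Filter α} [l.NeBot]
    {X P : α → E} {x p : E} (hX : Tendsto X l (𝓝 x)) (hP : Tendsto P l (𝓝 p))
    (h : ∀ᶠ a in l, SubG f (X a) (P a)) : SubG f x p := by
  intro y
  have t1 : Tendsto (fun a => f (X a) + ⟪P a, y - X a⟫) l (𝓝 (f x + ⟪p, y - x⟫)) :=
    ((hc.tendsto x).comp hX).add (hP.inner (tendsto_const_nhds.sub hX))
  exact le_of_tendsto t1 (h.mono fun a ha => ha y)

theorem prox_unique {f : E → ℝ} {x x' y : E} (h : SubG f x (y - x)) (h' : SubG f x' (y - x')) :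
    x = x' := by
  have h1 := subG_monotone h h'
  have e : ⟪y - x - (y - x'), x - x'⟫ = -‖x - x'‖ ^ 2 := by
    rw [← real_inner_self_eq_norm_sq, ← inner_neg_left]
    congr 1
    abel
  rw [e] at h1
  have h2 : ‖x - x'‖ ^ 2 = 0 := le_antisymm (by linarith) (sq_nonneg _)
  exact sub_eq_zero.1 (norm_eq_zero.1 (pow_eq_zero_iff (two_ne_zero)|>.1 h2))

variable [FiniteDimensional ℝ E]

theorem subG_continuous {f : E → ℝ} (hf : ConvexOn ℝ univ f) : Continuous f := by
  exact continuousOn_univ.1 (hf.continuousOn isOpen_univ)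

theorem subG_bounded {f : E → ℝ} (hf : ConvexOn ℝ univ f) (x : E) :
    ∃ L : ℝ, ∀ x' p', ‖x' - x‖ ≤ 1 → SubG f x' p' → ‖p'‖ ≤ L := by
  have hc := subG_continuous hf
  obtain ⟨m, hm⟩ := (isCompact_closedBall x 2).exists_bound_of_continuousOn hc.continuousOn
  refine ⟨2 * m, fun x' p' hx' hp' => ?_⟩
  have hm0 : 0 ≤ m := (norm_nonneg _).trans (hm x (Metric.mem_closedBall_self (by norm_num)))
  by_cases hp0 : p' = 0
  · rw [hp0, norm_zero]
    positivity
  have hn : 0 < ‖p'‖ := norm_pos_iff.2 hp0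
  have h1 := hp' (x' + (‖p'‖⁻¹) • p')
  have e : ⟪p', x' + (‖p'‖⁻¹) • p' - x'⟫ = ‖p'‖ := by
    rw [add_sub_cancel_left, real_inner_smul_right, real_inner_self_eq_norm_sq]
    field_simp
  rw [e] at h1
  have hx2 : x' ∈ Metric.closedBall x 2 := by
    rw [mem_closedBall_iff_norm]
    linarith
  have hy2 : x' + (‖p'‖⁻¹) • p' ∈ Metric.closedBall x 2 := by
    rw [mem_closedBall_iff_norm]
    have e2 : x' + (‖p'‖⁻¹) • p' - x = (x' - x) + (‖p'‖⁻¹) • p' := by abel
    have e3 : ‖(‖p'‖⁻¹) • p'‖ = 1 := by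
      rw [norm_smul, norm_inv, norm_norm, inv_mul_cancel₀ hn.ne']
    rw [e2]
    refine (norm_add_le _ _).trans ?_
    rw [e3]
    linarith
  have a1 := hm _ hx2
  have a2 := hm _ hy2
  rw [Real.norm_eq_abs] at a1 a2
  have b1 := neg_abs_le (f x')
  have b2 := le_abs_self (f (x' + (‖p'‖⁻¹) • p'))
  linarith

/-- existence of subgradients by Hahn-Banach for the strict epigraph. -/
theorem subG_exists_aux {f : E → ℝ} (hf : ConvexOn ℝ univ f) (x : E) : ∃ p, SubG f x p := by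
  have hc := subG_continuous hf
  have hconv : Convex ℝ {q : E × ℝ | q.1 ∈ (univ : Set E) ∧ f q.1 < q.2} :=
    hf.convex_strict_epigraph
  have hopen : IsOpen {q : E × ℝ | q.1 ∈ (univ : Set E) ∧ f q.1 < q.2} := by
    simp only [mem_univ, true_and]
    exact isOpen_lt (hc.comp continuous_fst) continuous_snd
  have hnot : ((x, f x) : E × ℝ) ∉ {q : E × ℝ | q.1 ∈ (univ : Set E) ∧ f q.1 < q.2} := by
    simp
  obtain ⟨l, hl⟩ := geometric_hahn_banach_open_point hconv hopen hnot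
  set c : ℝ := l (0, 1) with hcdef
  set l1 : E →L[ℝ] ℝ := l.comp (ContinuousLinearMap.inl ℝ E ℝ) with hl1
  have hsplit : ∀ (z : E) (r : ℝ), l (z, r) = l1 z + r * c := by
    intro z r
    have e : ((z, r) : E × ℝ) = (z, 0) + r • ((0 : E), (1 : ℝ)) := by
      ext <;> simp
    rw [e, map_add, map_smul]
    simp [hl1, hcdef]
  have hc0 : c < 0 := by
    have h1 := hl (x, f x + 1) ⟨mem_univ _, by simp⟩
    rw [hsplit, hsplit] at h1
    linarith
  have key : ∀ z, l1 z + f z * c ≤ l1 x + f x * c := by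
    intro z
    refine le_of_forall_pos_le_add fun ε hε => ?_
    have h1 := hl (z, f z + ε / (-c)) ⟨mem_univ _, by
      have : 0 < ε / (-c) := div_pos hε (neg_pos.2 hc0)
      simpa using this⟩
    rw [hsplit, hsplit] at h1
    have e : ε / (-c) * c = -ε := by
      rw [div_neg, neg_mul, div_mul_cancel₀ _ hc0.ne]
    nlinarith
  refine ⟨((-c)⁻¹) • (InnerProductSpace.toDual ℝ E).symm l1, fun z => ?_⟩
  rw [real_inner_smul_left, InnerProductSpace.toDual_symm_apply, map_sub]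
  have h1 := key z
  have hc1 : 0 < -c := neg_pos.2 hc0
  have e : f x + (-c)⁻¹ * (l1 z - l1 x) ≤ f z ↔ (l1 z - l1 x) ≤ (f z - f x) * (-c) := by
    rw [← le_sub_iff_add_le', inv_mul_le_iff₀ hc1, mul_comm]
  rw [e]
  linarith

theorem prox_limit_aux {a c : ℝ} (hc : 0 ≤ c) (h : ∀ t : ℝ, 0 < t → t ≤ 1 → a ≤ t * c) :
    a ≤ 0 := by
  by_contra ha
  push Not at ha
  have hpos : 0 < a / (2 * (c + 1)) := by positivity
  have h1 := h (min 1 (a / (2 * (c + 1)))) (lt_min one_pos hpos) (min_le_left _ _)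
  have h2 : min 1 (a / (2 * (c + 1))) * c ≤ a / (2 * (c + 1)) * c :=
    mul_le_mul_of_nonneg_right (min_le_right _ _) hc
  have h3 : a / (2 * (c + 1)) * c ≤ a / 2 := by
    rw [div_mul_eq_mul_div, div_le_div_iff₀ (by positivity) (by positivity)]
    nlinarith
  linarith

theorem prox_exists {f : E → ℝ} (hf : ConvexOn ℝ univ f) (y : E) : ∃ x, SubG f x (y - x) := by
  have hc := subG_continuous hf
  obtain ⟨p, hp⟩ := subG_exists_aux hf y
  set φ : E → ℝ := fun z => f z + (1 / 2) * ‖z - y‖ ^ 2 with hφ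
  have hφc : Continuous φ := by
    rw [hφ]
    fun_prop
  have hne : (Metric.closedBall y (2 * ‖p‖ + 1)).Nonempty :=
    ⟨y, Metric.mem_closedBall_self (by positivity)⟩
  obtain ⟨x, hxB, hxmin⟩ :=
    (isCompact_closedBall y (2 * ‖p‖ + 1)).exists_isMinOn hne hφc.continuousOn
  have hglob : ∀ z, φ x ≤ φ z := by
    intro z
    by_cases hz : z ∈ Metric.closedBall y (2 * ‖p‖ + 1)
    · exact hxmin hz
    · have h1 : φ x ≤ φ y := hxmin (Metric.mem_closedBall_self (by positivity))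
      have h2 : φ y = f y := by simp [hφ]
      rw [mem_closedBall_iff_norm, not_le] at hz
      have h3 := hp z
      have h4 : -(‖p‖ * ‖z - y‖) ≤ ⟪p, z - y⟫ := by
        have := abs_real_inner_le_norm p (z - y)
        have := neg_abs_le ⟪p, z - y⟫
        linarith
      have h5 : f y ≤ φ z := by
        show f y ≤ f z + (1 / 2) * ‖z - y‖ ^ 2
        nlinarith [norm_nonneg p, norm_nonneg (z - y)]
      linarith
  refine ⟨x, fun z => ?_⟩
  have hlim : f x + ⟪y - x, z - x⟫ - f z ≤ 0 := by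
    refine prox_limit_aux (c := (1 / 2) * ‖z - x‖ ^ 2) (by positivity) fun t ht0 ht1 => ?_
    have h1 := hglob (x + t • (z - x))
    have h2 : f (x + t • (z - x)) ≤ (1 - t) * f x + t * f z := by
      have := hf.2 (mem_univ x) (mem_univ z) (sub_nonneg.2 ht1) ht0.le (by ring)
      have e : (1 - t) • x + t • z = x + t • (z - x) := by
        rw [sub_smul, one_smul, smul_sub]
        abel
      rw [e] at this
      simpa using this
    have h3 : ‖x + t • (z - x) - y‖ ^ 2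
        = ‖x - y‖ ^ 2 + 2 * (t * ⟪x - y, z - x⟫) + t ^ 2 * ‖z - x‖ ^ 2 := by
      have e : x + t • (z - x) - y = (x - y) + t • (z - x) := by abel
      rw [e, norm_add_sq_real, real_inner_smul_right, norm_smul, mul_pow, Real.norm_eq_abs,
        sq_abs]
    have h4 : ⟪y - x, z - x⟫ = -⟪x - y, z - x⟫ := by
      rw [← inner_neg_left, neg_sub]
    have h5 : f x + (1 / 2) * ‖x - y‖ ^ 2
        ≤ f (x + t • (z - x)) + (1 / 2) * ‖x + t • (z - x) - y‖ ^ 2 := h1
    rw [h3] at h5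
    rw [h4]
    have h6 : 0 ≤ t * (f z - f x + ⟪x - y, z - x⟫ + t * ((1 / 2) * ‖z - x‖ ^ 2)) := by
      nlinarith
    have h7 := nonneg_of_mul_nonneg_right h6 ht0
    linarith
  linarith

theorem subG_exists {f : E → ℝ} (hf : ConvexOn ℝ univ f) (x : E) : ∃ p, SubG f x p := by
  exact subG_exists_aux hf x

theorem prox_spec {f : E → ℝ} (hf : ConvexOn ℝ univ f) (y : E) :
    SubG f (prox f y) (y - prox f y) := by
  exact Classical.epsilon_spec (p := fun x => SubG f x (y - x)) (prox_exists hf y)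

theorem prox_eq {f : E → ℝ} (hf : ConvexOn ℝ univ f) {x p : E} (h : SubG f x p) :
    prox f (x + p) = x := by
  refine prox_unique (prox_spec hf (x + p)) ?_
  rwa [add_sub_cancel_left]

theorem prox_lipschitz {f : E → ℝ} (hf : ConvexOn ℝ univ f) : LipschitzWith 1 (prox f) := by
  refine LipschitzWith.of_dist_le_mul fun y y' => ?_
  rw [NNReal.coe_one, one_mul, dist_eq_norm, dist_eq_norm]
  have h1 := subG_monotone (prox_spec hf y) (prox_spec hf y')
  have e : y - y' = (prox f y - prox f y') + ((y - prox f y) - (y' - prox f y')) := by abel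
  have h2 : ‖y - y'‖ ^ 2 = ‖prox f y - prox f y'‖ ^ 2
      + 2 * ⟪prox f y - prox f y', (y - prox f y) - (y' - prox f y')⟫
      + ‖(y - prox f y) - (y' - prox f y')‖ ^ 2 := by
    conv_lhs => rw [e]
    exact norm_add_sq_real _ _
  rw [real_inner_comm] at h2
  have h3 : ‖prox f y - prox f y'‖ ^ 2 ≤ ‖y - y'‖ ^ 2 := by
    nlinarith [sq_nonneg ‖(y - prox f y) - (y' - prox f y')‖]
  exact (pow_le_pow_iff_left₀ (norm_nonneg _) (norm_nonneg _) two_ne_zero).1 h3

end Claimed.Agent.R316.B13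
end

/- ===== packed: Claimed.Agent.R316.B13.AlekKey ===== -/
section
/-!
# B13-3: the deterministic core of Aleksandrov's theorem (leaf, ~500 lines, Mathlib + statements of Prox.lean)

The claimer owns this file: replace the `sorry`s IN PLACE, keep the statements (problems: msg helper126).
Auxiliary lemmas: prefix `alek_`.  All statements of `Prox.lean` may be used.

Route: R. Howard's notes / Crandall-Ishii-Lions App. A via the resolvent `J = prox f = (1 + ∂f)⁻¹` (1-Lipschitz).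

* `alek_tendsto`.  `y = x + p`, `J y = x`.  By contradiction: there are `x'_k → x`, `p'_k ∈ ∂f(x'_k)` with `‖p'_k - p‖ ≥ η`.  The `p'_k` are bounded
  (`subG_bounded`), so a subsequence converges to `p'' ≠ p` (`tendsto_subseq_of_bounded` / `IsCompact.tendsto_subseq` in the proper space `E`),
  `p'' ∈ ∂f(x)` (`subG_closed`).  By `subG_segment` and `prox_eq`, `J (y + s (p'' - p)) = x` for `0 ≤ s ≤ 1`, so the derivative of `J` at `y` in the direction
  `p'' - p` vanishes (`HasFDerivAt.lim` / `hasFDerivAt_iff_isLittleO`): `T (p'' - p) = 0`, contradiction with injectivity.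
* `alek_subGDiff`.  `y' = x' + p'`, `J y' = x'`.  Given `ε' > 0` there is `δ'` with `‖J y' - J y - T (y' - y)‖ ≤ ε' ‖y' - y‖` for `‖y' - y‖ < δ'`;
  `alek_tendsto` makes `‖y' - y‖ < δ'`.  With `C = ‖T⁻¹‖`: `‖y' - y‖ ≤ C (‖x' - x‖ + ε' ‖y' - y‖)`, so `‖y' - y‖ ≤ 2 C ‖x' - x‖` if `C ε' ≤ ½`, and
  `‖(y' - y) - T⁻¹ (x' - x)‖ ≤ C ε' ‖y' - y‖ ≤ 2 C² ε' ‖x' - x‖`.  Finally `p' - p = (y' - y) - (x' - x)`.
* `alek_exp2`.  Fix `ε`, `δ` from `SubGDiff`, `‖h‖ < δ`, `n ≥ 1` with `‖A‖ / (2 n) ≤ ε`.  `x_k = x + (k/n) h`, `p_k ∈ ∂f(x_k)` (`subG_exists`), `p_k = p + (k/n) A h + e_k`,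
  `‖e_k‖ ≤ ε ‖h‖`.  `⟪p_k, h/n⟫ ≤ f x_{k+1} - f x_k ≤ ⟪p_{k+1}, h/n⟫`.  Summation (`Finset.sum_range_sub`, `∑_{k<n} k = n (n-1)/2`):
  `|f (x+h) - f x - ⟪p,h⟫ - ½ ⟪A h,h⟫| ≤ (ε + ‖A‖/(2n)) ‖h‖² ≤ 2 ε ‖h‖²`.  Conclude with `Asymptotics.isLittleO_iff`.
-/

set_option autoImplicit false

open scoped Topology RealInnerProductSpace
open Filter Set

namespace Claimed.Agent.R316.B13

variable {E : Type*} [NormedAddCommGroup E] [InnerProductSpace ℝ E] [FiniteDimensional ℝ E]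

theorem alek_tendsto {f : E → ℝ} (hf : ConvexOn ℝ univ f) {x p : E} (hp : SubG f x p)
    {T : E →L[ℝ] E} (hT : HasFDerivAt (prox f) T (x + p)) (hinj : Function.Injective T) :
    ∀ η > 0, ∃ δ > 0, ∀ x' p', ‖x' - x‖ < δ → SubG f x' p' → ‖p' - p‖ < η := by
  intro η hη
  by_contra hcon
  push Not at hcon
  have hseq : ∀ n : ℕ, ∃ q : E × E,
      ‖q.1 - x‖ < 1 / ((n : ℝ) + 1) ∧ SubG f q.1 q.2 ∧ η ≤ ‖q.2 - p‖ := by
    intro n
    obtain ⟨x', p', h1, h2, h3⟩ := hcon (1 / ((n : ℝ) + 1)) (by positivity)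
    exact ⟨(x', p'), h1, h2, h3⟩
  choose q hq1 hq2 hq3 using hseq
  obtain ⟨L, hL⟩ := subG_bounded hf x
  have hbd : ∀ n, (q n).2 ∈ Metric.closedBall (0 : E) L := by
    intro n
    rw [mem_closedBall_zero_iff]
    refine hL _ _ ?_ (hq2 n)
    refine (hq1 n).le.trans ?_
    rw [div_le_one (by positivity)]
    linarith [(Nat.cast_nonneg n : (0 : ℝ) ≤ n)]
  obtain ⟨p'', -, φ, hφ, hlim⟩ := (isCompact_closedBall (0 : E) L).tendsto_subseq hbd
  have hX : Tendsto (fun n => (q (φ n)).1) atTop (𝓝 x) := by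
    have h0 : Tendsto (fun n => (q n).1) atTop (𝓝 x) := by
      rw [tendsto_iff_norm_sub_tendsto_zero]
      exact squeeze_zero (fun n => norm_nonneg _) (fun n => (hq1 n).le)
        tendsto_one_div_add_atTop_nhds_zero_nat
    exact h0.comp hφ.tendsto_atTop
  have hp'' : SubG f x p'' :=
    subG_closed (subG_continuous hf) hX hlim (Eventually.of_forall fun n => hq2 _)
  have hne : η ≤ ‖p'' - p‖ :=
    ge_of_tendsto' ((hlim.sub_const p).norm) (fun n => hq3 _)
  have hJ : ∀ s : ℝ, 0 ≤ s → s ≤ 1 → prox f (x + p + s • (p'' - p)) = x := by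
    intro s h0 h1
    rw [add_assoc]
    exact prox_eq hf (subG_segment hp hp'' h0 h1)
  have hline : HasDerivAt (fun s : ℝ => prox f (x + p + s • (p'' - p))) (T (p'' - p)) 0 :=
    hT.hasLineDerivAt (p'' - p)
  have h1 : HasDerivWithinAt (fun s : ℝ => prox f (x + p + s • (p'' - p))) (T (p'' - p))
      (Icc 0 1) 0 := hline.hasDerivWithinAt
  have h2 : HasDerivWithinAt (fun s : ℝ => prox f (x + p + s • (p'' - p))) 0 (Icc 0 1) 0 :=
    (hasDerivWithinAt_const (0 : ℝ) (Icc 0 1) x).congr (fun s hs => hJ s hs.1 hs.2)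
      (hJ 0 le_rfl zero_le_one)
  have h3 : T (p'' - p) = 0 :=
    (uniqueDiffOn_Icc (zero_lt_one' ℝ) 0 ⟨le_rfl, zero_le_one⟩).eq_deriv _ h1 h2
  have h4 : p'' - p = 0 := hinj (by rw [h3, map_zero])
  rw [h4, norm_zero] at hne
  linarith

theorem alek_subGDiff {f : E → ℝ} (hf : ConvexOn ℝ univ f) {x p : E} (hp : SubG f x p)
    {T : E ≃L[ℝ] E} (hT : HasFDerivAt (prox f) (T : E →L[ℝ] E) (x + p)) :
    SubGDiff f x p ((T.symm : E →L[ℝ] E) - ContinuousLinearMap.id ℝ E) := by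
  intro ε hε
  set C : ℝ := ‖(T.symm : E →L[ℝ] E)‖ + 1 with hC
  have hCpos : 0 < C := by positivity
  have hCb : ∀ v, ‖T.symm v‖ ≤ C * ‖v‖ := fun v =>
    ((T.symm : E →L[ℝ] E).le_opNorm v).trans
      (mul_le_mul_of_nonneg_right (by linarith) (norm_nonneg v))
  set ε' : ℝ := min (1 / (2 * C)) (ε / (2 * C ^ 2)) with hε'
  have hε'pos : 0 < ε' := by positivity
  have h1 : C * ε' ≤ 1 / 2 := by
    calc C * ε' ≤ C * (1 / (2 * C)) := by gcongr; exact min_le_left _ _
      _ = 1 / 2 := by field_simp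
  have h2 : 2 * C ^ 2 * ε' ≤ ε := by
    calc 2 * C ^ 2 * ε' ≤ 2 * C ^ 2 * (ε / (2 * C ^ 2)) := by gcongr; exact min_le_right _ _
      _ = ε := by field_simp
  have hlo := (hasFDerivAt_iff_isLittleO_nhds_zero.1 hT).bound hε'pos
  obtain ⟨δ', hδ', hball⟩ := Metric.eventually_nhds_iff_ball.1 hlo
  obtain ⟨δ₁, hδ₁, htend⟩ := alek_tendsto hf hp hT T.injective (δ' / 2) (by positivity)
  refine ⟨min δ₁ (δ' / 2), by positivity, fun x' p' hx' hp' => ?_⟩
  have hx1 : ‖x' - x‖ < δ₁ := lt_of_lt_of_le hx' (min_le_left _ _)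
  have hx2 : ‖x' - x‖ < δ' / 2 := lt_of_lt_of_le hx' (min_le_right _ _)
  have hpp := htend x' p' hx1 hp'
  set k : E := (x' - x) + (p' - p) with hk
  have hknorm : ‖k‖ < δ' := by
    calc ‖k‖ ≤ ‖x' - x‖ + ‖p' - p‖ := norm_add_le _ _
      _ < δ' / 2 + δ' / 2 := add_lt_add hx2 hpp
      _ = δ' := by ring
  have hb := hball k (by rwa [mem_ball_zero_iff])
  have e1 : x + p + k = x' + p' := by rw [hk]; abel
  rw [e1, prox_eq hf hp', prox_eq hf hp] at hb
  have e2 : k - T.symm (x' - x) = - T.symm (x' - x - T k) := by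
    rw [map_sub T.symm (x' - x) (T k), ContinuousLinearEquiv.symm_apply_apply]
    abel
  have hk1 : ‖k - T.symm (x' - x)‖ ≤ C * (ε' * ‖k‖) := by
    rw [e2, norm_neg]
    exact (hCb _).trans (mul_le_mul_of_nonneg_left hb hCpos.le)
  have hk2 : ‖k‖ ≤ 2 * C * ‖x' - x‖ := by
    have h3 : ‖k‖ ≤ ‖k - T.symm (x' - x)‖ + ‖T.symm (x' - x)‖ := by
      simpa using norm_add_le (k - T.symm (x' - x)) (T.symm (x' - x))
    have h4 := hCb (x' - x)
    have h5 : C * (ε' * ‖k‖) ≤ 1 / 2 * ‖k‖ := by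
      rw [← mul_assoc]
      exact mul_le_mul_of_nonneg_right h1 (norm_nonneg k)
    linarith
  have e3 : p' - p - ((T.symm : E →L[ℝ] E) - ContinuousLinearMap.id ℝ E) (x' - x)
      = k - T.symm (x' - x) := by
    rw [sub_apply, ContinuousLinearMap.id_apply, ContinuousLinearEquiv.coe_coe, hk]
    abel
  rw [e3]
  calc ‖k - T.symm (x' - x)‖ ≤ C * (ε' * ‖k‖) := hk1
    _ ≤ C * (ε' * (2 * C * ‖x' - x‖)) := by gcongr
    _ = (2 * C ^ 2 * ε') * ‖x' - x‖ := by ring
    _ ≤ ε * ‖x' - x‖ := by gcongr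

theorem alek_sum_aux (F : ℕ → ℝ) (τ c a r : ℝ) (n : ℕ)
    (hlo : ∀ k : ℕ, k < n → τ * (c + k * τ * a - r) ≤ F (k + 1) - F k)
    (hup : ∀ k : ℕ, k < n → F (k + 1) - F k ≤ τ * (c + (k + 1) * τ * a + r)) :
    ∀ k : ℕ, k ≤ n →
      (k * τ * c + a * τ ^ 2 * (k * (k - 1) / 2) - k * τ * r ≤ F k - F 0) ∧
      (F k - F 0 ≤ k * τ * c + a * τ ^ 2 * (k * (k + 1) / 2) + k * τ * r) := by
  intro k
  induction k with
  | zero => intro _; simp
  | succ k ih =>
    intro hk
    obtain ⟨h1, h2⟩ := ih (by omega)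
    have h3 := hlo k (by omega)
    have h4 := hup k (by omega)
    push_cast
    constructor
    · have e : ((k : ℝ) + 1) * τ * c + a * τ ^ 2 * (((k : ℝ) + 1) * ((k : ℝ) + 1 - 1) / 2)
            - ((k : ℝ) + 1) * τ * r
          = (k * τ * c + a * τ ^ 2 * (k * (k - 1) / 2) - k * τ * r)
            + τ * (c + k * τ * a - r) := by ring
      rw [e]; linarith
    · have e : ((k : ℝ) + 1) * τ * c + a * τ ^ 2 * (((k : ℝ) + 1) * ((k : ℝ) + 1 + 1) / 2)
            + ((k : ℝ) + 1) * τ * r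
          = (k * τ * c + a * τ ^ 2 * (k * (k + 1) / 2) + k * τ * r)
            + τ * (c + (k + 1) * τ * a + r) := by ring
      rw [e]; linarith

theorem alek_exp2 {f : E → ℝ} (hf : ConvexOn ℝ univ f) {x p : E} (hp : SubG f x p)
    {A : E →L[ℝ] E} (hA : SubGDiff f x p A) : Exp2 f x p A := by
  unfold Exp2
  rw [Asymptotics.isLittleO_iff]
  intro ε hε
  obtain ⟨δ, hδ, hd⟩ := hA (ε / 2) (by positivity)
  filter_upwards [Metric.ball_mem_nhds (0 : E) hδ] with h hh
  rw [mem_ball_zero_iff] at hh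
  obtain ⟨n, hn⟩ := exists_nat_gt (‖A‖ / ε)
  have hn0 : (0 : ℝ) < n := lt_of_le_of_lt (by positivity) hn
  set τ : ℝ := 1 / n with hτ
  have hτpos : 0 < τ := by positivity
  have hnτ : (n : ℝ) * τ = 1 := by rw [hτ]; field_simp
  have hAτ : ‖A‖ * τ ≤ ε := by
    rw [hτ, mul_one_div, div_le_iff₀ hn0]
    rw [div_lt_iff₀ hε] at hn
    linarith
  set c : ℝ := ⟪p, h⟫ with hc
  set a : ℝ := ⟪A h, h⟫ with ha
  set r : ℝ := ε / 2 * ‖h‖ ^ 2 with hr
  have hq : ∀ t : ℝ, 0 ≤ t → t ≤ 1 → ∀ q, SubG f (x + t • h) q →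
      |⟪q, h⟫ - c - t * a| ≤ r := by
    intro t ht0 ht1 q hq
    have e0 : x + t • h - x = t • h := add_sub_cancel_left _ _
    have hnorm : ‖t • h‖ ≤ ‖h‖ := by
      rw [norm_smul, Real.norm_eq_abs, abs_of_nonneg ht0]
      exact mul_le_of_le_one_left (norm_nonneg _) ht1
    have h1 := hd (x + t • h) q (by rw [e0]; exact lt_of_le_of_lt hnorm hh) hq
    rw [e0] at h1
    have e1 : ⟪q, h⟫ - c - t * a = ⟪q - p - A (t • h), h⟫ := by
      rw [inner_sub_left, inner_sub_left, map_smul, real_inner_smul_left]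
    rw [e1]
    calc |⟪q - p - A (t • h), h⟫| ≤ ‖q - p - A (t • h)‖ * ‖h‖ := abs_real_inner_le_norm _ _
      _ ≤ (ε / 2 * ‖t • h‖) * ‖h‖ := by gcongr
      _ ≤ (ε / 2 * ‖h‖) * ‖h‖ := by gcongr
      _ = r := by rw [hr]; ring
  have hstep : ∀ s t : ℝ, ∀ q, SubG f (x + t • h) q →
      (s - t) * ⟪q, h⟫ ≤ f (x + s • h) - f (x + t • h) := by
    intro s t q hq
    have h1 := hq (x + s • h)
    have e : x + s • h - (x + t • h) = (s - t) • h := by rw [sub_smul]; abel
    rw [e, real_inner_smul_right] at h1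
    linarith
  choose P hP using fun t : ℝ => subG_exists hf (x + t • h)
  have hkt : ∀ k : ℕ, k ≤ n → 0 ≤ (k : ℝ) * τ ∧ (k : ℝ) * τ ≤ 1 := by
    intro k hk
    refine ⟨by positivity, ?_⟩
    rw [← hnτ]
    exact mul_le_mul_of_nonneg_right (by exact_mod_cast hk) hτpos.le
  have hsum := alek_sum_aux (fun k : ℕ => f (x + ((k : ℝ) * τ) • h)) τ c a r n
    (by
      intro k hk
      have h1 := hstep (((k + 1 : ℕ) : ℝ) * τ) ((k : ℝ) * τ) _ (hP _)
      have h2 := hq _ (hkt k hk.le).1 (hkt k hk.le).2 _ (hP _)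
      have e : ((k + 1 : ℕ) : ℝ) * τ - (k : ℝ) * τ = τ := by push_cast; ring
      rw [e] at h1
      refine le_trans ?_ h1
      refine mul_le_mul_of_nonneg_left ?_ hτpos.le
      linarith [(abs_le.1 h2).1])
    (by
      intro k hk
      have h1 := hstep ((k : ℝ) * τ) (((k + 1 : ℕ) : ℝ) * τ) _ (hP _)
      have h2 := hq _ (hkt (k + 1) hk).1 (hkt (k + 1) hk).2 _ (hP _)
      have e : (k : ℝ) * τ - ((k + 1 : ℕ) : ℝ) * τ = -τ := by push_cast; ring
      rw [e] at h1
      have h3 : τ * ⟪P (((k + 1 : ℕ) : ℝ) * τ), h⟫ ≤ τ * (c + ((k : ℝ) + 1) * τ * a + r) := by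
        refine mul_le_mul_of_nonneg_left ?_ hτpos.le
        have h4 := (abs_le.1 h2).2
        have ec : ((k + 1 : ℕ) : ℝ) * τ * a = ((k : ℝ) + 1) * τ * a := by push_cast; ring
        rw [ec] at h4
        linarith
      linarith)
    n le_rfl
  obtain ⟨h1, h2⟩ := hsum
  simp only [Nat.cast_zero, zero_mul, zero_smul, add_zero, hnτ, one_smul, one_mul] at h1 h2
  have e1 : a * τ ^ 2 * ((n : ℝ) * ((n : ℝ) - 1) / 2) = a * (1 - τ) / 2 := by
    have : a * τ ^ 2 * ((n : ℝ) * ((n : ℝ) - 1) / 2)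
        = a * (((n : ℝ) * τ) * ((n : ℝ) * τ) - ((n : ℝ) * τ) * τ) / 2 := by ring
    rw [this, hnτ]; ring
  have e2 : a * τ ^ 2 * ((n : ℝ) * ((n : ℝ) + 1) / 2) = a * (1 + τ) / 2 := by
    have : a * τ ^ 2 * ((n : ℝ) * ((n : ℝ) + 1) / 2)
        = a * (((n : ℝ) * τ) * ((n : ℝ) * τ) + ((n : ℝ) * τ) * τ) / 2 := by ring
    rw [this, hnτ]; ring
  rw [e1] at h1
  rw [e2] at h2
  have haabs : |a| * τ ≤ ε * ‖h‖ ^ 2 := by
    have h3 : |a| ≤ ‖A‖ * ‖h‖ ^ 2 := by
      calc |a| ≤ ‖A h‖ * ‖h‖ := abs_real_inner_le_norm _ _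
        _ ≤ (‖A‖ * ‖h‖) * ‖h‖ := by gcongr; exact A.le_opNorm h
        _ = ‖A‖ * ‖h‖ ^ 2 := by ring
    calc |a| * τ ≤ (‖A‖ * ‖h‖ ^ 2) * τ := by gcongr
      _ = (‖A‖ * τ) * ‖h‖ ^ 2 := by ring
      _ ≤ ε * ‖h‖ ^ 2 := by gcongr
  have ha1 : a * τ ≤ |a| * τ := mul_le_mul_of_nonneg_right (le_abs_self a) hτpos.le
  have ha2 : -(|a| * τ) ≤ a * τ := by
    have := mul_le_mul_of_nonneg_right (neg_abs_le a) hτpos.le
    linarith
  rw [Real.norm_eq_abs, Real.norm_eq_abs, abs_of_nonneg (sq_nonneg ‖h‖), abs_le]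
  constructor
  · nlinarith
  · nlinarith

end Claimed.Agent.R316.B13
end

/- ===== packed: Claimed.Agent.R316.B13.Exp2 ===== -/
section
/-!
# B13-1: calculus of second order expansions (leaf, ~400 lines, Mathlib only)

The claimer owns this file: replace the `sorry`s IN PLACE, keep the statements (problems: msg helper126).
Auxiliary lemmas: prefix `exp2_`.

HINTS.  Everything is `IsLittleO` algebra (`IsLittleO.add`, `.const_mul_left`, `.comp_tendsto`, `.trans_isBigO`).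
* `comp_clm`: `h ↦ π h` tends to `0` at `0`, `‖π h‖² ≤ ‖π‖² ‖h‖²`, `⟪π† p, h⟫ = ⟪p, π h⟫` (`ContinuousLinearMap.adjoint_inner_left`).
* `exp2_of_contDiffAt`: `g` is `C²` near `x`, so `Dg` is differentiable at `x` and `g` is differentiable near `x`.
  `φ h = g (x+h) - g x - Dg(x) h - ½ D²g(x)(h,h)` has `Dφ(h) = Dg(x+h) - Dg(x) - D²g(x) h = o(|h|)`
  (symmetry of `D²g(x)`: `second_derivative_symmetric_of_eventually` or `ContDiffAt.isSymmSndFDerivAt`), then the mean value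
  inequality on the ball of radius `|h|` (`Convex.norm_image_sub_le_of_norm_hasFDerivWithin_le`).  `p`, `A`: Riesz
  (`InnerProductSpace.toDual`), e.g. `A h := (toDual ℝ E).symm (D²g(x) h)`.
* local minimum: test with `h = - s p`, resp. `h = s v`, `s → 0+`.
-/

set_option autoImplicit false

open scoped Topology RealInnerProductSpace
open Filter Asymptotics Set

namespace Claimed.Agent.R316.B13

variable {E : Type*} [NormedAddCommGroup E] [InnerProductSpace ℝ E]
variable {F : Type*} [NormedAddCommGroup F] [InnerProductSpace ℝ F]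

theorem Exp2.congr_quad {f : E → ℝ} {x p : E} {A A' : E →L[ℝ] E} (h : Exp2 f x p A)
    (hA : ∀ v, ⟪A' v, v⟫ = ⟪A v, v⟫) : Exp2 f x p A' := by
  unfold Exp2 at *
  exact h.congr_left fun v => by rw [hA]

theorem Exp2.congr_fun {f g : E → ℝ} {x p : E} {A : E →L[ℝ] E} (h : Exp2 f x p A)
    (hfg : f =ᶠ[𝓝 x] g) : Exp2 g x p A := by
  unfold Exp2 at *
  have ht : Tendsto (fun v : E => x + v) (𝓝 0) (𝓝 x) :=
    (continuous_const.add continuous_id).tendsto' 0 x (add_zero x)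
  have h1 : ∀ᶠ v in 𝓝 (0 : E), f (x + v) = g (x + v) := ht.eventually hfg
  refine h.congr' ?_ EventuallyEq.rfl
  filter_upwards [h1] with v hv
  rw [hv, hfg.self_of_nhds]

theorem Exp2.add {f g : E → ℝ} {x p p' : E} {A A' : E →L[ℝ] E} (h : Exp2 f x p A)
    (h' : Exp2 g x p' A') : Exp2 (fun z => f z + g z) x (p + p') (A + A') := by
  unfold Exp2 at *
  refine (h.add h').congr_left fun v => ?_
  rw [inner_add_left, add_apply, inner_add_left]
  ring

theorem Exp2.const_mul {f : E → ℝ} {x p : E} {A : E →L[ℝ] E} (h : Exp2 f x p A) (c : ℝ) :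
    Exp2 (fun z => c * f z) x (c • p) (c • A) := by
  unfold Exp2 at *
  refine (h.const_mul_left c).congr_left fun v => ?_
  rw [real_inner_smul_left, smul_apply, real_inner_smul_left]
  ring

theorem Exp2.sub {f g : E → ℝ} {x p p' : E} {A A' : E →L[ℝ] E} (h : Exp2 f x p A)
    (h' : Exp2 g x p' A') : Exp2 (fun z => f z - g z) x (p - p') (A - A') := by
  unfold Exp2 at *
  refine (h.sub h').congr_left fun v => ?_
  rw [inner_sub_left, sub_apply, inner_sub_left]
  ring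

theorem Exp2.sum {ι : Type*} (s : Finset ι) {f : ι → E → ℝ} {x : E} {p : ι → E}
    {A : ι → E →L[ℝ] E} (h : ∀ i ∈ s, Exp2 (f i) x (p i) (A i)) :
    Exp2 (fun z => ∑ i ∈ s, f i z) x (∑ i ∈ s, p i) (∑ i ∈ s, A i) := by
  classical
  induction s using Finset.induction_on with
  | empty =>
    unfold Exp2
    simp
  | insert a s ha ih =>
    simp only [Finset.sum_insert ha]
    exact (h a (Finset.mem_insert_self a s)).add
      (ih fun i hi => h i (Finset.mem_insert_of_mem hi))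

theorem exp2_const (c : ℝ) (x : E) : Exp2 (fun _ : E => c) x 0 0 := by
  unfold Exp2
  simp

theorem exp2_inner (p x : E) : Exp2 (fun z : E => ⟪p, z⟫) x p 0 := by
  unfold Exp2
  simp [inner_add_right]

theorem exp2_normSq (x : E) :
    Exp2 (fun z : E => ‖z‖ ^ 2) x ((2 : ℝ) • x) ((2 : ℝ) • ContinuousLinearMap.id ℝ E) := by
  unfold Exp2
  have h0 : (fun h : E => ‖x + h‖ ^ 2 - ‖x‖ ^ 2 - ⟪(2 : ℝ) • x, h⟫ -
      (1 / 2) * ⟪((2 : ℝ) • ContinuousLinearMap.id ℝ E) h, h⟫) = fun _ => 0 := by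
    funext h
    rw [norm_add_sq_real, real_inner_smul_left, smul_apply,
      ContinuousLinearMap.id_apply, real_inner_smul_left, real_inner_self_eq_norm_sq]
    ring
  rw [h0]
  exact isLittleO_zero _ _

section complete

variable [CompleteSpace E] [CompleteSpace F]

theorem exp2_isSelfAdjoint_symmPart (A : E →L[ℝ] E) :
    IsSelfAdjoint ((1 / 2 : ℝ) • (A + ContinuousLinearMap.adjoint A)) := by
  rw [← ContinuousLinearMap.star_eq_adjoint]
  exact (IsSelfAdjoint.all (1 / 2 : ℝ)).smul (IsSelfAdjoint.add_star_self A)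

theorem Exp2.symmPart {f : E → ℝ} {x p : E} {A : E →L[ℝ] E} (h : Exp2 f x p A) :
    Exp2 f x p ((1 / 2 : ℝ) • (A + ContinuousLinearMap.adjoint A)) := by
  refine h.congr_quad fun v => ?_
  rw [smul_apply, add_apply, real_inner_smul_left,
    inner_add_left, ContinuousLinearMap.adjoint_inner_left, real_inner_comm (A v) v]
  ring

theorem Exp2.comp_clm (π : E →L[ℝ] F) {u : F → ℝ} {x : E} {p : F} {A : F →L[ℝ] F}
    (h : Exp2 u (π x) p A) :
    Exp2 (fun z => u (π z)) x (ContinuousLinearMap.adjoint π p)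
      (ContinuousLinearMap.adjoint π ∘L A ∘L π) := by
  unfold Exp2 at *
  have ht : Tendsto (fun v : E => π v) (𝓝 0) (𝓝 0) := π.continuous.tendsto' 0 0 (map_zero π)
  have h1 := h.comp_tendsto ht
  have h2 : (fun v : E => ‖π v‖ ^ 2) =O[𝓝 0] fun v : E => ‖v‖ ^ 2 :=
    ((π.isBigO_id (𝓝 0)).norm_norm).pow 2
  refine (h1.trans_isBigO h2).congr_left fun v => ?_
  simp only [Function.comp_apply, ContinuousLinearMap.comp_apply, map_add,
    ContinuousLinearMap.adjoint_inner_left]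

/-- Taylor's formula of order two at a point. -/
theorem exp2_of_contDiffAt {g : E → ℝ} {x : E} (hg : ContDiffAt ℝ 2 g x) :
    ∃ (p : E) (A : E →L[ℝ] E), IsSelfAdjoint A ∧ Exp2 g x p A ∧ (∀ h, fderiv ℝ g x h = ⟪p, h⟫) ∧
      ∀ h k, fderiv ℝ (fderiv ℝ g) x h k = ⟪A h, k⟫ := by
  set L : E →L[ℝ] E →L[ℝ] ℝ := fderiv ℝ (fderiv ℝ g) x with hL
  have hsymm : ∀ v w, L v w = L w v := fun v w => (hg.isSymmSndFDerivAt (by simp)) v w
  set p : E := (InnerProductSpace.toDual ℝ E).symm (fderiv ℝ g x) with hp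
  set A : E →L[ℝ] E := InnerProductSpace.continuousLinearMapOfBilin (𝕜 := ℝ) L with hA
  have hpi : ∀ h, ⟪p, h⟫ = fderiv ℝ g x h := fun h => InnerProductSpace.toDual_symm_apply
  have hAi : ∀ h k, ⟪A h, k⟫ = L h k := fun h k =>
    InnerProductSpace.continuousLinearMapOfBilin_apply (𝕜 := ℝ) L h k
  refine ⟨p, A, ?_, ?_, fun h => (hpi h).symm, fun h k => (hAi h k).symm⟩
  · rw [ContinuousLinearMap.isSelfAdjoint_iff_isSymmetric]
    intro a b
    show ⟪A a, b⟫ = ⟪a, A b⟫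
    rw [hAi, real_inner_comm, hAi, hsymm]
  · unfold Exp2
    have hd1 : ∀ᶠ y in 𝓝 x, DifferentiableAt ℝ g y := by
      filter_upwards [hg.eventually (by simp)] with y hy
      exact hy.differentiableAt (by norm_num)
    have hd2 : HasFDerivAt (fderiv ℝ g) L x :=
      ((hg.fderiv_right (m := 1) (by norm_num)).differentiableAt (by norm_num)).hasFDerivAt
    have hlo : (fun h : E => fderiv ℝ g (x + h) - fderiv ℝ g x - L h) =o[𝓝 0] fun h => h :=
      hasFDerivAt_iff_isLittleO_nhds_zero.1 hd2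
    rw [isLittleO_iff]
    intro ε hε
    have ht : Tendsto (fun v : E => x + v) (𝓝 0) (𝓝 x) :=
      (continuous_const.add continuous_id).tendsto' 0 x (add_zero x)
    obtain ⟨δ, hδ, hball⟩ := Metric.eventually_nhds_iff_ball.1
      ((ht.eventually hd1).and (hlo.bound hε))
    filter_upwards [Metric.ball_mem_nhds (0 : E) hδ] with h hh
    have hsub : ∀ k ∈ Metric.closedBall (0 : E) ‖h‖, k ∈ Metric.ball (0 : E) δ := by
      intro k hk
      rw [mem_ball_zero_iff] at hh ⊢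
      rw [mem_closedBall_zero_iff] at hk
      exact lt_of_le_of_lt hk hh
    set φ : E → ℝ := fun k => g (x + k) - g x - fderiv ℝ g x k - (1 / 2) * L k k with hφ
    have hφd : ∀ k ∈ Metric.closedBall (0 : E) ‖h‖,
        HasFDerivWithinAt φ (fderiv ℝ g (x + k) - fderiv ℝ g x - L k)
          (Metric.closedBall 0 ‖h‖) k := by
      intro k hk
      have h1 : HasFDerivAt (fun k => g (x + k)) (fderiv ℝ g (x + k)) k :=
        (hasFDerivAt_comp_add_left x).2 (hball k (hsub k hk)).1.hasFDerivAt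
      have h2 : HasFDerivAt (fun k => fderiv ℝ g x k) (fderiv ℝ g x) k :=
        (fderiv ℝ g x).hasFDerivAt
      have h3 := L.hasFDerivAt_of_bilinear (hasFDerivAt_id k) (hasFDerivAt_id k)
      have h4 := ((h1.sub_const (g x)).sub h2).sub (h3.const_mul (1 / 2))
      refine (h4.congr_fderiv ?_).hasFDerivWithinAt
      ext w
      simp only [sub_apply, smul_apply, add_apply, ContinuousLinearMap.precompR_apply,
        ContinuousLinearMap.precompL_apply, ContinuousLinearMap.id_apply, id_eq, smul_eq_mul,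
        ContinuousLinearMap.compL_apply, ContinuousLinearMap.comp_apply]
      rw [hsymm w k]
      ring
    have hbound : ∀ k ∈ Metric.closedBall (0 : E) ‖h‖,
        ‖fderiv ℝ g (x + k) - fderiv ℝ g x - L k‖ ≤ ε * ‖h‖ := by
      intro k hk
      refine ((hball k (hsub k hk)).2).trans ?_
      exact mul_le_mul_of_nonneg_left (mem_closedBall_zero_iff.1 hk) hε.le
    have hmv := (convex_closedBall (0 : E) ‖h‖).norm_image_sub_le_of_norm_hasFDerivWithin_le hφd
      hbound (Metric.mem_closedBall_self (norm_nonneg h))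
      (show h ∈ Metric.closedBall (0 : E) ‖h‖ from mem_closedBall_zero_iff.2 le_rfl)
    have hφ0 : φ 0 = 0 := by simp [hφ]
    rw [hφ0, sub_zero, sub_zero] at hmv
    rw [hpi, hAi, Real.norm_eq_abs (‖h‖ ^ 2), abs_of_nonneg (sq_nonneg _)]
    calc ‖g (x + h) - g x - fderiv ℝ g x h - (1 / 2) * L h h‖ = ‖φ h‖ := rfl
      _ ≤ ε * ‖h‖ * ‖h‖ := hmv
      _ = ε * ‖h‖ ^ 2 := by ring

end complete

theorem exp2_bound {f : E → ℝ} {x p : E} {A : E →L[ℝ] E} (h : Exp2 f x p A) {ε : ℝ}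
    (hε : 0 < ε) :
    ∀ᶠ v in 𝓝 (0 : E), |f (x + v) - f x - ⟪p, v⟫ - (1 / 2) * ⟪A v, v⟫| ≤ ε * ‖v‖ ^ 2 := by
  unfold Exp2 at h
  filter_upwards [h.bound hε] with v hv
  rwa [Real.norm_eq_abs, Real.norm_eq_abs, abs_of_nonneg (sq_nonneg ‖v‖)] at hv

/-- at a local minimum the second order polynomial is nonnegative up to `ε |v|²` -/
theorem exp2_min_bound {f : E → ℝ} {x p : E} {A : E →L[ℝ] E} (h : Exp2 f x p A)
    (hm : IsLocalMin f x) {ε : ℝ} (hε : 0 < ε) :
    ∀ᶠ v in 𝓝 (0 : E), 0 ≤ ⟪p, v⟫ + (1 / 2) * ⟪A v, v⟫ + ε * ‖v‖ ^ 2 := by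
  have ht : Tendsto (fun v : E => x + v) (𝓝 0) (𝓝 x) :=
    (continuous_const.add continuous_id).tendsto' 0 x (add_zero x)
  filter_upwards [exp2_bound h hε, ht.eventually hm] with v hv hv'
  have := (abs_le.1 hv).2
  linarith

theorem Exp2.grad_eq_zero {f : E → ℝ} {x p : E} {A : E →L[ℝ] E} (h : Exp2 f x p A)
    (hm : IsLocalMin f x) : p = 0 := by
  have h1 := exp2_min_bound h hm one_pos
  have ht : Tendsto (fun s : ℝ => (-s) • p) (𝓝[>] 0) (𝓝 0) := by
    have : Tendsto (fun s : ℝ => (-s) • p) (𝓝 0) (𝓝 0) :=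
      ((continuous_neg.smul continuous_const).tendsto' (0 : ℝ) (0 : E) (by simp))
    exact this.mono_left nhdsWithin_le_nhds
  set C : ℝ := (1 / 2) * ⟪A p, p⟫ + ‖p‖ ^ 2 with hC
  have h2 : ∀ᶠ s : ℝ in 𝓝[>] 0, ‖p‖ ^ 2 ≤ s * C := by
    filter_upwards [ht.eventually h1, self_mem_nhdsWithin] with s hs hs0
    have hs0' : (0 : ℝ) < s := hs0
    rw [real_inner_smul_right, map_smul, real_inner_smul_left, real_inner_smul_right, norm_smul,
      real_inner_self_eq_norm_sq, norm_neg, Real.norm_eq_abs, abs_of_pos hs0'] at hs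
    have h3 : 0 ≤ s * (s * C - ‖p‖ ^ 2) := by
      rw [hC]
      nlinarith
    have := nonneg_of_mul_nonneg_right h3 hs0'
    linarith
  have h3 : Tendsto (fun s : ℝ => s * C) (𝓝[>] 0) (𝓝 0) := by
    have : Tendsto (fun s : ℝ => s * C) (𝓝 0) (𝓝 0) :=
      ((continuous_id.mul continuous_const).tendsto' (0 : ℝ) (0 : ℝ) (by simp))
    exact this.mono_left nhdsWithin_le_nhds
  have h4 : ‖p‖ ^ 2 ≤ 0 := ge_of_tendsto h3 h2
  have h5 : ‖p‖ = 0 := by
    have := sq_nonneg ‖p‖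
    exact pow_eq_zero_iff (two_ne_zero) |>.1 (le_antisymm h4 this)
  exact norm_eq_zero.1 h5

theorem Exp2.hess_nonneg {f : E → ℝ} {x p : E} {A : E →L[ℝ] E} (h : Exp2 f x p A)
    (hm : IsLocalMin f x) (v : E) : 0 ≤ ⟪A v, v⟫ := by
  have hp : p = 0 := h.grad_eq_zero hm
  subst hp
  have ht : Tendsto (fun s : ℝ => s • v) (𝓝[>] 0) (𝓝 0) := by
    have : Tendsto (fun s : ℝ => s • v) (𝓝 0) (𝓝 0) :=
      ((continuous_id.smul continuous_const).tendsto' (0 : ℝ) (0 : E) (by simp))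
    exact this.mono_left nhdsWithin_le_nhds
  have h1 : ∀ ε : ℝ, 0 < ε → 0 ≤ (1 / 2) * ⟪A v, v⟫ + ε * ‖v‖ ^ 2 := by
    intro ε hε
    obtain ⟨s, hs, hs0⟩ := ((ht.eventually (exp2_min_bound h hm hε)).and
      self_mem_nhdsWithin).exists
    have hs0' : (0 : ℝ) < s := hs0
    rw [inner_zero_left, map_smul, real_inner_smul_left, real_inner_smul_right, norm_smul,
      Real.norm_eq_abs, abs_of_pos hs0'] at hs
    have h3 : 0 ≤ s ^ 2 * ((1 / 2) * ⟪A v, v⟫ + ε * ‖v‖ ^ 2) := by nlinarith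
    exact nonneg_of_mul_nonneg_right h3 (by positivity)
  have h3 : Tendsto (fun ε : ℝ => (1 / 2) * ⟪A v, v⟫ + ε * ‖v‖ ^ 2) (𝓝[>] 0)
      (𝓝 ((1 / 2) * ⟪A v, v⟫)) := by
    have : Tendsto (fun ε : ℝ => (1 / 2) * ⟪A v, v⟫ + ε * ‖v‖ ^ 2) (𝓝 0)
        (𝓝 ((1 / 2) * ⟪A v, v⟫)) :=
      ((continuous_const.add (continuous_id.mul continuous_const)).tendsto' (0 : ℝ) _ (by simp))
    exact this.mono_left nhdsWithin_le_nhds
  have h4 : 0 ≤ (1 / 2) * ⟪A v, v⟫ :=
    ge_of_tendsto h3 (by filter_upwards [self_mem_nhdsWithin] with ε hε using h1 ε hε)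
  linarith

/-- the quadratic lower test functions of Section 7.3. -/
theorem Exp2.lower_test {f : E → ℝ} {x p : E} {A : E →L[ℝ] E} (h : Exp2 f x p A) {ε : ℝ}
    (hε : 0 < ε) :
    ∀ᶠ v in 𝓝 (0 : E), f x + ⟪p, v⟫ + (1 / 2) * ⟪A v, v⟫ - ε * ‖v‖ ^ 2 ≤ f (x + v) := by
  filter_upwards [exp2_bound h hε] with v hv
  have := (abs_le.1 hv).1
  linarith

theorem Exp2.upper_test {f : E → ℝ} {x p : E} {A : E →L[ℝ] E} (h : Exp2 f x p A) {ε : ℝ}
    (hε : 0 < ε) :
    ∀ᶠ v in 𝓝 (0 : E), f (x + v) ≤ f x + ⟪p, v⟫ + (1 / 2) * ⟪A v, v⟫ + ε * ‖v‖ ^ 2 := by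
  filter_upwards [exp2_bound h hε] with v hv
  have := (abs_le.1 hv).2
  linarith

/-- the gradient and the quadratic form of an expansion are unique. -/
theorem Exp2.unique {f : E → ℝ} {x p p' : E} {A A' : E →L[ℝ] E} (h : Exp2 f x p A)
    (h' : Exp2 f x p' A') : p = p' ∧ ∀ v, ⟪A v, v⟫ = ⟪A' v, v⟫ := by
  have h1 := h.sub h'
  have h2 := h'.sub h
  have hm : IsLocalMin (fun z => f z - f z) x := Eventually.of_forall fun z => by simp
  refine ⟨sub_eq_zero.1 (h1.grad_eq_zero hm), fun v => ?_⟩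
  have h3 := h1.hess_nonneg hm v
  have h4 := h2.hess_nonneg hm v
  rw [sub_apply, inner_sub_left] at h3 h4
  linarith

end Claimed.Agent.R316.B13
end

/- ===== packed: Claimed.Agent.R316.B13.Alek ===== -/
section
/-!
# B13-4: Aleksandrov's theorem (leaf, ~350 lines; Mathlib + statements of Prox, AlekKey, Exp2)

The claimer owns this file: replace the `sorry`s IN PLACE, keep the statements (problems: msg helper126).
Auxiliary lemmas: prefix `alek_`.

* `alek_lipschitz_null`: `μH[finrank ℝ E]` is an additive Haar measure (`MeasureTheory.isAddHaarMeasure_hausdorffMeasure`), hence proportional to `volume`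
  (`MeasureTheory.Measure.isAddHaarMeasure_eq_smul` / `addHaarMeasure_unique`), and `LipschitzWith.hausdorffMeasure_image_le`.
* `alek_bad_null`: `N₁ = {y | ¬ DifferentiableAt ℝ J y}` is null (Rademacher: `LipschitzWith.ae_differentiableAt`), so `J '' N₁` is null;
  `N₂ = {y | DifferentiableAt ℝ J y ∧ (fderiv ℝ J y).det = 0}`: `MeasureTheory.addHaar_image_eq_zero_of_det_fderivWithin_eq_zero`.
  If `y ∉ N₁ ∪ N₂` the derivative has nonzero determinant, so it is a `ContinuousLinearEquiv`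
  (`ContinuousLinearMap.toContinuousLinearEquivOfDetNeZero`).
* `aleksandrov`: for `x` outside the null set take `p ∈ ∂f(x)` (`subG_exists`), `y = x + p`, `J y = x` (`prox_eq`), so `y` is a good point;
  `alek_subGDiff`, `alek_exp2`, `Exp2.symmPart`.
* `aleksandrov_semiConc`: apply `aleksandrov` to `q ↦ c ‖q‖² - u q` and use `exp2_normSq`, `Exp2.const_mul`, `Exp2.sub`.
-/

set_option autoImplicit false

open scoped Topology RealInnerProductSpace
open Filter Set MeasureTheory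

namespace Claimed.Agent.R316.B13

variable {E : Type*} [NormedAddCommGroup E] [InnerProductSpace ℝ E] [FiniteDimensional ℝ E]
  [MeasurableSpace E] [BorelSpace E]

theorem alek_lipschitzOn_null {J : E → E} {C : NNReal} {s : Set E} (hJ : LipschitzOnWith C J s)
    (hs : (volume : Measure E) s = 0) : (volume : Measure E) (J '' s) = 0 := by
  have h1 : (μH[(Module.finrank ℝ E : ℝ)] : Measure E) ≪ volume :=
    Measure.absolutelyContinuous_isAddHaarMeasure _ _
  have h2 : (volume : Measure E) ≪ μH[(Module.finrank ℝ E : ℝ)] :=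
    Measure.absolutelyContinuous_isAddHaarMeasure _ _
  apply h2
  have h3 := hJ.hausdorffMeasure_image_le (d := (Module.finrank ℝ E : ℝ)) (by positivity)
  rw [h1 hs, mul_zero] at h3
  exact nonpos_iff_eq_zero.1 h3

theorem alek_bad_null {f : E → ℝ} (hf : ConvexOn ℝ univ f) :
    (volume : Measure E)
      (prox f '' {y | ¬ ∃ T : E ≃L[ℝ] E, HasFDerivAt (prox f) (T : E →L[ℝ] E) y}) = 0 := by
  have hL : LipschitzWith 1 (prox f) := prox_lipschitz hf
  have hN1 : (volume : Measure E) {y | ¬ DifferentiableAt ℝ (prox f) y} = 0 :=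
    ae_iff.1 hL.ae_differentiableAt
  have h1 : (volume : Measure E) (prox f '' {y | ¬ DifferentiableAt ℝ (prox f) y}) = 0 :=
    alek_lipschitzOn_null (hL.lipschitzOnWith) hN1
  have h2 : (volume : Measure E) (prox f ''
      {y | DifferentiableAt ℝ (prox f) y ∧ (fderiv ℝ (prox f) y).det = 0}) = 0 :=
    addHaar_image_eq_zero_of_det_fderivWithin_eq_zero volume (f' := fderiv ℝ (prox f))
      (fun y hy => hy.1.hasFDerivAt.hasFDerivWithinAt) (fun y hy => hy.2)
  have hsub : {y | ¬ ∃ T : E ≃L[ℝ] E, HasFDerivAt (prox f) (T : E →L[ℝ] E) y} ⊆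
      {y | ¬ DifferentiableAt ℝ (prox f) y} ∪
        {y | DifferentiableAt ℝ (prox f) y ∧ (fderiv ℝ (prox f) y).det = 0} := by
    intro y hy
    by_cases hd : DifferentiableAt ℝ (prox f) y
    · right
      refine ⟨hd, ?_⟩
      by_contra hdet
      refine hy ⟨(fderiv ℝ (prox f) y).toContinuousLinearEquivOfDetNeZero hdet, ?_⟩
      rw [ContinuousLinearMap.coe_toContinuousLinearEquivOfDetNeZero]
      exact hd.hasFDerivAt
    · left; exact hd
  refine measure_mono_null (image_mono hsub) ?_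
  rw [image_union]
  exact measure_union_null h1 h2

/-- **Aleksandrov's theorem** for finite convex functions on `E`. -/
theorem aleksandrov {f : E → ℝ} (hf : ConvexOn ℝ univ f) :
    ∀ᵐ x ∂(volume : Measure E), ∃ (p : E) (A : E →L[ℝ] E), IsSelfAdjoint A ∧ Exp2 f x p A := by
  have hnull := alek_bad_null hf
  rw [ae_iff]
  refine measure_mono_null ?_ hnull
  intro x hx
  obtain ⟨p, hp⟩ := subG_exists hf x
  refine ⟨x + p, ?_, prox_eq hf hp⟩
  rintro ⟨T, hT⟩
  apply hx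
  have h1 := alek_exp2 hf hp (alek_subGDiff hf hp hT)
  exact ⟨p, _, exp2_isSelfAdjoint_symmPart _, h1.symmPart⟩

/-- Aleksandrov's theorem for globally semiconcave functions. -/
theorem aleksandrov_semiConc {c : ℝ} {u : E → ℝ} (hu : SemiConc c u) :
    ∀ᵐ x ∂(volume : Measure E), ∃ (p : E) (A : E →L[ℝ] E), IsSelfAdjoint A ∧ Exp2 u x p A := by
  have hf : ConvexOn ℝ univ (fun q => c * ‖q‖ ^ 2 - u q) := by
    have h0 := hu.neg
    have e : (-fun q => u q - c * ‖q‖ ^ 2) = fun q => c * ‖q‖ ^ 2 - u q := by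
      funext q
      simp
    rwa [e] at h0
  filter_upwards [aleksandrov hf] with x hx
  obtain ⟨p, A, hA, h⟩ := hx
  have h1 := ((exp2_normSq x).const_mul c).sub h
  refine ⟨_, _, ?_, h1.congr_fun (Eventually.of_forall fun z => by ring)⟩
  exact ((IsSelfAdjoint.all c).smul ((IsSelfAdjoint.all (2 : ℝ)).smul
    (IsSelfAdjoint.one (E →L[ℝ] E)))).sub hA

end Claimed.Agent.R316.B13
end

/- ===== packed: Claimed.Agent.R316.B13.Jensen ===== -/
section
/-!
# B13-5: Jensen's lemma: contact sets have positive measure (leaf, ~450 lines; Mathlib + `alek_lipschitzOn_null`)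

The claimer owns this file: replace the `sorry`s IN PLACE, keep the statements (problems: msg helper126).
Auxiliary lemmas: prefix `jensen_`.  Paper: `ellipsoids.tex` l. 247-275 (a direct proof, no mollification).

Write `S = contactSet f O δ`, `Ō = closure O` (compact).
1. `jensen_surj`: for every `p` the continuous function `f - ⟪p,·⟫` has a minimiser on the compact nonempty `Ō`.
2. `jensen_compact`: `S` is closed in `Ō`: if `x_k → x`, slopes `p_k` in the compact ball, pass to a convergent subsequence and to the limit in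
   `f x_k - ⟪p_k, x_k⟫ ≤ f z - ⟪p_k, z⟫`.  So `S` is compact, `S ⊆ O`, and there is `d₀ > 0` with `ball x d₀ ⊆ O` for all `x ∈ S`
   (`IsCompact.exists_thickening_subset_open` or Lebesgue number).
3. `jensen_slope`: for `x ∈ S` with slope `p` and `s` from `hup x`: `⟪p - s, h⟫ ≤ C/2 ‖h‖²` for small `h` (lower support + upper bound), hence `s = p`
   (test `h = t (p - s)`, `t → 0+`).  In particular the slope is unique and
   `f (x + h) ≤ f x + ⟪p, h⟫ + C/2 ‖h‖²` for `‖h‖ < r`.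
4. `jensen_lip`: `x, y ∈ S` with slopes `p, p'`, `‖x - y‖ < ρ := min r d₀ / 2`.  For `‖h‖ = ‖x - y‖`: `y + h ∈ O`, and
   `f x + ⟪p, y + h - x⟫ ≤ f (y + h) ≤ f y + ⟪p', h⟫ + C/2 ‖h‖² ≤ f x + ⟪p, y - x⟫ + C/2 ‖x - y‖² + ⟪p', h⟫ + C/2 ‖h‖²`, so
   `⟪p - p', h⟫ ≤ C ‖x - y‖²`; choose `h = ‖x - y‖ (p - p')/‖p - p'‖`: `‖p - p'‖ ≤ C ‖x - y‖`.
5. Cover `S` by finitely many balls `B_j` of radius `ρ/2`.  The slope map `P : S → E` (choice) is `C`-Lipschitz on `S ∩ B_j`.  If `volume S = 0` then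
   `volume (P '' (S ∩ B_j)) = 0` (`alek_lipschitzOn_null`), so `closedBall 0 δ ⊆ P '' S` is null: contradiction (`Metric.measure_closedBall_pos`).
-/

set_option autoImplicit false

open scoped Topology RealInnerProductSpace
open Filter Set MeasureTheory

namespace Claimed.Agent.R316.B13

variable {E : Type*} [NormedAddCommGroup E] [InnerProductSpace ℝ E]

/-- minimisers on `closure O` of `f - ⟪p,·⟫`, for all slopes `‖p‖ ≤ δ`. -/
def contactSet (f : E → ℝ) (O : Set E) (δ : ℝ) : Set E :=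
  {x | x ∈ closure O ∧ ∃ p : E, ‖p‖ ≤ δ ∧ IsMinOn (fun z => f z - ⟪p, z⟫) (closure O) x}

theorem jensen_zero_of_quad {v : E} {C ρ : ℝ} (hC : 0 ≤ C) (hρ : 0 < ρ)
    (h : ∀ h : E, ‖h‖ < ρ → ⟪v, h⟫ ≤ C / 2 * ‖h‖ ^ 2) : v = 0 := by
  by_contra hv
  have hvn : 0 < ‖v‖ := norm_pos_iff.2 hv
  set t : ℝ := min (ρ / (2 * ‖v‖)) (1 / (C + 1)) with ht
  have htpos : 0 < t := by positivity
  have h1 : t * ‖v‖ < ρ := by
    calc t * ‖v‖ ≤ ρ / (2 * ‖v‖) * ‖v‖ := by gcongr; exact min_le_left _ _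
      _ = ρ / 2 := by field_simp
      _ < ρ := by linarith
  have h2 : C * t ≤ 1 := by
    calc C * t ≤ C * (1 / (C + 1)) := by gcongr; exact min_le_right _ _
      _ ≤ 1 := by rw [mul_one_div, div_le_one (by positivity)]; linarith
  have h3 := h (t • v) (by rw [norm_smul, Real.norm_eq_abs, abs_of_pos htpos]; exact h1)
  rw [real_inner_smul_right, real_inner_self_eq_norm_sq, norm_smul, Real.norm_eq_abs,
    abs_of_pos htpos] at h3
  have h4 : C / 2 * (t * ‖v‖) ^ 2 = (C * t) * (t * ‖v‖ ^ 2) / 2 := by ring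
  have h5 : 0 < t * ‖v‖ ^ 2 := by positivity
  have h6 := mul_le_mul_of_nonneg_right h2 h5.le
  rw [h4] at h3
  linarith

theorem jensen_slope {f : E → ℝ} {O : Set E} (hO : IsOpen O) {C r : ℝ} (hC : 0 ≤ C) (hr : 0 < r)
    {x p s : E} (hx : x ∈ O) (hmin : IsMinOn (fun z => f z - ⟪p, z⟫) (closure O) x)
    (hs : ∀ h, ‖h‖ < r → f (x + h) ≤ f x + ⟪s, h⟫ + C / 2 * ‖h‖ ^ 2) : s = p := by
  obtain ⟨d, hd, hball⟩ := Metric.isOpen_iff.1 hO x hx
  have h0 : p - s = 0 := by
    refine jensen_zero_of_quad hC (lt_min hr hd) fun h hh => ?_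
    have h1 := hs h (lt_of_lt_of_le hh (min_le_left _ _))
    have hmem : x + h ∈ closure O := subset_closure (hball (by
      rw [mem_ball_iff_norm, add_sub_cancel_left]; exact lt_of_lt_of_le hh (min_le_right _ _)))
    have h2 : f x - ⟪p, x⟫ ≤ f (x + h) - ⟪p, x + h⟫ := isMinOn_iff.1 hmin _ hmem
    rw [inner_add_right] at h2
    rw [inner_sub_left]
    linarith
  exact (sub_eq_zero.1 h0).symm

theorem jensen_lip {f : E → ℝ} {O : Set E} {C r d : ℝ} {x y p p' : E}
    (hminx : IsMinOn (fun z => f z - ⟪p, z⟫) (closure O) x)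
    (hux : ∀ h, ‖h‖ < r → f (x + h) ≤ f x + ⟪p, h⟫ + C / 2 * ‖h‖ ^ 2)
    (huy : ∀ h, ‖h‖ < r → f (y + h) ≤ f y + ⟪p', h⟫ + C / 2 * ‖h‖ ^ 2)
    (hby : Metric.ball y d ⊆ O) (hpos : 0 < ‖x - y‖) (hxy : ‖x - y‖ < min r d) :
    ‖p - p'‖ ≤ C * ‖x - y‖ := by
  have hℓr : ‖x - y‖ < r := lt_of_lt_of_le hxy (min_le_left _ _)
  have hℓd : ‖x - y‖ < d := lt_of_lt_of_le hxy (min_le_right _ _)
  have key : ∀ h : E, ‖h‖ = ‖x - y‖ → ⟪p - p', h⟫ ≤ C * ‖x - y‖ ^ 2 := by
    intro h hhn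
    have hmem : y + h ∈ closure O := subset_closure (hby (by
      rw [mem_ball_iff_norm, add_sub_cancel_left, hhn]; exact hℓd))
    have a : f x - ⟪p, x⟫ ≤ f (y + h) - ⟪p, y + h⟫ := isMinOn_iff.1 hminx _ hmem
    have b := huy h (by rw [hhn]; exact hℓr)
    have c := hux (y - x) (by rw [norm_sub_rev]; exact hℓr)
    rw [add_sub_cancel, norm_sub_rev y x] at c
    rw [hhn] at b
    rw [inner_add_right] at a
    rw [inner_sub_right] at c
    rw [inner_sub_left]
    linarith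
  rcases eq_or_ne (p - p') 0 with h0 | h0
  · have h1 := key (x - y) rfl
    rw [h0, inner_zero_left] at h1
    rw [h0, norm_zero]
    have h2 : C * ‖x - y‖ ^ 2 = ‖x - y‖ * (C * ‖x - y‖) := by ring
    rw [h2] at h1
    exact nonneg_of_mul_nonneg_right h1 hpos
  have hn : 0 < ‖p - p'‖ := norm_pos_iff.2 h0
  have h1 := key ((‖x - y‖ / ‖p - p'‖) • (p - p')) (by
    rw [norm_smul, Real.norm_eq_abs, abs_of_nonneg (by positivity)]
    field_simp)
  have e : ⟪p - p', (‖x - y‖ / ‖p - p'‖) • (p - p')⟫ = ‖x - y‖ * ‖p - p'‖ := by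
    rw [real_inner_smul_right, real_inner_self_eq_norm_sq]; field_simp
  rw [e] at h1
  have h2 : C * ‖x - y‖ ^ 2 = ‖x - y‖ * (C * ‖x - y‖) := by ring
  rw [h2] at h1
  exact le_of_mul_le_mul_left h1 hpos

variable [FiniteDimensional ℝ E] [MeasurableSpace E] [BorelSpace E]

/-- **Jensen's lemma**, in the form of Section 7.3. -/
theorem jensen_contact {f : E → ℝ} {O : Set E} (hO : IsOpen O) (hOb : Bornology.IsBounded O)
    (hne : O.Nonempty) (hf : ContinuousOn f (closure O)) {C r δ : ℝ} (hC : 0 ≤ C) (hr : 0 < r)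
    (hδ : 0 < δ)
    (hup : ∀ y ∈ O, ∃ s : E, ∀ h, ‖h‖ < r → f (y + h) ≤ f y + ⟪s, h⟫ + C / 2 * ‖h‖ ^ 2)
    (hint : contactSet f O δ ⊆ O) : 0 < (volume : Measure E) (contactSet f O δ) := by
  rw [pos_iff_ne_zero]
  intro hzero
  choose! s hs using hup
  have hslope : ∀ x ∈ contactSet f O δ,
      ‖s x‖ ≤ δ ∧ IsMinOn (fun z => f z - ⟪s x, z⟫) (closure O) x := by
    intro x hx
    obtain ⟨-, p, hp, hmin⟩ := id hx
    have h1 := jensen_slope hO hC hr (hint hx) hmin (hs x (hint hx))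
    rw [h1]; exact ⟨hp, hmin⟩
  have hsurj : Metric.closedBall (0 : E) δ ⊆ s '' contactSet f O δ := by
    intro p hp
    rw [mem_closedBall_zero_iff] at hp
    have hcomp : IsCompact (closure O) := hOb.isCompact_closure
    have hcont : ContinuousOn (fun z => f z - ⟪p, z⟫) (closure O) :=
      hf.sub (continuous_const.inner continuous_id).continuousOn
    obtain ⟨x, hx, hmin⟩ := hcomp.exists_isMinOn hne.closure hcont
    have hxS : x ∈ contactSet f O δ := ⟨hx, p, hp, hmin⟩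
    exact ⟨x, hxS, jensen_slope hO hC hr (hint hxS) hmin (hs x (hint hxS))⟩
  have hcover : contactSet f O δ ⊆
      ⋃ n : ℕ, {x | x ∈ contactSet f O δ ∧ Metric.ball x (1 / ((n : ℝ) + 1)) ⊆ O} := by
    intro x hx
    obtain ⟨d, hd, hball⟩ := Metric.isOpen_iff.1 hO x (hint hx)
    obtain ⟨n, hn⟩ := exists_nat_one_div_lt hd
    exact mem_iUnion.2 ⟨n, hx, (Metric.ball_subset_ball hn.le).trans hball⟩
  have hnull : ∀ n : ℕ, (volume : Measure E)
      (s '' {x | x ∈ contactSet f O δ ∧ Metric.ball x (1 / ((n : ℝ) + 1)) ⊆ O}) = 0 := by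
    intro n
    have hd : 0 < 1 / ((n : ℝ) + 1) := by positivity
    set d : ℝ := 1 / ((n : ℝ) + 1) with hdd
    set ρ : ℝ := min r d with hρd
    have hρ : 0 < ρ := lt_min hr hd
    have hK : 0 ≤ C + 2 * δ / ρ := by positivity
    have hlip : LipschitzOnWith (Real.toNNReal (C + 2 * δ / ρ)) s
        {x | x ∈ contactSet f O δ ∧ Metric.ball x d ⊆ O} := by
      refine LipschitzOnWith.of_dist_le_mul fun x hx y hy => ?_
      rw [Real.coe_toNNReal _ hK, dist_eq_norm, dist_eq_norm]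
      rcases eq_or_ne x y with rfl | hxy
      · simp
      have hpos : 0 < ‖x - y‖ := norm_pos_iff.2 (sub_ne_zero.2 hxy)
      have hq : 0 ≤ 2 * δ / ρ := by positivity
      rcases lt_or_ge ‖x - y‖ ρ with hlt | hge
      · have h1 := jensen_lip (hslope x hx.1).2 (hs x (hint hx.1)) (hs y (hint hy.1)) hy.2 hpos hlt
        refine h1.trans ?_
        exact mul_le_mul_of_nonneg_right (by linarith) hpos.le
      · calc ‖s x - s y‖ ≤ ‖s x‖ + ‖s y‖ := norm_sub_le _ _
          _ ≤ δ + δ := add_le_add (hslope x hx.1).1 (hslope y hy.1).1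
          _ = 2 * δ / ρ * ρ := by field_simp; ring
          _ ≤ 2 * δ / ρ * ‖x - y‖ := by gcongr
          _ ≤ (C + 2 * δ / ρ) * ‖x - y‖ := mul_le_mul_of_nonneg_right (by linarith) hpos.le
    exact alek_lipschitzOn_null hlip (measure_mono_null (fun x hx => hx.1) hzero)
  have hball0 : (volume : Measure E) (Metric.closedBall (0 : E) δ) = 0 := by
    refine measure_mono_null (hsurj.trans ((image_mono hcover).trans ?_))
      (measure_iUnion_null hnull)
    rw [image_iUnion]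
  exact (Metric.measure_closedBall_pos volume (0 : E) hδ).ne' hball0

end Claimed.Agent.R316.B13
end

/- ===== packed: Claimed.Agent.R316.B13.InfConv ===== -/
section
/-!
# B13-6: inf-convolutions with a compact set of sources (leaf, ~500 lines, Mathlib only)

The claimer owns this file: replace the `sorry`s IN PLACE, keep the statements (problems: msg helper126).
Auxiliary lemmas: prefix `infConv_`.  Paper: `ellipsoids.tex` l. 213-233, 328-346.

HINTS.  `z ↦ v z + ‖q - z‖²/(2κ)` is lower semicontinuous on the compact `K`: `LowerSemicontinuousOn.exists_isMinOn`; this gives the minimising source, the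
lower bound needed for `ciInf_le`, and `infConv κ K v q = min`.
* `infConv_semiConc`: `infConv κ K v q - ‖q‖²/(2κ) = ⨅ z, (v z + ‖z‖²/(2κ) - ⟪q,z⟫/κ)` is an infimum of affine functions of `q`; prove the concavity inequality directly
  with a minimising source of the convex combination.
* `infConv_liminf`: `v > v q - ε` on `K ∩ ball q r` (lsc within `K`), `v ≥ m` on `K`; for `‖q' - q‖ < r/2` and `z ∈ K \ ball q r`: `‖q' - z‖ ≥ r/2`, so the value is
  `≥ m + r²/(8κ) ≥ v q - ε` for `κ` small.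
* `infConv_gap`: finite subcover of the compact `S` by the neighbourhoods given by `infConv_liminf` (at the points `π i Q`) and by the continuity of `g`,
  with `ε` adapted to the gap at `Q` (`IsCompact.induction_on` or `IsCompact.elim_nhds_subcover`).
-/

set_option autoImplicit false

open scoped Topology RealInnerProductSpace
open Filter Set

namespace Claimed.Agent.R316.B13

variable {E : Type*} [NormedAddCommGroup E] [InnerProductSpace ℝ E]
variable {κ : ℝ} {K : Set E} {v : E → ℝ}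

theorem infConv_lsc (κ : ℝ) (hv : LowerSemicontinuousOn v K) (q : E) :
    LowerSemicontinuousOn (fun z => v z + ‖q - z‖ ^ 2 / (2 * κ)) K := by
  have hc : Continuous fun z : E => ‖q - z‖ ^ 2 / (2 * κ) := by fun_prop
  exact hv.add (hc.lowerSemicontinuous.lowerSemicontinuousOn K)

theorem infConv_bddBelow (κ : ℝ) (hK : IsCompact K) (hv : LowerSemicontinuousOn v K) (q : E) :
    BddBelow (range fun z : K => v z + ‖q - z‖ ^ 2 / (2 * κ)) := by
  obtain ⟨m, hm⟩ := (infConv_lsc κ hv q).bddBelow_of_isCompact hK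
  refine ⟨m, ?_⟩
  rintro _ ⟨z, rfl⟩
  exact hm ⟨z, z.2, rfl⟩

theorem infConv_exists_source (hκ : 0 < κ) (hK : IsCompact K) (hne : K.Nonempty)
    (hv : LowerSemicontinuousOn v K) (q : E) :
    ∃ z ∈ K, infConv κ K v q = v z + ‖q - z‖ ^ 2 / (2 * κ) := by
  obtain ⟨z, hz, hmin⟩ := (infConv_lsc κ hv q).exists_isMinOn hne hK
  refine ⟨z, hz, ?_⟩
  haveI : Nonempty K := hne.to_subtype
  unfold infConv
  exact le_antisymm (ciInf_le (infConv_bddBelow κ hK hv q) ⟨z, hz⟩)
    (le_ciInf fun w => isMinOn_iff.1 hmin w w.2)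

theorem infConv_le (hκ : 0 < κ) (hK : IsCompact K) (hv : LowerSemicontinuousOn v K) (q : E) {z : E}
    (hz : z ∈ K) : infConv κ K v q ≤ v z + ‖q - z‖ ^ 2 / (2 * κ) := by
  unfold infConv
  exact ciInf_le (infConv_bddBelow κ hK hv q) ⟨z, hz⟩

theorem infConv_le_self (hκ : 0 < κ) (hK : IsCompact K) (hv : LowerSemicontinuousOn v K) {q : E}
    (hq : q ∈ K) : infConv κ K v q ≤ v q := by
  have h := infConv_le hκ hK hv q hq
  simpa using h

/-- minimising sources are close. -/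
theorem infConv_source_dist (hκ : 0 < κ) (hK : IsCompact K) (hv : LowerSemicontinuousOn v K)
    (hpos : ∀ z ∈ K, 0 ≤ v z) {q z : E} (hq : q ∈ K) (hz : z ∈ K)
    (hsrc : infConv κ K v q = v z + ‖q - z‖ ^ 2 / (2 * κ)) : ‖q - z‖ ^ 2 ≤ 2 * κ * v q := by
  have h1 := infConv_le_self hκ hK hv hq
  have h2 := hpos z hz
  have h3 : ‖q - z‖ ^ 2 / (2 * κ) ≤ v q := by linarith
  rw [div_le_iff₀ (by positivity)] at h3
  linarith

theorem infConv_semiConc (hκ : 0 < κ) (hK : IsCompact K) (hne : K.Nonempty)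
    (hv : LowerSemicontinuousOn v K) : SemiConc (1 / (2 * κ)) (infConv κ K v) := by
  unfold SemiConc
  refine ⟨convex_univ, fun x _ y _ a b ha hb hab => ?_⟩
  obtain ⟨z, hz, hsrc⟩ := infConv_exists_source hκ hK hne hv (a • x + b • y)
  have hx := infConv_le hκ hK hv x hz
  have hy := infConv_le hκ hK hv y hz
  simp only [smul_eq_mul]
  rw [hsrc]
  have e1 : ‖x - z‖ ^ 2 = ‖x‖ ^ 2 - 2 * ⟪x, z⟫ + ‖z‖ ^ 2 := norm_sub_sq_real x z
  have e2 : ‖y - z‖ ^ 2 = ‖y‖ ^ 2 - 2 * ⟪y, z⟫ + ‖z‖ ^ 2 := norm_sub_sq_real y z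
  have e3 : ‖a • x + b • y - z‖ ^ 2
      = ‖a • x + b • y‖ ^ 2 - 2 * (a * ⟪x, z⟫ + b * ⟪y, z⟫) + ‖z‖ ^ 2 := by
    rw [norm_sub_sq_real, inner_add_left, real_inner_smul_left, real_inner_smul_left]
  rw [e1] at hx
  rw [e2] at hy
  rw [e3]
  have hx' := mul_le_mul_of_nonneg_left hx ha
  have hy' := mul_le_mul_of_nonneg_left hy hb
  have hb' : b = 1 - a := by linarith
  have key : a * (v z + (‖x‖ ^ 2 - 2 * ⟪x, z⟫ + ‖z‖ ^ 2) / (2 * κ))
        + b * (v z + (‖y‖ ^ 2 - 2 * ⟪y, z⟫ + ‖z‖ ^ 2) / (2 * κ))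
        - a * (1 / (2 * κ) * ‖x‖ ^ 2) - b * (1 / (2 * κ) * ‖y‖ ^ 2)
      = v z + (‖a • x + b • y‖ ^ 2 - 2 * (a * ⟪x, z⟫ + b * ⟪y, z⟫) + ‖z‖ ^ 2) / (2 * κ)
        - 1 / (2 * κ) * ‖a • x + b • y‖ ^ 2 := by
    generalize ‖a • x + b • y‖ = W
    rw [hb']
    field_simp
    ring
  rw [← key]
  linarith

theorem infConv_continuous [FiniteDimensional ℝ E] (hκ : 0 < κ) (hK : IsCompact K)
    (hne : K.Nonempty) (hv : LowerSemicontinuousOn v K) : Continuous (infConv κ K v) := by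
  have h := infConv_semiConc hκ hK hne hv
  have hc : Continuous fun q => infConv κ K v q - 1 / (2 * κ) * ‖q‖ ^ 2 :=
    continuousOn_univ.1 (ConcaveOn.continuousOn isOpen_univ h)
  have e : infConv κ K v
      = fun q => (infConv κ K v q - 1 / (2 * κ) * ‖q‖ ^ 2) + 1 / (2 * κ) * ‖q‖ ^ 2 := by
    funext q; ring
  rw [e]
  exact hc.add (by fun_prop)

/-- `eq:epigraph-limit`. -/
theorem infConv_liminf (hK : IsCompact K) (hv : LowerSemicontinuousOn v K) {q : E} (hq : q ∈ K)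
    {ε : ℝ} (hε : 0 < ε) :
    ∃ κ₀ > 0, ∃ δ > 0, ∀ κ, 0 < κ → κ < κ₀ → ∀ q', ‖q' - q‖ < δ →
      v q - ε ≤ infConv κ K v q' := by
  have hne : K.Nonempty := ⟨q, hq⟩
  haveI : Nonempty K := hne.to_subtype
  obtain ⟨m, hm⟩ := hv.bddBelow_of_isCompact hK
  have hm' : ∀ z ∈ K, m ≤ v z := fun z hz => hm ⟨z, hz, rfl⟩
  have hev := hv q hq (v q - ε) (by linarith)
  obtain ⟨r, hr, hball⟩ := Metric.mem_nhdsWithin_iff.1 hev
  set M : ℝ := |v q - ε - m| + 1 with hMdef
  have hM : 0 < M := by positivity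
  refine ⟨r ^ 2 / (8 * M), by positivity, r / 2, by positivity, fun κ hκ hκ' q' hq' => ?_⟩
  unfold infConv
  refine le_ciInf fun z => ?_
  by_cases hz : (z : E) ∈ Metric.ball q r
  · have h1 : v q - ε < v z := hball ⟨hz, z.2⟩
    have h2 : 0 ≤ ‖q' - z‖ ^ 2 / (2 * κ) := by positivity
    linarith
  · have h1 : r ≤ ‖(z : E) - q‖ := by
      rw [mem_ball_iff_norm] at hz; exact not_lt.1 hz
    have h2 : r / 2 ≤ ‖q' - z‖ := by
      have h3 : ‖(z : E) - q‖ ≤ ‖q' - z‖ + ‖q' - q‖ := by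
        have e : (z : E) - q = -(q' - z) + (q' - q) := by abel
        rw [e]; exact (norm_add_le _ _).trans (by rw [norm_neg])
      linarith
    have h3 : M ≤ ‖q' - z‖ ^ 2 / (2 * κ) := by
      rw [le_div_iff₀ (by positivity)]
      rw [lt_div_iff₀ (by positivity)] at hκ'
      have h4 : (r / 2) ^ 2 ≤ ‖q' - z‖ ^ 2 := by gcongr
      nlinarith
    have h5 := hm' z z.2
    have h6 : v q - ε - m ≤ M := (le_abs_self _).trans (by rw [hMdef]; linarith)
    linarith

/-- a strict lower bound on a compact set persists for small `κ`. -/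
theorem infConv_gap {E' : Type*} [NormedAddCommGroup E'] [NormedSpace ℝ E'] {ι : Type*}
    [Fintype ι] (hK : IsCompact K) (hv : LowerSemicontinuousOn v K) (π : ι → E' →L[ℝ] E)
    (α : ι → ℝ) (hα : ∀ i, 0 ≤ α i) (g : E' → ℝ) {S : Set E'} (hS : IsCompact S)
    (hg : ContinuousOn g S) (hπ : ∀ i, ∀ Q ∈ S, π i Q ∈ K) (c : ℝ)
    (hgap : ∀ Q ∈ S, c < ∑ i, α i * v (π i Q) - g Q) :
    ∃ κ₀ > 0, ∀ κ, 0 < κ → κ < κ₀ → ∀ Q ∈ S, c < ∑ i, α i * infConv κ K v (π i Q) - g Q := by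
  have main : ∀ᶠ κ in 𝓝[>] (0 : ℝ), ∀ Q ∈ S, c < ∑ i, α i * infConv κ K v (π i Q) - g Q := by
    refine hS.induction_on (p := fun T => ∀ᶠ κ in 𝓝[>] (0 : ℝ),
      ∀ Q ∈ T, c < ∑ i, α i * infConv κ K v (π i Q) - g Q) ?_ ?_ ?_ ?_
    · exact Eventually.of_forall fun κ Q hQ => (hQ : Q ∈ (∅ : Set E')).elim
    · intro s t hst ht
      exact ht.mono fun κ h Q hQ => h Q (hst hQ)
    · intro s t hs ht
      filter_upwards [hs, ht] with κ h1 h2 Q hQ
      exact hQ.elim (h1 Q) (h2 Q)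
    · intro Q hQ
      set γ : ℝ := ∑ i, α i * v (π i Q) - g Q - c with hγ
      have hγpos : 0 < γ := by have := hgap Q hQ; linarith
      set a : ℝ := ∑ i, α i with ha
      have ha0 : 0 ≤ a := Finset.sum_nonneg fun i _ => hα i
      set ε : ℝ := γ / (2 * (a + 1)) with hε
      have hεpos : 0 < ε := by positivity
      have hεa : (a + 1) * ε = γ / 2 := by rw [hε]; field_simp
      choose κ₀ hκ₀ δ hδ hlim using fun i => infConv_liminf hK hv (hπ i Q hQ) hεpos
      refine ⟨{Q' | (∀ i, ‖π i Q' - π i Q‖ < δ i) ∧ g Q' < g Q + ε}, ?_, ?_⟩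
      · have h1 : ∀ᶠ Q' in 𝓝[S] Q, ∀ i, ‖π i Q' - π i Q‖ < δ i := by
          rw [eventually_all]
          intro i
          have ht : Tendsto (fun Q' => ‖π i Q' - π i Q‖) (𝓝[S] Q) (𝓝 0) := by
            have hc : Continuous fun Q' => ‖π i Q' - π i Q‖ := by fun_prop
            have h0 := (hc.tendsto Q).mono_left (nhdsWithin_le_nhds (s := S))
            simpa using h0
          exact ht.eventually (Iio_mem_nhds (hδ i))
        have h2 : ∀ᶠ Q' in 𝓝[S] Q, g Q' < g Q + ε :=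
          (hg Q hQ).eventually (Iio_mem_nhds (by linarith))
        exact h1.and h2
      · have h3 : ∀ᶠ κ in 𝓝[>] (0 : ℝ), ∀ i, κ < κ₀ i := by
          rw [eventually_all]
          intro i
          exact nhdsWithin_le_nhds (Iio_mem_nhds (hκ₀ i))
        filter_upwards [h3, self_mem_nhdsWithin] with κ hκ1 hκ0 Q' hQ'
        have h4 : ∀ i, α i * (v (π i Q) - ε) ≤ α i * infConv κ K v (π i Q') := fun i =>
          mul_le_mul_of_nonneg_left (hlim i κ hκ0 (hκ1 i) _ (hQ'.1 i)) (hα i)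
        have h5 : ∑ i, α i * (v (π i Q) - ε) ≤ ∑ i, α i * infConv κ K v (π i Q') :=
          Finset.sum_le_sum fun i _ => h4 i
        have h6 : ∑ i, α i * (v (π i Q) - ε) = ∑ i, α i * v (π i Q) - a * ε := by
          simp only [mul_sub, Finset.sum_sub_distrib, ← Finset.sum_mul, ha]
        have h7 := hQ'.2
        have h8 : (a + 1) * ε = a * ε + ε := by ring
        linarith
  obtain ⟨u, hu, hsub⟩ := mem_nhdsGT_iff_exists_Ioo_subset.1 main
  exact ⟨u, hu, fun κ h0 h1 => hsub ⟨h0, h1⟩⟩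

theorem infConv_translate (hκ : 0 < κ) (hK : IsCompact K) (hv : LowerSemicontinuousOn v K)
    {q z : E} (hsrc : infConv κ K v q = v z + ‖q - z‖ ^ 2 / (2 * κ)) {h : E} (hzh : z + h ∈ K) :
    infConv κ K v (q + h) ≤ v (z + h) + ‖q - z‖ ^ 2 / (2 * κ) := by
  have h1 := infConv_le hκ hK hv (q + h) hzh
  have e : q + h - (z + h) = q - z := by abel
  rwa [e] at h1

/-- transfer of lower tests from the inf-convolution at `q` to `v` at an interior minimising source `z` (`eq:translated-test`). -/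
theorem infConv_lower_test (hκ : 0 < κ) (hK : IsCompact K) (hv : LowerSemicontinuousOn v K)
    {q z : E} (hz : z ∈ interior K) (hsrc : infConv κ K v q = v z + ‖q - z‖ ^ 2 / (2 * κ))
    {φ : E → ℝ} (hφ : ∀ᶠ h in 𝓝 (0 : E), φ h ≤ infConv κ K v (q + h)) :
    ∀ᶠ h in 𝓝 (0 : E), φ h - ‖q - z‖ ^ 2 / (2 * κ) ≤ v (z + h) := by
  have h1 : ∀ᶠ h in 𝓝 (0 : E), z + h ∈ K := by
    have ht : Tendsto (fun h : E => z + h) (𝓝 0) (𝓝 z) :=
      (continuous_const.add continuous_id).tendsto' 0 z (add_zero z)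
    exact ht.eventually (mem_interior_iff_mem_nhds.1 hz)
  filter_upwards [h1, hφ] with h hK' hφ'
  have h2 := infConv_translate hκ hK hv hsrc hK'
  linarith

end Claimed.Agent.R316.B13
end

/- ===== packed: Claimed.Agent.R316.B13.Contact ===== -/
section
/-!
# B13-7 / B13-8: simultaneous contacts with a common base (`ellipsoids.tex`, Section 7.3, real-variable part)

Two leaves: `simultaneous_contact` (B13-7, ~500 lines) and `contact_package` (B13-8, ~500 lines).  The claimers replace the `sorry`s IN PLACE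
(or prove them in new files `ContactA.lean`, `ContactB.lean` under the same names with a prime), statements are frozen (problems: msg helper126).
Auxiliary lemmas: prefix `contact_`.  All statements of the other files of `B13/` may be used.  The statements are MEASURE FREE:
inside the proofs use `letI : MeasurableSpace E := borel E; haveI : BorelSpace E := ⟨rfl⟩` (same for `F`).

`E` = product coordinates `Q = (x, t, ξ_1, …, ξ_m)`, `F` = coordinates `q = (x, t, ξ)`, `π i Q = (x, t, ξ_i)`, `v` = the envelope, `g = g_θ` the smooth support.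

## `simultaneous_contact`
`f Q = ∑ α_i u (π_i Q) - g Q`.
(a) `f` is continuous on `closure O` (`u` is continuous: `ConcaveOn.continuousOn isOpen_univ`).
(b) upper quadratic bound `hup` of `jensen_contact`: `c ‖·‖² - u` is convex, take a subgradient `σ` at `q` (`subG_exists`):
    `u (q + k) ≤ u q + ⟪2 c q - σ, k⟫ + c ‖k‖²`.  For `g`: `closure O` is compact in the open `U`, so some closed `r`-thickening is a compact subset of `U`
    (`IsCompact.exists_cthickening_subset_open`), `D²g` is bounded there by `C_g`, and two applications of the mean value inequality on the convex ball `ball y r` give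
    `|g (y + h) - g y - Dg(y) h| ≤ C_g ‖h‖²`.
(c) `jensen_contact`: the contact set `S` has positive measure.
(d) `N_i = {q | u has no expansion at q}` is null (`aleksandrov_semiConc`); enlarge it to a measurable null set (`MeasureTheory.exists_measurable_superset_of_null`);
    its preimage under the surjective `π_i` is null (`ae_comp_linearMap_mem_iff`); a finite union of null sets is null; so some `Q ∈ S` avoids all of them.
(e) at `Q ∈ S ⊆ O`: `f - ⟪p,·⟫` has a local minimum (`O` is a neighbourhood of `Q` in `closure O`) and the expansion obtained from `Exp2.comp_clm`, `Exp2.const_mul`, `Exp2.sum`,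
    `exp2_of_contDiffAt`, `exp2_inner`, `Exp2.sub`; conclude with `Exp2.grad_eq_zero`, `Exp2.hess_nonneg` and `ContinuousLinearMap.adjoint_inner_left`.
(f) the derivative-free form (`∀ ε' > 0, ∀ᶠ h, g (Q + h) - g Q ≤ …`, THE FORM USED BY SECTION 7) follows directly from the minimality `f (Q + h) - ⟪p, Q + h⟫ ≥ f Q - ⟪p, Q⟫` for `Q + h ∈ O` and
    `Exp2.upper_test` for each factor (with `ε'' = ε' / (1 + ∑ α_i ‖π_i‖²)`).

## `contact_package`
`Φ Q = ∑ α_i v (π_i Q) - g Q ≥ 0` on `closure O`, lower semicontinuous, zero set `Z` compact, `Z ⊆ O`.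
Shrink `ε` so that `{Q ∈ closure O | infDist Q Z < ε} ⊆ O`.  `S_ε = {Q ∈ closure O | ε ≤ infDist Q Z}` is compact and `Φ > 0` there, so `Φ > c_ε > 0` on `S_ε`
(`LowerSemicontinuousOn.exists_isMinOn`; if `S_ε = ∅` nothing to do).  `infConv_gap`: `Φ_κ > c_ε` on `S_ε` for `κ < κ₀`.  At `Q* ∈ Z`: `Φ_κ Q* ≤ Φ Q* = 0` (`infConv_le_self`).
Take `δ < min ε (c_ε / (1 + diam))`: every minimiser of `Φ_κ - ⟪p,·⟫`, `‖p‖ ≤ δ`, lies outside `S_ε`, so `contactSet Φ_κ O δ ⊆ O`.
Apply `simultaneous_contact` with `u = infConv κ K v` (`infConv_semiConc`).  Sources `z_i` (`infConv_exists_source`): `‖z_i - π_i Q‖² ≤ 2 κ M_v` (`infConv_source_dist`), which is `< ε²` and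
smaller than the distance of the compact `π_i (closure O)` to the complement of `interior K`, for `κ` small.  Lower tests: `Exp2.lower_test` + `infConv_lower_test`.
-/

set_option autoImplicit false

open scoped Topology RealInnerProductSpace
open Filter Set

namespace Claimed.Agent.R316.B13

variable {E F : Type*} [NormedAddCommGroup E] [InnerProductSpace ℝ E] [FiniteDimensional ℝ E]
  [NormedAddCommGroup F] [InnerProductSpace ℝ F] [FiniteDimensional ℝ F] {ι : Type*} [Fintype ι]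

theorem contact_ae_comp [MeasurableSpace E] [BorelSpace E] [MeasurableSpace F] [BorelSpace F]
    (L : E →L[ℝ] F) (hL : Function.Surjective L) {p : F → Prop}
    (hp : ∀ᵐ y ∂(MeasureTheory.volume : MeasureTheory.Measure F), p y) :
    ∀ᵐ x ∂(MeasureTheory.volume : MeasureTheory.Measure E), p (L x) := by
  obtain ⟨t, ht1, ht2, ht3⟩ :=
    MeasureTheory.exists_measurable_superset_of_null (MeasureTheory.ae_iff.1 hp)
  have h1 : ∀ᵐ y ∂(MeasureTheory.volume : MeasureTheory.Measure F), y ∈ tᶜ := by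
    rw [MeasureTheory.ae_iff]; simpa using ht3
  have h2 := (MeasureTheory.ae_comp_linearMap_mem_iff (L : E →ₗ[ℝ] F) MeasureTheory.volume
    MeasureTheory.volume hL ht2.compl).2 h1
  filter_upwards [h2] with x hx
  by_contra hpx
  exact hx (ht1 hpx)

theorem contact_semiConc_convex {u : F → ℝ} {c : ℝ} (hu : SemiConc c u) :
    ConvexOn ℝ univ (fun q => c * ‖q‖ ^ 2 - u q) := by
  have h0 := hu.neg
  have e : (-fun q => u q - c * ‖q‖ ^ 2) = fun q => c * ‖q‖ ^ 2 - u q := by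
    funext q
    simp
  rwa [e] at h0

theorem contact_semiConc_upper {u : F → ℝ} {c : ℝ} (hu : SemiConc c u) (q : F) :
    ∃ τ : F, ∀ k, u (q + k) ≤ u q + ⟪τ, k⟫ + c * ‖k‖ ^ 2 := by
  obtain ⟨σ, hσ⟩ := subG_exists (contact_semiConc_convex hu) q
  refine ⟨(2 * c) • q - σ, fun k => ?_⟩
  have h1 := hσ (q + k)
  rw [add_sub_cancel_left] at h1
  dsimp only at h1
  have e : ‖q + k‖ ^ 2 = ‖q‖ ^ 2 + 2 * ⟪q, k⟫ + ‖k‖ ^ 2 := norm_add_sq_real q k
  rw [e] at h1
  rw [inner_sub_left, real_inner_smul_left]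
  linarith

theorem contact_semiConc_continuous {u : F → ℝ} {c : ℝ} (hu : SemiConc c u) : Continuous u := by
  have hc : Continuous fun q => u q - c * ‖q‖ ^ 2 :=
    continuousOn_univ.1 (ConcaveOn.continuousOn isOpen_univ hu)
  have e : u = fun q => (u q - c * ‖q‖ ^ 2) + c * ‖q‖ ^ 2 := by funext q; ring
  rw [e]
  exact hc.add (by fun_prop)

theorem contact_taylor {g : E → ℝ} {U Kc : Set E} (hU : IsOpen U) (hg : ContDiffOn ℝ 2 g U)
    (hKc : IsCompact Kc) (hKU : Kc ⊆ U) :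
    ∃ r > 0, ∃ Cg : ℝ, 0 ≤ Cg ∧ ∀ y ∈ Kc, ∀ h, ‖h‖ < r →
      |g (y + h) - g y - fderiv ℝ g y h| ≤ Cg * ‖h‖ ^ 2 := by
  obtain ⟨r, hr, hsub⟩ := hKc.exists_cthickening_subset_open hU hKU
  have hK' : IsCompact (Metric.cthickening r Kc) := hKc.cthickening
  have hg1 : ContDiffOn ℝ 1 (fderiv ℝ g) U := hg.fderiv_of_isOpen hU (by norm_num)
  have hg2 : ContinuousOn (fderiv ℝ (fderiv ℝ g)) U :=
    hg1.continuousOn_fderiv_of_isOpen hU le_rfl
  obtain ⟨Cg, hCg⟩ := hK'.exists_bound_of_continuousOn (f := fderiv ℝ (fderiv ℝ g))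
    (hg2.mono hsub)
  refine ⟨r, hr, max Cg 0, le_max_right _ _, fun y hy h hh => ?_⟩
  have hBsub : Metric.closedBall y ‖h‖ ⊆ Metric.cthickening r Kc :=
    (Metric.closedBall_subset_closedBall hh.le).trans (Metric.closedBall_subset_cthickening hy r)
  have hBU : Metric.closedBall y ‖h‖ ⊆ U := hBsub.trans hsub
  have hconv : Convex ℝ (Metric.closedBall y ‖h‖) := convex_closedBall y ‖h‖
  have hyB : y ∈ Metric.closedBall y ‖h‖ := Metric.mem_closedBall_self (norm_nonneg h)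
  have hd1 : ∀ z ∈ Metric.closedBall y ‖h‖, DifferentiableAt ℝ (fderiv ℝ g) z := fun z hz =>
    (hg1.differentiableOn (by norm_num)).differentiableAt (hU.mem_nhds (hBU hz))
  have hd0 : ∀ z ∈ Metric.closedBall y ‖h‖, DifferentiableAt ℝ g z := fun z hz =>
    (hg.differentiableOn (by norm_num)).differentiableAt (hU.mem_nhds (hBU hz))
  have step1 : ∀ z ∈ Metric.closedBall y ‖h‖,
      ‖fderiv ℝ g z - fderiv ℝ g y‖ ≤ max Cg 0 * ‖h‖ := by
    intro z hz
    have h1 := hconv.norm_image_sub_le_of_norm_fderiv_le hd1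
      (fun w hw => (hCg w (hBsub hw)).trans (le_max_left Cg 0)) hyB hz
    refine h1.trans ?_
    exact mul_le_mul_of_nonneg_left (mem_closedBall_iff_norm.1 hz) (le_max_right _ _)
  have hyh : y + h ∈ Metric.closedBall y ‖h‖ := by
    rw [mem_closedBall_iff_norm, add_sub_cancel_left]
  have step2 := hconv.norm_image_sub_le_of_norm_fderiv_le' hd0 step1 hyB hyh
  rw [add_sub_cancel_left, Real.norm_eq_abs] at step2
  calc |g (y + h) - g y - fderiv ℝ g y h| ≤ max Cg 0 * ‖h‖ * ‖h‖ := step2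
    _ = max Cg 0 * ‖h‖ ^ 2 := by ring

/-- a contact point of `∑ α_i u ∘ π_i - g` at which ALL the factors have second order expansions. -/
theorem simultaneous_contact (π : ι → E →L[ℝ] F) (hπ : ∀ i, Function.Surjective (π i))
    (α : ι → ℝ) (hα : ∀ i, 0 < α i) {u : F → ℝ} {c : ℝ} (hu : SemiConc c u) {g : E → ℝ}
    {O U : Set E} (hO : IsOpen O) (hOb : Bornology.IsBounded O) (hne : O.Nonempty) (hU : IsOpen U)
    (hOU : closure O ⊆ U) (hg : ContDiffOn ℝ 2 g U) {δ : ℝ} (hδ : 0 < δ)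
    (hint : contactSet (fun Q => ∑ i, α i * u (π i Q) - g Q) O δ ⊆ O) :
    ∃ Q ∈ O, ∃ p : E, ‖p‖ ≤ δ ∧ ∃ (P : ι → F) (A : ι → F →L[ℝ] F),
      (∀ i, IsSelfAdjoint (A i)) ∧ (∀ i, Exp2 u (π i Q) (P i) (A i)) ∧
      (∀ ε' > 0, ∀ᶠ h in 𝓝 (0 : E), g (Q + h) - g Q ≤
        ∑ i, α i * (⟪P i, π i h⟫ + (1 / 2) * ⟪A i (π i h), π i h⟫) - ⟪p, h⟫ + ε' * ‖h‖ ^ 2) ∧
      (∀ h, ∑ i, α i * ⟪P i, π i h⟫ = fderiv ℝ g Q h + ⟪p, h⟫) ∧
      ∀ h, fderiv ℝ (fderiv ℝ g) Q h h ≤ ∑ i, α i * ⟪A i (π i h), π i h⟫ := by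
  classical
  letI : MeasurableSpace E := borel E
  haveI : BorelSpace E := ⟨rfl⟩
  letI : MeasurableSpace F := borel F
  haveI : BorelSpace F := ⟨rfl⟩
  have huc : Continuous u := contact_semiConc_continuous hu
  have hcomp : IsCompact (closure O) := hOb.isCompact_closure
  have hfc : ContinuousOn (fun Q => ∑ i, α i * u (π i Q) - g Q) (closure O) := by
    refine ContinuousOn.sub ?_ (hg.continuousOn.mono hOU)
    exact (continuous_finsetSum _ fun i _ =>
      continuous_const.mul (huc.comp (π i).continuous)).continuousOn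
  obtain ⟨r, hr, Cg, hCg, htay⟩ := contact_taylor hU hg hcomp hOU
  set C₁ : ℝ := ∑ i, α i * (|c| * ‖π i‖ ^ 2) with hC₁
  have hC₁0 : 0 ≤ C₁ := Finset.sum_nonneg fun i _ => mul_nonneg (hα i).le (by positivity)
  have hC0 : 0 ≤ 2 * (C₁ + Cg) := by positivity
  have hup : ∀ y ∈ O, ∃ s : E, ∀ h, ‖h‖ < r →
      (fun Q => ∑ i, α i * u (π i Q) - g Q) (y + h)
        ≤ (fun Q => ∑ i, α i * u (π i Q) - g Q) y + ⟪s, h⟫ + 2 * (C₁ + Cg) / 2 * ‖h‖ ^ 2 := by
    intro y hy
    choose τ hτ using fun i => contact_semiConc_upper hu (π i y)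
    set ℓ : E →L[ℝ] ℝ := ∑ i, α i • ((innerSL ℝ (τ i)).comp (π i)) - fderiv ℝ g y with hℓ
    refine ⟨(InnerProductSpace.toDual ℝ E).symm ℓ, fun h hh => ?_⟩
    rw [InnerProductSpace.toDual_symm_apply]
    have hℓh : ℓ h = ∑ i, α i * ⟪τ i, π i h⟫ - fderiv ℝ g y h := by
      simp [hℓ]
    have h1 := (abs_le.1 (htay y (subset_closure hy) h hh)).1
    have h2 : ∑ i, α i * u (π i (y + h)) ≤ ∑ i, α i * u (π i y) + ∑ i, α i * ⟪τ i, π i h⟫
        + C₁ * ‖h‖ ^ 2 := by
      rw [hC₁, Finset.sum_mul, ← Finset.sum_add_distrib, ← Finset.sum_add_distrib]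
      refine Finset.sum_le_sum fun i _ => ?_
      have h3 := hτ i (π i h)
      rw [← map_add] at h3
      have h4 : c * ‖π i h‖ ^ 2 ≤ |c| * ‖π i‖ ^ 2 * ‖h‖ ^ 2 := by
        calc c * ‖π i h‖ ^ 2 ≤ |c| * ‖π i h‖ ^ 2 := by gcongr; exact le_abs_self c
          _ ≤ |c| * (‖π i‖ * ‖h‖) ^ 2 := by gcongr; exact (π i).le_opNorm h
          _ = |c| * ‖π i‖ ^ 2 * ‖h‖ ^ 2 := by ring
      have h5 : u (π i (y + h)) ≤ u (π i y) + ⟪τ i, π i h⟫ + |c| * ‖π i‖ ^ 2 * ‖h‖ ^ 2 := by
        linarith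
      have h6 := mul_le_mul_of_nonneg_left h5 (hα i).le
      calc α i * u (π i (y + h))
          ≤ α i * (u (π i y) + ⟪τ i, π i h⟫ + |c| * ‖π i‖ ^ 2 * ‖h‖ ^ 2) := h6
        _ = α i * u (π i y) + α i * ⟪τ i, π i h⟫ + α i * (|c| * ‖π i‖ ^ 2) * ‖h‖ ^ 2 := by ring
    rw [hℓh]
    have e : 2 * (C₁ + Cg) / 2 * ‖h‖ ^ 2 = C₁ * ‖h‖ ^ 2 + Cg * ‖h‖ ^ 2 := by ring
    rw [e]
    dsimp only
    linarith
  have hpos := jensen_contact hO hOb hne hfc hC0 hr hδ hup hint
  have hgood : ∀ᵐ Q ∂(MeasureTheory.volume : MeasureTheory.Measure E), ∀ i,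
      ∃ (p : F) (A : F →L[ℝ] F), IsSelfAdjoint A ∧ Exp2 u (π i Q) p A := by
    rw [MeasureTheory.ae_all_iff]
    intro i
    exact contact_ae_comp (π i) (hπ i) (aleksandrov_semiConc hu)
  obtain ⟨Q, hQS, hQgood⟩ : ∃ Q ∈ contactSet (fun Q => ∑ i, α i * u (π i Q) - g Q) O δ,
      ∀ i, ∃ (p : F) (A : F →L[ℝ] F), IsSelfAdjoint A ∧ Exp2 u (π i Q) p A := by
    by_contra hcon
    refine hpos.ne' (MeasureTheory.measure_mono_null ?_ (MeasureTheory.ae_iff.1 hgood))
    intro Q hQ hQ'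
    exact hcon ⟨Q, hQ, hQ'⟩
  obtain ⟨-, p, hp, hmin⟩ := id hQS
  have hQO : Q ∈ O := hint hQS
  choose P A hA hexp using hQgood
  have hF : Exp2 (fun z => ∑ i, α i * u (π i z)) Q
      (∑ i, α i • ContinuousLinearMap.adjoint (π i) (P i))
      (∑ i, α i • (ContinuousLinearMap.adjoint (π i) ∘L A i ∘L π i)) :=
    Exp2.sum Finset.univ (fun i _ => ((hexp i).comp_clm (π i)).const_mul (α i))
  have hGi : ∀ h, ⟪∑ i, α i • ContinuousLinearMap.adjoint (π i) (P i), h⟫
      = ∑ i, α i * ⟪P i, π i h⟫ := by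
    intro h
    rw [sum_inner]
    refine Finset.sum_congr rfl fun i _ => ?_
    rw [real_inner_smul_left, ContinuousLinearMap.adjoint_inner_left]
  have hHi : ∀ h, ⟪(∑ i, α i • (ContinuousLinearMap.adjoint (π i) ∘L A i ∘L π i)) h, h⟫
      = ∑ i, α i * ⟪A i (π i h), π i h⟫ := by
    intro h
    rw [sum_apply, sum_inner]
    refine Finset.sum_congr rfl fun i _ => ?_
    rw [smul_apply, real_inner_smul_left, ContinuousLinearMap.comp_apply,
      ContinuousLinearMap.comp_apply, ContinuousLinearMap.adjoint_inner_left]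
  have hloc : IsLocalMin (fun z => (∑ i, α i * u (π i z) - g z) - ⟪p, z⟫) Q := by
    filter_upwards [hO.mem_nhds hQO] with z hz
    exact isMinOn_iff.1 hmin z (subset_closure hz)
  obtain ⟨pg, Ag, hAg, hgexp, hg1, hg2⟩ :=
    exp2_of_contDiffAt (hg.contDiffAt (hU.mem_nhds (hOU (subset_closure hQO))))
  have htot := (hF.sub hgexp).sub (exp2_inner p Q)
  have hgrad := htot.grad_eq_zero hloc
  refine ⟨Q, hQO, p, hp, P, A, hA, hexp, ?_, ?_, ?_⟩
  · intro ε' hε'
    have ht : Tendsto (fun v : E => Q + v) (𝓝 0) (𝓝 Q) :=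
      (continuous_const.add continuous_id).tendsto' 0 Q (add_zero Q)
    filter_upwards [hF.upper_test hε', ht.eventually hloc] with h h1 h2
    rw [hGi, hHi] at h1
    rw [inner_add_right] at h2
    have e : ∑ i, α i * (⟪P i, π i h⟫ + (1 / 2) * ⟪A i (π i h), π i h⟫)
        = ∑ i, α i * ⟪P i, π i h⟫ + (1 / 2) * ∑ i, α i * ⟪A i (π i h), π i h⟫ := by
      rw [Finset.mul_sum, ← Finset.sum_add_distrib]
      refine Finset.sum_congr rfl fun i _ => ?_
      ring
    rw [e]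
    linarith
  · intro h
    rw [← hGi, hg1]
    have e : ∑ i, α i • ContinuousLinearMap.adjoint (π i) (P i) = pg + p := by
      have h3 := sub_eq_zero.1 hgrad
      have h4 := sub_eq_iff_eq_add.1 h3
      rw [h4]; abel
    rw [e, inner_add_left]
  · intro h
    have h1 := htot.hess_nonneg hloc h
    rw [sub_apply, sub_apply, inner_sub_left, inner_sub_left, hHi,
      zero_apply, inner_zero_left] at h1
    rw [hg2]
    linarith

theorem contact_lsc (π : ι → E →L[ℝ] F) (α : ι → ℝ) (hα : ∀ i, 0 < α i) {K : Set F} {v : F → ℝ}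
    (hv : LowerSemicontinuousOn v K) {g : E → ℝ} {S : Set E} (hg : ContinuousOn g S)
    (hπK : ∀ i, ∀ Q ∈ S, π i Q ∈ K) :
    LowerSemicontinuousOn (fun Q => ∑ i, α i * v (π i Q) - g Q) S := by
  have h1 : ∀ i, LowerSemicontinuousOn (fun Q => α i * v (π i Q)) S := by
    intro i Q hQ y hy
    have hy' : y < α i * v (π i Q) := hy
    have h2 : y / α i < v (π i Q) := by rw [div_lt_iff₀ (hα i)]; linarith
    have h3 := hv (π i Q) (hπK i Q hQ) (y / α i) h2
    have ht : Tendsto (π i) (𝓝[S] Q) (𝓝[K] (π i Q)) :=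
      (π i).continuous.continuousWithinAt.tendsto_nhdsWithin (fun Q' hQ' => hπK i Q' hQ')
    filter_upwards [ht.eventually h3] with Q' hQ'
    have hQ'' : y / α i < v (π i Q') := hQ'
    rw [div_lt_iff₀ (hα i)] at hQ''
    show y < α i * v (π i Q')
    linarith
  have h2 : LowerSemicontinuousOn (fun Q => ∑ i, α i * v (π i Q)) S :=
    lowerSemicontinuousOn_sum fun i _ => h1 i
  have h3 : LowerSemicontinuousOn (fun Q => - g Q) S := hg.neg.lowerSemicontinuousOn
  have h4 := h2.add h3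
  have e : (fun Q => ∑ i, α i * v (π i Q) - g Q) = fun Q => ∑ i, α i * v (π i Q) + - g Q := by
    funext Q; ring
  rw [e]
  exact h4

theorem contact_pos_min {Φ : E → ℝ} {S : Set E} (hS : IsCompact S)
    (hΦ : LowerSemicontinuousOn Φ S) (hpos : ∀ Q ∈ S, 0 < Φ Q) : ∃ c₀ > 0, ∀ Q ∈ S, c₀ < Φ Q := by
  rcases S.eq_empty_or_nonempty with rfl | hne
  · exact ⟨1, one_pos, fun Q hQ => hQ.elim⟩
  · obtain ⟨Q₀, hQ₀, hmin⟩ := hΦ.exists_isMinOn hne hS
    refine ⟨Φ Q₀ / 2, half_pos (hpos Q₀ hQ₀), fun Q hQ => ?_⟩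
    have h1 := isMinOn_iff.1 hmin Q hQ
    have h2 := hpos Q₀ hQ₀
    linarith

/-- **The real-variable content of Section 7.3.**  Approximate simultaneous contact jets: lower tests of `v` at points `z i`, whose jets `(P i, A i)` satisfy the first and
second order conditions of a common-base minimum at a point `Q` close to the equality set `Z`, up to a slope `p` of size `< ε`. -/
theorem contact_package [Nonempty ι] (π : ι → E →L[ℝ] F) (hπ : ∀ i, Function.Surjective (π i))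
    (α : ι → ℝ) (hα : ∀ i, 0 < α i) {K : Set F} (hK : IsCompact K) {v : F → ℝ}
    (hv : LowerSemicontinuousOn v K) (hv0 : ∀ z ∈ K, 0 ≤ v z) {Mv : ℝ} (hvM : ∀ z ∈ K, v z ≤ Mv)
    {g : E → ℝ} {O U : Set E} (hO : IsOpen O) (hOb : Bornology.IsBounded O) (hU : IsOpen U)
    (hOU : closure O ⊆ U) (hg : ContDiffOn ℝ 2 g U)
    (hπK : ∀ i, ∀ Q ∈ closure O, π i Q ∈ interior K)
    (hnn : ∀ Q ∈ closure O, g Q ≤ ∑ i, α i * v (π i Q))
    {Z : Set E} (hZ : Z = {Q | Q ∈ closure O ∧ ∑ i, α i * v (π i Q) = g Q}) (hZne : Z.Nonempty)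
    (hZO : Z ⊆ O) {ε : ℝ} (hε : 0 < ε) :
    ∃ Q ∈ O, Metric.infDist Q Z < ε ∧ ∃ p : E, ‖p‖ < ε ∧
      ∃ (z : ι → F) (P : ι → F) (A : ι → F →L[ℝ] F),
      (∀ i, z i ∈ interior K ∧ ‖z i - π i Q‖ < ε) ∧ (∀ i, IsSelfAdjoint (A i)) ∧
      (∀ i, ∀ ε' > 0, ∀ᶠ h in 𝓝 (0 : F),
        v (z i) + ⟪P i, h⟫ + (1 / 2) * ⟪A i h, h⟫ - ε' * ‖h‖ ^ 2 ≤ v (z i + h)) ∧
      (∀ ε' > 0, ∀ᶠ h in 𝓝 (0 : E), g (Q + h) - g Q ≤
        ∑ i, α i * (⟪P i, π i h⟫ + (1 / 2) * ⟪A i (π i h), π i h⟫) - ⟪p, h⟫ + ε' * ‖h‖ ^ 2) ∧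
      (∀ h, ∑ i, α i * ⟪P i, π i h⟫ = fderiv ℝ g Q h + ⟪p, h⟫) ∧
      ∀ h, fderiv ℝ (fderiv ℝ g) Q h h ≤ ∑ i, α i * ⟪A i (π i h), π i h⟫ := by
  classical
  obtain ⟨Qs, hQs⟩ := hZne
  have hQsZ : Qs ∈ closure O ∧ ∑ i, α i * v (π i Qs) = g Qs := by rw [hZ] at hQs; exact hQs
  have hcomp : IsCompact (closure O) := hOb.isCompact_closure
  obtain ⟨i₀⟩ := ‹Nonempty ι›
  have hKne : K.Nonempty := ⟨π i₀ Qs, interior_subset (hπK i₀ Qs hQsZ.1)⟩
  have hMv : 0 ≤ Mv := (hv0 _ hKne.some_mem).trans (hvM _ hKne.some_mem)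
  have hO'open : IsOpen (O ∩ Metric.thickening ε Z) := hO.inter Metric.isOpen_thickening
  have hO'sub : O ∩ Metric.thickening ε Z ⊆ O := inter_subset_left
  have hO'b : Bornology.IsBounded (O ∩ Metric.thickening ε Z) := hOb.subset hO'sub
  have hZO' : Z ⊆ O ∩ Metric.thickening ε Z :=
    fun Q hQ => ⟨hZO hQ, Metric.self_subset_thickening hε Z hQ⟩
  set O' : Set E := O ∩ Metric.thickening ε Z with hO'
  have hcl : closure O' ⊆ closure O := closure_mono hO'sub
  have hcomp' : IsCompact (closure O') := hO'b.isCompact_closure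
  have hS'comp : IsCompact (closure O' \ O') := hcomp'.diff hO'open
  have hS'cl : closure O' \ O' ⊆ closure O := sdiff_subset.trans hcl
  have hgc : ContinuousOn g (closure O) := hg.continuousOn.mono hOU
  have hΦlsc : LowerSemicontinuousOn (fun Q => ∑ i, α i * v (π i Q) - g Q) (closure O' \ O') :=
    contact_lsc π α hα hv (hgc.mono hS'cl) (fun i Q hQ => interior_subset (hπK i Q (hS'cl hQ)))
  have hΦpos : ∀ Q ∈ closure O' \ O', 0 < ∑ i, α i * v (π i Q) - g Q := by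
    intro Q hQ
    have h1 := hnn Q (hS'cl hQ)
    rcases h1.lt_or_eq with h2 | h2
    · linarith
    · exfalso
      apply hQ.2
      apply hZO'
      rw [hZ]
      exact ⟨hS'cl hQ, h2.symm⟩
  obtain ⟨c₀, hc₀, hgap⟩ := contact_pos_min hS'comp hΦlsc hΦpos
  obtain ⟨κ₀, hκ₀, hgapκ⟩ := infConv_gap hK hv π α (fun i => (hα i).le) g hS'comp
    (hgc.mono hS'cl) (fun i Q hQ => interior_subset (hπK i Q (hS'cl hQ))) c₀ hgap
  have hTcomp : IsCompact (⋃ i, π i '' closure O) :=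
    isCompact_iUnion fun i => hcomp.image (π i).continuous
  have hTsub : (⋃ i, π i '' closure O) ⊆ interior K := by
    intro q hq
    obtain ⟨i, Q, hQ, rfl⟩ := mem_iUnion.1 hq
    exact hπK i Q hQ
  obtain ⟨d, hd, hdsub⟩ := hTcomp.exists_thickening_subset_open isOpen_interior hTsub
  have hρ : 0 < min ε d := lt_min hε hd
  set ρ : ℝ := min ε d with hρdef
  have hκ₁ : 0 < ρ ^ 2 / (2 * (Mv + 1)) := by positivity
  set κ₁ : ℝ := ρ ^ 2 / (2 * (Mv + 1)) with hκ₁def
  have hκ : 0 < min κ₀ κ₁ / 2 := by positivity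
  have hκκ₀ : min κ₀ κ₁ / 2 < κ₀ := by
    have := min_le_left κ₀ κ₁
    linarith
  have hκκ₁ : min κ₀ κ₁ / 2 < κ₁ := by
    have := min_le_right κ₀ κ₁
    linarith
  set κ : ℝ := min κ₀ κ₁ / 2 with hκdef
  have hκM : 2 * κ * Mv < ρ ^ 2 := by
    rw [hκ₁def, lt_div_iff₀ (by positivity)] at hκκ₁
    nlinarith
  obtain ⟨R, hR⟩ := hcomp.isBounded.exists_norm_le
  have hR0 : 0 ≤ R := (norm_nonneg _).trans (hR Qs hQsZ.1)
  have hD : 0 < 2 * R + 1 := by positivity
  set D : ℝ := 2 * R + 1 with hDdef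
  have hδ : 0 < min (ε / 2) (c₀ / (2 * D)) := by positivity
  have hδε : min (ε / 2) (c₀ / (2 * D)) < ε := lt_of_le_of_lt (min_le_left _ _) (by linarith)
  have hδD : min (ε / 2) (c₀ / (2 * D)) * D ≤ c₀ / 2 := by
    calc min (ε / 2) (c₀ / (2 * D)) * D ≤ c₀ / (2 * D) * D := by gcongr; exact min_le_right _ _
      _ = c₀ / 2 := by field_simp
  set δ : ℝ := min (ε / 2) (c₀ / (2 * D)) with hδdef
  have hint : contactSet (fun Q => ∑ i, α i * infConv κ K v (π i Q) - g Q) O' δ ⊆ O' := by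
    rintro Q ⟨hQcl, p, hp, hmin⟩
    by_contra hQO'
    have h1 := hgapκ κ hκ hκκ₀ Q ⟨hQcl, hQO'⟩
    have h2 := isMinOn_iff.1 hmin Qs (subset_closure (hZO' hQs))
    have h3 : ∑ i, α i * infConv κ K v (π i Qs) ≤ ∑ i, α i * v (π i Qs) :=
      Finset.sum_le_sum fun i _ => mul_le_mul_of_nonneg_left
        (infConv_le_self hκ hK hv (interior_subset (hπK i Qs hQsZ.1))) (hα i).le
    have h4 : ⟪p, Q - Qs⟫ ≤ δ * D := by
      have h5 : ‖Q - Qs‖ ≤ D := by
        calc ‖Q - Qs‖ ≤ ‖Q‖ + ‖Qs‖ := norm_sub_le _ _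
          _ ≤ R + R := add_le_add (hR Q (hcl hQcl)) (hR Qs hQsZ.1)
          _ ≤ D := by rw [hDdef]; linarith
      calc ⟪p, Q - Qs⟫ ≤ ‖p‖ * ‖Q - Qs‖ := real_inner_le_norm _ _
        _ ≤ δ * D := by gcongr
    rw [inner_sub_right] at h4
    dsimp only at h2
    linarith [hQsZ.2]
  obtain ⟨Q, hQO', p, hp, P, A, hA, hexp, h3, h4, h5⟩ := simultaneous_contact π hπ α hα
    (infConv_semiConc hκ hK hKne hv) hO'open hO'b ⟨Qs, hZO' hQs⟩ hU (hcl.trans hOU) hg hδ hint
  have hQcl : Q ∈ closure O := subset_closure hQO'.1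
  choose z hzK hsrc using fun i => infConv_exists_source hκ hK hKne hv (π i Q)
  have hdist : ∀ i, ‖π i Q - z i‖ < ρ := by
    intro i
    have h6 := infConv_source_dist hκ hK hv hv0 (interior_subset (hπK i Q hQcl)) (hzK i) (hsrc i)
    have h7 : ‖π i Q - z i‖ ^ 2 < ρ ^ 2 := by
      have h8 : 2 * κ * v (π i Q) ≤ 2 * κ * Mv := by
        gcongr
        exact hvM _ (interior_subset (hπK i Q hQcl))
      linarith
    exact lt_of_pow_lt_pow_left₀ 2 hρ.le h7
  have hzint : ∀ i, z i ∈ interior K := by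
    intro i
    apply hdsub
    rw [Metric.mem_thickening_iff]
    refine ⟨π i Q, mem_iUnion.2 ⟨i, Q, hQcl, rfl⟩, ?_⟩
    rw [dist_eq_norm, norm_sub_rev]
    exact lt_of_lt_of_le (hdist i) (min_le_right _ _)
  refine ⟨Q, hQO'.1, ?_, p, lt_of_le_of_lt hp hδε, z, P, A, fun i => ⟨hzint i, ?_⟩, hA, ?_,
    h3, h4, h5⟩
  · obtain ⟨w, hw, hdw⟩ := Metric.mem_thickening_iff.1 hQO'.2
    exact lt_of_le_of_lt (Metric.infDist_le_dist_of_mem hw) hdw
  · rw [norm_sub_rev]; exact lt_of_lt_of_le (hdist i) (min_le_left _ _)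
  · intro i ε' hε'
    have h6 := infConv_lower_test hκ hK hv (hzint i) (hsrc i) ((hexp i).lower_test hε')
    filter_upwards [h6] with h hh
    rw [hsrc i] at hh
    linarith

end Claimed.Agent.R316.B13
end
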