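/- Packed by merge_tool.py (helper293): 6 modules of Claimed.Agent.R316 in one file, same declarations.
   Old modules, in this order: B14.Defs, B14.Vec, B14.Four1A, B13.HermMat, B13.John, S6.Gram -/
import Claimed.Agent.R316.CW.MatAlg

/- ===== packed: Claimed.Agent.R316.B14.Defs ===== -/
section
/-!
# Row 316, package B14 (sub-captain helper140): analysis on the unit circle and the unit disc

Framework independent (Mathlib + `CW/MatAlg` only).  Consumers: Section 4 (`discs.tex`, Lemma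
boundary-factorization, Lemma disc-frames) and Section 5 (`variation.tex`).

## Conventions (binding for every file of `R316/B14/`)

* A function on the circle is a `2π`-periodic function of the ANGLE, `a : ℝ → ℂ`.  A function
  `F : ℂ → E` is restricted to the circle by `bd F θ = F (circleMap 0 1 θ)`.
  `pavg` is the normalised average over `[0, 2π]`, so `Real.circleAverage F 0 1 = pavg (bd F)`
  (`cavg` of `Top/S5`).
* Real functions are coerced: `fun θ => ((u θ : ℝ) : ℂ)`.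
* Vector and matrix functions are treated ENTRYWISE: `a : ℝ → ι → ℂ`, `A : ℝ → Matrix ι κ ℂ`;
  `hsqV`, `hsqM` are the sums of the scalar `hsq` over the entries (Frobenius convention of the
  paper, eq. (disc:half-sobolev)).  No norm instance on matrices is ever used: sizes are
  measured by `frobSq` (`CW/MatAlg`) or by Loewner inequalities.
* `fc a k` = `k`-th Fourier coefficient, `hsq a = D(a)² = ∑ |k| |a_k|²`, `hD a = D(a)`,
  `hB a b = ∑ |k| a_k conj b_k`.
* Regularity classes: `CLip` (periodic + Lipschitz), `CSm` (periodic + `C^∞`),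
  `HolSm h` ("holomorphic on the disc, smooth on the closed disc") :=
  `DiffContOnCl ℂ h (ball 0 1)` + the boundary function is `C^∞`.  By `HolSm.hasSum` this is
  the same as a power series with rapidly decreasing coefficients.  Values of `h` outside the
  closed disc are junk.
-/

set_option autoImplicit false
open scoped ContDiff ComplexOrder ComplexConjugate Matrix Real
open MeasureTheory

namespace Claimed.Agent.R316.B14

/-- normalised average over one period `[0, 2π]`. -/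
noncomputable def pavg {E : Type} [NormedAddCommGroup E] [NormedSpace ℝ E] (a : ℝ → E) : E :=
  (2 * π)⁻¹ • ∫ θ in (0 : ℝ)..(2 * π), a θ

/-- the boundary function `θ ↦ F (e^{iθ})`. -/
noncomputable def bd {E : Type} (F : ℂ → E) (θ : ℝ) : E := F (circleMap 0 1 θ)

/-- the character `e^{ikθ}`. -/
noncomputable def ech (k : ℤ) (θ : ℝ) : ℂ := Complex.exp ((k : ℂ) * (θ : ℂ) * Complex.I)

/-- the `k`-th Fourier coefficient `(2π)⁻¹ ∫ e^{-ikθ} a(θ) dθ`. -/
noncomputable def fc (a : ℝ → ℂ) (k : ℤ) : ℂ := pavg fun θ => ech (-k) θ * a θ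

/-- `D(a)² = ∑_k |k| |a_k|²`. -/
noncomputable def hsq (a : ℝ → ℂ) : ℝ := ∑' k : ℤ, |(k : ℝ)| * ‖fc a k‖ ^ 2

/-- the half Sobolev seminorm `D(a)`. -/
noncomputable def hD (a : ℝ → ℂ) : ℝ := Real.sqrt (hsq a)

/-- the sesquilinear pairing `B_D(a, b) = ∑_k |k| a_k conj b_k`. -/
noncomputable def hB (a b : ℝ → ℂ) : ℂ := ∑' k : ℤ, ((|(k : ℝ)| : ℝ) : ℂ) * (fc a k * conj (fc b k))

/-- `D(a)²` of a vector function. -/
noncomputable def hsqV {ι : Type} [Fintype ι] (a : ℝ → ι → ℂ) : ℝ := ∑ i, hsq fun θ => a θ i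

/-- `D(A)²` of a matrix function (Frobenius). -/
noncomputable def hsqM {ι κ : Type} [Fintype ι] [Fintype κ] (A : ℝ → Matrix ι κ ℂ) : ℝ :=
  ∑ i, ∑ j, hsq fun θ => A θ i j

/-- `D(a)` of a vector function. -/
noncomputable def hDV {ι : Type} [Fintype ι] (a : ℝ → ι → ℂ) : ℝ := Real.sqrt (hsqV a)

/-- `D(A)` of a matrix function. -/
noncomputable def hDM {ι κ : Type} [Fintype ι] [Fintype κ] (A : ℝ → Matrix ι κ ℂ) : ℝ :=
  Real.sqrt (hsqM A)

/-- squared Euclidean norm of a column. -/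
noncomputable def nsq {ι : Type} [Fintype ι] (v : ι → ℂ) : ℝ := ∑ i, ‖v i‖ ^ 2

/-- periodic and Lipschitz. -/
structure CLip (a : ℝ → ℂ) : Prop where
  per : Function.Periodic a (2 * π)
  lip : ∃ K : NNReal, LipschitzWith K a

/-- periodic and smooth. -/
structure CSm (a : ℝ → ℂ) : Prop where
  per : Function.Periodic a (2 * π)
  smooth : ContDiff ℝ ∞ a

/-- holomorphic on the unit disc and smooth on the closed disc. -/
structure HolSm (h : ℂ → ℂ) : Prop where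
  diffCont : DiffContOnCl ℂ h (Metric.ball 0 1)
  smooth : ContDiff ℝ ∞ (bd h)

/-- rapidly decreasing two sided sequence. -/
def RapidZ (c : ℤ → ℂ) : Prop := ∀ N : ℕ, ∃ C : ℝ, ∀ k : ℤ, |(k : ℝ)| ^ N * ‖c k‖ ≤ C

/-- rapidly decreasing one sided sequence. -/
def RapidN (c : ℕ → ℂ) : Prop := ∀ N : ℕ, ∃ C : ℝ, ∀ k : ℕ, (k : ℝ) ^ N * ‖c k‖ ≤ C

/-- the trigonometric series with coefficients `c`. -/
noncomputable def synth (c : ℤ → ℂ) (θ : ℝ) : ℂ := ∑' k : ℤ, c k * ech k θ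

/-- the power series with coefficients `c`. -/
noncomputable def psum (c : ℕ → ℂ) (ζ : ℂ) : ℂ := ∑' n : ℕ, c n * ζ ^ n

/-- Szegő projection of a function on the circle, as a function on the disc:
`∑_{n ≥ 0} a_n ζ^n`. -/
noncomputable def szego (a : ℝ → ℂ) : ℂ → ℂ := psum fun n => fc a (n : ℤ)

/-- Schwarz integral (analytic completion) of a REAL function `u` on the circle:
`u_0 + 2 ∑_{n ≥ 1} u_n ζ^n`; real part `u` on the circle, imaginary part `0` at the centre. -/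
noncomputable def schw (u : ℝ → ℝ) (ζ : ℂ) : ℂ :=
  2 * szego (fun θ => ((u θ : ℝ) : ℂ)) ζ - fc (fun θ => ((u θ : ℝ) : ℂ)) 0

/-- circular Hilbert transform (conjugate function) of a real function. -/
noncomputable def hilb (u : ℝ → ℝ) (θ : ℝ) : ℝ := (bd (schw u) θ).im

/-- the outer function with boundary modulus `e^u` and positive value at the centre. -/
noncomputable def outer (u : ℝ → ℝ) (ζ : ℂ) : ℂ := Complex.exp (schw u ζ)

/-- Fejér mean of order `P`. -/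
noncomputable def fejer (P : ℕ) (a : ℝ → ℂ) (θ : ℝ) : ℂ :=
  ∑ k ∈ Finset.Icc (-(P : ℤ)) P, (((1 - |(k : ℝ)| / (P + 1) : ℝ)) : ℂ) * fc a k * ech k θ

/-- the polynomial `ζ^{P+1} S_P(ζ)` attached to the Fejér mean of order `P`. -/
noncomputable def fejerPoly (P : ℕ) (a : ℝ → ℂ) (ζ : ℂ) : ℂ :=
  ∑ k ∈ Finset.Icc (-(P : ℤ)) P,
    (((1 - |(k : ℝ)| / (P + 1) : ℝ)) : ℂ) * fc a k * ζ ^ (k + P + 1).toNat

/-- the kernel denominator `|e^{iθ} - 1|²`. -/
noncomputable def dqK (θ : ℝ) : ℝ := ‖ech 1 θ - 1‖ ^ 2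

/-- the difference quotient functional of a two point function `g s t` (think of
`g s t = |a s - a t|`): `(2π)⁻² ∬ g(t+θ, t)² / |e^{iθ}-1|² dt dθ`. -/
noncomputable def dqsq (g : ℝ → ℝ → ℝ) : ℝ :=
  pavg fun θ => pavg (fun t => g (t + θ) t ^ 2) / dqK θ

/-- its square root (an `L²` norm: monotone, subadditive, homogeneous on `DQAdm`). -/
noncomputable def dq (g : ℝ → ℝ → ℝ) : ℝ := Real.sqrt (dqsq g)

/-- admissible two point functions. -/
structure DQAdm (g : ℝ → ℝ → ℝ) : Prop where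
  cont : Continuous fun p : ℝ × ℝ => g p.1 p.2
  nonneg : ∀ s t, 0 ≤ g s t
  per₁ : ∀ s t, g (s + 2 * π) t = g s t
  per₂ : ∀ s t, g s (t + 2 * π) = g s t
  lip : ∃ K : ℝ, ∀ s t, g s t ≤ K * |s - t|

/-- Euclidean two point distance of a vector function. -/
noncomputable def dist2 {ι : Type} [Fintype ι] (a : ℝ → ι → ℂ) (s t : ℝ) : ℝ :=
  Real.sqrt (nsq (a s - a t))

/-- Frobenius two point distance of a matrix function. -/
noncomputable def distF {ι κ : Type} [Fintype ι] [Fintype κ] (A : ℝ → Matrix ι κ ℂ) (s t : ℝ) : ℝ :=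
  Real.sqrt (frobSq (A s - A t))

/-- matrix of Fourier coefficients. -/
noncomputable def fcM {ι κ : Type} (A : ℝ → Matrix ι κ ℂ) (k : ℤ) : Matrix ι κ ℂ :=
  fun i j => fc (fun θ => A θ i j) k

/-- `∂F/∂ζ̄` of a function on `ℂ`. -/
noncomputable def dbarC (F : ℂ → ℂ) (z : ℂ) : ℂ :=
  (1 / 2 : ℂ) * (fderiv ℝ F z 1 + Complex.I * fderiv ℝ F z Complex.I)

end Claimed.Agent.R316.B14
end

/- ===== packed: Claimed.Agent.R316.B14.Vec ===== -/
section
/-!
# B14: elementary inequalities for `nsq` (squared Euclidean norm of a column) and `frobSq`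
-/

set_option autoImplicit false
open scoped ContDiff ComplexOrder ComplexConjugate Matrix Real

namespace Claimed.Agent.R316.B14

open Claimed.Agent.R316

variable {ι : Type} [Fintype ι]

theorem nsq_nonneg (v : ι → ℂ) : 0 ≤ nsq v := Finset.sum_nonneg fun _ _ => sq_nonneg _

theorem nsq_eq_norm_sq (v : ι → ℂ) : nsq v = ‖(WithLp.toLp 2 v : EuclideanSpace ℂ ι)‖ ^ 2 := by
  rw [EuclideanSpace.norm_sq_eq]; rfl

theorem sqrt_nsq (v : ι → ℂ) : Real.sqrt (nsq v) = ‖(WithLp.toLp 2 v : EuclideanSpace ℂ ι)‖ := by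
  rw [nsq_eq_norm_sq, Real.sqrt_sq (norm_nonneg _)]

theorem nsq_zero : nsq (0 : ι → ℂ) = 0 := by simp [nsq]

theorem nsq_eq_qf_one [DecidableEq ι] (v : ι → ℂ) : nsq v = qf (1 : Matrix ι ι ℂ) v := by
  rw [qf_one]; rfl

theorem norm_apply_sq_le_nsq (v : ι → ℂ) (i : ι) : ‖v i‖ ^ 2 ≤ nsq v :=
  Finset.single_le_sum (f := fun i => ‖v i‖ ^ 2) (fun _ _ => sq_nonneg _) (Finset.mem_univ i)

theorem nsq_eq_zero_iff (v : ι → ℂ) : nsq v = 0 ↔ v = 0 := by
  constructor
  · intro h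
    ext i
    have h1 := norm_apply_sq_le_nsq v i
    rw [h] at h1
    have h2 : ‖v i‖ ^ 2 = 0 := le_antisymm h1 (sq_nonneg _)
    simpa using h2
  · rintro rfl
    exact nsq_zero

theorem nsq_smul (c : ℂ) (v : ι → ℂ) : nsq (c • v) = ‖c‖ ^ 2 * nsq v := by
  simp only [nsq, Pi.smul_apply, smul_eq_mul, norm_mul, mul_pow, Finset.mul_sum]

theorem nsq_neg (v : ι → ℂ) : nsq (-v) = nsq v := by simp [nsq]

theorem nsq_sub_comm (v w : ι → ℂ) : nsq (v - w) = nsq (w - v) := by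
  rw [← nsq_neg (v - w), neg_sub]

theorem nsq_star (v : ι → ℂ) : nsq (star v) = nsq v := by simp [nsq]

/-- Cauchy-Schwarz. -/
theorem norm_dotProduct_le (v w : ι → ℂ) :
    ‖star v ⬝ᵥ w‖ ≤ Real.sqrt (nsq v) * Real.sqrt (nsq w) := by
  rw [sqrt_nsq, sqrt_nsq]
  have h := norm_inner_le_norm (𝕜 := ℂ) (WithLp.toLp 2 v : EuclideanSpace ℂ ι)
    (WithLp.toLp 2 w : EuclideanSpace ℂ ι)
  rw [EuclideanSpace.inner_eq_star_dotProduct] at h
  rwa [dotProduct_comm]

/-- triangle inequality. -/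
theorem sqrt_nsq_add_le (v w : ι → ℂ) :
    Real.sqrt (nsq (v + w)) ≤ Real.sqrt (nsq v) + Real.sqrt (nsq w) := by
  rw [sqrt_nsq, sqrt_nsq, sqrt_nsq, WithLp.toLp_add]
  exact norm_add_le _ _

theorem sqrt_nsq_sum_le {α : Type} (s : Finset α) (f : α → ι → ℂ) :
    Real.sqrt (nsq (∑ a ∈ s, f a)) ≤ ∑ a ∈ s, Real.sqrt (nsq (f a)) := by
  classical
  induction s using Finset.induction_on with
  | empty => simp [nsq_zero]
  | insert a s ha ih =>
    rw [Finset.sum_insert ha, Finset.sum_insert ha]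
    exact (sqrt_nsq_add_le _ _).trans (by gcongr)

theorem sqrt_nsq_smul (c : ℂ) (v : ι → ℂ) : Real.sqrt (nsq (c • v)) = ‖c‖ * Real.sqrt (nsq v) := by
  rw [nsq_smul, Real.sqrt_mul (sq_nonneg _), Real.sqrt_sq (norm_nonneg _)]

theorem nsq_mulVec_le {κ : Type} [Fintype κ] (A : Matrix κ ι ℂ) (v : ι → ℂ) :
    nsq (A *ᵥ v) ≤ frobSq A * nsq v := by
  unfold nsq frobSq
  rw [Finset.sum_mul]
  refine Finset.sum_le_sum fun j _ => ?_
  have h := norm_dotProduct_le (star (A j)) v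
  rw [star_star, nsq_star] at h
  have h2 : ‖(A *ᵥ v) j‖ ^ 2 ≤ (Real.sqrt (nsq (A j)) * Real.sqrt (nsq v)) ^ 2 := by
    have : (A *ᵥ v) j = A j ⬝ᵥ v := rfl
    rw [this]
    gcongr
  rwa [mul_pow, Real.sq_sqrt (nsq_nonneg _), Real.sq_sqrt (nsq_nonneg _)] at h2

theorem frobSq_eq_sum_nsq_col {κ : Type} [Fintype κ] (A : Matrix κ ι ℂ) :
    frobSq A = ∑ j, nsq fun i => A i j := by
  unfold frobSq nsq
  exact Finset.sum_comm

theorem frobSq_eq_sum_nsq_row {κ : Type} [Fintype κ] (A : Matrix κ ι ℂ) :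
    frobSq A = ∑ i, nsq (A i) := rfl

theorem frobSq_mul_le {κ μ : Type} [Fintype κ] [Fintype μ] (A : Matrix κ ι ℂ) (B : Matrix ι μ ℂ) :
    frobSq (A * B) ≤ frobSq A * frobSq B := by
  rw [frobSq_eq_sum_nsq_col (A * B), frobSq_eq_sum_nsq_col B, Finset.mul_sum]
  refine Finset.sum_le_sum fun j _ => ?_
  have h := nsq_mulVec_le A (fun i => B i j)
  have h2 : (fun i => (A * B) i j) = A *ᵥ fun i => B i j := by
    ext i; simp [Matrix.mul_apply, Matrix.mulVec, dotProduct]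
  rwa [h2]

theorem frobSq_conjTranspose {κ : Type} [Fintype κ] (A : Matrix κ ι ℂ) : frobSq Aᴴ = frobSq A := by
  unfold frobSq
  rw [Finset.sum_comm]
  simp

theorem frobSq_smul {κ : Type} [Fintype κ] (c : ℂ) (A : Matrix κ ι ℂ) :
    frobSq (c • A) = ‖c‖ ^ 2 * frobSq A := by
  simp only [frobSq, Matrix.smul_apply, smul_eq_mul, norm_mul, mul_pow, Finset.mul_sum]

theorem frobSq_sub_comm {κ : Type} [Fintype κ] (A B : Matrix κ ι ℂ) :
    frobSq (A - B) = frobSq (B - A) := by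
  simp only [frobSq, Matrix.sub_apply, norm_sub_rev]

/-- `frobSq` as `nsq` of the flattened matrix. -/
theorem frobSq_eq_nsq {κ : Type} [Fintype κ] (A : Matrix κ ι ℂ) :
    frobSq A = nsq fun p : κ × ι => A p.1 p.2 := by
  unfold frobSq nsq
  rw [Fintype.sum_prod_type]

theorem sqrt_frobSq_add_le {κ : Type} [Fintype κ] (A B : Matrix κ ι ℂ) :
    Real.sqrt (frobSq (A + B)) ≤ Real.sqrt (frobSq A) + Real.sqrt (frobSq B) := by
  rw [frobSq_eq_nsq, frobSq_eq_nsq, frobSq_eq_nsq]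
  exact sqrt_nsq_add_le _ _

theorem qf_ge_of_loewner [DecidableEq ι] {A : Matrix ι ι ℂ} {m : ℝ}
    (h : (A - ((m : ℝ) : ℂ) • (1 : Matrix ι ι ℂ)).PosSemidef) (v : ι → ℂ) : m * nsq v ≤ qf A v := by
  have h1 := qf_mono h v
  rwa [qf_smul, ← nsq_eq_qf_one] at h1

theorem qf_le_of_loewner [DecidableEq ι] {A : Matrix ι ι ℂ} {M : ℝ}
    (h : (((M : ℝ) : ℂ) • (1 : Matrix ι ι ℂ) - A).PosSemidef) (v : ι → ℂ) : qf A v ≤ M * nsq v := by
  have h1 := qf_mono h v
  rwa [qf_smul, ← nsq_eq_qf_one] at h1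

/-- `qf (Bᴴ B) v = |B v|²`. -/
theorem qf_conjTranspose_mul_self [DecidableEq ι] {κ : Type} [Fintype κ] [DecidableEq κ]
    (B : Matrix κ ι ℂ) (v : ι → ℂ) : qf (Bᴴ * B) v = nsq (B *ᵥ v) := by
  have h := qf_conj B (1 : Matrix κ κ ℂ) v
  rw [Matrix.mul_one] at h
  rw [h, ← nsq_eq_qf_one]

end Claimed.Agent.R316.B14
end

/- ===== packed: Claimed.Agent.R316.B14.Four1A ===== -/
section
/-!
# B14, leaf F1a: the normalised period average `pavg`

Elementary interval integral calculus.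
-/

set_option autoImplicit false
open scoped ContDiff ComplexOrder ComplexConjugate Matrix Real
open MeasureTheory

namespace Claimed.Agent.R316.B14

section pavg

variable {E : Type} [NormedAddCommGroup E] [NormedSpace ℝ E]

theorem circleAverage_eq_pavg (F : ℂ → E) : Real.circleAverage F 0 1 = pavg (bd F) := rfl

theorem bd_periodic {E' : Type} (F : ℂ → E') : Function.Periodic (bd F) (2 * π) := by
  intro θ
  unfold bd
  rw [periodic_circleMap 0 1 θ]

theorem two_pi_pos' : (0 : ℝ) < 2 * π := Real.two_pi_pos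

theorem pavg_const [CompleteSpace E] (c : E) : pavg (fun _ => c) = c := by
  unfold pavg
  rw [intervalIntegral.integral_const, sub_zero, smul_smul, inv_mul_cancel₀ two_pi_pos'.ne', one_smul]

theorem pavg_congr {a b : ℝ → E} (h : ∀ θ ∈ Set.Icc (0 : ℝ) (2 * π), a θ = b θ) :
    pavg a = pavg b := by
  unfold pavg
  congr 1
  refine intervalIntegral.integral_congr fun θ hθ => ?_
  rw [Set.uIcc_of_le two_pi_pos'.le] at hθ
  exact h θ hθ

theorem pavg_add' {a b : ℝ → E} (ha : IntervalIntegrable a volume 0 (2 * π))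
    (hb : IntervalIntegrable b volume 0 (2 * π)) :
    pavg (fun θ => a θ + b θ) = pavg a + pavg b := by
  unfold pavg
  rw [intervalIntegral.integral_add ha hb, smul_add]

theorem pavg_sub' {a b : ℝ → E} (ha : IntervalIntegrable a volume 0 (2 * π))
    (hb : IntervalIntegrable b volume 0 (2 * π)) :
    pavg (fun θ => a θ - b θ) = pavg a - pavg b := by
  unfold pavg
  rw [intervalIntegral.integral_sub ha hb, smul_sub]

theorem pavg_sum' {α : Type} (s : Finset α) (a : α → ℝ → E)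
    (ha : ∀ i ∈ s, IntervalIntegrable (a i) volume 0 (2 * π)) :
    pavg (fun θ => ∑ i ∈ s, a i θ) = ∑ i ∈ s, pavg (a i) := by
  unfold pavg
  rw [intervalIntegral.integral_finsetSum ha, Finset.smul_sum]

theorem pavg_add {a b : ℝ → E} (ha : Continuous a) (hb : Continuous b) :
    pavg (fun θ => a θ + b θ) = pavg a + pavg b :=
  pavg_add' (ha.intervalIntegrable _ _) (hb.intervalIntegrable _ _)

theorem pavg_sub {a b : ℝ → E} (ha : Continuous a) (hb : Continuous b) :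
    pavg (fun θ => a θ - b θ) = pavg a - pavg b :=
  pavg_sub' (ha.intervalIntegrable _ _) (hb.intervalIntegrable _ _)

theorem pavg_sum {α : Type} (s : Finset α) (a : α → ℝ → E) (ha : ∀ i ∈ s, Continuous (a i)) :
    pavg (fun θ => ∑ i ∈ s, a i θ) = ∑ i ∈ s, pavg (a i) :=
  pavg_sum' s a fun i hi => (ha i hi).intervalIntegrable _ _

theorem pavg_neg (a : ℝ → E) : pavg (fun θ => - a θ) = - pavg a := by
  unfold pavg
  rw [intervalIntegral.integral_neg, smul_neg]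

theorem pavg_smul (c : ℝ) (a : ℝ → E) : pavg (fun θ => c • a θ) = c • pavg a := by
  unfold pavg
  rw [intervalIntegral.integral_smul, smul_comm]

theorem pavg_const_mul (c : ℂ) (a : ℝ → ℂ) : pavg (fun θ => c * a θ) = c * pavg a := by
  unfold pavg
  rw [intervalIntegral.integral_const_mul, mul_smul_comm]

theorem pavg_mul_const (c : ℂ) (a : ℝ → ℂ) : pavg (fun θ => a θ * c) = pavg a * c := by
  unfold pavg
  rw [intervalIntegral.integral_mul_const, smul_mul_assoc]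

theorem pavg_const_mul_real (c : ℝ) (a : ℝ → ℝ) : pavg (fun θ => c * a θ) = c * pavg a := by
  unfold pavg
  rw [intervalIntegral.integral_const_mul, mul_smul_comm]

theorem pavg_div_const_real (c : ℝ) (a : ℝ → ℝ) : pavg (fun θ => a θ / c) = pavg a / c := by
  unfold pavg
  rw [intervalIntegral.integral_div, smul_eq_mul, smul_eq_mul, mul_div_assoc]

theorem pavg_conj (a : ℝ → ℂ) : pavg (fun θ => conj (a θ)) = conj (pavg a) := by
  unfold pavg
  rw [intervalIntegral.integral_of_le two_pi_pos'.le, intervalIntegral.integral_of_le two_pi_pos'.le,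
    integral_conj]
  simp only [Complex.real_smul, map_mul, Complex.conj_ofReal]

theorem pavg_ofReal (a : ℝ → ℝ) : pavg (fun θ => ((a θ : ℝ) : ℂ)) = ((pavg a : ℝ) : ℂ) := by
  unfold pavg
  rw [intervalIntegral.integral_ofReal]
  simp [Complex.real_smul]

theorem pavg_re {a : ℝ → ℂ} (ha : Continuous a) : (pavg a).re = pavg fun θ => (a θ).re := by
  unfold pavg
  have h := intervalIntegral.intervalIntegral_re (μ := volume) (ha.intervalIntegrable 0 (2 * π))
  simp only [RCLike.re_to_complex] at h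
  rw [h]
  simp [Complex.real_smul]

theorem pavg_im {a : ℝ → ℂ} (ha : Continuous a) : (pavg a).im = pavg fun θ => (a θ).im := by
  unfold pavg
  have h := intervalIntegral.intervalIntegral_im (μ := volume) (ha.intervalIntegrable 0 (2 * π))
  simp only [RCLike.im_to_complex] at h
  rw [h]
  simp [Complex.real_smul]

theorem pavg_mono' {a b : ℝ → ℝ} (ha : IntervalIntegrable a volume 0 (2 * π))
    (hb : IntervalIntegrable b volume 0 (2 * π)) (h : ∀ θ ∈ Set.Icc (0 : ℝ) (2 * π), a θ ≤ b θ) :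
    pavg a ≤ pavg b := by
  unfold pavg
  have h1 := intervalIntegral.integral_mono_on two_pi_pos'.le ha hb h
  have h2 : (0 : ℝ) ≤ (2 * π)⁻¹ := inv_nonneg.2 two_pi_pos'.le
  simp only [smul_eq_mul]
  exact mul_le_mul_of_nonneg_left h1 h2

theorem pavg_mono {a b : ℝ → ℝ} (ha : Continuous a) (hb : Continuous b) (h : ∀ θ, a θ ≤ b θ) :
    pavg a ≤ pavg b :=
  pavg_mono' (ha.intervalIntegrable _ _) (hb.intervalIntegrable _ _) fun θ _ => h θ

theorem pavg_nonneg {a : ℝ → ℝ} (h : ∀ θ, 0 ≤ a θ) : 0 ≤ pavg a := by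
  unfold pavg
  have h1 : 0 ≤ ∫ θ in (0 : ℝ)..(2 * π), a θ :=
    intervalIntegral.integral_nonneg two_pi_pos'.le fun θ _ => h θ
  have h2 : (0 : ℝ) ≤ (2 * π)⁻¹ := inv_nonneg.2 two_pi_pos'.le
  simp only [smul_eq_mul]
  exact mul_nonneg h2 h1

theorem norm_pavg_le {a : ℝ → E} {C : ℝ} (h : ∀ θ, ‖a θ‖ ≤ C) : ‖pavg a‖ ≤ C := by
  unfold pavg
  have h1 := intervalIntegral.norm_integral_le_of_norm_le_const (a := 0) (b := 2 * π) (f := a)
    (C := C) fun θ _ => h θ
  rw [sub_zero, abs_of_pos two_pi_pos'] at h1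
  rw [norm_smul, Real.norm_eq_abs, abs_of_pos (inv_pos.2 two_pi_pos')]
  calc (2 * π)⁻¹ * ‖∫ θ in (0 : ℝ)..(2 * π), a θ‖ ≤ (2 * π)⁻¹ * (C * (2 * π)) := by
        gcongr
    _ = C := by field_simp

theorem norm_pavg_le_pavg_norm (a : ℝ → E) :
    ‖pavg a‖ ≤ pavg fun θ => ‖a θ‖ := by
  unfold pavg
  have h1 := intervalIntegral.norm_integral_le_integral_norm (μ := volume) (f := a) two_pi_pos'.le
  rw [norm_smul, Real.norm_eq_abs, abs_of_pos (inv_pos.2 two_pi_pos'), smul_eq_mul]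
  gcongr

theorem pavg_le_of_le {a : ℝ → ℝ} {C : ℝ} (ha : Continuous a) (h : ∀ θ, a θ ≤ C) :
    pavg a ≤ C := by
  have h1 := pavg_mono ha continuous_const h
  rwa [pavg_const] at h1

theorem le_pavg_of_le {a : ℝ → ℝ} {C : ℝ} (ha : Continuous a) (h : ∀ θ, C ≤ a θ) :
    C ≤ pavg a := by
  have h1 := pavg_mono continuous_const ha h
  rwa [pavg_const] at h1

/-- the average may be computed over any period. -/
theorem pavg_eq_integral {a : ℝ → E} (ha : Function.Periodic a (2 * π)) (τ : ℝ) :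
    pavg a = (2 * π)⁻¹ • ∫ θ in τ..(τ + 2 * π), a θ := by
  unfold pavg
  have h := ha.intervalIntegral_add_eq 0 τ
  rw [zero_add] at h
  rw [h]

theorem pavg_shift {a : ℝ → E} (ha : Function.Periodic a (2 * π)) (τ : ℝ) :
    pavg (fun θ => a (θ + τ)) = pavg a := by
  rw [pavg_eq_integral ha τ]
  unfold pavg
  rw [intervalIntegral.integral_comp_add_right, zero_add, add_comm]

theorem pavg_comp_neg {a : ℝ → E} (ha : Function.Periodic a (2 * π)) :
    pavg (fun θ => a (-θ)) = pavg a := by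
  rw [pavg_eq_integral ha (-(2 * π))]
  unfold pavg
  rw [intervalIntegral.integral_comp_neg, neg_zero, neg_add_cancel]

theorem eq_zero_of_pavg_eq_zero {a : ℝ → ℝ} (ha : Continuous a)
    (hp : Function.Periodic a (2 * π)) (h0 : ∀ θ, 0 ≤ a θ) (h : pavg a = 0) (θ : ℝ) : a θ = 0 := by
  by_contra hne
  have hpos : 0 < a θ := lt_of_le_of_ne (h0 θ) (Ne.symm hne)
  obtain ⟨y, hy, hya⟩ := hp.exists_mem_Ico₀ two_pi_pos' θ
  rw [hya] at hpos
  have h1 : 0 < ∫ t in (0 : ℝ)..(2 * π), a t :=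
    intervalIntegral.integral_pos two_pi_pos' ha.continuousOn (fun t _ => h0 t)
      ⟨y, ⟨hy.1, hy.2.le⟩, hpos⟩
  unfold pavg at h
  rw [smul_eq_mul] at h
  have h2 : (0 : ℝ) < (2 * π)⁻¹ := inv_pos.2 two_pi_pos'
  exact absurd h (mul_pos h2 h1).ne'

/-- Cauchy-Schwarz. -/
theorem norm_pavg_mul_le {a b : ℝ → ℂ} (ha : Continuous a) (hb : Continuous b) :
    ‖pavg fun θ => a θ * b θ‖ ≤
      Real.sqrt (pavg fun θ => ‖a θ‖ ^ 2) * Real.sqrt (pavg fun θ => ‖b θ‖ ^ 2) := by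
  set A := pavg fun θ => ‖a θ‖ ^ 2 with hA
  set B := pavg fun θ => ‖b θ‖ ^ 2 with hB
  set P := pavg fun θ => ‖a θ‖ * ‖b θ‖ with hP
  have hA0 : 0 ≤ A := pavg_nonneg fun θ => sq_nonneg _
  have hB0 : 0 ≤ B := pavg_nonneg fun θ => sq_nonneg _
  have hP0 : 0 ≤ P := pavg_nonneg fun θ => mul_nonneg (norm_nonneg _) (norm_nonneg _)
  have h1 : ‖pavg fun θ => a θ * b θ‖ ≤ P := by
    refine (norm_pavg_le_pavg_norm _).trans (le_of_eq ?_)
    simp only [norm_mul, hP]
  have hq : ∀ x : ℝ, 0 ≤ A * (x * x) + 2 * P * x + B := by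
    intro x
    have h2 : 0 ≤ pavg fun θ => (x * ‖a θ‖ + ‖b θ‖) ^ 2 := pavg_nonneg fun θ => sq_nonneg _
    have h3 : (fun θ => (x * ‖a θ‖ + ‖b θ‖) ^ 2) =
        fun θ => ((x * x) * ‖a θ‖ ^ 2 + (2 * x) * (‖a θ‖ * ‖b θ‖)) + ‖b θ‖ ^ 2 := by
      funext θ; ring
    have ca : Continuous fun θ => ‖a θ‖ ^ 2 := (continuous_norm.comp ha).pow 2
    have cb : Continuous fun θ => ‖b θ‖ ^ 2 := (continuous_norm.comp hb).pow 2
    have cab : Continuous fun θ => ‖a θ‖ * ‖b θ‖ :=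
      (continuous_norm.comp ha).mul (continuous_norm.comp hb)
    rw [h3, pavg_add (a := fun θ => (x * x) * ‖a θ‖ ^ 2 + (2 * x) * (‖a θ‖ * ‖b θ‖))
      (b := fun θ => ‖b θ‖ ^ 2) ((continuous_const.mul ca).add (continuous_const.mul cab)) cb,
      pavg_add (a := fun θ => (x * x) * ‖a θ‖ ^ 2) (b := fun θ => (2 * x) * (‖a θ‖ * ‖b θ‖))
      (continuous_const.mul ca) (continuous_const.mul cab),
      pavg_const_mul_real, pavg_const_mul_real] at h2
    nlinarith [h2]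
  have hd := discrim_le_zero hq
  rw [discrim] at hd
  have h4 : P ^ 2 ≤ A * B := by nlinarith [hd]
  refine h1.trans ?_
  rw [← Real.sqrt_mul hA0]
  exact Real.le_sqrt_of_sq_le h4

theorem pavg_deriv {a : ℝ → ℂ} (hp : Function.Periodic a (2 * π)) (ha : ContDiff ℝ 1 a) :
    pavg (deriv a) = 0 := by
  unfold pavg
  have hd : ∀ x ∈ Set.uIcc (0 : ℝ) (2 * π), DifferentiableAt ℝ a x := fun x _ =>
    (ha.differentiable one_ne_zero) x
  have hc : Continuous (deriv a) := ha.continuous_deriv le_rfl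
  rw [intervalIntegral.integral_deriv_eq_sub hd (hc.intervalIntegrable _ _)]
  have := hp 0
  rw [zero_add] at this
  rw [this, sub_self, smul_zero]

/-- integration by parts. -/
theorem pavg_mul_deriv {a b : ℝ → ℂ} (hpa : Function.Periodic a (2 * π)) (ha : ContDiff ℝ 1 a)
    (hpb : Function.Periodic b (2 * π)) (hb : ContDiff ℝ 1 b) :
    pavg (fun θ => a θ * deriv b θ) = - pavg fun θ => deriv a θ * b θ := by
  have hab : ContDiff ℝ 1 (fun θ => a θ * b θ) := ha.mul hb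
  have hp : Function.Periodic (fun θ => a θ * b θ) (2 * π) := hpa.mul hpb
  have h := pavg_deriv hp hab
  have hd : deriv (fun θ => a θ * b θ) = fun θ => deriv a θ * b θ + a θ * deriv b θ := by
    funext θ
    exact deriv_fun_mul ((ha.differentiable one_ne_zero) θ) ((hb.differentiable one_ne_zero) θ)
  rw [hd, pavg_add (a := fun θ => deriv a θ * b θ) (b := fun θ => a θ * deriv b θ)
    ((ha.continuous_deriv le_rfl).mul hb.continuous)
    (ha.continuous.mul (hb.continuous_deriv le_rfl))] at h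
  exact eq_neg_of_add_eq_zero_right h

end pavg

end Claimed.Agent.R316.B14
end

/- ===== packed: Claimed.Agent.R316.B13.HermMat ===== -/
section
/-!
# B13-9: inequalities for positive definite Hermitian matrices (leaf, ~600 lines, Mathlib + `qf` of Core/Basic)

DONE (helper193): all statements proved through `CW/MatAlg.lean` (simultaneous diagonalisation); statements unchanged.
Auxiliary lemmas: prefix `herm_`.  Used in `ellipsoids.tex` (7.9), l. 470-490, l. 505-512.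

TOOLS.  `Matrix.IsHermitian.eigenvalues`, `det_eq_prod_eigenvalues`, `trace_eq_sum_eigenvalues`, `Matrix.PosDef.eigenvalues_pos`, spectral theorem;
a positive definite `B` has a positive definite square root `R` (`CFC.sqrt`, or `U diag(√λ) Uᴴ` by hand): `B = R * R`, `R` Hermitian, invertible.
* `herm_trace_ge`: `C = R A R` is positive definite with eigenvalues `μ_i > 0`; `tr (B A) = tr C = ∑ μ_i`, `det B det A = det C = ∏ μ_i`, and `μ ≥ 1 + log μ` (`Real.add_one_le_exp` / `Real.log_le_sub_one_of_pos`).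
  Equality forces all `μ_i = 1`, so `C = 1`, i.e. `A = R⁻¹ R⁻¹ = B⁻¹`.
* `herm_det_le`, `herm_eq_of_det_eq`, `herm_smul_le`: for `0 < B ≤ b` let `R² = b`, `C = R⁻¹ B R⁻¹`, eigenvalues `0 < μ_i ≤ 1`, `∏ μ_i = det B / det b =: τ`; so `τ ≤ 1`, each `μ_i ≥ τ` (the others are `≤ 1`), and `τ = 1` forces `C = 1`.
* `herm_trace_mul_nonneg`: `tr (Pᵀ K) = ∑_{jk} P_{jk} K_{jk}`; with `P = ∑ λ_a u_a u_aᴴ` it is `∑ λ_a qf K (conj u_a) ≥ 0`.  (`Pᵀ` is again positive semidefinite: `Matrix.PosSemidef.transpose`, and `tr (X Y) ≥ 0` for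
  positive semidefinite `X`, `Y`: `X = SᴴS`, `tr (SᴴS Y) = tr (S Y Sᴴ)`.)
-/

set_option autoImplicit false
open scoped ComplexOrder

namespace Claimed.Agent.R316.B13

open Claimed.Agent.R316

variable {ι : Type} [Fintype ι] [DecidableEq ι]

theorem herm_det_re_pos {B : Matrix ι ι ℂ} (hB : B.PosDef) : 0 < B.det.re :=
  posDef_det_re_pos hB

theorem herm_qf_nonneg {B : Matrix ι ι ℂ} (hB : B.PosSemidef) (v : ι → ℂ) : 0 ≤ qf B v :=
  qf_nonneg hB v

theorem herm_qf_pos {B : Matrix ι ι ℂ} (hB : B.PosDef) {v : ι → ℂ} (hv : v ≠ 0) : 0 < qf B v :=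
  qf_pos hB hv

/-- a Hermitian matrix with nonnegative quadratic form is positive semidefinite. -/
theorem herm_posSemidef_of_qf {B : Matrix ι ι ℂ} (hB : B.IsHermitian) (h : ∀ v, 0 ≤ qf B v) :
    B.PosSemidef :=
  (posSemidef_iff_qf hB).2 h

theorem herm_qf_vecMulVec (B : Matrix ι ι ℂ) (v : ι → ℂ) :
    qf B v = (B * Matrix.vecMulVec v (star v)).trace.re :=
  qf_eq_trace B v

theorem herm_inv_inv {B : Matrix ι ι ℂ} (hB : B.PosDef) : (B⁻¹)⁻¹ = B :=
  Matrix.nonsing_inv_nonsing_inv B (isUnit_iff_ne_zero.2 hB.det_pos.ne')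

theorem herm_log_ratio {B A : Matrix ι ι ℂ} (hB : B.PosDef) (hA : A.PosDef) :
    Real.log (A.det.re / (B⁻¹).det.re) = Real.log B.det.re + Real.log A.det.re := by
  have b := posDef_det_re_pos hB
  have a := posDef_det_re_pos hA
  have e : (B⁻¹).det.re = (B.det.re)⁻¹ := by
    have h1 : B.det = ((B.det.re : ℝ) : ℂ) := by
      apply Complex.ext
      · simp
      · simp [isHermitian_det_im hB.isHermitian]
    rw [Matrix.det_nonsing_inv, Ring.inverse_eq_inv', h1, ← Complex.ofReal_inv, Complex.ofReal_re,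
      Complex.ofReal_re]
  rw [e, div_inv_eq_mul, Real.log_mul a.ne' b.ne', add_comm]

/-- `tr (B A) ≥ n + log det B + log det A` (`eq:product-support`). -/
theorem herm_trace_ge {B A : Matrix ι ι ℂ} (hB : B.PosDef) (hA : A.PosDef) :
    (Fintype.card ι : ℝ) + Real.log B.det.re + Real.log A.det.re ≤ (B * A).trace.re := by
  have h := log_det_ratio_le hB.inv hA
  rw [herm_inv_inv hB, herm_log_ratio hB hA] at h
  linarith

theorem herm_trace_eq_iff {B A : Matrix ι ι ℂ} (hB : B.PosDef) (hA : A.PosDef) :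
    (B * A).trace.re = (Fintype.card ι : ℝ) + Real.log B.det.re + Real.log A.det.re ↔
      A = B⁻¹ := by
  have h := log_det_ratio_eq_iff hB.inv hA
  rw [herm_inv_inv hB, herm_log_ratio hB hA] at h
  rw [← h]
  constructor <;> intro h' <;> linarith

theorem herm_det_le {B b : Matrix ι ι ℂ} (hB : B.PosDef) (hle : (b - B).PosSemidef) :
    B.det.re ≤ b.det.re :=
  loewner_det_mono hB.posSemidef hle

theorem herm_eq_of_det_eq {B b : Matrix ι ι ℂ} (hB : B.PosDef) (hle : (b - B).PosSemidef)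
    (hdet : B.det.re = b.det.re) : B = b :=
  eq_of_loewner_of_det_eq hB hle hdet

/-- `e^{-F₀} b ≤ B` for `F₀ = log det b - log det B`. -/
theorem herm_smul_le {B b : Matrix ι ι ℂ} (hB : B.PosDef) (hle : (b - B).PosSemidef) :
    (B - ((B.det.re / b.det.re : ℝ) : ℂ) • b).PosSemidef :=
  det_ratio_smul_le hB hle

/-- the tangent-cotangent contraction of two positive semidefinite forms is nonnegative. -/
theorem herm_trace_mul_nonneg {P K : Matrix ι ι ℂ} (hP : P.PosSemidef) (hK : K.PosSemidef) :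
    0 ≤ (P.transpose * K).trace.re :=
  trace_mul_nonneg hP.transpose hK

/-- `tr K ≤ tr (Pᵀ K) / c` if `P ≥ c B`: in the form used in (7.26). -/
theorem herm_trace_mul_mono {P P' K : Matrix ι ι ℂ} (hP : (P - P').PosSemidef)
    (hK : K.PosSemidef) : (P'.transpose * K).trace.re ≤ (P.transpose * K).trace.re :=
  trace_mul_mono_left hK (loewner_transpose hP)

theorem herm_trace_mul_mono_right {P K K' : Matrix ι ι ℂ} (hP : P.PosSemidef)
    (hK : (K - K').PosSemidef) : (P.transpose * K').trace.re ≤ (P.transpose * K).trace.re :=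
  trace_mul_mono_right hP.transpose hK

/-- positive semidefinite matrices with bounded `B`-trace form a bounded set (entries). -/
theorem herm_entry_le {B : Matrix ι ι ℂ} (hB : B.PosDef) :
    ∃ C : ℝ, ∀ K : Matrix ι ι ℂ, K.PosSemidef → ∀ j k,
      ‖K j k‖ ≤ C * (B.transpose * K).trace.re := by
  obtain ⟨c, hc, hcB⟩ := exists_pos_smul_one_le hB.transpose
  refine ⟨c⁻¹, fun K hK j k => ?_⟩
  have h1 := trace_mul_mono_left hK hcB
  rw [Matrix.smul_mul, Matrix.one_mul, Matrix.trace_smul, smul_eq_mul, Complex.re_ofReal_mul] at h1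
  have h2 := norm_entry_le_trace hK j k
  rw [inv_mul_eq_div, le_div_iff₀ hc]
  nlinarith

end Claimed.Agent.R316.B13
end

/- ===== packed: Claimed.Agent.R316.B13.John ===== -/
section
/-!
# B13-10 … B13-13: the Hermitian John ellipsoid of a fibre function (`ellipsoids.tex`, Lemma 7.1)

`w : ℂ^ι → ℝ` is the restriction of the envelope `v` to one cotangent fibre.  NO NORMALISATION `B = 1`: everything is stated for a general optimiser `B`
(contacts on the `B`-sphere, resolution of `B⁻¹`).  UNIQUENESS of the optimiser is NOT needed anywhere (only `logVol`).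

Leaves (each claimer replaces his `sorry`s IN PLACE; statements frozen, problems: msg helper126; auxiliary lemmas: prefix `john_`):
* B13-10 `john_exists`, `IsOpt.le_upper`, `IsOpt.logVol_eq`, `john_logVol_bounds` (~350 lines).
  `𝒟 = {D | D.PosSemidef ∧ Feas w D}` is closed and bounded in `Matrix ι ι ℂ = ι → ι → ℂ` (`D ≤ b₁`; entries by polarisation or `|D j k|² ≤ D j j D k k ≤ …`), `D ↦ D.det.re` is continuous
  (`Continuous.matrix_det`), the maximiser has `det ≥ det b₀ > 0`, and a positive semidefinite matrix with nonzero determinant is positive definite.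
* B13-11 `john_variation` (~400 lines).  `S_B = {ξ | qf B ξ = 1}` is compact.  `U = {ξ ∈ S_B | qf H ξ < 0}` is open in `S_B` and contains the contacts; on the compact `S_B \ U`, `w - 1 > 0` is lsc, so `≥ μ > 0`;
  `|qf H| ≤ C_H` on `S_B`.  For `0 < ε ≤ μ / C_H`, `B + ε H` is feasible on `S_B`, hence everywhere (homogeneity; `w 0 = 0`), and positive definite for small `ε`.
  `det (B + ε H) = det B * det (1 + ε B⁻¹ H) = det B (1 + ε tr (B⁻¹ H) + O(ε²))` (`Matrix.det_one_add_smul`).  Optimality gives `tr (B⁻¹ H) ≤ 0`.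
* B13-12 `john_isCompact_convexHull` (~200 lines, Mathlib only): Caratheodory (`convexHull_eq_union` / `eq_pos_convex_span_of_mem_convexHull`, an affinely independent family has at most `finrank + 1` points): the hull is the continuous image of
  `stdSimplex ℝ (Fin (d+1)) × S^(d+1)`.
* B13-13 `john_contacts` (~500 lines).  Contacts `E_c = {ξ | qf B ξ = 1 ∧ w ξ = 1}` (compact).  `𝒦 = convexHull {ξ ξᴴ | ξ ∈ E_c}` is compact.  Claim `y := B⁻¹ / n ∈ 𝒦`.  Otherwise take the nearest point `c ∈ 𝒦` for the real inner product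
  `⟪X, Y⟫ = Re tr (Xᴴ Y)` (transport to `EuclideanSpace ℂ (ι × ι)` as a real inner product space; `exists_norm_eq_iInf_of_complete_convex`, `norm_eq_iInf_iff_real_inner_le_zero`), `H₀ = y - c` is Hermitian, `Re tr (H₀ X) ≤ Re tr (H₀ c) < Re tr (H₀ y)` on `𝒦`.
  Choose `γ` strictly between and `H = H₀ - γ B`: `qf H ξ < 0` on `E_c`, `tr (B⁻¹ H) = n (Re tr (H₀ y) - γ) > 0`: contradiction with `john_variation`.  (`E_c = ∅`, `n ≥ 1`: `john_variation` with `H = B`.)
  A finite convex combination `y = ∑ λ_i ξ_i ξ_iᴴ`, `λ_i > 0`; `α_i = n λ_i`; replicate each pair `r` times with weights `α_i / r`, `r > n / η`.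
* B13-14 `john_feas_stable`, `john_logVol_lsc` (~300 lines).  `(1 - ε) D` has the margin `ε qf D ξ ≥ ε c > 0` on the unit sphere; lower semicontinuity at the points `(x₀, ξ)` + compactness of the sphere (tube lemma: `IsCompact.induction_on` / `generalized_tube_lemma`).
-/

set_option autoImplicit false
open scoped ComplexOrder Topology

namespace Claimed.Agent.R316.B13

open Claimed.Agent.R316

variable {ι : Type} [Fintype ι] [DecidableEq ι]

/-- `D` is feasible: `ξᴴ D ξ ≤ w ξ`. -/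
def Feas (w : CE ι → ℝ) (D : Matrix ι ι ℂ) : Prop := ∀ ξ : CE ι, qf D ξ ≤ w ξ

/-- `B` is a feasible positive definite matrix of maximal determinant. -/
structure IsOpt (w : CE ι → ℝ) (B : Matrix ι ι ℂ) : Prop where
  posDef : B.PosDef
  feas : Feas w B
  max : ∀ D : Matrix ι ι ℂ, D.PosDef → Feas w D → D.det.re ≤ B.det.re

/-- `𝓛 = log det B`. -/
noncomputable def logVol (w : CE ι → ℝ) : ℝ :=
  sSup {r | ∃ D : Matrix ι ι ℂ, D.PosDef ∧ Feas w D ∧ r = Real.log D.det.re}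

/-! ### B13-10 -/

theorem john_qf_sub (A B : Matrix ι ι ℂ) (v : ι → ℂ) : qf (A - B) v = qf A v - qf B v := by
  simp [qf, Matrix.sub_mulVec, dotProduct_sub]

theorem john_qf_add (A B : Matrix ι ι ℂ) (v : ι → ℂ) : qf (A + B) v = qf A v + qf B v := by
  simp [qf, Matrix.add_mulVec, dotProduct_add]

theorem john_qf_smul (c : ℝ) (A : Matrix ι ι ℂ) (v : ι → ℂ) :
    qf (((c : ℝ) : ℂ) • A) v = c * qf A v := by
  simp [qf, Matrix.smul_mulVec, dotProduct_smul]

theorem john_qf_continuous (v : ι → ℂ) : Continuous fun D : Matrix ι ι ℂ => qf D v := by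
  unfold qf
  refine Complex.continuous_re.comp ?_
  exact Continuous.dotProduct continuous_const
    (Continuous.matrix_mulVec continuous_id continuous_const)

theorem john_qf_single (D : Matrix ι ι ℂ) (j : ι) : qf D (Pi.single j 1) = (D j j).re := by
  have h : star (Pi.single j (1 : ℂ) : ι → ℂ) = Pi.single j 1 := by
    ext k
    by_cases hk : k = j
    · subst hk; simp
    · simp [Pi.single_eq_of_ne hk]
  rw [qf, h, Matrix.mulVec_single_one, single_one_dotProduct]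
  rfl

theorem john_feas_apply {w : CE ι → ℝ} {D : Matrix ι ι ℂ} (h : Feas w D) (v : ι → ℂ) :
    qf D v ≤ w (WithLp.toLp 2 v) := h (WithLp.toLp 2 v)

theorem john_isClosed_feas (w : CE ι → ℝ) :
    IsClosed {D : Matrix ι ι ℂ | D.PosSemidef ∧ Feas w D} := by
  have e : {D : Matrix ι ι ℂ | D.PosSemidef ∧ Feas w D} =
      ({D | D.conjTranspose = D} ∩ (⋂ v : ι → ℂ, {D | 0 ≤ qf D v})) ∩
        (⋂ ξ : CE ι, {D | qf D ξ ≤ w ξ}) := by
    ext D
    simp only [Set.mem_ofPred_eq, Set.mem_inter_iff, Set.mem_iInter]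
    constructor
    · rintro ⟨h1, h2⟩
      exact ⟨⟨h1.isHermitian, fun v => herm_qf_nonneg h1 v⟩, h2⟩
    · rintro ⟨⟨h1, h2⟩, h3⟩
      exact ⟨herm_posSemidef_of_qf h1 h2, h3⟩
  rw [e]
  refine (IsClosed.inter ?_ (isClosed_iInter fun v => ?_)).inter (isClosed_iInter fun ξ => ?_)
  · exact isClosed_eq (continuous_id.matrix_conjTranspose) continuous_id
  · exact isClosed_le continuous_const (john_qf_continuous v)
  · exact isClosed_le (john_qf_continuous ξ) continuous_const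

theorem john_trace_re (D : Matrix ι ι ℂ) : D.trace.re = ∑ j, qf D (Pi.single j 1) := by
  simp only [john_qf_single, Matrix.trace, Matrix.diag_apply, Complex.re_sum]

theorem john_bounded {w : CE ι → ℝ} {b₁ : Matrix ι ι ℂ} (h₁ : ∀ ξ : CE ι, w ξ ≤ qf b₁ ξ) :
    ∃ M : ℝ, ∀ D : Matrix ι ι ℂ, D.PosSemidef → Feas w D → ∀ j k, ‖D j k‖ ≤ M := by
  obtain ⟨C, hC⟩ := herm_entry_le (Matrix.PosDef.one : (1 : Matrix ι ι ℂ).PosDef)
  refine ⟨|C| * b₁.trace.re, fun D hD hf j k => ?_⟩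
  have h1 := hC D hD j k
  rw [Matrix.transpose_one, Matrix.one_mul] at h1
  have h2 : 0 ≤ D.trace.re := by
    rw [john_trace_re]
    exact Finset.sum_nonneg fun j _ => herm_qf_nonneg hD _
  have h3 : D.trace.re ≤ b₁.trace.re := by
    rw [john_trace_re, john_trace_re]
    exact Finset.sum_le_sum fun j _ => (john_feas_apply hf _).trans (h₁ _)
  calc ‖D j k‖ ≤ C * D.trace.re := h1
    _ ≤ |C| * D.trace.re := mul_le_mul_of_nonneg_right (le_abs_self C) h2
    _ ≤ |C| * b₁.trace.re := mul_le_mul_of_nonneg_left h3 (abs_nonneg C)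

theorem john_exists {w : CE ι → ℝ} {b₀ b₁ : Matrix ι ι ℂ} (h₀ : b₀.PosDef) (hf₀ : Feas w b₀)
    (h₁ : ∀ ξ : CE ι, w ξ ≤ qf b₁ ξ) : ∃ B, IsOpt w B := by
  obtain ⟨M, hM⟩ := john_bounded h₁
  have hbox : IsCompact (Set.pi Set.univ fun _ : ι => Set.pi Set.univ fun _ : ι =>
      Metric.closedBall (0 : ℂ) M) :=
    isCompact_univ_pi fun _ => isCompact_univ_pi fun _ => isCompact_closedBall 0 M
  have hcomp : IsCompact {D : Matrix ι ι ℂ | D.PosSemidef ∧ Feas w D} := by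
    refine IsCompact.of_isClosed_subset hbox (john_isClosed_feas w) ?_
    intro D hD j _ k _
    rw [mem_closedBall_zero_iff]
    exact hM D hD.1 hD.2 j k
  have hne : {D : Matrix ι ι ℂ | D.PosSemidef ∧ Feas w D}.Nonempty := ⟨b₀, h₀.posSemidef, hf₀⟩
  have hcont : ContinuousOn (fun D : Matrix ι ι ℂ => D.det.re)
      {D : Matrix ι ι ℂ | D.PosSemidef ∧ Feas w D} :=
    (Complex.continuous_re.comp (continuous_id.matrix_det)).continuousOn
  obtain ⟨B, hB, hmax⟩ := hcomp.exists_isMaxOn hne hcont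
  have hdet : 0 < B.det.re :=
    lt_of_lt_of_le (herm_det_re_pos h₀) (isMaxOn_iff.1 hmax b₀ ⟨h₀.posSemidef, hf₀⟩)
  have hBpd : B.PosDef := hB.1.posDef_iff_det_ne_zero.2 (fun h => by
    rw [h] at hdet; simp at hdet)
  exact ⟨B, hBpd, hB.2, fun D hD hf => isMaxOn_iff.1 hmax D ⟨hD.posSemidef, hf⟩⟩

theorem IsOpt.le_upper {w : CE ι → ℝ} {B b₁ : Matrix ι ι ℂ} (hB : IsOpt w B)
    (hb₁ : b₁.IsHermitian) (h₁ : ∀ ξ : CE ι, w ξ ≤ qf b₁ ξ) : (b₁ - B).PosSemidef := by
  refine herm_posSemidef_of_qf (hb₁.sub hB.posDef.isHermitian) fun v => ?_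
  rw [john_qf_sub]
  have h2 := (john_feas_apply hB.feas v).trans (h₁ _)
  have h3 : qf B v ≤ qf b₁ v := h2
  linarith

theorem IsOpt.logVol_eq {w : CE ι → ℝ} {B : Matrix ι ι ℂ} (hB : IsOpt w B) :
    logVol w = Real.log B.det.re := by
  unfold logVol
  refine IsGreatest.csSup_eq ⟨⟨B, hB.posDef, hB.feas, rfl⟩, ?_⟩
  rintro r ⟨D, hD, hf, rfl⟩
  exact Real.log_le_log (herm_det_re_pos hD) (hB.max D hD hf)

theorem john_logVol_bounds {w : CE ι → ℝ} {b₀ b₁ : Matrix ι ι ℂ} (h₀ : b₀.PosDef)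
    (hf₀ : Feas w b₀) (hb₁ : b₁.IsHermitian) (h₁ : ∀ ξ : CE ι, w ξ ≤ qf b₁ ξ) :
    Real.log b₀.det.re ≤ logVol w ∧ logVol w ≤ Real.log b₁.det.re := by
  obtain ⟨B, hB⟩ := john_exists h₀ hf₀ h₁
  rw [hB.logVol_eq]
  exact ⟨Real.log_le_log (herm_det_re_pos h₀) (hB.max b₀ h₀ hf₀),
    Real.log_le_log (herm_det_re_pos hB.posDef) (herm_det_le hB.posDef (hB.le_upper hb₁ h₁))⟩

/-! ### B13-11 -/

theorem john_qf_smul_vec (D : Matrix ι ι ℂ) (c : ℂ) (v : ι → ℂ) :
    qf D (c • v) = ‖c‖ ^ 2 * qf D v := by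
  unfold qf
  rw [Matrix.mulVec_smul, star_smul, smul_dotProduct, dotProduct_smul, smul_eq_mul, smul_eq_mul,
    ← mul_assoc]
  have h : star c * c = ((‖c‖ ^ 2 : ℝ) : ℂ) := by
    rw [Complex.star_def, ← Complex.normSq_eq_conj_mul_self, Complex.normSq_eq_norm_sq]
  rw [h, Complex.re_ofReal_mul]

theorem john_qf_smul_CE (D : Matrix ι ι ℂ) (c : ℂ) (ξ : CE ι) :
    qf D (c • ξ : CE ι) = ‖c‖ ^ 2 * qf D ξ := john_qf_smul_vec D c ξ

theorem john_qf_continuous_vec (D : Matrix ι ι ℂ) : Continuous fun ξ : CE ι => qf D ξ := by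
  unfold qf
  have h1 : Continuous fun ξ : CE ι => (ξ : ι → ℂ) := by fun_prop
  refine Complex.continuous_re.comp ?_
  exact Continuous.dotProduct (continuous_star.comp h1)
    (Continuous.matrix_mulVec continuous_const h1)

theorem john_coe_ne_zero {ξ : CE ι} (h : ξ ≠ 0) : (ξ : ι → ℂ) ≠ 0 := by
  intro h0
  apply h
  ext i
  exact congrFun h0 i

theorem john_hom_le {f g : CE ι → ℝ} (hf : ∀ (c : ℂ) (ξ : CE ι), f (c • ξ) = ‖c‖ ^ 2 * f ξ)
    (hg : ∀ (c : ℂ) (ξ : CE ι), g (c • ξ) = ‖c‖ ^ 2 * g ξ)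
    (h : ∀ ξ : CE ι, ‖ξ‖ = 1 → f ξ ≤ g ξ) (ξ : CE ι) : f ξ ≤ g ξ := by
  rcases eq_or_ne ξ 0 with rfl | hξ
  · have h1 := hf 0 0
    have h2 := hg 0 0
    simp at h1 h2
    rw [h1, h2]
  · have hn : 0 < ‖ξ‖ := norm_pos_iff.2 hξ
    have hη1 : ‖(((‖ξ‖⁻¹ : ℝ) : ℂ) • ξ : CE ι)‖ = 1 := by
      rw [norm_smul, Complex.norm_real, norm_inv, norm_norm, inv_mul_cancel₀ hn.ne']
    have hξη : ((‖ξ‖ : ℝ) : ℂ) • (((‖ξ‖⁻¹ : ℝ) : ℂ) • ξ : CE ι) = ξ := by
      rw [smul_smul, ← Complex.ofReal_mul, mul_inv_cancel₀ hn.ne', Complex.ofReal_one, one_smul]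
    have h1 := hf ((‖ξ‖ : ℝ) : ℂ) (((‖ξ‖⁻¹ : ℝ) : ℂ) • ξ)
    have h2 := hg ((‖ξ‖ : ℝ) : ℂ) (((‖ξ‖⁻¹ : ℝ) : ℂ) • ξ)
    rw [hξη] at h1 h2
    rw [h1, h2]
    exact mul_le_mul_of_nonneg_left (h _ hη1) (by positivity)

theorem john_pos_min {T : Set (CE ι)} (hT : IsCompact T) {φ : CE ι → ℝ}
    (hφ : LowerSemicontinuousOn φ T) (hpos : ∀ ξ ∈ T, 0 < φ ξ) : ∃ μ > 0, ∀ ξ ∈ T, μ ≤ φ ξ := by
  rcases T.eq_empty_or_nonempty with rfl | hne
  · exact ⟨1, one_pos, fun ξ hξ => hξ.elim⟩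
  · obtain ⟨ξ₀, h₀, hmin⟩ := hφ.exists_isMinOn hne hT
    exact ⟨φ ξ₀, hpos ξ₀ h₀, fun ξ hξ => isMinOn_iff.1 hmin ξ hξ⟩

theorem john_perturb_feas {w : CE ι → ℝ} (hlsc : LowerSemicontinuous w)
    (hhom : ∀ (c : ℂ) (ξ : CE ι), w (c • ξ) = ‖c‖ ^ 2 * w ξ) {B : Matrix ι ι ℂ} (hB : IsOpt w B)
    {H : Matrix ι ι ℂ} (hneg : ∀ ξ : CE ι, qf B ξ = 1 → w ξ = 1 → qf H ξ < 0) :
    ∃ ε₀ > 0, ∀ ε : ℝ, 0 < ε → ε < ε₀ →
      Feas w (B + ((ε : ℝ) : ℂ) • H) ∧ ∀ v : ι → ℂ, 0 ≤ qf (B + ((ε : ℝ) : ℂ) • H) v := by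
  have hS : IsCompact (Metric.sphere (0 : CE ι) 1) := isCompact_sphere 0 1
  obtain ⟨CH, hCH⟩ := hS.exists_bound_of_continuousOn (john_qf_continuous_vec H).continuousOn
  have hCH' : ∀ ξ : CE ι, ‖ξ‖ = 1 → |qf H ξ| ≤ |CH| := fun ξ hξ =>
    (hCH ξ (mem_sphere_zero_iff_norm.2 hξ)).trans (le_abs_self _)
  have hne0 : ∀ ξ : CE ι, ‖ξ‖ = 1 → (ξ : ι → ℂ) ≠ 0 := by
    intro ξ hξ
    apply john_coe_ne_zero
    intro h0
    rw [h0, norm_zero] at hξ
    exact zero_ne_one hξ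
  obtain ⟨m, hm, hmB⟩ := john_pos_min hS
    ((john_qf_continuous_vec B).lowerSemicontinuous.lowerSemicontinuousOn _)
    (fun ξ hξ => herm_qf_pos hB.posDef (hne0 ξ (mem_sphere_zero_iff_norm.1 hξ)))
  have hT : IsCompact (Metric.sphere (0 : CE ι) 1 ∩ {ξ : CE ι | 0 ≤ qf H ξ}) :=
    hS.inter_right (isClosed_le continuous_const (john_qf_continuous_vec H))
  have hφlsc : LowerSemicontinuous fun ξ : CE ι => w ξ - qf B ξ := by
    have h1 := hlsc.add (john_qf_continuous_vec B).neg.lowerSemicontinuous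
    have e : (fun ξ : CE ι => w ξ - qf B ξ) = fun ξ : CE ι => w ξ + -qf B ξ := by
      funext ξ; ring
    rw [e]
    exact h1
  obtain ⟨μ, hμ, hμφ⟩ := john_pos_min hT (hφlsc.lowerSemicontinuousOn _) (by
    rintro ξ ⟨hξS, hξH⟩
    have hξH' : 0 ≤ qf H ξ := hξH
    have hξ1 : ‖ξ‖ = 1 := mem_sphere_zero_iff_norm.1 hξS
    have ht : 0 < qf B ξ := herm_qf_pos hB.posDef (hne0 ξ hξ1)
    have hfe := hB.feas ξ
    rcases hfe.lt_or_eq with h | h
    · linarith
    · exfalso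
      have hc : ‖(((Real.sqrt (qf B ξ))⁻¹ : ℝ) : ℂ)‖ ^ 2 = (qf B ξ)⁻¹ := by
        rw [Complex.norm_real, Real.norm_eq_abs, sq_abs, inv_pow, Real.sq_sqrt ht.le]
      have h1 : qf B ((((Real.sqrt (qf B ξ))⁻¹ : ℝ) : ℂ) • ξ : CE ι) = 1 := by
        rw [john_qf_smul_CE, hc, inv_mul_cancel₀ ht.ne']
      have h2 : w ((((Real.sqrt (qf B ξ))⁻¹ : ℝ) : ℂ) • ξ) = 1 := by
        rw [hhom, hc, ← h, inv_mul_cancel₀ ht.ne']
      have h3 := hneg _ h1 h2
      rw [john_qf_smul_CE, hc] at h3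
      have h4 : 0 ≤ (qf B ξ)⁻¹ * qf H ξ := mul_nonneg (inv_nonneg.2 ht.le) hξH'
      linarith)
  refine ⟨min m μ / (|CH| + 1), by positivity, fun ε hε hε' => ?_⟩
  have hεC : ε * |CH| ≤ min m μ := by
    rw [lt_div_iff₀ (by positivity)] at hε'
    nlinarith [abs_nonneg CH]
  have hqhom : ∀ (c : ℂ) (ξ : CE ι), qf (B + ((ε : ℝ) : ℂ) • H) (c • ξ : CE ι)
      = ‖c‖ ^ 2 * qf (B + ((ε : ℝ) : ℂ) • H) ξ := fun c ξ => john_qf_smul_CE _ c ξ
  constructor
  · refine john_hom_le hqhom hhom fun ξ hξ => ?_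
    rw [john_qf_add, john_qf_smul]
    by_cases hH0 : 0 ≤ qf H ξ
    · have h1 := hμφ ξ ⟨mem_sphere_zero_iff_norm.2 hξ, hH0⟩
      have h2 : ε * qf H ξ ≤ ε * |CH| :=
        mul_le_mul_of_nonneg_left ((le_abs_self _).trans (hCH' ξ hξ)) hε.le
      have h3 := min_le_right m μ
      linarith
    · have h1 := hB.feas ξ
      have h2 : ε * qf H ξ ≤ 0 := by
        have := not_le.1 hH0
        nlinarith
      linarith
  · intro v
    refine john_hom_le (f := fun _ => 0) (g := fun ξ : CE ι => qf (B + ((ε : ℝ) : ℂ) • H) ξ)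
      (fun c ξ => by simp) hqhom (fun ξ hξ => ?_) (WithLp.toLp 2 v)
    show 0 ≤ qf (B + ((ε : ℝ) : ℂ) • H) ξ
    rw [john_qf_add, john_qf_smul]
    have h1 := hmB ξ (mem_sphere_zero_iff_norm.2 hξ)
    have h2 : -(ε * |CH|) ≤ ε * qf H ξ := by
      have := (abs_le.1 (hCH' ξ hξ)).1
      nlinarith
    have h3 := min_le_left m μ
    linarith

theorem john_det_perturb {B H : Matrix ι ι ℂ} (hB : B.PosDef)
    (ht : 0 < (B⁻¹ * H).trace.re) :
    ∀ᶠ ε in 𝓝[>] (0 : ℝ), B.det.re < (B + ((ε : ℝ) : ℂ) • H).det.re := by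
  set M : Matrix ι ι ℂ := B⁻¹ * H with hM
  set p : Polynomial ℂ :=
    (Matrix.det (1 + (Polynomial.X : Polynomial ℂ) • M.map Polynomial.C)).divX.divX with hp
  have hdpos : 0 < B.det.re := herm_det_re_pos hB
  have hunit : IsUnit B.det := by
    rw [isUnit_iff_ne_zero]
    intro h
    rw [h] at hdpos
    simp at hdpos
  have hdet : ∀ ε : ℝ, (B + ((ε : ℝ) : ℂ) • H).det
      = B.det * (1 + M.trace * (ε : ℂ) + p.eval (ε : ℂ) * (ε : ℂ) ^ 2) := by
    intro ε
    have e : B + ((ε : ℝ) : ℂ) • H = B * (1 + ((ε : ℝ) : ℂ) • M) := by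
      rw [Matrix.mul_add, Matrix.mul_one, Matrix.mul_smul, hM, ← Matrix.mul_assoc,
        Matrix.mul_nonsing_inv B hunit, Matrix.one_mul]
    rw [e, Matrix.det_mul, Matrix.det_one_add_smul]
  have hd : B.det = ((B.det.re : ℝ) : ℂ) := by
    have h0 := hB.det_pos
    have h1 := (Complex.lt_def.1 h0).2
    apply Complex.ext
    · simp
    · simpa using h1.symm
  have hre : ∀ ε : ℝ, (B + ((ε : ℝ) : ℂ) • H).det.re
      = B.det.re * (1 + M.trace.re * ε + (p.eval (ε : ℂ)).re * ε ^ 2) := by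
    intro ε
    rw [hdet, hd, Complex.re_ofReal_mul]
    congr 1
    have e2 : ((ε : ℂ)) ^ 2 = ((ε ^ 2 : ℝ) : ℂ) := by push_cast; ring
    rw [e2, Complex.add_re, Complex.add_re, Complex.one_re, Complex.re_mul_ofReal,
      Complex.re_mul_ofReal]
  have hcont : Continuous fun ε : ℝ => M.trace.re + (p.eval (ε : ℂ)).re * ε :=
    continuous_const.add
      ((Complex.continuous_re.comp (p.continuous.comp Complex.continuous_ofReal)).mul continuous_id)
  have hev : ∀ᶠ ε : ℝ in 𝓝 (0 : ℝ), 0 < M.trace.re + (p.eval ((ε : ℝ) : ℂ)).re * ε := by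
    have h0 := hcont.tendsto 0
    simp only [mul_zero, add_zero] at h0
    exact h0.eventually (Ioi_mem_nhds ht)
  filter_upwards [nhdsWithin_le_nhds hev, self_mem_nhdsWithin] with ε h1 h2
  rw [hre]
  have h3 : 0 < ε * (M.trace.re + (p.eval (ε : ℂ)).re * ε) := mul_pos h2 h1
  nlinarith

/-- first variation of the determinant at the optimiser. -/
theorem john_variation {w : CE ι → ℝ} (hlsc : LowerSemicontinuous w)
    (hhom : ∀ (c : ℂ) (ξ : CE ι), w (c • ξ) = ‖c‖ ^ 2 * w ξ) {B : Matrix ι ι ℂ} (hB : IsOpt w B)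
    {H : Matrix ι ι ℂ} (hH : H.IsHermitian)
    (hneg : ∀ ξ : CE ι, qf B ξ = 1 → w ξ = 1 → qf H ξ < 0) : (B⁻¹ * H).trace.re ≤ 0 := by
  by_contra hcon
  rw [not_le] at hcon
  obtain ⟨ε₀, hε₀, hfeas⟩ := john_perturb_feas hlsc hhom hB hneg
  have h1 := john_det_perturb hB.posDef hcon
  have h2 : ∀ᶠ ε in 𝓝[>] (0 : ℝ), ε < ε₀ := nhdsWithin_le_nhds (Iio_mem_nhds hε₀)
  obtain ⟨ε, hε1, hε2, hε3⟩ := (h1.and (h2.and self_mem_nhdsWithin)).exists
  obtain ⟨hf, hq⟩ := hfeas ε hε3 hε2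
  have hherm : (B + ((ε : ℝ) : ℂ) • H).IsHermitian := by
    refine hB.posDef.isHermitian.add ?_
    rw [Matrix.IsHermitian, Matrix.conjTranspose_smul, hH.eq, Complex.star_def,
      Complex.conj_ofReal]
  have hpsd := herm_posSemidef_of_qf hherm hq
  have hdpos : 0 < (B + ((ε : ℝ) : ℂ) • H).det.re := (herm_det_re_pos hB.posDef).trans hε1
  have hpd : (B + ((ε : ℝ) : ℂ) • H).PosDef := hpsd.posDef_iff_det_ne_zero.2 (fun h => by
    rw [h] at hdpos; simp at hdpos)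
  exact absurd (hB.max _ hpd hf) (not_le.2 hε1)

/-! ### B13-12 -/

theorem john_isCompact_convexHull {V : Type*} [NormedAddCommGroup V] [NormedSpace ℝ V]
    [FiniteDimensional ℝ V] {S : Set V} (hS : IsCompact S) : IsCompact (convexHull ℝ S) := by
  classical
  set d := Module.finrank ℝ V with hd
  set Φ : (Fin (d + 1) → ℝ) × (Fin (d + 1) → V) → V := fun q => ∑ i, q.1 i • q.2 i with hΦ
  have hcont : Continuous Φ := by
    refine continuous_finsetSum _ fun i _ => ?_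
    exact ((continuous_apply i).comp continuous_fst).smul ((continuous_apply i).comp continuous_snd)
  have hK : IsCompact (stdSimplex ℝ (Fin (d + 1)) ×ˢ Set.pi Set.univ fun _ : Fin (d + 1) => S) :=
    (isCompact_stdSimplex ℝ (Fin (d + 1))).prod (isCompact_univ_pi fun _ => hS)
  have himg : convexHull ℝ S =
      Φ '' (stdSimplex ℝ (Fin (d + 1)) ×ˢ Set.pi Set.univ fun _ : Fin (d + 1) => S) := by
    apply Set.Subset.antisymm
    · intro x hx
      obtain ⟨ι, _, z, w, hz, haff, hw0, hw1, hx'⟩ := eq_pos_convex_span_of_mem_convexHull hx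
      have hcard : Fintype.card ι ≤ Fintype.card (Fin (d + 1)) := by
        rw [Fintype.card_fin]
        have h1 := haff.card_le_finrank_succ
        have h2 : Module.finrank ℝ (vectorSpan ℝ (Set.range z)) ≤ d := Submodule.finrank_le _
        omega
      obtain ⟨e⟩ := Function.Embedding.nonempty_of_card_le hcard
      have hne : Nonempty ι := by
        by_contra hne
        rw [not_nonempty_iff] at hne
        simp at hw1
      obtain ⟨i0⟩ := hne
      set w' : Fin (d + 1) → ℝ := Function.extend e w 0 with hw'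
      set z' : Fin (d + 1) → V := Function.extend e z fun _ => z i0 with hz'
      have hwe : ∀ i, w' (e i) = w i := fun i => e.injective.extend_apply _ _ i
      have hze : ∀ i, z' (e i) = z i := fun i => e.injective.extend_apply _ _ i
      have hwn : ∀ j, j ∉ Set.range e → w' j = 0 := fun j hj =>
        Function.extend_apply' _ _ _ (by simpa using hj)
      have hzn : ∀ j, j ∉ Set.range e → z' j = z i0 := fun j hj =>
        Function.extend_apply' _ _ _ (by simpa using hj)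
      refine ⟨(w', z'), ⟨⟨fun j => ?_, ?_⟩, fun j _ => ?_⟩, ?_⟩
      · show 0 ≤ w' j
        by_cases hj : j ∈ Set.range e
        · obtain ⟨i, rfl⟩ := hj
          rw [hwe]
          exact (hw0 i).le
        · rw [hwn j hj]
      · show ∑ j, w' j = 1
        rw [← hw1]
        exact (Fintype.sum_of_injective e e.injective _ _ hwn fun i => (hwe i).symm).symm
      · by_cases hj : j ∈ Set.range e
        · obtain ⟨i, rfl⟩ := hj
          show z' (e i) ∈ S
          rw [hze]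
          exact hz ⟨i, rfl⟩
        · show z' j ∈ S
          rw [hzn j hj]
          exact hz ⟨i0, rfl⟩
      · rw [← hx']
        exact (Fintype.sum_of_injective e e.injective (fun i => w i • z i)
          (fun j => w' j • z' j) (fun j hj => by rw [hwn j hj, zero_smul])
          fun i => by rw [hwe, hze]).symm
    · rintro _ ⟨⟨w, z⟩, ⟨hw, hz⟩, rfl⟩
      exact (convex_convexHull ℝ S).sum_mem (fun i _ => hw.1 i) hw.2
        (fun i _ => subset_convexHull ℝ S (hz i (Set.mem_univ i)))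
  rw [himg]
  exact hK.image hcont

/-! ### B13-13 -/

theorem john_limit_aux {a b : ℝ} (h : ∀ t : ℝ, 0 < t → t ≤ 1 → a ≤ t * b) : a ≤ 0 := by
  have ht : Filter.Tendsto (fun t : ℝ => t * b) (𝓝[>] 0) (𝓝 0) := by
    have hc : Continuous fun t : ℝ => t * b := continuous_id.mul continuous_const
    have h0 := hc.tendsto 0
    rw [zero_mul] at h0
    exact h0.mono_left nhdsWithin_le_nhds
  refine ge_of_tendsto ht ?_
  filter_upwards [Ioc_mem_nhdsGT (zero_lt_one' ℝ)] with t ht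
  exact h t ht.1 ht.2

theorem john_trace_expand (U V : Matrix ι ι ℂ) (t : ℝ) :
    ((U + ((t : ℝ) : ℂ) • V) * (U + ((t : ℝ) : ℂ) • V)).trace.re
      = (U * U).trace.re + 2 * t * (U * V).trace.re + t ^ 2 * (V * V).trace.re := by
  simp only [Matrix.add_mul, Matrix.mul_add, Matrix.smul_mul, Matrix.mul_smul, Matrix.trace_add,
    Matrix.trace_smul, Complex.add_re, smul_eq_mul, Complex.re_ofReal_mul]
  rw [Matrix.trace_mul_comm V U]
  ring

theorem john_trace_sq_pos {H : Matrix ι ι ℂ} (hH : H.IsHermitian) (h0 : H ≠ 0) :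
    0 < (H * H).trace.re := by
  have h1 : (H.conjTranspose * H).PosSemidef := Matrix.posSemidef_conjTranspose_mul_self H
  rw [hH.eq] at h1
  have h2 := h1.trace_nonneg
  have h3 : (H * H).trace ≠ 0 := by
    intro h
    apply h0
    exact Matrix.trace_conjTranspose_mul_self_eq_zero_iff.1 (by rw [hH.eq]; exact h)
  obtain ⟨h4, h5⟩ := Complex.le_def.1 h2
  rcases h4.lt_or_eq with h | h
  · simpa using h
  · exfalso
    apply h3
    apply Complex.ext
    · rw [← h]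
    · rw [← h5]

theorem john_isHermitian_smul {H : Matrix ι ι ℂ} (hH : H.IsHermitian) (c : ℝ) :
    (((c : ℝ) : ℂ) • H).IsHermitian := by
  rw [Matrix.IsHermitian, Matrix.conjTranspose_smul, hH.eq, Complex.star_def, Complex.conj_ofReal]

theorem john_separate {𝒦 : Set (Matrix ι ι ℂ)} (hcomp : IsCompact 𝒦) (hconv : Convex ℝ 𝒦)
    (hne : 𝒦.Nonempty) (hherm : ∀ X ∈ 𝒦, X.IsHermitian) {y : Matrix ι ι ℂ} (hy : y.IsHermitian)
    (hy𝒦 : y ∉ 𝒦) :
    ∃ (H₀ : Matrix ι ι ℂ) (γ : ℝ), H₀.IsHermitian ∧ (∀ X ∈ 𝒦, (H₀ * X).trace.re < γ) ∧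
      γ < (H₀ * y).trace.re := by
  have hcont : Continuous fun X : Matrix ι ι ℂ => ((X - y) * (X - y)).trace.re := by
    refine Complex.continuous_re.comp (Continuous.matrix_trace ?_)
    exact (continuous_id.sub continuous_const).matrix_mul (continuous_id.sub continuous_const)
  obtain ⟨c, hc, hmin⟩ := hcomp.exists_isMinOn hne hcont.continuousOn
  have hH₀ : (y - c).IsHermitian := hy.sub (hherm c hc)
  have hne0 : y - c ≠ 0 := fun h => hy𝒦 (by rw [sub_eq_zero.1 h]; exact hc)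
  have hN := john_trace_sq_pos hH₀ hne0
  have hvar : ∀ X ∈ 𝒦, ((y - c) * (X - c)).trace.re ≤ 0 := by
    intro X hX
    have key : ∀ t : ℝ, 0 < t → t ≤ 1 →
        2 * ((y - c) * (X - c)).trace.re ≤ t * ((X - c) * (X - c)).trace.re := by
      intro t ht0 ht1
      have hmem : c + ((t : ℝ) : ℂ) • (X - c) ∈ 𝒦 := by
        have h1 := hconv hc hX (sub_nonneg.2 ht1) ht0.le (by ring : (1 - t) + t = 1)
        have e : (1 - t) • c + t • X = c + ((t : ℝ) : ℂ) • (X - c) := by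
          ext j k
          simp only [Matrix.add_apply, Matrix.smul_apply, Matrix.sub_apply, Complex.real_smul,
            smul_eq_mul]
          push_cast
          ring
        rwa [e] at h1
      have h2 := isMinOn_iff.1 hmin _ hmem
      have e2 : c + ((t : ℝ) : ℂ) • (X - c) - y = (c - y) + ((t : ℝ) : ℂ) • (X - c) := by abel
      rw [e2, john_trace_expand] at h2
      have e3 : ((c - y) * (X - c)).trace.re = -((y - c) * (X - c)).trace.re := by
        rw [← neg_sub y c, Matrix.neg_mul, Matrix.trace_neg, Complex.neg_re]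
      rw [e3] at h2
      have h3 : t * (2 * ((y - c) * (X - c)).trace.re)
          ≤ t * (t * ((X - c) * (X - c)).trace.re) := by nlinarith
      exact le_of_mul_le_mul_left h3 ht0
    have h4 := john_limit_aux key
    linarith
  refine ⟨y - c, ((y - c) * c).trace.re + ((y - c) * (y - c)).trace.re / 2, hH₀,
    fun X hX => ?_, ?_⟩
  · have h1 := hvar X hX
    rw [Matrix.mul_sub, Matrix.trace_sub, Complex.sub_re] at h1
    linarith
  · have e : ((y - c) * y).trace.re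
        = ((y - c) * c).trace.re + ((y - c) * (y - c)).trace.re := by
      rw [← Complex.add_re, ← Matrix.trace_add, ← Matrix.mul_add, add_sub_cancel]
    rw [e]
    linarith

theorem john_contact_compact {w : CE ι → ℝ} (hlsc : LowerSemicontinuous w) {B : Matrix ι ι ℂ}
    (hB : IsOpt w B) : IsCompact {ξ : CE ι | qf B ξ = 1 ∧ w ξ = 1} := by
  have hS : IsCompact (Metric.sphere (0 : CE ι) 1) := isCompact_sphere 0 1
  obtain ⟨m, hm, hmB⟩ := john_pos_min hS
    ((john_qf_continuous_vec B).lowerSemicontinuous.lowerSemicontinuousOn _)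
    (fun ξ hξ => herm_qf_pos hB.posDef (john_coe_ne_zero (by
      intro h
      rw [h, mem_sphere_zero_iff_norm, norm_zero] at hξ
      exact zero_ne_one hξ)))
  have hcoer : ∀ ξ : CE ι, m * ‖ξ‖ ^ 2 ≤ qf B ξ := by
    refine john_hom_le (fun c ξ => by rw [norm_smul]; ring)
      (fun c ξ => john_qf_smul_CE B c ξ) fun ξ hξ => ?_
    rw [hξ]
    simpa using hmB ξ (mem_sphere_zero_iff_norm.2 hξ)
  have hclosed : IsClosed {ξ : CE ι | qf B ξ = 1 ∧ w ξ = 1} := by
    have e : {ξ : CE ι | qf B ξ = 1 ∧ w ξ = 1}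
        = {ξ : CE ι | qf B ξ = 1} ∩ w ⁻¹' Set.Iic 1 := by
      ext ξ
      constructor
      · rintro ⟨h1, h2⟩
        exact ⟨h1, h2.le⟩
      · rintro ⟨h1, h2⟩
        have h1' : qf B ξ = 1 := h1
        have h2' : w ξ ≤ 1 := h2
        exact ⟨h1', le_antisymm h2' (h1' ▸ hB.feas ξ)⟩
    rw [e]
    exact (isClosed_eq (john_qf_continuous_vec B) continuous_const).inter
      (hlsc.isClosed_preimage 1)
  refine IsCompact.of_isClosed_subset (isCompact_closedBall (0 : CE ι) (1 / m + 1)) hclosed ?_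
  rintro ξ ⟨h1, -⟩
  rw [mem_closedBall_zero_iff]
  have h2 := hcoer ξ
  rw [h1] at h2
  have h3 : ‖ξ‖ ^ 2 ≤ 1 / m := by rw [le_div_iff₀ hm]; linarith
  have h4 : 0 < 1 / m := by positivity
  nlinarith [norm_nonneg ξ, sq_nonneg (‖ξ‖ - 1)]

theorem john_mem_hull [Nonempty ι] {w : CE ι → ℝ} (hlsc : LowerSemicontinuous w)
    (hhom : ∀ (c : ℂ) (ξ : CE ι), w (c • ξ) = ‖c‖ ^ 2 * w ξ) {B : Matrix ι ι ℂ} (hB : IsOpt w B) :
    (((1 / (Fintype.card ι : ℝ) : ℝ) : ℂ) • B⁻¹) ∈ convexHull ℝ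
      ((fun ξ : CE ι => Matrix.vecMulVec (ξ : ι → ℂ) (star (ξ : ι → ℂ))) ''
        {ξ : CE ι | qf B ξ = 1 ∧ w ξ = 1}) := by
  have hn0 : 0 < (Fintype.card ι : ℝ) := by exact_mod_cast Fintype.card_pos
  set n : ℝ := (Fintype.card ι : ℝ) with hn
  set P : CE ι → Matrix ι ι ℂ :=
    fun ξ => Matrix.vecMulVec (ξ : ι → ℂ) (star (ξ : ι → ℂ)) with hP
  have hdpos : 0 < B.det.re := herm_det_re_pos hB.posDef
  have hunit : IsUnit B.det := by
    rw [isUnit_iff_ne_zero]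
    intro h
    rw [h] at hdpos
    simp at hdpos
  have htrBB : (B⁻¹ * B).trace.re = n := by
    rw [Matrix.nonsing_inv_mul B hunit, Matrix.trace_one]
    simp [hn]
  have hEne : {ξ : CE ι | qf B ξ = 1 ∧ w ξ = 1}.Nonempty := by
    by_contra hemp
    rw [Set.not_nonempty_iff_eq_empty] at hemp
    have h1 := john_variation hlsc hhom hB hB.posDef.isHermitian (fun ξ h1 h2 => by
      have h3 : ξ ∈ {ξ : CE ι | qf B ξ = 1 ∧ w ξ = 1} := ⟨h1, h2⟩
      rw [hemp] at h3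
      exact h3.elim)
    rw [htrBB] at h1
    linarith
  have hPcont : Continuous P := by
    have h1 : Continuous fun ξ : CE ι => (ξ : ι → ℂ) := by fun_prop
    exact Continuous.matrix_vecMulVec h1 (continuous_star.comp h1)
  have hScomp : IsCompact (P '' {ξ : CE ι | qf B ξ = 1 ∧ w ξ = 1}) :=
    (john_contact_compact hlsc hB).image hPcont
  have h𝒦comp : IsCompact (convexHull ℝ (P '' {ξ : CE ι | qf B ξ = 1 ∧ w ξ = 1})) :=
    john_isCompact_convexHull (V := ι → ι → ℂ) hScomp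
  have hPherm : ∀ ξ, (P ξ).IsHermitian := by
    intro ξ
    ext j k
    simp [hP, Matrix.vecMulVec_apply, Matrix.conjTranspose_apply, mul_comm]
  have hherm : ∀ X ∈ convexHull ℝ (P '' {ξ : CE ι | qf B ξ = 1 ∧ w ξ = 1}),
      X.IsHermitian := by
    have hconvH : Convex ℝ {X : Matrix ι ι ℂ | X.IsHermitian} := by
      intro X hX Y hY a b _ _ _
      have hX' : X.IsHermitian := hX
      have hY' : Y.IsHermitian := hY
      show (a • X + b • Y).IsHermitian
      rw [Matrix.IsHermitian, Matrix.conjTranspose_add, Matrix.conjTranspose_smul,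
        Matrix.conjTranspose_smul, hX'.eq, hY'.eq]
      simp
    exact fun X hX => convexHull_min (by rintro _ ⟨ξ, -, rfl⟩; exact hPherm ξ) hconvH hX
  have hyherm : (((1 / n : ℝ) : ℂ) • B⁻¹).IsHermitian :=
    john_isHermitian_smul hB.posDef.isHermitian.inv _
  by_contra hy
  obtain ⟨H₀, γ, hH₀, h1, h2⟩ := john_separate h𝒦comp (convex_convexHull ℝ _)
    (hEne.image P).convexHull hherm hyherm hy
  have hHherm : (H₀ - ((γ : ℝ) : ℂ) • B).IsHermitian :=
    hH₀.sub (john_isHermitian_smul hB.posDef.isHermitian γ)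
  have hvar := john_variation hlsc hhom hB hHherm (fun ξ hξ1 hξ2 => by
    rw [john_qf_sub, john_qf_smul, hξ1, herm_qf_vecMulVec]
    have h3 := h1 (P ξ) (subset_convexHull ℝ _ ⟨ξ, ⟨hξ1, hξ2⟩, rfl⟩)
    have h4 : (H₀ * Matrix.vecMulVec (ξ : ι → ℂ) (star (ξ : ι → ℂ))).trace.re < γ := h3
    linarith)
  rw [Matrix.mul_sub, Matrix.mul_smul, Matrix.trace_sub, Matrix.trace_smul, Complex.sub_re,
    smul_eq_mul, Complex.re_ofReal_mul, htrBB] at hvar
  rw [Matrix.mul_smul, Matrix.trace_smul, smul_eq_mul, Complex.re_ofReal_mul,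
    Matrix.trace_mul_comm] at h2
  have h5 : γ * n < (B⁻¹ * H₀).trace.re := by
    rw [one_div, inv_mul_eq_div, lt_div_iff₀ hn0] at h2
    exact h2
  linarith

/-- **contact resolution** (`eq:contact-resolution`), for a general optimiser, with small weights. -/
theorem john_contacts {w : CE ι → ℝ} (hlsc : LowerSemicontinuous w)
    (hhom : ∀ (c : ℂ) (ξ : CE ι), w (c • ξ) = ‖c‖ ^ 2 * w ξ) {B : Matrix ι ι ℂ} (hB : IsOpt w B)
    {η : ℝ} (hη : 0 < η) :
    ∃ (m : ℕ) (ξ : Fin m → CE ι) (α : Fin m → ℝ), (∀ i, 0 < α i ∧ α i < η) ∧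
      (∀ i, w (ξ i) = 1 ∧ qf B (ξ i) = 1) ∧
      ∑ i, ((α i : ℝ) : ℂ) • Matrix.vecMulVec (ξ i) (star (ξ i : ι → ℂ)) = B⁻¹ ∧
      ∑ i, α i = Fintype.card ι := by
  classical
  rcases isEmpty_or_nonempty ι with hemp | hnemp
  · refine ⟨0, fun i => i.elim0, fun i => i.elim0, fun i => i.elim0, fun i => i.elim0, ?_, ?_⟩
    · exact Subsingleton.elim _ _
    · simp [Fintype.card_eq_zero]
  have hn0 : 0 < (Fintype.card ι : ℝ) := by exact_mod_cast Fintype.card_pos
  obtain ⟨A, _, z, lam, hz, -, hl0, hl1, hsum⟩ :=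
    eq_pos_convex_span_of_mem_convexHull (john_mem_hull hlsc hhom hB)
  set n : ℝ := (Fintype.card ι : ℝ) with hn
  have hz' : ∀ a, ∃ ζ : CE ι, (qf B ζ = 1 ∧ w ζ = 1) ∧
      Matrix.vecMulVec (ζ : ι → ℂ) (star (ζ : ι → ℂ)) = z a := by
    intro a
    obtain ⟨ζ, h1, h2⟩ := hz ⟨a, rfl⟩
    exact ⟨ζ, h1, h2⟩
  choose ζ hζ1 hζ2 using hz'
  obtain ⟨r, hr⟩ := exists_nat_gt (n / η)
  have hr0 : 0 < (r : ℝ) := lt_trans (by positivity) hr
  have hl_le : ∀ a, lam a ≤ 1 := by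
    intro a
    rw [← hl1]
    exact Finset.single_le_sum (fun b _ => (hl0 b).le) (Finset.mem_univ a)
  set e := Fintype.equivFin (A × Fin r) with he
  refine ⟨Fintype.card (A × Fin r), fun i => ζ (e.symm i).1,
    fun i => n * lam (e.symm i).1 / r, fun i => ⟨?_, ?_⟩,
    fun i => ⟨(hζ1 _).2, (hζ1 _).1⟩, ?_, ?_⟩
  · have := hl0 (e.symm i).1
    positivity
  · have h1 : n * lam (e.symm i).1 ≤ n := mul_le_of_le_one_right hn0.le (hl_le _)
    rw [div_lt_iff₀ hr0]
    rw [div_lt_iff₀ hη] at hr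
    linarith
  · rw [Equiv.sum_comp e.symm (fun x : A × Fin r => (((n * lam x.1 / r : ℝ)) : ℂ) •
      Matrix.vecMulVec (ζ x.1 : ι → ℂ) (star (ζ x.1 : ι → ℂ)))]
    rw [Fintype.sum_prod_type]
    simp only [Finset.sum_const, Finset.card_univ, Fintype.card_fin]
    have e1 : ∀ a, r • ((((n * lam a / r : ℝ)) : ℂ) •
        Matrix.vecMulVec (ζ a : ι → ℂ) (star (ζ a : ι → ℂ))) = ((n : ℝ) : ℂ) • (lam a • z a) := by
      intro a
      have hrc : (r : ℂ) ≠ 0 := by exact_mod_cast hr0.ne'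
      rw [hζ2, ← Nat.cast_smul_eq_nsmul ℂ, smul_smul]
      ext j k
      simp only [Matrix.smul_apply, smul_eq_mul, Complex.real_smul]
      push_cast
      field_simp
    simp only [e1]
    rw [← Finset.smul_sum, hsum, smul_smul, ← Complex.ofReal_mul, mul_one_div_cancel hn0.ne',
      Complex.ofReal_one, one_smul]
  · rw [Equiv.sum_comp e.symm (fun x : A × Fin r => n * lam x.1 / r), Fintype.sum_prod_type]
    simp only [Finset.sum_const, Finset.card_univ, Fintype.card_fin, nsmul_eq_mul]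
    have e1 : ∀ a, (r : ℝ) * (n * lam a / r) = n * lam a := fun a => by field_simp
    simp only [e1]
    rw [← Finset.mul_sum, hl1, mul_one]

/-! ### B13-14 -/

theorem john_feas_stable {X : Type*} [TopologicalSpace X] {v : X → CE ι → ℝ} {x₀ : X}
    (hlsc : ∀ ξ : CE ι, LowerSemicontinuousAt (fun q : X × CE ι => v q.1 q.2) (x₀, ξ))
    (hhom : ∀ᶠ x in 𝓝 x₀, ∀ (c : ℂ) (ξ : CE ι), v x (c • ξ) = ‖c‖ ^ 2 * v x ξ)
    {D : Matrix ι ι ℂ}
    (hD : D.PosDef) (hf : Feas (v x₀) D) {ε : ℝ} (h0 : 0 < ε) (h1 : ε < 1) :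
    ∀ᶠ x in 𝓝 x₀, Feas (v x) (((1 - ε : ℝ) : ℂ) • D) := by
  have hS : IsCompact (Metric.sphere (0 : CE ι) 1) := isCompact_sphere 0 1
  have key : ∀ᶠ x in 𝓝 x₀, ∀ ξ ∈ Metric.sphere (0 : CE ι) 1, (1 - ε) * qf D ξ < v x ξ := by
    refine hS.eventually_forall_of_forall_eventually fun ξ hξ => ?_
    have hξ0 : ξ ≠ 0 := by
      intro h
      rw [h, mem_sphere_zero_iff_norm, norm_zero] at hξ
      exact zero_ne_one hξ
    have hpos : 0 < qf D ξ := herm_qf_pos hD (john_coe_ne_zero hξ0)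
    have hy : (1 - ε / 2) * qf D ξ < v x₀ ξ := by
      have := hf ξ
      nlinarith
    have e1 := hlsc ξ _ hy
    have hc : Continuous fun q : X × CE ι => (1 - ε) * qf D q.2 :=
      continuous_const.mul ((john_qf_continuous_vec D).comp continuous_snd)
    have e2 : ∀ᶠ q : X × CE ι in 𝓝 (x₀, ξ), (1 - ε) * qf D q.2 < (1 - ε / 2) * qf D ξ :=
      (hc.tendsto (x₀, ξ)).eventually (Iio_mem_nhds (by nlinarith))
    filter_upwards [e1, e2] with q h1 h2
    exact h2.trans h1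
  filter_upwards [key, hhom] with x hx hh
  refine john_hom_le (fun c ξ => john_qf_smul_CE _ c ξ) hh fun ξ hξ => ?_
  rw [john_qf_smul]
  exact (hx ξ (mem_sphere_zero_iff_norm.2 hξ)).le

/-- lower semicontinuity of `𝓛` (the upper bound `b₁` only serves to bound the supremum). -/
theorem john_logVol_lsc {X : Type*} [TopologicalSpace X] {v : X → CE ι → ℝ} {x₀ : X}
    (hlsc : ∀ ξ : CE ι, LowerSemicontinuousAt (fun q : X × CE ι => v q.1 q.2) (x₀, ξ))
    (hhom : ∀ᶠ x in 𝓝 x₀, ∀ (c : ℂ) (ξ : CE ι), v x (c • ξ) = ‖c‖ ^ 2 * v x ξ)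
    {b₀ : Matrix ι ι ℂ} (h₀ : b₀.PosDef) (hf₀ : Feas (v x₀) b₀)
    {b₁ : X → Matrix ι ι ℂ} (hb₁ : ∀ᶠ x in 𝓝 x₀, (b₁ x).IsHermitian)
    (h₁ : ∀ᶠ x in 𝓝 x₀, ∀ ξ : CE ι, v x ξ ≤ qf (b₁ x) ξ) :
    LowerSemicontinuousAt (fun x => logVol (v x)) x₀ := by
  intro y hy
  have hy' : y < logVol (v x₀) := hy
  obtain ⟨B, hB⟩ := john_exists h₀ hf₀ h₁.self_of_nhds
  rw [hB.logVol_eq] at hy'
  have hd : 0 < B.det.re := herm_det_re_pos hB.posDef
  have hcont : ContinuousAt
      (fun ε : ℝ => Real.log ((1 - ε) ^ (Fintype.card ι) * B.det.re)) 0 := by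
    refine ContinuousAt.log ?_ (by simp [hd.ne'])
    fun_prop
  have hev : ∀ᶠ ε : ℝ in 𝓝 0, y < Real.log ((1 - ε) ^ (Fintype.card ι) * B.det.re) := by
    have h0 : y < Real.log ((1 - (0 : ℝ)) ^ (Fintype.card ι) * B.det.re) := by simpa using hy'
    exact hcont.tendsto.eventually (Ioi_mem_nhds h0)
  have hev' : ∀ᶠ ε : ℝ in 𝓝[>] 0, y < Real.log ((1 - ε) ^ (Fintype.card ι) * B.det.re) :=
    nhdsWithin_le_nhds hev
  have hlt1 : ∀ᶠ ε : ℝ in 𝓝[>] 0, ε < 1 := nhdsWithin_le_nhds (Iio_mem_nhds one_pos)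
  obtain ⟨ε, hε1, hε2, hε3⟩ := (hev'.and (hlt1.and self_mem_nhdsWithin)).exists
  have hε3' : 0 < ε := hε3
  have hpd : (((1 - ε : ℝ) : ℂ) • B).PosDef :=
    hB.posDef.smul (by exact_mod_cast (by linarith : (0 : ℝ) < 1 - ε))
  have hdet : (((1 - ε : ℝ) : ℂ) • B).det.re = (1 - ε) ^ (Fintype.card ι) * B.det.re := by
    rw [Matrix.det_smul, ← Complex.ofReal_pow, Complex.re_ofReal_mul]
  filter_upwards [john_feas_stable hlsc hhom hB.posDef hB.feas hε3' hε2, hb₁, h₁]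
    with x hx1 hx2 hx3
  have h2 := (john_logVol_bounds hpd hx1 hx2 hx3).1
  rw [hdet] at h2
  exact lt_of_lt_of_le hε1 h2

end Claimed.Agent.R316.B13
end

/- ===== packed: Claimed.Agent.R316.S6.Gram ===== -/
section
/-!
# S6-4 / S6-5: two determinant facts (leaves, pure matrix algebra over `ℂ`; Mathlib + statements of `B13/HermMat.lean`)

The claimers own their sections: replace the `sorry`s IN PLACE, keep the statements (prefix `gram_`; problems: msg helper126).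

## S6-4 (~500 lines): Gram-Cauchy-Schwarz
`M N : Matrix ι (Fin m) ℂ`, `N Nᴴ` positive definite, `Π = Nᴴ (N Nᴴ)⁻¹ N` (Hermitian idempotent).  `M Mᴴ - M Π Mᴴ = (M (1-Π)) (M (1-Π))ᴴ ≥ 0` and
`det (M Π Mᴴ) = det (M Nᴴ) det ((N Nᴴ)⁻¹) det (N Mᴴ) = |det (M Nᴴ)|² / det (N Nᴴ)`.  If `det (M Nᴴ) = 0` nothing to prove (`M Mᴴ ≥ 0` has `det ≥ 0`).  Otherwise `M Π Mᴴ = T (N Nᴴ)⁻¹ Tᴴ`, `T = M Nᴴ` invertible, is positive definite:
`herm_det_le`.  Equality: `herm_eq_of_det_eq` gives `(M (1-Π)) (M (1-Π))ᴴ = 0`, so `M (1-Π) = 0` (`Matrix.self_mul_conjTranspose_eq_zero`), i.e. `M = (M Nᴴ (N Nᴴ)⁻¹) N`.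

## S6-5 (~350 lines): one column
`A + α (ζ' ζ'ᴴ - ξ ξᴴ) = A (1 + A⁻¹ U C Uᴴ)`, `U = [ξ, ζ'] : Matrix ι (Fin 2) ℂ`, `C = diag (-α, α)`; `Matrix.det_one_add_mul_comm` reduces to a `2 × 2` determinant:
`(1 - α p)(1 + α q) + α² |r|²`, `p = ξᴴA⁻¹ξ`, `q = ζ'ᴴA⁻¹ζ'`, `r = ξᴴA⁻¹ζ'`; insert `ζ' = ξ + ζ V` and expand (`A⁻¹` Hermitian): `= |1 + α b ζ|² + α (1 - α p) c |ζ|²`.
-/

set_option autoImplicit false
set_option linter.unusedSectionVars false
open scoped ComplexOrder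

namespace Claimed.Agent.R316.S6

open Claimed.Agent.R316 Claimed.Agent.R316.B13 Matrix

variable {ι : Type} [Fintype ι] [DecidableEq ι] {m : ℕ}

/-! ### S6-4 -/

theorem gram_posSemidef (M : Matrix ι (Fin m) ℂ) : (M * Mᴴ).PosSemidef := by
  exact Matrix.posSemidef_self_mul_conjTranspose M

theorem gram_vecMul_injective {T : Matrix ι ι ℂ} (h : T.det ≠ 0) :
    Function.Injective T.vecMul := by
  intro v v' hv
  have hv' : v ᵥ* T = v' ᵥ* T := hv
  have h1 : (v - v') ᵥ* T = 0 := by rw [Matrix.sub_vecMul, hv', sub_self]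
  exact sub_eq_zero.1 (Matrix.eq_zero_of_vecMul_eq_zero h h1)

theorem gram_isUnit_det {S : Matrix ι ι ℂ} (hS : S.PosDef) : IsUnit S.det := by
  have hdpos : 0 < S.det.re := herm_det_re_pos hS
  rw [isUnit_iff_ne_zero]
  intro h
  rw [h] at hdpos
  simp at hdpos

theorem gram_det_eq_re {S : Matrix ι ι ℂ} (hS : S.PosDef) : S.det = ((S.det.re : ℝ) : ℂ) := by
  have h0 := hS.det_pos
  have h1 := (Complex.lt_def.1 h0).2
  apply Complex.ext
  · simp
  · simpa using h1.symm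

theorem gram_posDef_of_det_ne {M N : Matrix ι (Fin m) ℂ} (h : (M * Nᴴ).det ≠ 0) :
    (M * Mᴴ).PosDef := by
  refine Matrix.PosDef.mul_conjTranspose_self M ?_
  intro v v' hv
  have hv' : v ᵥ* M = v' ᵥ* M := hv
  have h1 : (v - v') ᵥ* M = 0 := by rw [Matrix.sub_vecMul, hv', sub_self]
  have h2 : (v - v') ᵥ* (M * Nᴴ) = 0 := by rw [← Matrix.vecMul_vecMul, h1, Matrix.zero_vecMul]
  exact sub_eq_zero.1 (Matrix.eq_zero_of_vecMul_eq_zero h h2)

theorem gram_residual (M : Matrix ι (Fin m) ℂ) {N : Matrix ι (Fin m) ℂ} (hN : (N * Nᴴ).PosDef) :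
    M * Mᴴ - (M * Nᴴ) * (N * Nᴴ)⁻¹ * (M * Nᴴ)ᴴ
      = (M - (M * Nᴴ) * (N * Nᴴ)⁻¹ * N) * (M - (M * Nᴴ) * (N * Nᴴ)⁻¹ * N)ᴴ := by
  have hSi : ((N * Nᴴ)⁻¹)ᴴ = (N * Nᴴ)⁻¹ := hN.inv.isHermitian.eq
  have hunit : IsUnit (N * Nᴴ).det := gram_isUnit_det hN
  have hTH : (M * Nᴴ)ᴴ = N * Mᴴ := by rw [conjTranspose_mul, conjTranspose_conjTranspose]
  generalize hS : (N * Nᴴ)⁻¹ = Si at *
  rw [hTH, conjTranspose_sub, conjTranspose_mul (M * Nᴴ * Si) N, conjTranspose_mul (M * Nᴴ) Si,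
    hSi, hTH, Matrix.sub_mul, Matrix.mul_sub, Matrix.mul_sub]
  have e1 : M * (Nᴴ * (Si * (N * Mᴴ))) = M * Nᴴ * Si * (N * Mᴴ) := by
    simp only [Matrix.mul_assoc]
  have e2 : M * Nᴴ * Si * N * Mᴴ = M * Nᴴ * Si * (N * Mᴴ) := by
    simp only [Matrix.mul_assoc]
  have e3 : M * Nᴴ * Si * N * (Nᴴ * (Si * (N * Mᴴ))) = M * Nᴴ * Si * (N * Mᴴ) := by
    have e4 : M * Nᴴ * Si * N * (Nᴴ * (Si * (N * Mᴴ)))
        = M * Nᴴ * (Si * (N * Nᴴ)) * (Si * (N * Mᴴ)) := by simp only [Matrix.mul_assoc]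
    rw [e4, ← hS, Matrix.nonsing_inv_mul _ hunit, Matrix.mul_one, Matrix.mul_assoc,
      Matrix.mul_assoc, Matrix.mul_assoc]
  rw [e1, e2, e3]
  abel

theorem gram_det_proj (T : Matrix ι ι ℂ) {S : Matrix ι ι ℂ} (hS : S.PosDef) :
    (T * S⁻¹ * Tᴴ).det.re * S.det.re = ‖T.det‖ ^ 2 := by
  have hd := gram_det_eq_re hS
  have hdpos : 0 < S.det.re := herm_det_re_pos hS
  rw [det_mul, det_mul, det_conjTranspose, det_nonsing_inv, Ring.inverse_eq_inv']
  generalize S.det.re = d at *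
  rw [hd]
  have e : T.det * ((d : ℝ) : ℂ)⁻¹ * star T.det = ((Complex.normSq T.det / d : ℝ) : ℂ) := by
    rw [Complex.star_def]
    push_cast
    rw [← Complex.mul_conj]
    ring
  rw [e, Complex.ofReal_re, div_mul_cancel₀ _ hdpos.ne', Complex.normSq_eq_norm_sq]

theorem gram_cs (M : Matrix ι (Fin m) ℂ) {N : Matrix ι (Fin m) ℂ} (hN : (N * Nᴴ).PosDef) :
    ‖(M * Nᴴ).det‖ ^ 2 ≤ (M * Mᴴ).det.re * (N * Nᴴ).det.re := by
  have hres := gram_residual M hN
  have hdS : 0 < (N * Nᴴ).det.re := herm_det_re_pos hN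
  by_cases hT : (M * Nᴴ).det = 0
  · rw [hT, norm_zero]
    have h1 : 0 ≤ (M * Mᴴ).det.re := (Complex.le_def.1 (gram_posSemidef M).det_nonneg).1
    have h2 := mul_nonneg h1 hdS.le
    simpa using h2
  · have hB : ((M * Nᴴ) * (N * Nᴴ)⁻¹ * (M * Nᴴ)ᴴ).PosDef :=
      hN.inv.mul_mul_conjTranspose_same (gram_vecMul_injective hT)
    have hle : (M * Mᴴ - (M * Nᴴ) * (N * Nᴴ)⁻¹ * (M * Nᴴ)ᴴ).PosSemidef := by
      rw [hres]
      exact gram_posSemidef _
    have h1 := herm_det_le hB hle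
    rw [← gram_det_proj (M * Nᴴ) hN]
    exact mul_le_mul_of_nonneg_right h1 hdS.le

theorem gram_cs_eq {M N : Matrix ι (Fin m) ℂ} (hM : (M * Mᴴ).PosDef) (hN : (N * Nᴴ).PosDef)
    (h : ‖(M * Nᴴ).det‖ ^ 2 = (M * Mᴴ).det.re * (N * Nᴴ).det.re) :
    ∃ G : Matrix ι ι ℂ, M = G * N := by
  have hres := gram_residual M hN
  have hdS : 0 < (N * Nᴴ).det.re := herm_det_re_pos hN
  have hdM : 0 < (M * Mᴴ).det.re := herm_det_re_pos hM
  have hT : (M * Nᴴ).det ≠ 0 := by
    intro h0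
    rw [h0, norm_zero] at h
    have h1 := mul_pos hdM hdS
    rw [← h] at h1
    simp at h1
  have hB : ((M * Nᴴ) * (N * Nᴴ)⁻¹ * (M * Nᴴ)ᴴ).PosDef :=
    hN.inv.mul_mul_conjTranspose_same (gram_vecMul_injective hT)
  have hle : (M * Mᴴ - (M * Nᴴ) * (N * Nᴴ)⁻¹ * (M * Nᴴ)ᴴ).PosSemidef := by
    rw [hres]
    exact gram_posSemidef _
  have hdet : ((M * Nᴴ) * (N * Nᴴ)⁻¹ * (M * Nᴴ)ᴴ).det.re = (M * Mᴴ).det.re := by
    have h1 := gram_det_proj (M * Nᴴ) hN
    rw [h] at h1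
    exact mul_right_cancel₀ hdS.ne' h1
  have heq := herm_eq_of_det_eq hB hle hdet
  have hW : (M - (M * Nᴴ) * (N * Nᴴ)⁻¹ * N) * (M - (M * Nᴴ) * (N * Nᴴ)⁻¹ * N)ᴴ = 0 := by
    rw [← hres, heq, sub_self]
  have hW0 := Matrix.self_mul_conjTranspose_eq_zero.1 hW
  exact ⟨(M * Nᴴ) * (N * Nᴴ)⁻¹, sub_eq_zero.1 hW0⟩

/-- `G B⁻¹ Gᴴ = B⁻¹ ⟹ Gᴴ B G = B`. -/
theorem gram_unitary {B G : Matrix ι ι ℂ} (hB : B.PosDef) (h : G * B⁻¹ * Gᴴ = B⁻¹) :
    Gᴴ * B * G = B := by
  have hunit : IsUnit B.det := gram_isUnit_det hB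
  have h1 : G * (B⁻¹ * Gᴴ * B) = 1 := by
    have e : G * (B⁻¹ * Gᴴ * B) = (G * B⁻¹ * Gᴴ) * B := by simp only [Matrix.mul_assoc]
    rw [e, h, Matrix.nonsing_inv_mul B hunit]
  have h2 : (B⁻¹ * Gᴴ * B) * G = 1 := mul_eq_one_comm.1 h1
  calc Gᴴ * B * G = (B * B⁻¹) * (Gᴴ * B * G) := by
        rw [Matrix.mul_nonsing_inv B hunit, Matrix.one_mul]
    _ = B * ((B⁻¹ * Gᴴ * B) * G) := by simp only [Matrix.mul_assoc]
    _ = B := by rw [h2, Matrix.mul_one]

/-! ### S6-5 -/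

theorem gram_sesq_conj {B : Matrix ι ι ℂ} (hB : B.IsHermitian) (x y : ι → ℂ) :
    star y ⬝ᵥ B.mulVec x = star (star x ⬝ᵥ B.mulVec y) := by
  rw [← star_dotProduct_star, star_star, star_mulVec, hB.eq, ← dotProduct_mulVec]

theorem gram_sesq_self {B : Matrix ι ι ℂ} (hB : B.IsHermitian) (x : ι → ℂ) :
    star x ⬝ᵥ B.mulVec x = ((qf B x : ℝ) : ℂ) := by
  apply Complex.ext
  · simp [qf]
  · have h := hB.im_star_dotProduct_mulVec_self x
    simpa using h

theorem gram_column {A : Matrix ι ι ℂ} (hA : A.PosDef) (ξ V : ι → ℂ) (α : ℝ) (ζ : ℂ) :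
    (A + (α : ℂ) • (vecMulVec (ξ + ζ • V) (star (ξ + ζ • V)) - vecMulVec ξ (star ξ))).det =
      A.det * ((‖1 + (α : ℂ) * (star ξ ⬝ᵥ A⁻¹.mulVec V) * ζ‖ ^ 2 +
        α * (1 - α * qf A⁻¹ ξ) * qf A⁻¹ V * ‖ζ‖ ^ 2 : ℝ) : ℂ) := by
  have hunit : IsUnit A.det := gram_isUnit_det hA
  have hBi : A⁻¹.IsHermitian := hA.inv.isHermitian
  have hp := gram_sesq_self hBi ξ
  have hc := gram_sesq_self hBi V
  have hVξ := gram_sesq_conj hBi ξ V
  generalize qf A⁻¹ ξ = p at *
  generalize qf A⁻¹ V = c at *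
  generalize hb : star ξ ⬝ᵥ A⁻¹.mulVec V = b at *
  have hr : star ξ ⬝ᵥ A⁻¹.mulVec (ξ + ζ • V) = p + ζ * b := by
    rw [mulVec_add, mulVec_smul, dotProduct_add, dotProduct_smul, hp, hb, smul_eq_mul]
  have hr' : star (ξ + ζ • V) ⬝ᵥ A⁻¹.mulVec ξ = p + star ζ * star b := by
    rw [star_add, star_smul, add_dotProduct, smul_dotProduct, hp, hVξ, smul_eq_mul]
  have hq : star (ξ + ζ • V) ⬝ᵥ A⁻¹.mulVec (ξ + ζ • V)
      = p + ζ * b + star ζ * star b + star ζ * ζ * c := by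
    rw [star_add, star_smul, add_dotProduct, smul_dotProduct, hr, mulVec_add, mulVec_smul,
      dotProduct_add, dotProduct_smul, hVξ, hc, smul_eq_mul, smul_eq_mul]
    ring
  generalize ξ + ζ • V = ζ' at *
  set U : Matrix ι (Fin 2) ℂ := Matrix.of fun i k => ![ξ i, ζ' i] k with hU
  set W : Matrix (Fin 2) ι ℂ :=
    Matrix.of fun k j => ![-(α : ℂ) * star (ξ j), (α : ℂ) * star (ζ' j)] k with hW
  have hUW : (α : ℂ) • (vecMulVec ζ' (star ζ') - vecMulVec ξ (star ξ)) = U * W := by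
    ext i j
    simp [hU, hW, Matrix.mul_apply, Fin.sum_univ_two, vecMulVec_apply]
    ring
  have e1 : A + U * W = A * (1 + (A⁻¹ * U) * W) := by
    rw [Matrix.mul_add, Matrix.mul_one, ← Matrix.mul_assoc, ← Matrix.mul_assoc,
      Matrix.mul_nonsing_inv A hunit, Matrix.one_mul]
  have hent : ∀ k l, (W * (A⁻¹ * U)) k l
      = (fun j => W k j) ⬝ᵥ A⁻¹.mulVec (fun i => U i l) := fun k l => rfl
  have hW0 : (fun j => W 0 j) = (-(α : ℂ)) • star ξ := by
    ext j; simp [hW]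
  have hW1 : (fun j => W 1 j) = (α : ℂ) • star ζ' := by
    ext j; simp [hW]
  have hU0 : (fun i => U i 0) = ξ := by
    ext i; simp [hU]
  have hU1 : (fun i => U i 1) = ζ' := by
    ext i; simp [hU]
  rw [hUW, e1, det_mul, det_one_add_mul_comm, det_fin_two]
  congr 1
  simp only [Matrix.add_apply, hent, hW0, hW1, hU0, hU1, smul_dotProduct, hp, hr, hr', hq,
    smul_eq_mul, Matrix.one_apply_eq]
  rw [Matrix.one_apply_ne (by decide : (0 : Fin 2) ≠ 1),
    Matrix.one_apply_ne (by decide : (1 : Fin 2) ≠ 0)]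
  push_cast
  rw [← Complex.mul_conj', ← Complex.mul_conj']
  simp only [map_add, map_mul, map_one, Complex.conj_ofReal, Complex.star_def]
  ring

end Claimed.Agent.R316.S6
end
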