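/- Packed by merge_tool.py (helper293): 5 modules of Claimed.Agent.R316 in one file, same declarations.
   Old modules, in this order: S6.Defs, S6.Basic, S6.Test, S7.H1.Param, S7.H1.Defs -/
import Claimed.Agent.R316.CW.Levi
import Claimed.Agent.R316.S7.H1.Griff
import Claimed.Agent.R316.Pack022
import Claimed.Agent.R316.Pack013
import Claimed.Agent.R316.Pack012
import Claimed.Agent.R316.Pack004
import Claimed.Agent.R316.Pack016

/- ===== packed: Claimed.Agent.R316.S6.Defs ===== -/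
section
/-!
# Row 316, Section 6 (`ellipsoids.tex`): definitions (section captain helper126)

LOCAL LAYER.  Everything happens in one cotangent chart: time `s : ℝ`, base point `x : CE ι`, covector `ξ : CE ι`, `p = cJoin x ξ : CE (ι ⊕ ι)`.
* `SpT κ = WithLp 2 (ℝ × CE κ)` is space-time as a REAL INNER PRODUCT SPACE (needed by package B13).
* `TI ι m = ι ⊕ Fin m × ι` indexes the product coordinates `(x, ξ_1, …, ξ_m)` with a COMMON base point.
* `LocEnv Ω v b₀ b`: what Section 6 uses about the envelope in a chart.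
* `Lvol v s x = 𝓛(x, s) = log det B(x, s)`.

DEVIATIONS FROM THE PAPER (all checked by hand, helper126):
(1) no normalisation `B = 1`, no uniqueness of the optimiser;
(2) the Grassmannian penalty is `η = log det (M Mᴴ) + log det (M₀ M₀ᴴ) - log |det (M M₀ᴴ)|² ≥ 0` (Gram-Cauchy-Schwarz), so that `log det A - η` is PLURIHARMONIC:
    `g_θ = n + λ + (1-θ) log det (M Mᴴ) + θ (log |det (M M₀ᴴ)|² - log det (M₀ M₀ᴴ))`;
(3) no Levi form of a matrix function is ever computed: `log det (M' M'ᴴ) ≥ log |det (M' Mᴴ)|² - log det (M Mᴴ)` with equality at `M' = M` (touching by a pluriharmonic function),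
    and for one column `det A(ξ_i + ζ V) / det A = |1 + α b ζ|² + α (1 - α p) c |ζ|²`, `p = ξᴴA⁻¹ξ`, `b = ξᴴA⁻¹V`, `c = VᴴA⁻¹V`;
(4) no compactness/subsequence argument for the matrices `K`: all limits are taken in SCALAR inequalities.
-/

set_option autoImplicit false
open scoped ContDiff ComplexOrder Topology RealInnerProductSpace

namespace Claimed.Agent.R316.S6

open Claimed.Agent.R316 Claimed.Agent.R316.B13

/-- space-time over `ℂ^κ` as a real inner product space. -/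
abbrev SpT (κ : Type) [Fintype κ] := WithLp 2 (ℝ × CE κ)

section basic

variable {κ : Type} [Fintype κ]

/-- the point `(s, p)` of space-time. -/
def spt (s : ℝ) (p : CE κ) : SpT κ := WithLp.toLp 2 (s, p)

/-- a function of `(s, p)` as a function on space-time. -/
def onST (v : ℝ → CE κ → ℝ) (q : SpT κ) : ℝ := v q.fst q.snd

/-- Levi quadratic form (in the spatial complex direction `Z`) of a real operator on space-time. -/
noncomputable def levQ (A : SpT κ →L[ℝ] SpT κ) (Z : CE κ) : ℝ :=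
  (1 / 4) * (⟪A (spt 0 Z), spt 0 Z⟫ + ⟪A (spt 0 (Complex.I • Z)), spt 0 (Complex.I • Z)⟫)

/-- Levi quadratic form of a `C²` function on space-time. -/
noncomputable def levG (g : SpT κ → ℝ) (Q : SpT κ) (Z : CE κ) : ℝ :=
  (1 / 4) * (fderiv ℝ (fderiv ℝ g) Q (spt 0 Z) (spt 0 Z) +
    fderiv ℝ (fderiv ℝ g) Q (spt 0 (Complex.I • Z)) (spt 0 (Complex.I • Z)))

/-- the quadratic test function with value `c`, gradient `P`, Hessian `A - 2 ε` at `z`. -/
noncomputable def qtest (c : ℝ) (z P : SpT κ) (A : SpT κ →L[ℝ] SpT κ) (ε : ℝ) (s : ℝ) (p : CE κ) :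
    ℝ :=
  c + ⟪P, spt s p - z⟫ + (1 / 2) * ⟪A (spt s p - z), spt s p - z⟫ - ε * ‖spt s p - z‖ ^ 2

end basic

section cot

variable {ι : Type} [Fintype ι] [DecidableEq ι]

/-- `(x, ξ) ∈ ℂ^{ι ⊕ ι}`. -/
noncomputable def cJoin (x ξ : CE ι) : CE (ι ⊕ ι) := WithLp.toLp 2 (Sum.elim x ξ)

/-- fibre part as a point of `CE ι`. -/
noncomputable def cFibE (p : CE (ι ⊕ ι)) : CE ι := WithLp.toLp 2 (cFib p)

/-- `𝓛(x, s) = log det B(x, s)`. -/
noncomputable def Lvol (v : ℝ → CE (ι ⊕ ι) → ℝ) (s : ℝ) (x : CE ι) : ℝ :=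
  logVol fun ξ => v s (cJoin x ξ)

/-- the conclusion of Proposition 5.1 for a test function `φ` at `(s₀, p₀)`. -/
def DiscConcl (φ : ℝ → CE (ι ⊕ ι) → ℝ) (s₀ : ℝ) (p₀ : CE (ι ⊕ ι)) : Prop :=
  ∃ K : Matrix ι ι ℂ, K.PosSemidef ∧
    (K - ((levi (φ s₀) p₀).toBlocks₁₁ -
      (levi (φ s₀) p₀).toBlocks₁₂ * ((levi (φ s₀) p₀).toBlocks₂₂)⁻¹ *
        (levi (φ s₀) p₀).toBlocks₂₁)).PosSemidef ∧
    ((((levi (φ s₀) p₀).toBlocks₂₂).transpose * K).trace).re ≤ deriv (fun s => φ s p₀) s₀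

/-- **The envelope in a cotangent chart**: `Ω` = the open set of `(s, x)`, `b₀` = initial cometric, `b` = cometric at time `s`. -/
structure LocEnv (Ω : Set (ℝ × CE ι)) (v : ℝ → CE (ι ⊕ ι) → ℝ) (b₀ b : ℝ → CE ι → Matrix ι ι ℂ) :
    Prop where
  isOpen : IsOpen Ω
  lsc : ∀ s p, (s, cBase p) ∈ Ω →
    LowerSemicontinuousAt (fun q : ℝ × CE (ι ⊕ ι) => v q.1 q.2) (s, p)
  hom : ∀ s x, (s, x) ∈ Ω → ∀ (c : ℂ) (ξ : CE ι), v s (cJoin x (c • ξ)) = ‖c‖ ^ 2 * v s (cJoin x ξ)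
  b₀_pos : ∀ s x, (s, x) ∈ Ω → (b₀ s x).PosDef
  low : ∀ s x, (s, x) ∈ Ω → ∀ ξ : CE ι, qf (b₀ s x) ξ ≤ v s (cJoin x ξ)
  b_herm : ∀ s x, (s, x) ∈ Ω → (b s x).IsHermitian
  b_cont : ContinuousOn (fun q : ℝ × CE ι => b q.1 q.2) Ω
  up : ∀ s x, (s, x) ∈ Ω → ∀ ξ : CE ι, v s (cJoin x ξ) ≤ qf (b s x) ξ
  disc : ∀ (φ : ℝ → CE (ι ⊕ ι) → ℝ) (s₀ : ℝ) (p₀ : CE (ι ⊕ ι)), (s₀, cBase p₀) ∈ Ω →
    ContDiff ℝ ∞ (fun q : ℝ × CE (ι ⊕ ι) => φ q.1 q.2) → φ s₀ p₀ = v s₀ p₀ →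
    (∀ᶠ q : ℝ × CE (ι ⊕ ι) in 𝓝 (s₀, p₀), φ q.1 q.2 ≤ v q.1 q.2) →
    ((levi (φ s₀) p₀).toBlocks₂₂).PosDef → DiscConcl φ s₀ p₀

end cot

section tuples

variable {ι : Type} [Fintype ι] [DecidableEq ι] {m : ℕ}

/-- index set of the product coordinates `(x, ξ_1, …, ξ_m)`. -/
abbrev TI (ι : Type) (m : ℕ) := ι ⊕ Fin m × ι

/-- the common base point. -/
noncomputable def tBase (P : CE (TI ι m)) : CE ι := WithLp.toLp 2 fun j => P (Sum.inl j)

/-- the `i`-th column. -/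
noncomputable def tCol (i : Fin m) (P : CE (TI ι m)) : CE ι :=
  WithLp.toLp 2 fun j => P (Sum.inr (i, j))

/-- the tuple with base `x` and columns `ξ`. -/
noncomputable def tJoin (x : CE ι) (ξ : Fin m → CE ι) : CE (TI ι m) :=
  WithLp.toLp 2 (Sum.elim x fun a => ξ a.1 a.2)

/-- `(x, ξ_1, …, ξ_m) ↦ (x, ξ_i)`, complex linear. -/
noncomputable def tProj (i : Fin m) : CE (TI ι m) →L[ℂ] CE (ι ⊕ ι) :=
  (LinearMap.toContinuousLinearMap
    { toFun := fun P => cJoin (tBase P) (tCol i P)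
      map_add' := fun P P' => by
        ext a; cases a <;> simp [cJoin, tBase, tCol]
      map_smul' := fun c P => by
        ext a; cases a <;> simp [cJoin, tBase, tCol] })

/-- `(s, x, ξ_1, …, ξ_m) ↦ (s, x, ξ_i)`, real linear. -/
noncomputable def piST (i : Fin m) : SpT (TI ι m) →L[ℝ] SpT (ι ⊕ ι) :=
  (LinearMap.toContinuousLinearMap
    { toFun := fun Q => spt Q.fst (tProj i Q.snd)
      map_add' := fun Q Q' => by
        simp [spt, WithLp.toLp_add, ← Prod.mk_add_mk]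
      map_smul' := fun c Q => by
        simp only [spt, WithLp.smul_fst, WithLp.smul_snd, RingHom.id_apply, ← WithLp.toLp_smul]
        congr 1
        ext1
        · simp
        · exact ((tProj i).restrictScalars ℝ).map_smul c Q.snd })

/-- the rectangular matrix `M_c = (√α_1 ξ_1, …, √α_m ξ_m)`. -/
noncomputable def tMat (α : Fin m → ℝ) (P : CE (TI ι m)) : Matrix ι (Fin m) ℂ :=
  fun j i => (Real.sqrt (α i) : ℂ) * P (Sum.inr (i, j))

/-- `A = M_c M_cᴴ = ∑ α_i ξ_i ξ_iᴴ`. -/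
noncomputable def tA (α : Fin m → ℝ) (P : CE (TI ι m)) : Matrix ι ι ℂ :=
  tMat α P * (tMat α P).conjTranspose

/-- the region where the support function is smooth: `(s, x) ∈ Ω'` and `det (M M₀ᴴ) ≠ 0`. -/
def tReg (α : Fin m → ℝ) (Ω' : Set (ℝ × CE ι)) (P₀ : CE (TI ι m)) : Set (SpT (TI ι m)) :=
  {Q | (Q.fst, tBase Q.snd) ∈ Ω' ∧ (tMat α Q.snd * (tMat α P₀).conjTranspose).det ≠ 0}

/-- the smooth support function `g_θ`. -/
noncomputable def gsup (α : Fin m → ℝ) (θ : ℝ) (lam : ℝ → CE ι → ℝ) (P₀ : CE (TI ι m))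
    (Q : SpT (TI ι m)) : ℝ :=
  (Fintype.card ι : ℝ) + lam Q.fst (tBase Q.snd) + (1 - θ) * Real.log (tA α Q.snd).det.re +
    θ * (Real.log (‖(tMat α Q.snd * (tMat α P₀).conjTranspose).det‖ ^ 2) -
      Real.log (tA α P₀).det.re)

end tuples

end Claimed.Agent.R316.S6
end

/- ===== packed: Claimed.Agent.R316.S6.Basic ===== -/
section
/-!
# S6-1: API of the coordinates of Section 6 (leaf, ~400 lines, no mathematics)

The claimer owns this file: replace the `sorry`s IN PLACE, keep the statements, ADD whatever `simp` lemmas are useful (prefix `s6_`; problems: msg helper126).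
Everything is `ext` + `simp [spt, cJoin, tJoin, tBase, tCol, tProj, piST, …]`, `WithLp.prod_norm_sq_eq_of_L2`, `WithLp.prod_inner_apply`, `EuclideanSpace.norm_sq_eq`, `PiLp.inner_apply`.
-/

set_option autoImplicit false
set_option linter.unusedSectionVars false
open scoped ContDiff ComplexOrder Topology RealInnerProductSpace

namespace Claimed.Agent.R316.S6

open Claimed.Agent.R316 Claimed.Agent.R316.B13

section basic

variable {κ : Type} [Fintype κ]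

@[simp] theorem spt_fst (s : ℝ) (p : CE κ) : (spt s p).fst = s := rfl
@[simp] theorem spt_snd (s : ℝ) (p : CE κ) : (spt s p).snd = p := rfl
@[simp] theorem spt_eta (q : SpT κ) : spt q.fst q.snd = q := rfl

theorem spt_add (s s' : ℝ) (p p' : CE κ) : spt s p + spt s' p' = spt (s + s') (p + p') := rfl
theorem spt_sub (s s' : ℝ) (p p' : CE κ) : spt s p - spt s' p' = spt (s - s') (p - p') := rfl
theorem spt_smul (c s : ℝ) (p : CE κ) : c • spt s p = spt (c * s) (c • p) := rfl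

theorem s6_norm_spt_sq (s : ℝ) (p : CE κ) : ‖spt s p‖ ^ 2 = s ^ 2 + ‖p‖ ^ 2 := by
  rw [WithLp.prod_norm_sq_eq_of_L2, spt_fst, spt_snd, Real.norm_eq_abs, sq_abs]

theorem s6_inner_spt (s s' : ℝ) (p p' : CE κ) : ⟪spt s p, spt s' p'⟫ = s * s' + ⟪p, p'⟫ := by
  rw [WithLp.prod_inner_apply]
  show ⟪s, s'⟫ + ⟪p, p'⟫ = s * s' + ⟪p, p'⟫
  simp [mul_comm]

theorem s6_continuous_spt : Continuous fun q : ℝ × CE κ => spt q.1 q.2 := by
  exact (WithLp.prodContinuousLinearEquiv 2 ℝ ℝ (CE κ)).symm.continuous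

/-- `ℝ × CE κ ≃ SpT κ` as a continuous linear equivalence. -/
noncomputable def sptL : (ℝ × CE κ) ≃L[ℝ] SpT κ :=
  (WithLp.prodContinuousLinearEquiv 2 ℝ ℝ (CE κ)).symm

theorem sptL_apply (q : ℝ × CE κ) : sptL q = spt q.1 q.2 := rfl

theorem s6_norm_I_smul (Z : CE κ) : ‖Complex.I • Z‖ = ‖Z‖ := by
  rw [norm_smul, Complex.norm_I, one_mul]

theorem s6_levQ_add (A A' : SpT κ →L[ℝ] SpT κ) (Z : CE κ) :
    levQ (A + A') Z = levQ A Z + levQ A' Z := by
  unfold levQ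
  simp only [add_apply, inner_add_left]
  ring

theorem s6_levQ_smul (c : ℝ) (A : SpT κ →L[ℝ] SpT κ) (Z : CE κ) :
    levQ (c • A) Z = c * levQ A Z := by
  unfold levQ
  simp only [smul_apply, real_inner_smul_left]
  ring

theorem s6_levQ_id (Z : CE κ) : levQ (ContinuousLinearMap.id ℝ (SpT κ)) Z = (1 / 2) * ‖Z‖ ^ 2 := by
  unfold levQ
  simp only [ContinuousLinearMap.id_apply, real_inner_self_eq_norm_sq, s6_norm_spt_sq,
    s6_norm_I_smul]
  ring

end basic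

section cot

variable {ι : Type} [Fintype ι] [DecidableEq ι]

@[simp] theorem cBase_cJoin (x ξ : CE ι) : cBase (cJoin x ξ) = x := by
  ext j
  simp [cBase, cJoin]

@[simp] theorem cFibE_cJoin (x ξ : CE ι) : cFibE (cJoin x ξ) = ξ := by
  ext j
  simp [cFibE, cFib, cJoin]

@[simp] theorem cJoin_eta (p : CE (ι ⊕ ι)) : cJoin (cBase p) (cFibE p) = p := by
  ext a
  cases a <;> simp [cJoin, cBase, cFibE, cFib]

theorem s6_cJoin_add (x x' ξ ξ' : CE ι) : cJoin x ξ + cJoin x' ξ' = cJoin (x + x') (ξ + ξ') := by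
  ext a
  cases a <;> simp [cJoin]

theorem s6_cJoin_smul (c : ℂ) (x ξ : CE ι) : c • cJoin x ξ = cJoin (c • x) (c • ξ) := by
  ext a
  cases a <;> simp [cJoin]

theorem s6_norm_cJoin_sq (x ξ : CE ι) : ‖cJoin x ξ‖ ^ 2 = ‖x‖ ^ 2 + ‖ξ‖ ^ 2 := by
  rw [EuclideanSpace.norm_sq_eq, EuclideanSpace.norm_sq_eq, EuclideanSpace.norm_sq_eq,
    Fintype.sum_sum_type]
  simp [cJoin]

theorem s6_continuous_cJoin : Continuous fun q : CE ι × CE ι => cJoin q.1 q.2 := by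
  unfold cJoin
  refine (PiLp.continuous_toLp 2 _).comp (continuous_pi fun a => ?_)
  cases a with
  | inl j =>
    show Continuous fun q : CE ι × CE ι => q.1 j
    fun_prop
  | inr j =>
    show Continuous fun q : CE ι × CE ι => q.2 j
    fun_prop

theorem s6_continuous_cBase : Continuous (cBase : CE (ι ⊕ ι) → CE ι) := by
  unfold cBase
  refine (PiLp.continuous_toLp 2 _).comp (continuous_pi fun j => ?_)
  fun_prop

/-- quadratic form of a block matrix. -/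
theorem s6_qf_blocks (W : Matrix (ι ⊕ ι) (ι ⊕ ι) ℂ) (X V : CE ι) :
    qf W (cJoin X V) = qf W.toBlocks₁₁ X + qf W.toBlocks₂₂ V +
      (star (X : ι → ℂ) ⬝ᵥ W.toBlocks₁₂.mulVec V).re +
      (star (V : ι → ℂ) ⬝ᵥ W.toBlocks₂₁.mulVec X).re := by
  have hW : W = Matrix.fromBlocks W.toBlocks₁₁ W.toBlocks₁₂ W.toBlocks₂₁ W.toBlocks₂₂ :=
    (Matrix.fromBlocks_toBlocks W).symm
  have hv : ((cJoin X V : CE (ι ⊕ ι)) : ι ⊕ ι → ℂ) = Sum.elim (X : ι → ℂ) (V : ι → ℂ) := rfl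
  have hs : star (Sum.elim (X : ι → ℂ) (V : ι → ℂ))
      = Sum.elim (star (X : ι → ℂ)) (star (V : ι → ℂ)) := by
    ext a
    cases a <;> simp
  unfold qf
  rw [hv, hs]
  conv_lhs => rw [hW]
  rw [Matrix.fromBlocks_mulVec, sumElim_dotProduct_sumElim]
  simp only [Sum.elim_comp_inl, Sum.elim_comp_inr, dotProduct_add, Complex.add_re]
  ring

end cot

section tuples

variable {ι : Type} [Fintype ι] [DecidableEq ι] {m : ℕ}

@[simp] theorem tBase_tJoin (x : CE ι) (ξ : Fin m → CE ι) : tBase (tJoin x ξ) = x := by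
  ext j
  simp [tBase, tJoin]

@[simp] theorem tCol_tJoin (x : CE ι) (ξ : Fin m → CE ι) (i : Fin m) :
    tCol i (tJoin x ξ) = ξ i := by
  ext j
  simp [tCol, tJoin]

@[simp] theorem tJoin_eta (P : CE (TI ι m)) : tJoin (tBase P) (fun i => tCol i P) = P := by
  ext a
  cases a <;> simp [tJoin, tBase, tCol]

theorem tProj_apply (i : Fin m) (P : CE (TI ι m)) : tProj i P = cJoin (tBase P) (tCol i P) := rfl

theorem piST_apply (i : Fin m) (Q : SpT (TI ι m)) : piST i Q = spt Q.fst (tProj i Q.snd) := rfl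

theorem s6_piST_surjective (i : Fin m) :
    Function.Surjective (piST i : SpT (TI ι m) →L[ℝ] SpT (ι ⊕ ι)) := by
  intro q
  refine ⟨spt q.fst (tJoin (cBase q.snd) (fun _ => cFibE q.snd)), ?_⟩
  rw [piST_apply, spt_fst, spt_snd, tProj_apply, tBase_tJoin, tCol_tJoin, cJoin_eta, spt_eta]

theorem s6_tBase_add (P P' : CE (TI ι m)) : tBase (P + P') = tBase P + tBase P' := by
  ext j
  simp [tBase]

theorem s6_tBase_smul (c : ℂ) (P : CE (TI ι m)) : tBase (c • P) = c • tBase P := by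
  ext j
  simp [tBase]

theorem s6_tCol_add (i : Fin m) (P P' : CE (TI ι m)) : tCol i (P + P') = tCol i P + tCol i P' := by
  ext j
  simp [tCol]

theorem s6_tCol_smul (i : Fin m) (c : ℂ) (P : CE (TI ι m)) : tCol i (c • P) = c • tCol i P := by
  ext j
  simp [tCol]

theorem s6_continuous_tBase : Continuous (tBase : CE (TI ι m) → CE ι) := by
  unfold tBase
  refine (PiLp.continuous_toLp 2 _).comp (continuous_pi fun j => ?_)
  fun_prop

theorem s6_continuous_tCol (i : Fin m) : Continuous (tCol i : CE (TI ι m) → CE ι) := by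
  unfold tCol
  refine (PiLp.continuous_toLp 2 _).comp (continuous_pi fun j => ?_)
  fun_prop

theorem s6_norm_tJoin_sq (x : CE ι) (ξ : Fin m → CE ι) :
    ‖tJoin x ξ‖ ^ 2 = ‖x‖ ^ 2 + ∑ i, ‖ξ i‖ ^ 2 := by
  rw [EuclideanSpace.norm_sq_eq, EuclideanSpace.norm_sq_eq, Fintype.sum_sum_type,
    Fintype.sum_prod_type]
  simp [tJoin, EuclideanSpace.norm_sq_eq]

/-- `A = ∑ α_i ξ_i ξ_iᴴ`. -/
theorem s6_tA_eq_sum (α : Fin m → ℝ) (hα : ∀ i, 0 ≤ α i) (P : CE (TI ι m)) :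
    tA α P = ∑ i, ((α i : ℝ) : ℂ) • Matrix.vecMulVec (tCol i P) (star (tCol i P : ι → ℂ)) := by
  ext j k
  rw [tA, Matrix.mul_apply, Matrix.sum_apply]
  refine Finset.sum_congr rfl fun i _ => ?_
  have h : ((Real.sqrt (α i) : ℝ) : ℂ) * ((Real.sqrt (α i) : ℝ) : ℂ) = ((α i : ℝ) : ℂ) := by
    rw [← Complex.ofReal_mul, Real.mul_self_sqrt (hα i)]
  simp only [tMat, Matrix.conjTranspose_apply, Matrix.smul_apply, Matrix.vecMulVec_apply, tCol,
    Pi.star_apply, star_mul', Complex.star_def, Complex.conj_ofReal, smul_eq_mul]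
  rw [← h]
  ring

theorem s6_continuous_tMat (α : Fin m → ℝ) : Continuous (tMat α : CE (TI ι m) → _) := by
  unfold tMat
  refine continuous_pi fun j => continuous_pi fun i => ?_
  fun_prop

theorem s6_continuous_tA (α : Fin m → ℝ) : Continuous (tA α : CE (TI ι m) → Matrix ι ι ℂ) := by
  unfold tA
  exact (s6_continuous_tMat α).matrix_mul (s6_continuous_tMat α).matrix_conjTranspose

/-- `∑ α_i ξ_iᴴ D ξ_i = tr (D A)`. -/
theorem s6_sum_qf (α : Fin m → ℝ) (hα : ∀ i, 0 ≤ α i) (D : Matrix ι ι ℂ) (P : CE (TI ι m)) :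
    ∑ i, α i * qf D (tCol i P) = (D * tA α P).trace.re := by
  rw [s6_tA_eq_sum α hα, Matrix.mul_sum, Matrix.trace_sum, Complex.re_sum]
  refine Finset.sum_congr rfl fun i _ => ?_
  rw [Matrix.mul_smul, Matrix.trace_smul, smul_eq_mul, Complex.re_ofReal_mul, herm_qf_vecMulVec]

end tuples

end Claimed.Agent.R316.S6
end

/- ===== packed: Claimed.Agent.R316.S6.Test ===== -/
section
/-!
# S6-2 / S6-3: quadratic test functions and the jet form of the disc inequality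

The claimers own their sections: replace the `sorry`s IN PLACE, keep the statements (prefix of auxiliary lemmas `s6t_`; problems: msg helper126).

## S6-2 (~400 lines): `qtest`
`qtest c z P A ε s p` is a real polynomial of degree two in `(s, p)`.  Smoothness: `ContDiff` of inner products / norms squared of affine maps (`sptL`).
Levi matrix: use `qf_levi` of CW-2 (`R316/CW/Levi.lean`, helper16: `qf (levi f z) v = ¼ (D²f(v,v) + D²f(iv,iv))`, `levi_isHermitian`) if it is on main, otherwise prove what you need directly: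
`f p = qtest … z.fst p`, `D²f(p)(w,w) = ⟪A (spt 0 w), spt 0 w⟫ - 2 ε ‖w‖²`.

## S6-3 (~600 lines): `jet_disc`
`a = ⟪P, spt 1 0⟫`.  For `0 < ε'` the function `φ = qtest (onST v z) z P A ε'` is a smooth lower test of `v` at `z` (`htest`, transported by `sptL`), `W' = levi (φ z.fst) z.snd` is Hermitian with
`qf W' Z = levQ A Z - ε' ‖Z‖²`.  Blocks `W' = [[H', D], [Dᴴ, C']]`.  Let `c > 0` with `qf C₀ V ≥ c ‖V‖²`.  For `ε' < c`: `qf C' V ≥ qf C₀ V - ε' ‖V‖² ≥ (1 - ε'/c) qf C₀ V > 0`, so `C'` is positive definite: `H.disc` gives `K ≥ 0`,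
`K ≥ H' - D C'⁻¹ Dᴴ`, `tr (C'ᵀ K) ≤ a`.
(i) `herm_trace_mul_mono`: `(1 - ε'/c) tr (C₀ᵀ K) ≤ tr (C'ᵀ K) ≤ a`; so `a ≥ 0` and `tr (C₀ᵀ K) ≤ a / (1 - ε'/c) ≤ (1 + δ) a` if `ε' ≤ c δ / (1 + δ)`.
(ii) for `X` put `V = - C'⁻¹ Dᴴ X`; completing the square: `qf W' (cJoin X V) = qf (H' - D C'⁻¹ Dᴴ) X ≤ qf K X`; so `levQ A (cJoin X V) ≤ qf K X + ε' (‖X‖² + ‖V‖²)`.
    `D` does NOT depend on `ε'` (the off-diagonal block of the identity vanishes): `D = D₁` for the test with `ε' = 0`… and `c/2 ‖V‖² ≤ qf C' V = - Re (Vᴴ Dᴴ X) ≤ ‖V‖ L ‖X‖` with `L` a bound of `D₁`, for `ε' ≤ c/2`; so `‖V‖ ≤ (2 L / c) ‖X‖`.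
    Choose `ε' (1 + 4 L²/c²) ≤ δ`.
-/

set_option autoImplicit false
set_option linter.unusedSectionVars false
open scoped ContDiff ComplexOrder Topology RealInnerProductSpace

namespace Claimed.Agent.R316.S6

open Claimed.Agent.R316 Claimed.Agent.R316.B13

section qtest

variable {κ : Type} [Fintype κ] [DecidableEq κ]

theorem qtest_contDiff (c : ℝ) (z P : SpT κ) (A : SpT κ →L[ℝ] SpT κ) (ε : ℝ) :
    ContDiff ℝ ∞ fun q : ℝ × CE κ => qtest c z P A ε q.1 q.2 := by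
  unfold qtest
  have hL : ContDiff ℝ ∞ fun q : ℝ × CE κ => spt q.1 q.2 - z :=
    (sptL (κ := κ)).contDiff.sub contDiff_const
  exact ((contDiff_const.add (contDiff_const.inner ℝ hL)).add
    (contDiff_const.mul ((A.contDiff.comp hL).inner ℝ hL))).sub
    (contDiff_const.mul (hL.norm_sq ℝ))

theorem s6t_qtest_contDiff_snd (c : ℝ) (z P : SpT κ) (A : SpT κ →L[ℝ] SpT κ) (ε s : ℝ) :
    ContDiff ℝ ∞ (qtest c z P A ε s) := by
  have h0 : ContDiff ℝ ∞ fun p : CE κ => ((s : ℝ), p) := contDiff_const.prodMk contDiff_id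
  have h := (qtest_contDiff c z P A ε).comp h0
  exact h

theorem s6t_deriv2_quad (a0 a1 a2 : ℝ) :
    deriv (deriv fun s : ℝ => a0 + s * a1 + s ^ 2 * a2) 0 = 2 * a2 := by
  have h1 : ∀ s : ℝ, HasDerivAt (fun s : ℝ => a0 + s * a1 + s ^ 2 * a2) (a1 + 2 * s * a2) s := by
    intro s
    have hA : HasDerivAt (fun s : ℝ => s * a1) a1 s := by
      simpa using (hasDerivAt_id s).mul_const a1
    have hB : HasDerivAt (fun s : ℝ => s ^ 2 * a2) (2 * s * a2) s := by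
      simpa using (hasDerivAt_pow 2 s).mul_const a2
    exact (hA.const_add a0).add hB
  have h2 : deriv (fun s : ℝ => a0 + s * a1 + s ^ 2 * a2) = fun s => a1 + 2 * s * a2 :=
    funext fun s => (h1 s).deriv
  rw [h2]
  have h3 : HasDerivAt (fun s : ℝ => a1 + 2 * s * a2) (2 * a2) 0 := by
    have hA : HasDerivAt (fun s : ℝ => 2 * s * a2) (2 * a2) 0 := by
      simpa using ((hasDerivAt_id (0 : ℝ)).const_mul 2).mul_const a2
    exact hA.const_add a1
  exact h3.deriv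

theorem s6t_qtest_line (c : ℝ) (z P : SpT κ) (A : SpT κ →L[ℝ] SpT κ) (ε : ℝ) (v : CE κ) (s : ℝ) :
    qtest c z P A ε z.fst (z.snd + s • v) = c + s * ⟪P, spt 0 v⟫ +
      s ^ 2 * ((1 / 2) * ⟪A (spt 0 v), spt 0 v⟫ - ε * ‖v‖ ^ 2) := by
  have e : spt z.fst (z.snd + s • v) - z = s • spt 0 v := by
    have h1 : spt z.fst (z.snd + s • v) - z = spt (z.fst - z.fst) (z.snd + s • v - z.snd) := rfl
    rw [h1, spt_smul, sub_self, mul_zero, add_sub_cancel_left]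
  unfold qtest
  rw [e, map_smul, real_inner_smul_right, real_inner_smul_left, real_inner_smul_right,
    norm_smul, mul_pow, s6_norm_spt_sq, Real.norm_eq_abs, sq_abs]
  ring

theorem qtest_self (c : ℝ) (z P : SpT κ) (A : SpT κ →L[ℝ] SpT κ) (ε : ℝ) :
    qtest c z P A ε z.fst z.snd = c := by
  simp [qtest]

theorem qtest_deriv (c : ℝ) (z P : SpT κ) (A : SpT κ →L[ℝ] SpT κ) (ε : ℝ) :
    deriv (fun s => qtest c z P A ε s z.snd) z.fst = ⟪P, spt 1 0⟫ := by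
  have e : ∀ s : ℝ, spt s z.snd - z = (s - z.fst) • spt 1 0 := by
    intro s
    have h1 : spt s z.snd - z = spt (s - z.fst) (z.snd - z.snd) := rfl
    rw [h1, spt_smul, sub_self, mul_one, smul_zero]
  have e2 : (fun s => qtest c z P A ε s z.snd) = fun s : ℝ =>
      c + (s - z.fst) * ⟪P, spt 1 0⟫ + (s - z.fst) ^ 2 *
        ((1 / 2) * ⟪A (spt 1 0), spt 1 0⟫ - ε * ‖(spt 1 0 : SpT κ)‖ ^ 2) := by
    funext s
    unfold qtest
    rw [e, map_smul, real_inner_smul_right, real_inner_smul_left, real_inner_smul_right,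
      norm_smul, mul_pow, Real.norm_eq_abs, sq_abs]
    ring
  rw [e2]
  generalize ⟪P, spt 1 0⟫ = a1
  generalize ((1 / 2) * ⟪A (spt 1 0), spt 1 0⟫ - ε * ‖(spt 1 0 : SpT κ)‖ ^ 2) = a2
  have h1 : HasDerivAt (fun s : ℝ => s - z.fst) 1 z.fst := (hasDerivAt_id z.fst).sub_const z.fst
  have hA : HasDerivAt (fun s : ℝ => (s - z.fst) * a1) a1 z.fst := by
    simpa using h1.mul_const a1
  have hB : HasDerivAt (fun s : ℝ => (s - z.fst) ^ 2 * a2) 0 z.fst := by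
    have h := (h1.pow 2).mul_const a2
    simpa using h
  have h : HasDerivAt (fun s : ℝ => c + (s - z.fst) * a1 + (s - z.fst) ^ 2 * a2) (a1 + 0) z.fst :=
    (hA.const_add c).add hB
  rw [h.deriv, add_zero]

theorem qtest_levi_isHermitian (c : ℝ) (z P : SpT κ) (A : SpT κ →L[ℝ] SpT κ) (ε : ℝ) :
    (levi (qtest c z P A ε z.fst) z.snd).IsHermitian := by
  exact levi_isHermitian
    ((s6t_qtest_contDiff_snd c z P A ε z.fst).contDiffAt.of_le lv_two_le_infty)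

theorem qtest_qf_levi (c : ℝ) (z P : SpT κ) (A : SpT κ →L[ℝ] SpT κ) (ε : ℝ) (Z : CE κ) :
    qf (levi (qtest c z P A ε z.fst) z.snd) Z = levQ A Z - ε * ‖Z‖ ^ 2 := by
  have hf : ContDiffAt ℝ 2 (qtest c z P A ε z.fst) z.snd :=
    (s6t_qtest_contDiff_snd c z P A ε z.fst).contDiffAt.of_le lv_two_le_infty
  have h := qf_levi_line hf Z
  have h' : qf (levi (qtest c z P A ε z.fst) z.snd) Z = _ := h
  rw [h']
  simp only [s6t_qtest_line, s6t_deriv2_quad, s6_norm_I_smul]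
  unfold levQ
  ring

/-- the Levi matrices for different `ε` differ by a multiple of the identity. -/
theorem qtest_levi_eps (c : ℝ) (z P : SpT κ) (A : SpT κ →L[ℝ] SpT κ) (ε : ℝ) :
    levi (qtest c z P A ε z.fst) z.snd = levi (qtest c z P A 0 z.fst) z.snd - (ε : ℂ) • 1 := by
  have hf : ContDiffAt ℝ 2 (qtest c z P A 0 z.fst) z.snd :=
    (s6t_qtest_contDiff_snd c z P A 0 z.fst).contDiffAt.of_le lv_two_le_infty
  have hn : ContDiffAt ℝ 2 (fun p : CE κ => ‖p - z.snd‖ ^ 2) z.snd :=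
    ((contDiff_id.sub contDiff_const).norm_sq ℝ).contDiffAt
  have e : qtest c z P A ε z.fst
      = fun p => qtest c z P A 0 z.fst p - ε * ‖p - z.snd‖ ^ 2 := by
    funext p
    have h1 : spt z.fst p - z = spt (z.fst - z.fst) (p - z.snd) := rfl
    unfold qtest
    rw [h1, s6_norm_spt_sq, sub_self]
    ring
  rw [e, levi_sub hf (contDiffAt_const.mul hn), levi_const_mul ε hn, levi_normSq_sub]

end qtest

section jet

variable {ι : Type} [Fintype ι] [DecidableEq ι]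

theorem s6t_coercive {C₀ : Matrix ι ι ℂ} (h : C₀.PosDef) :
    ∃ c > 0, ∀ V : CE ι, c * ‖V‖ ^ 2 ≤ qf C₀ V := by
  have hS : IsCompact (Metric.sphere (0 : CE ι) 1) := isCompact_sphere 0 1
  obtain ⟨m, hm, hmB⟩ := john_pos_min hS
    ((john_qf_continuous_vec C₀).lowerSemicontinuous.lowerSemicontinuousOn _)
    (fun ξ hξ => herm_qf_pos h (john_coe_ne_zero (by
      intro h0
      rw [h0, mem_sphere_zero_iff_norm, norm_zero] at hξ
      exact zero_ne_one hξ)))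
  refine ⟨m, hm, ?_⟩
  refine john_hom_le (fun c ξ => by rw [norm_smul]; ring)
    (fun c ξ => john_qf_smul_CE C₀ c ξ) fun ξ hξ => ?_
  rw [hξ]
  simpa using hmB ξ (mem_sphere_zero_iff_norm.2 hξ)

theorem s6t_mulVec_bound (M : Matrix ι ι ℂ) : ∃ L : ℝ, 0 ≤ L ∧ ∀ X V : CE ι,
    |(star (V : ι → ℂ) ⬝ᵥ M.mulVec X).re| ≤ L * ‖V‖ * ‖X‖ := by
  set T := LinearMap.toContinuousLinearMap (Matrix.toEuclideanLin M) with hT
  refine ⟨‖T‖, norm_nonneg _, fun X V => ?_⟩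
  have h1 : star (V : ι → ℂ) ⬝ᵥ M.mulVec X = inner ℂ V (T X) := by
    rw [EuclideanSpace.inner_eq_star_dotProduct, dotProduct_comm]
    rfl
  rw [h1]
  calc |(inner ℂ V (T X)).re| ≤ ‖inner ℂ V (T X)‖ := Complex.abs_re_le_norm _
    _ ≤ ‖V‖ * ‖T X‖ := norm_inner_le_norm _ _
    _ ≤ ‖V‖ * (‖T‖ * ‖X‖) := by gcongr; exact T.le_opNorm X
    _ = ‖T‖ * ‖V‖ * ‖X‖ := by ring

/-- **jet form of Proposition 5.1**: no test function, no Schur complement, no `ε'`. -/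
theorem jet_disc {Ω : Set (ℝ × CE ι)} {v : ℝ → CE (ι ⊕ ι) → ℝ} {b₀ b : ℝ → CE ι → Matrix ι ι ℂ}
    (H : LocEnv Ω v b₀ b) {z P : SpT (ι ⊕ ι)} {A : SpT (ι ⊕ ι) →L[ℝ] SpT (ι ⊕ ι)}
    (hz : (z.fst, cBase z.snd) ∈ Ω)
    (htest : ∀ ε' > 0, ∀ᶠ h in 𝓝 (0 : SpT (ι ⊕ ι)),
      onST v z + ⟪P, h⟫ + (1 / 2) * ⟪A h, h⟫ - ε' * ‖h‖ ^ 2 ≤ onST v (z + h))
    {C₀ : Matrix ι ι ℂ} (hC₀ : C₀.PosDef) (hvert : ∀ V : CE ι, qf C₀ V ≤ levQ A (cJoin 0 V))
    {δ : ℝ} (hδ : 0 < δ) :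
    ∃ K : Matrix ι ι ℂ, K.PosSemidef ∧
      (∀ X : CE ι, ∃ V : CE ι, levQ A (cJoin X V) ≤ qf K X + δ * ‖X‖ ^ 2) ∧
      (C₀.transpose * K).trace.re ≤ (1 + δ) * ⟪P, spt 1 0⟫ := by
  obtain ⟨c, hc, hcoer⟩ := s6t_coercive hC₀
  obtain ⟨L, hL0, hL⟩ :=
    s6t_mulVec_bound (levi (qtest (onST v z) z P A 0 z.fst) z.snd).toBlocks₂₁
  have hε'pos : 0 < min (c / 2) (min (c * δ / (1 + δ)) (δ / (1 + 4 * L ^ 2 / c ^ 2))) := by
    positivity
  have hε1 : min (c / 2) (min (c * δ / (1 + δ)) (δ / (1 + 4 * L ^ 2 / c ^ 2))) ≤ c / 2 :=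
    min_le_left _ _
  have hε2 : min (c / 2) (min (c * δ / (1 + δ)) (δ / (1 + 4 * L ^ 2 / c ^ 2)))
      ≤ c * δ / (1 + δ) := (min_le_right _ _).trans (min_le_left _ _)
  have hε3 : min (c / 2) (min (c * δ / (1 + δ)) (δ / (1 + 4 * L ^ 2 / c ^ 2)))
      ≤ δ / (1 + 4 * L ^ 2 / c ^ 2) := (min_le_right _ _).trans (min_le_right _ _)
  generalize min (c / 2) (min (c * δ / (1 + δ)) (δ / (1 + 4 * L ^ 2 / c ^ 2))) = ε' at *
  have hWherm : (levi (qtest (onST v z) z P A ε' z.fst) z.snd).IsHermitian :=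
    qtest_levi_isHermitian _ _ _ _ _
  have hWqf : ∀ Z : CE (ι ⊕ ι), qf (levi (qtest (onST v z) z P A ε' z.fst) z.snd) Z
      = levQ A Z - ε' * ‖Z‖ ^ 2 := qtest_qf_levi _ _ _ _ _
  have hW21 : (levi (qtest (onST v z) z P A ε' z.fst) z.snd).toBlocks₂₁
      = (levi (qtest (onST v z) z P A 0 z.fst) z.snd).toBlocks₂₁ := by
    rw [qtest_levi_eps]
    ext i j
    simp [Matrix.toBlocks₂₁]
  have hev : ∀ᶠ q : ℝ × CE (ι ⊕ ι) in 𝓝 (z.fst, z.snd),
      qtest (onST v z) z P A ε' q.1 q.2 ≤ v q.1 q.2 := by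
    have hcont : Continuous fun q : ℝ × CE (ι ⊕ ι) => spt q.1 q.2 - z :=
      s6_continuous_spt.sub continuous_const
    have ht : Filter.Tendsto (fun q : ℝ × CE (ι ⊕ ι) => spt q.1 q.2 - z)
        (𝓝 (z.fst, z.snd)) (𝓝 0) := by
      have h0 := hcont.tendsto (z.fst, z.snd)
      simpa using h0
    filter_upwards [ht.eventually (htest ε' hε'pos)] with q hq
    have e : z + (spt q.1 q.2 - z) = spt q.1 q.2 := by abel
    rw [e] at hq
    exact hq
  have hdisc := H.disc (qtest (onST v z) z P A ε') z.fst z.snd hz (qtest_contDiff _ _ _ _ _)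
    (qtest_self _ _ _ _ _) hev
  rw [DiscConcl, qtest_deriv] at hdisc
  rw [← hW21] at hL
  generalize levi (qtest (onST v z) z P A ε' z.fst) z.snd = W at *
  have hCqf : ∀ V : CE ι, qf W.toBlocks₂₂ V = levQ A (cJoin 0 V) - ε' * ‖V‖ ^ 2 := by
    intro V
    have h1 := s6_qf_blocks W 0 V
    rw [hWqf, s6_norm_cJoin_sq] at h1
    have e1 : qf W.toBlocks₁₁ ((0 : CE ι) : ι → ℂ) = 0 := by simp [qf]
    have e2 : (star ((0 : CE ι) : ι → ℂ) ⬝ᵥ W.toBlocks₁₂.mulVec V).re = 0 := by simp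
    have e3 : (star (V : ι → ℂ) ⬝ᵥ W.toBlocks₂₁.mulVec ((0 : CE ι) : ι → ℂ)).re = 0 := by simp
    rw [e1, e2, e3, norm_zero] at h1
    linarith
  have hτpos : 0 < 1 - ε' / c := by
    have h1 : ε' / c ≤ 1 / 2 := by rw [div_le_iff₀ hc]; linarith
    linarith
  have hC22herm : W.toBlocks₂₂.IsHermitian := by
    ext i j
    exact hWherm.apply (Sum.inr i) (Sum.inr j)
  have hPSD : (W.toBlocks₂₂ - ((1 - ε' / c : ℝ) : ℂ) • C₀).PosSemidef := by
    refine herm_posSemidef_of_qf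
      (hC22herm.sub (john_isHermitian_smul hC₀.isHermitian _)) fun u => ?_
    rw [john_qf_sub, john_qf_smul]
    have h1 : qf W.toBlocks₂₂ u = levQ A (cJoin 0 (WithLp.toLp 2 u))
        - ε' * ‖(WithLp.toLp 2 u : CE ι)‖ ^ 2 := hCqf (WithLp.toLp 2 u)
    have h2 : qf C₀ u ≤ levQ A (cJoin 0 (WithLp.toLp 2 u)) := hvert (WithLp.toLp 2 u)
    have h3 : c * ‖(WithLp.toLp 2 u : CE ι)‖ ^ 2 ≤ qf C₀ u := hcoer (WithLp.toLp 2 u)
    have h4 : ε' * ‖(WithLp.toLp 2 u : CE ι)‖ ^ 2 ≤ ε' / c * qf C₀ u := by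
      rw [div_mul_eq_mul_div, le_div_iff₀ hc]
      nlinarith
    linarith
  have hC' : W.toBlocks₂₂.PosDef := by
    have h := (hC₀.smul (show (0 : ℂ) < ((1 - ε' / c : ℝ) : ℂ) by
      exact_mod_cast hτpos)).add_posSemidef hPSD
    simpa using h
  obtain ⟨K, hK, hKS, hKtr⟩ := hdisc hC'
  refine ⟨K, hK, fun X => ?_, ?_⟩
  · have hunit : IsUnit W.toBlocks₂₂.det := (Matrix.isUnit_iff_isUnit_det _).1 hC'.isUnit
    obtain ⟨Vf, hVf⟩ : ∃ Vf : ι → ℂ,
        Vf = -((W.toBlocks₂₂)⁻¹.mulVec (W.toBlocks₂₁.mulVec X)) := ⟨_, rfl⟩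
    have hCV : W.toBlocks₂₂.mulVec Vf = -(W.toBlocks₂₁.mulVec X) := by
      rw [hVf, Matrix.mulVec_neg, Matrix.mulVec_mulVec, Matrix.mul_nonsing_inv _ hunit,
        Matrix.one_mulVec]
    have hq1 : qf W.toBlocks₂₂ Vf = -(star Vf ⬝ᵥ W.toBlocks₂₁.mulVec X).re := by
      unfold qf
      rw [hCV, dotProduct_neg, Complex.neg_re]
    have hq2 : (star (X : ι → ℂ) ⬝ᵥ W.toBlocks₁₂.mulVec Vf).re
        = -qf (W.toBlocks₁₂ * (W.toBlocks₂₂)⁻¹ * W.toBlocks₂₁) X := by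
      unfold qf
      rw [hVf, Matrix.mulVec_neg, dotProduct_neg, Complex.neg_re, Matrix.mulVec_mulVec,
        Matrix.mulVec_mulVec, Matrix.mul_assoc]
    have hblocks : qf W (cJoin X (WithLp.toLp 2 Vf)) = qf W.toBlocks₁₁ X + qf W.toBlocks₂₂ Vf +
        (star (X : ι → ℂ) ⬝ᵥ W.toBlocks₁₂.mulVec Vf).re +
        (star Vf ⬝ᵥ W.toBlocks₂₁.mulVec X).re := s6_qf_blocks W X (WithLp.toLp 2 Vf)
    have hKX : qf (W.toBlocks₁₁ - W.toBlocks₁₂ * (W.toBlocks₂₂)⁻¹ * W.toBlocks₂₁) X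
        ≤ qf K X := by
      have h1 := herm_qf_nonneg hKS X
      rw [john_qf_sub] at h1
      linarith
    rw [john_qf_sub] at hKX
    have hn : ∀ V : CE ι, (V : ι → ℂ) = Vf → ‖V‖ ≤ 2 * L / c * ‖X‖ := by
      intro V hV
      have h1 := hCqf V
      have h2 := hvert V
      have h3 := hcoer V
      have h4 := hL X V
      rw [hV] at h1 h4
      have h5 : qf W.toBlocks₂₂ Vf ≤ L * ‖V‖ * ‖X‖ := by
        rw [hq1]
        exact (neg_le_abs _).trans h4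
      have h6 : c / 2 * ‖V‖ ^ 2 ≤ L * ‖V‖ * ‖X‖ := by
        nlinarith [sq_nonneg ‖V‖]
      rcases eq_or_lt_of_le (norm_nonneg V) with h0 | h0
      · rw [← h0]
        positivity
      · have h7 : c / 2 * ‖V‖ ≤ L * ‖X‖ := by
          have h8 : ‖V‖ * (c / 2 * ‖V‖) ≤ ‖V‖ * (L * ‖X‖) := by nlinarith
          exact le_of_mul_le_mul_left h8 h0
        rw [div_mul_eq_mul_div, le_div_iff₀ hc]
        linarith
    refine ⟨WithLp.toLp 2 Vf, ?_⟩
    have hVn := hn (WithLp.toLp 2 Vf) rfl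
    have h7 := hWqf (cJoin X (WithLp.toLp 2 Vf))
    rw [s6_norm_cJoin_sq] at h7
    have h8 : ‖(WithLp.toLp 2 Vf : CE ι)‖ ^ 2 ≤ 4 * L ^ 2 / c ^ 2 * ‖X‖ ^ 2 := by
      calc ‖(WithLp.toLp 2 Vf : CE ι)‖ ^ 2 ≤ (2 * L / c * ‖X‖) ^ 2 := by gcongr
        _ = 4 * L ^ 2 / c ^ 2 * ‖X‖ ^ 2 := by ring
    have h9 : ε' * (‖X‖ ^ 2 + ‖(WithLp.toLp 2 Vf : CE ι)‖ ^ 2) ≤ δ * ‖X‖ ^ 2 := by
      calc ε' * (‖X‖ ^ 2 + ‖(WithLp.toLp 2 Vf : CE ι)‖ ^ 2)
          ≤ ε' * ((1 + 4 * L ^ 2 / c ^ 2) * ‖X‖ ^ 2) := by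
            gcongr
            linarith
        _ = (ε' * (1 + 4 * L ^ 2 / c ^ 2)) * ‖X‖ ^ 2 := by ring
        _ ≤ δ * ‖X‖ ^ 2 := by
            gcongr
            rwa [le_div_iff₀ (by positivity)] at hε3
    linarith
  · have h1 := herm_trace_mul_mono hPSD hK
    rw [Matrix.transpose_smul, Matrix.smul_mul, Matrix.trace_smul, smul_eq_mul,
      Complex.re_ofReal_mul] at h1
    have hT0 := herm_trace_mul_nonneg hC₀.posSemidef hK
    have h2 : (1 - ε' / c) * (C₀.transpose * K).trace.re ≤ ⟪P, spt 1 0⟫ := h1.trans hKtr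
    have h3 : 1 ≤ (1 + δ) * (1 - ε' / c) := by
      have h4 : (1 + δ) * (ε' / c) ≤ δ := by
        rw [le_div_iff₀ (by positivity)] at hε2
        rw [← mul_div_assoc, div_le_iff₀ hc]
        linarith
      linarith
    calc (C₀.transpose * K).trace.re
        ≤ (1 + δ) * (1 - ε' / c) * (C₀.transpose * K).trace.re := by nlinarith
      _ = (1 + δ) * ((1 - ε' / c) * (C₀.transpose * K).trace.re) := by ring
      _ ≤ (1 + δ) * ⟪P, spt 1 0⟫ := by gcongr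

end jet

end Claimed.Agent.R316.S6
end

/- ===== packed: Claimed.Agent.R316.S7.H1.Param ===== -/
section
/-!
# Row 316, BP-S7-1a, leaf L-S7-1a-2: Wirtinger calculus with a real parameter (~700 lines, real calculus only)

PROVED (helper11), no `sorry`.
Consumers: `S7/H1/FlowChart.lean`, `S6/GFlow.lean`, Section 3.

`F : ℝ × CE ι → ℂ` (or `ℝ`) is jointly smooth on `I ×ˢ U`, `U` open; `I` has unique derivatives (`Ici 0`, `Icc a b`, `Ioi 0`: `uniqueDiffOn_Ici`, `uniqueDiffOn_Icc`, `IsOpen.uniqueDiffOn`) in part A and is OPEN in part B.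

PART A.  For `q = (t, z) ∈ I ×ˢ U`:  `fderiv ℝ (fun w => F (t, w)) z a = fderivWithin ℝ F (I ×ˢ U) q (0, a)`  (`HasFDerivWithinAt.comp` with the affine map `w ↦ (t, w)`, which maps `U` into `I ×ˢ U`; `U ∈ 𝓝 z` turns "within" into "at").
`q ↦ fderivWithin ℝ F (I ×ˢ U) q (0, a)` is smooth on `I ×ˢ U` (`ContDiffOn.fderivWithin` with `hI.prod hU.uniqueDiffOn`, `ContDiffOn.clm_apply`).  `dz l`, `dzb l` are fixed complex combinations (`a = eb l`, `a = I • eb l`).  `levi` = `dzb j` of `dz k` of `ofReal ∘ F`: apply the lemma twice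
(the inner function `q ↦ dz k (fun y => F (q.1, y)) q.2` is again jointly smooth and its partial function at time `t` is `w ↦ dz k (fun y => F (t, y)) w`).
PART B.  `I` open: `O = I ×ˢ U` is open, `fderivWithin = fderiv`; `deriv (fun s => F (s, z)) t = fderiv ℝ F (t, z) (1, 0)`; symmetry of the second derivative (`ContDiffAt.isSymmSndFDerivAt`, `2 ≤ ∞`):
`d/ds [fderiv ℝ F (s, z) (0, a)] = D²F (1,0) (0,a) = D²F (0,a) (1,0) = fderiv ℝ (fun w => fderiv ℝ F (t, w) (1, 0)) z a`.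
-/

set_option autoImplicit false
set_option linter.unusedSectionVars false
open scoped ContDiff ComplexOrder Topology Matrix

namespace Claimed.Agent.R316

variable {ι : Type} [Fintype ι] [DecidableEq ι]
variable {I : Set ℝ} {U : Set (CE ι)}

/-! ### Part A: joint smoothness (up to the boundary of `I`) -/

theorem contDiffOn_slice {E : Type} [NormedAddCommGroup E] [NormedSpace ℝ E] {F : ℝ × CE ι → E}
    (hF : ContDiffOn ℝ ∞ F (I ×ˢ U)) {t : ℝ} (ht : t ∈ I) :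
    ContDiffOn ℝ ∞ (fun w => F (t, w)) U :=
  hF.comp (contDiff_const.prodMk contDiff_id).contDiffOn fun _ hw => ⟨ht, hw⟩

theorem contDiffOn_timeline {E : Type} [NormedAddCommGroup E] [NormedSpace ℝ E]
    {F : ℝ × CE ι → E} (hF : ContDiffOn ℝ ∞ F (I ×ˢ U)) {z : CE ι} (hz : z ∈ U) :
    ContDiffOn ℝ ∞ (fun s => F (s, z)) I :=
  hF.comp (contDiff_id.prodMk contDiff_const).contDiffOn fun _ hs => ⟨hs, hz⟩

theorem prm_fderiv_slice (hU : IsOpen U) {E : Type} [NormedAddCommGroup E] [NormedSpace ℝ E]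
    {F : ℝ × CE ι → E} (hF : ContDiffOn ℝ ∞ F (I ×ˢ U)) {t : ℝ} (ht : t ∈ I) {z : CE ι}
    (hz : z ∈ U) (a : CE ι) :
    fderiv ℝ (fun w => F (t, w)) z a = fderivWithin ℝ F (I ×ˢ U) (t, z) (0, a) := by
  have h1 : HasFDerivWithinAt F (fderivWithin ℝ F (I ×ˢ U) (t, z)) (I ×ˢ U) (t, z) :=
    ((hF.differentiableOn (by simp)) (t, z) ⟨ht, hz⟩).hasFDerivWithinAt
  have h2 : HasFDerivWithinAt (fun w : CE ι => (t, w)) (ContinuousLinearMap.inr ℝ ℝ (CE ι)) U z :=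
    (hasFDerivAt_prodMk_right t z).hasFDerivWithinAt
  have h3 := (h1.comp z h2 (fun w hw => ⟨ht, hw⟩)).hasFDerivAt (hU.mem_nhds hz)
  have h4 : fderiv ℝ (fun w => F (t, w)) z =
      (fderivWithin ℝ F (I ×ˢ U) (t, z)).comp (ContinuousLinearMap.inr ℝ ℝ (CE ι)) := h3.fderiv
  rw [h4]
  simp

theorem prm_contDiffOn_partial (hI : UniqueDiffOn ℝ I) (hU : IsOpen U) {E : Type}
    [NormedAddCommGroup E] [NormedSpace ℝ E] {F : ℝ × CE ι → E}
    (hF : ContDiffOn ℝ ∞ F (I ×ˢ U)) (a : CE ι) :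
    ContDiffOn ℝ ∞ (fun q : ℝ × CE ι => fderiv ℝ (fun w => F (q.1, w)) q.2 a) (I ×ˢ U) := by
  have h1 : ContDiffOn ℝ ∞ (fderivWithin ℝ F (I ×ˢ U)) (I ×ˢ U) :=
    hF.fderivWithin (hI.prod hU.uniqueDiffOn) (by simp)
  have h2 : ContDiffOn ℝ ∞ (fun q : ℝ × CE ι => fderivWithin ℝ F (I ×ˢ U) q ((0 : ℝ), a))
      (I ×ˢ U) := h1.clm_apply contDiffOn_const
  refine h2.congr fun q hq => ?_
  exact prm_fderiv_slice hU hF hq.1 hq.2 a

theorem contDiffOn_dz_param (hI : UniqueDiffOn ℝ I) (hU : IsOpen U) {F : ℝ × CE ι → ℂ}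
    (hF : ContDiffOn ℝ ∞ F (I ×ˢ U)) (l : ι) :
    ContDiffOn ℝ ∞ (fun q : ℝ × CE ι => dz l (fun w => F (q.1, w)) q.2) (I ×ˢ U) := by
  unfold dz
  exact contDiffOn_const.mul ((prm_contDiffOn_partial hI hU hF _).sub
    (contDiffOn_const.mul (prm_contDiffOn_partial hI hU hF _)))

theorem contDiffOn_dzb_param (hI : UniqueDiffOn ℝ I) (hU : IsOpen U) {F : ℝ × CE ι → ℂ}
    (hF : ContDiffOn ℝ ∞ F (I ×ˢ U)) (l : ι) :
    ContDiffOn ℝ ∞ (fun q : ℝ × CE ι => dzb l (fun w => F (q.1, w)) q.2) (I ×ˢ U) := by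
  unfold dzb
  exact contDiffOn_const.mul ((prm_contDiffOn_partial hI hU hF _).add
    (contDiffOn_const.mul (prm_contDiffOn_partial hI hU hF _)))

theorem prm_ofReal {F : ℝ × CE ι → ℝ} (hF : ContDiffOn ℝ ∞ F (I ×ˢ U)) :
    ContDiffOn ℝ ∞ (fun q : ℝ × CE ι => ((F q : ℝ) : ℂ)) (I ×ˢ U) :=
  Complex.ofRealCLM.contDiff.comp_contDiffOn hF

theorem contDiffOn_levi_param (hI : UniqueDiffOn ℝ I) (hU : IsOpen U) {F : ℝ × CE ι → ℝ}
    (hF : ContDiffOn ℝ ∞ F (I ×ˢ U)) (j k : ι) :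
    ContDiffOn ℝ ∞ (fun q : ℝ × CE ι => levi (fun w => F (q.1, w)) q.2 j k) (I ×ˢ U) :=
  contDiffOn_dzb_param hI hU (contDiffOn_dz_param hI hU (prm_ofReal hF) k) j

/-! ### Part B: the time derivative (`I` open) -/

theorem hasDerivAt_param (hI : IsOpen I) (_hU : IsOpen U) {E : Type} [NormedAddCommGroup E]
    [NormedSpace ℝ E] {F : ℝ × CE ι → E} (hF : ContDiffOn ℝ ∞ F (I ×ˢ U)) {t : ℝ} (ht : t ∈ I)
    {z : CE ι} (hz : z ∈ U) :
    HasDerivAt (fun s => F (s, z)) (deriv (fun s => F (s, z)) t) t :=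
  (((contDiffOn_timeline hF hz).contDiffAt (hI.mem_nhds ht)).differentiableAt (by simp)).hasDerivAt

theorem prm_contDiffAt (hI : IsOpen I) (hU : IsOpen U) {E : Type} [NormedAddCommGroup E]
    [NormedSpace ℝ E] {F : ℝ × CE ι → E} (hF : ContDiffOn ℝ ∞ F (I ×ˢ U)) {t : ℝ} (ht : t ∈ I)
    {z : CE ι} (hz : z ∈ U) : ContDiffAt ℝ ∞ F (t, z) :=
  hF.contDiffAt ((hI.prod hU).mem_nhds ⟨ht, hz⟩)

theorem prm_deriv_eq (hI : IsOpen I) (hU : IsOpen U) {E : Type} [NormedAddCommGroup E]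
    [NormedSpace ℝ E] {F : ℝ × CE ι → E} (hF : ContDiffOn ℝ ∞ F (I ×ˢ U)) {t : ℝ} (ht : t ∈ I)
    {z : CE ι} (hz : z ∈ U) : deriv (fun s => F (s, z)) t = fderiv ℝ F (t, z) (1, 0) := by
  have h1 : HasFDerivAt F (fderiv ℝ F (t, z)) (t, z) :=
    ((prm_contDiffAt hI hU hF ht hz).differentiableAt (by simp)).hasFDerivAt
  have h2 : HasDerivAt (fun s : ℝ => (s, z)) ((1 : ℝ), (0 : CE ι)) t :=
    (hasDerivAt_id t).prodMk (hasDerivAt_const t z)
  exact (h1.comp_hasDerivAt t h2).deriv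

theorem prm_fderiv_eq (hI : IsOpen I) (hU : IsOpen U) {E : Type} [NormedAddCommGroup E]
    [NormedSpace ℝ E] {F : ℝ × CE ι → E} (hF : ContDiffOn ℝ ∞ F (I ×ˢ U)) {t : ℝ} (ht : t ∈ I)
    {z : CE ι} (hz : z ∈ U) (a : CE ι) :
    fderiv ℝ (fun w => F (t, w)) z a = fderiv ℝ F (t, z) (0, a) := by
  rw [prm_fderiv_slice hU hF ht hz a, fderivWithin_of_isOpen (hI.prod hU) ⟨ht, hz⟩]

theorem prm_contDiffOn_fderiv (hI : IsOpen I) (hU : IsOpen U) {E : Type} [NormedAddCommGroup E]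
    [NormedSpace ℝ E] {F : ℝ × CE ι → E} (hF : ContDiffOn ℝ ∞ F (I ×ˢ U)) :
    ContDiffOn ℝ ∞ (fderiv ℝ F) (I ×ˢ U) :=
  hF.fderiv_of_isOpen (hI.prod hU) (by simp)

theorem contDiffOn_dt_param (hI : IsOpen I) (hU : IsOpen U) {E : Type} [NormedAddCommGroup E]
    [NormedSpace ℝ E] {F : ℝ × CE ι → E} (hF : ContDiffOn ℝ ∞ F (I ×ˢ U)) :
    ContDiffOn ℝ ∞ (fun q : ℝ × CE ι => deriv (fun s => F (s, q.2)) q.1) (I ×ˢ U) := by
  have h2 : ContDiffOn ℝ ∞ (fun q : ℝ × CE ι => fderiv ℝ F q ((1 : ℝ), (0 : CE ι))) (I ×ˢ U) :=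
    (prm_contDiffOn_fderiv hI hU hF).clm_apply contDiffOn_const
  exact h2.congr fun q hq => prm_deriv_eq hI hU hF hq.1 hq.2

/-- the mixed partial derivatives commute. -/
theorem prm_hasDerivAt_partial (hI : IsOpen I) (hU : IsOpen U) {E : Type} [NormedAddCommGroup E]
    [NormedSpace ℝ E] {F : ℝ × CE ι → E} (hF : ContDiffOn ℝ ∞ F (I ×ˢ U)) (a : CE ι) {t : ℝ}
    (ht : t ∈ I) {z : CE ι} (hz : z ∈ U) :
    HasDerivAt (fun s => fderiv ℝ (fun w => F (s, w)) z a)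
      (fderiv ℝ (fun w => deriv (fun s => F (s, w)) t) z a) t := by
  have hD := prm_contDiffOn_fderiv hI hU hF
  have hDd : HasFDerivAt (fderiv ℝ F) (fderiv ℝ (fderiv ℝ F) (t, z)) (t, z) :=
    ((hD.contDiffAt ((hI.prod hU).mem_nhds ⟨ht, hz⟩)).differentiableAt (by simp)).hasFDerivAt
  have hsymm : IsSymmSndFDerivAt ℝ F (t, z) :=
    (prm_contDiffAt hI hU hF ht hz).isSymmSndFDerivAt
      (by simp only [minSmoothness_of_isRCLikeNormedField]; exact WithTop.coe_le_coe.2 le_top)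
  -- left side
  have h2 : HasDerivAt (fun s : ℝ => (s, z)) ((1 : ℝ), (0 : CE ι)) t :=
    (hasDerivAt_id t).prodMk (hasDerivAt_const t z)
  have h3 : HasDerivAt (fun s : ℝ => fderiv ℝ F (s, z))
      (fderiv ℝ (fderiv ℝ F) (t, z) (1, 0)) t := hDd.comp_hasDerivAt t h2
  have h4 : HasDerivAt (fun s : ℝ => fderiv ℝ F (s, z) ((0 : ℝ), a))
      (fderiv ℝ (fderiv ℝ F) (t, z) (1, 0) (0, a)) t := by
    have := h3.clm_apply (hasDerivAt_const t ((0 : ℝ), a))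
    simpa using this
  have h5 : (fun s => fderiv ℝ (fun w => F (s, w)) z a) =ᶠ[𝓝 t]
      fun s : ℝ => fderiv ℝ F (s, z) ((0 : ℝ), a) := by
    filter_upwards [hI.mem_nhds ht] with s hs
    exact prm_fderiv_eq hI hU hF hs hz a
  -- right side
  have h6 : HasFDerivAt (fun w : CE ι => (t, w)) (ContinuousLinearMap.inr ℝ ℝ (CE ι)) z :=
    hasFDerivAt_prodMk_right t z
  have h7 : HasFDerivAt (fun w : CE ι => fderiv ℝ F (t, w))
      ((fderiv ℝ (fderiv ℝ F) (t, z)).comp (ContinuousLinearMap.inr ℝ ℝ (CE ι))) z :=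
    hDd.comp z h6
  have h8 := h7.clm_apply (hasFDerivAt_const ((1 : ℝ), (0 : CE ι)) z)
  have h9 : (fun w => deriv (fun s => F (s, w)) t) =ᶠ[𝓝 z]
      fun w : CE ι => fderiv ℝ F (t, w) ((1 : ℝ), (0 : CE ι)) := by
    filter_upwards [hU.mem_nhds hz] with w hw
    exact prm_deriv_eq hI hU hF ht hw
  have h10 : fderiv ℝ (fun w => deriv (fun s => F (s, w)) t) z a =
      fderiv ℝ (fderiv ℝ F) (t, z) (0, a) (1, 0) := by
    rw [h9.fderiv_eq, h8.fderiv]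
    simp
  rw [h10, hsymm (0, a) (1, 0)]
  exact h4.congr_of_eventuallyEq h5

theorem hasDerivAt_dz_param (hI : IsOpen I) (hU : IsOpen U) {F : ℝ × CE ι → ℂ}
    (hF : ContDiffOn ℝ ∞ F (I ×ˢ U)) (l : ι) {t : ℝ} (ht : t ∈ I) {z : CE ι} (hz : z ∈ U) :
    HasDerivAt (fun s => dz l (fun w => F (s, w)) z)
      (dz l (fun w => deriv (fun s => F (s, w)) t) z) t := by
  unfold dz
  exact ((prm_hasDerivAt_partial hI hU hF _ ht hz).sub
    ((prm_hasDerivAt_partial hI hU hF _ ht hz).const_mul _)).const_mul _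

theorem hasDerivAt_dzb_param (hI : IsOpen I) (hU : IsOpen U) {F : ℝ × CE ι → ℂ}
    (hF : ContDiffOn ℝ ∞ F (I ×ˢ U)) (l : ι) {t : ℝ} (ht : t ∈ I) {z : CE ι} (hz : z ∈ U) :
    HasDerivAt (fun s => dzb l (fun w => F (s, w)) z)
      (dzb l (fun w => deriv (fun s => F (s, w)) t) z) t := by
  unfold dzb
  exact ((prm_hasDerivAt_partial hI hU hF _ ht hz).add
    ((prm_hasDerivAt_partial hI hU hF _ ht hz).const_mul _)).const_mul _

theorem hasDerivAt_levi_param (hI : IsOpen I) (hU : IsOpen U) {F : ℝ × CE ι → ℝ}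
    (hF : ContDiffOn ℝ ∞ F (I ×ˢ U)) (j k : ι) {t : ℝ} (ht : t ∈ I) {z : CE ι} (hz : z ∈ U) :
    HasDerivAt (fun s => levi (fun w => F (s, w)) z j k)
      (levi (fun w => deriv (fun s => F (s, w)) t) z j k) t := by
  have hFc := prm_ofReal hF
  have hG := contDiffOn_dz_param hI.uniqueDiffOn hU hFc k
  have h1 := hasDerivAt_dzb_param hI hU hG j ht hz
  have e : levi (fun w => deriv (fun s => F (s, w)) t) z j k =
      dzb j (fun w => deriv (fun s => dz k (fun y => ((F (s, y) : ℝ) : ℂ)) w) t) z := by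
    unfold levi
    apply dzb_congr
    filter_upwards [hU.mem_nhds hz] with w hw
    rw [(hasDerivAt_dz_param hI hU hFc k ht hw).deriv]
    apply dz_congr
    filter_upwards [hU.mem_nhds hw] with y hy
    exact ((hasDerivAt_param hI hU hF ht hy).ofReal_comp).deriv.symm
  rw [e]
  exact h1

end Claimed.Agent.R316
end

/- ===== packed: Claimed.Agent.R316.S7.H1.Defs ===== -/
section
/-!
# Row 316, BP-S7-1a (sub-captain helper126): Proposition 7.1, chartwise part.  Definitions and plan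

GOAL (`S7/H1/Main.lean`): `harnackA : InitialData 𝓜 g → o ∈ 𝓜.carrier → StJointPositivity D → HarnackA D`, where `HarnackA D` = the fields `bisec, ric_pos, matrix, scalar, mono, R_o_le, ric_lower, power` of `FlowData.Harnack` (`Top/S7.lean`);
the remaining fields `integrated`, `proper` are BP-S7-1b, which may use `HarnackA D`.

PLAN (charts.tex l. 17-92, re-derived WITHOUT normal coordinates and WITHOUT Kaehler identities; only `∂_t h = - Ric h`):
1. `Griff.lean`     Levi form of the dual norm of a Hermitian matrix function `H` over a base `CE κ` = square + `griffM H` (Chern curvature).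
2. `Param.lean`     Wirtinger calculus with a real parameter.
3. `FlowChart.lean` `FlowData` in a chart is a `ChartFlow`: joint smoothness, `∂_t h = - Ric h_t`, `R = tr (h⁻¹ Ric)`.
4. `LogTime.lean`   the pulled back metric `ltM h (z, w) = h_{e^{w + w̄}}(z)` over the base `CE (ι ⊕ Unit)`; chain rules `∂_w = ∂_w̄ = t ∂_t`; the BLOCK FORMULA
      `griffM (ltM h) (z, w) (X, τ) = griffM (h t) z X + t conj τ (∂_X A - A h⁻¹ ∂_X h) + t τ (∂̄_X A - ∂̄_X h h⁻¹ A) + |τ|² (t A + t² (A_t + A h⁻¹ A))`;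
      `jointNorm` = `dnorm (ltM h)` up to a permutation of coordinates.
5. `Harnack.lean`   Griffiths nonnegativity of `ltM h` ⟹ `griffM (h t) ≥ 0` (`τ = 0`), matrix Harnack (`X = 0`, `τ = 1`), `A ≥ 0` and the scalar Harnack inequality (fibre trace, `τ = 1/t`).
6. `Propagate.lean` one point, ODE in time: `d/dt [yᴴ (t A - λ h) y] = t yᴴ (A_t + A h⁻¹ A + A/t) y ≥ 0` along `y' = ½ h⁻¹ A y`; monotonicity; power decay; basepoint bound.
7. `Main.lean`      assembly on the manifold.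
-/

set_option autoImplicit false
open scoped ContDiff ComplexOrder Topology Matrix

namespace Claimed.Agent.R316

section chart

variable {ι : Type} [Fintype ι] [DecidableEq ι]

/-- a flow of Hermitian metrics in one chart, for positive times: `∂_t h = - A`, `∂_t A = At`, `A = Ric h`. -/
structure ChartFlow (U : Set (CE ι)) (h A At : ℝ → CE ι → Matrix ι ι ℂ) : Prop where
  isOpen : IsOpen U
  smooth_h : ∀ j k, ContDiffOn ℝ ∞ (fun q : ℝ × CE ι => h q.1 q.2 j k) (Set.Ioi 0 ×ˢ U)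
  smooth_A : ∀ j k, ContDiffOn ℝ ∞ (fun q : ℝ × CE ι => A q.1 q.2 j k) (Set.Ioi 0 ×ˢ U)
  pos : ∀ t : ℝ, 0 < t → ∀ z ∈ U, (h t z).PosDef
  dt_h : ∀ t : ℝ, 0 < t → ∀ z ∈ U, ∀ j k, HasDerivAt (fun s => h s z j k) (- A t z j k) t
  dt_A : ∀ t : ℝ, 0 < t → ∀ z ∈ U, ∀ j k, HasDerivAt (fun s => A s z j k) (At t z j k) t
  ric : ∀ t : ℝ, 0 < t → ∀ z ∈ U, A t z = - levi (fun w => Real.log (h t w).det.re) z

/-- the metric pulled back to `(z, w) ∈ ℂ^ι × ℂ`, `t = e^{w + w̄}`. -/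
noncomputable def ltM (h : ℝ → CE ι → Matrix ι ι ℂ) (x : CE (ι ⊕ Unit)) : Matrix ι ι ℂ :=
  h (Real.exp (2 * (x (Sum.inr ())).re)) (dBase x)

/-- the scalar curvature in a chart. -/
noncomputable def Rc (h A : ℝ → CE ι → Matrix ι ι ℂ) (t : ℝ) (z : CE ι) : ℝ :=
  ((h t z)⁻¹ * A t z).trace.re

/-- the Harnack matrix `A_t + A h⁻¹ A + A / t`. -/
noncomputable def harM (h A At : Matrix ι ι ℂ) (t : ℝ) : Matrix ι ι ℂ :=
  At + A * h⁻¹ * A + ((t⁻¹ : ℝ) : ℂ) • A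

/-- the flow at one point, for positive times, with the matrix Harnack inequality. -/
structure PointFlow (h A At : ℝ → Matrix ι ι ℂ) : Prop where
  pos : ∀ t : ℝ, 0 < t → (h t).PosDef
  herm : ∀ t : ℝ, 0 < t → (A t).IsHermitian
  dt_h : ∀ t : ℝ, 0 < t → ∀ j k, HasDerivAt (fun s => h s j k) (- A t j k) t
  dt_A : ∀ t : ℝ, 0 < t → ∀ j k, HasDerivAt (fun s => A s j k) (At t j k) t
  harnack : ∀ t : ℝ, 0 < t → (harM (h t) (A t) (At t) t).PosSemidef

end chart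

section global

variable {V : Type} [NormedAddCommGroup V] [NormedSpace ℝ V] [MeasurableSpace V] [BorelSpace V]
variable {n : ℕ} {𝓜 : CMfd V (Fin n)} {g : HFam V (Fin n)} {o : V}

/-- the chartwise part of **Proposition 7.1** (all fields of `FlowData.Harnack` except `proper`, `integrated`). -/
structure HarnackA (D : FlowData 𝓜 g o) : Prop where
  bisec : ∀ t : ℝ, 0 ≤ t → BisecNonneg 𝓜 (D.h t)
  ric_pos : ∀ t : ℝ, 0 ≤ t → ∀ (Φ : CE (Fin n) → V) (U : Set (CE (Fin n))), 𝓜.IsHol Φ U →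
    ∀ z ∈ U, (D.ric t Φ z).PosDef
  matrix : ∀ t : ℝ, 0 < t → ∀ (Φ : CE (Fin n) → V) (U : Set (CE (Fin n))), 𝓜.IsHol Φ U → ∀ z ∈ U,
    (D.ricDt t Φ z + D.ric t Φ z * (D.h t Φ z)⁻¹ * D.ric t Φ z +
      ((t⁻¹ : ℝ) : ℂ) • D.ric t Φ z).PosSemidef
  scalar : ∀ t : ℝ, 0 < t → ∀ (Φ : CE (Fin n) → V) (U : Set (CE (Fin n))), 𝓜.IsHol Φ U → ∀ z ∈ U,
    ∀ X : Fin n → ℂ,
      0 ≤ deriv (fun s => D.R s (Φ z)) t + D.R t (Φ z) / t
        + 2 * (∑ k, X k * dz k (fun w => ((D.R t (Φ w) : ℝ) : ℂ)) z).re + qf (D.ric t Φ z) X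
  mono : ∀ t t' : ℝ, 0 ≤ t → t ≤ t' → leF 𝓜 (D.h t') (D.h t)
  R_o_le : ∃ C : ℝ, ∀ t : ℝ, 0 ≤ t → D.R t o ≤ C
  ric_lower : ∀ K : Set V, IsCompact K → K ⊆ 𝓜.carrier → ∃ a : ℝ, 0 < a ∧ ∀ t : ℝ, 1 ≤ t →
    leFOn 𝓜 K (smulF (fun _ => a / t) (D.h t)) (D.ric t)
  power : ∀ K : Set V, IsCompact K → K ⊆ 𝓜.carrier → ∃ C a : ℝ, 0 < a ∧ ∀ t : ℝ, 1 ≤ t →
    leFOn 𝓜 K (D.h t) (smulF (fun _ => C * t ^ (-a)) g)

end global

end Claimed.Agent.R316
end
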