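/- Packed by merge_tool.py (helper293): 3 modules of Claimed.Agent.R316 in one file, same declarations.
   Old modules, in this order: S7.H1.LogTime, S7.H1.Harnack, S7.H1.Main -/
import Claimed.Agent.R316.S7.H1.FlowChart
import Claimed.Agent.R316.S7.H1.Propagate
import Claimed.Agent.R316.Pack019

/- ===== packed: Claimed.Agent.R316.S7.H1.LogTime ===== -/
section
/-!
# Row 316, BP-S7-1a, leaves L-S7-1a-4 (chain rules, ~600 lines) and L-S7-1a-5 (block formula + `jointNorm`, ~700 lines)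

BOTH PROVED (helper11): no `sorry` in this file.

NOTATION.  `x = (z, w) : CE (ι ⊕ Unit)`, `z = dBase x`, `w = x (inr ())`, `t = ltime x = e^{w + w̄} = exp (2 Re w)`.

## L-S7-1a-4: chain rules
`K y = k (ltime y, dBase y)` with `k` jointly smooth on `Ioi 0 ×ˢ U`.  The map `y ↦ (ltime y, dBase y)` is smooth with real derivative `v ↦ (2 t Re (v (inr ())), dBase v)`.  So, with `D = fderiv ℝ k (t, z)`:
`fderiv ℝ K x (eb (inl l)) = D (0, eb l)`, `fderiv ℝ K x (I • eb (inl l)) = D (0, I • eb l)`, `fderiv ℝ K x (eb (inr ())) = 2 t D (1, 0)`, `fderiv ℝ K x (I • eb (inr ())) = 0`;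
`D (0, a) = fderiv ℝ (fun w => k (t, w)) z a`, `D (1, 0) = deriv (fun s => k (s, z)) t`.  Unfold `dz`, `dzb` (`Core/Basic.lean`).
The matrix versions are entrywise (`dzM_apply`, `dzbM_apply`); `ChartFlow.dt_h`, `dt_A` identify the time derivatives.  For the SECOND derivatives apply the scalar rules to the jointly smooth functions
`q ↦ dz l (fun w => h q.1 w j k) q.2` (`contDiffOn_dz_param`), `q ↦ A q.1 q.2 j k`, using that the first derivative formulas hold on the whole open set `{dBase ∈ U}` (`dzbM_congr`), `hasDerivAt_dz_param` (`∂_t ∂_l h = - ∂_l A`),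
and `∂_w̄ (t A) = t A + t² A_t` (product rule: `ltime` itself is `k (t, z) = t`).

## L-S7-1a-5: the block formula
Split both sums of `griffM` over `ι ⊕ Unit` (`Fintype.sum_sum_type`, `Finset.univ_unique`), insert the eight derivative formulas, collect.  (`‖τ‖² = τ conj τ`: `Complex.mul_conj`, `Complex.normSq_eq_norm_sq`.)
`dnorm_ltM_eq` is `rfl` after unfolding.  `levi_dnorm_ltM_posSemidef`: `levi_comp_hol_posSemidef` (CW-2) with the complex linear map `jnPerm`.  `griffM_ltM_posSemidef`: `griffM_posSemidef_of_levi` with `O = {x | dBase x ∈ U}`.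
-/

set_option autoImplicit false
set_option linter.unusedSectionVars false
open scoped ContDiff ComplexOrder Topology Matrix

namespace Claimed.Agent.R316

variable {ι : Type} [Fintype ι] [DecidableEq ι]

/-- physical time `t = e^{w + w̄}`. -/
noncomputable def ltime (x : CE (ι ⊕ Unit)) : ℝ := Real.exp (2 * (x (Sum.inr ())).re)

/-- the point `(z, ½ log t)`. -/
noncomputable def ltPt (t : ℝ) (z : CE ι) : CE (ι ⊕ Unit) :=
  dJoin z (WithLp.toLp 2 fun _ => ((Real.log t / 2 : ℝ) : ℂ))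

/-! ### L-S7-1a-4 -/

section chain

variable {U : Set (CE ι)} {k : ℝ × CE ι → ℂ} {x : CE (ι ⊕ Unit)}

theorem ltime_pos (x : CE (ι ⊕ Unit)) : 0 < ltime x := Real.exp_pos _

theorem ltime_ltPt {t : ℝ} (ht : 0 < t) (z : CE ι) : ltime (ltPt t z) = t := by
  unfold ltime ltPt dJoin
  simp only [Sum.elim_inr, Complex.ofReal_re]
  rw [mul_div_cancel₀ _ (two_ne_zero), Real.exp_log ht]

theorem dBase_ltPt (t : ℝ) (z : CE ι) : dBase (ltPt t z) = z := dBase_dJoin _ _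

theorem ltM_eq (h : ℝ → CE ι → Matrix ι ι ℂ) (x : CE (ι ⊕ Unit)) :
    ltM h x = h (ltime x) (dBase x) := rfl

/-- `dBase` as a continuous real linear map. -/
noncomputable def lt_dBaseL : CE (ι ⊕ Unit) →L[ℝ] CE ι :=
  LinearMap.toContinuousLinearMap
    { toFun := dBase
      map_add' := fun x y => by ext a; simp [dBase]
      map_smul' := fun c x => by ext a; simp [dBase] }

theorem lt_dBaseL_apply (v : CE (ι ⊕ Unit)) : lt_dBaseL v = dBase v := rfl

theorem lt_hasFDerivAt_dBase (x : CE (ι ⊕ Unit)) :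
    HasFDerivAt (dBase : CE (ι ⊕ Unit) → CE ι) lt_dBaseL x := lt_dBaseL.hasFDerivAt

/-- the real part of the last coordinate as a continuous real linear map. -/
noncomputable def lt_reL : CE (ι ⊕ Unit) →L[ℝ] ℝ :=
  Complex.reCLM.comp ((EuclideanSpace.proj (Sum.inr ()) : CE (ι ⊕ Unit) →L[ℂ] ℂ).restrictScalars ℝ)

theorem lt_reL_apply (v : CE (ι ⊕ Unit)) : lt_reL v = (v (Sum.inr ())).re := rfl

theorem lt_hasFDerivAt_ltime (x : CE (ι ⊕ Unit)) :
    HasFDerivAt (ltime : CE (ι ⊕ Unit) → ℝ) ((2 * ltime x) • lt_reL) x := by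
  have h1 : HasFDerivAt (fun y : CE (ι ⊕ Unit) => 2 * lt_reL y) ((2 : ℝ) • lt_reL) x :=
    lt_reL.hasFDerivAt.const_mul 2
  have h2 := h1.exp
  have e : Real.exp (2 * lt_reL x) • (2 : ℝ) • (lt_reL : CE (ι ⊕ Unit) →L[ℝ] ℝ) =
      (2 * ltime x) • lt_reL := by
    rw [smul_smul, mul_comm]; rfl
  rw [e] at h2
  exact h2

theorem lt_hasFDerivAt_map (x : CE (ι ⊕ Unit)) :
    HasFDerivAt (fun y : CE (ι ⊕ Unit) => (ltime y, dBase y))
      (((2 * ltime x) • lt_reL).prod lt_dBaseL) x :=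
  (lt_hasFDerivAt_ltime x).prodMk (lt_hasFDerivAt_dBase x)

theorem lt_contDiff_map : ContDiff ℝ ∞ (fun y : CE (ι ⊕ Unit) => (ltime y, dBase y)) := by
  refine ContDiff.prodMk ?_ (lt_dBaseL (ι := ι)).contDiff
  exact Real.contDiff_exp.comp (contDiff_const.mul (lt_reL (ι := ι)).contDiff)

theorem lt_contDiffOn (_hU : IsOpen U) (hk : ContDiffOn ℝ ∞ k (Set.Ioi 0 ×ˢ U)) :
    ContDiffOn ℝ ∞ (fun y : CE (ι ⊕ Unit) => k (ltime y, dBase y)) {y | dBase y ∈ U} := by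
  have h := ContDiffOn.comp hk (lt_contDiff_map (ι := ι)).contDiffOn
    (s := {y : CE (ι ⊕ Unit) | dBase y ∈ U}) (fun y hy => ⟨ltime_pos y, hy⟩)
  simp only [Function.comp_def] at h
  exact h

/-- the chain rule. -/
theorem lt_fderiv (hU : IsOpen U) (hk : ContDiffOn ℝ ∞ k (Set.Ioi 0 ×ˢ U)) (hx : dBase x ∈ U)
    (v : CE (ι ⊕ Unit)) :
    fderiv ℝ (fun y : CE (ι ⊕ Unit) => k (ltime y, dBase y)) x v =
      fderiv ℝ k (ltime x, dBase x) (2 * ltime x * (v (Sum.inr ())).re, dBase v) := by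
  have h1 : HasFDerivAt k (fderiv ℝ k (ltime x, dBase x)) (ltime x, dBase x) :=
    ((prm_contDiffAt isOpen_Ioi hU hk (ltime_pos x) hx).differentiableAt (by simp)).hasFDerivAt
  have h2 := h1.comp x (lt_hasFDerivAt_map x)
  have h3 : fderiv ℝ (fun y : CE (ι ⊕ Unit) => k (ltime y, dBase y)) x = _ := h2.fderiv
  rw [h3]
  rfl

theorem lt_dBase_eb_inl (l : ι) : dBase (eb (Sum.inl l) : CE (ι ⊕ Unit)) = eb l := by
  ext a
  simp [dBase, eb_apply]

theorem lt_dBase_eb_inr : dBase (eb (Sum.inr ()) : CE (ι ⊕ Unit)) = (0 : CE ι) := by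
  ext a
  simp [dBase, eb_apply]

theorem lt_dBase_smul (c : ℂ) (v : CE (ι ⊕ Unit)) : dBase (c • v) = c • dBase v := by
  ext a
  simp [dBase]

theorem lt_dz_inl (hU : IsOpen U) (hk : ContDiffOn ℝ ∞ k (Set.Ioi 0 ×ˢ U)) (hx : dBase x ∈ U)
    (l : ι) : dz (Sum.inl l) (fun y : CE (ι ⊕ Unit) => k (ltime y, dBase y)) x =
      dz l (fun w => k (ltime x, w)) (dBase x) := by
  unfold dz
  rw [lt_fderiv hU hk hx, lt_fderiv hU hk hx, prm_fderiv_eq isOpen_Ioi hU hk (ltime_pos x) hx,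
    prm_fderiv_eq isOpen_Ioi hU hk (ltime_pos x) hx, lt_dBase_smul, lt_dBase_eb_inl]
  simp [eb_apply]

theorem lt_dzb_inl (hU : IsOpen U) (hk : ContDiffOn ℝ ∞ k (Set.Ioi 0 ×ˢ U)) (hx : dBase x ∈ U)
    (l : ι) : dzb (Sum.inl l) (fun y : CE (ι ⊕ Unit) => k (ltime y, dBase y)) x =
      dzb l (fun w => k (ltime x, w)) (dBase x) := by
  unfold dzb
  rw [lt_fderiv hU hk hx, lt_fderiv hU hk hx, prm_fderiv_eq isOpen_Ioi hU hk (ltime_pos x) hx,
    prm_fderiv_eq isOpen_Ioi hU hk (ltime_pos x) hx, lt_dBase_smul, lt_dBase_eb_inl]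
  simp [eb_apply]

theorem lt_fderiv_inr (hU : IsOpen U) (hk : ContDiffOn ℝ ∞ k (Set.Ioi 0 ×ˢ U))
    (hx : dBase x ∈ U) :
    fderiv ℝ (fun y : CE (ι ⊕ Unit) => k (ltime y, dBase y)) x (eb (Sum.inr ())) =
      2 * (((ltime x : ℝ) : ℂ) * deriv (fun s => k (s, dBase x)) (ltime x)) := by
  rw [lt_fderiv hU hk hx, prm_deriv_eq isOpen_Ioi hU hk (ltime_pos x) hx, lt_dBase_eb_inr]
  have e : ((2 * ltime x * ((eb (Sum.inr ()) : CE (ι ⊕ Unit)) (Sum.inr ())).re, (0 : CE ι)) :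
      ℝ × CE ι) = (2 * ltime x) • ((1 : ℝ), (0 : CE ι)) := by
    simp [eb_apply]
  rw [e, map_smul, Complex.real_smul]
  push_cast
  ring

theorem lt_fderiv_inr_I (hU : IsOpen U) (hk : ContDiffOn ℝ ∞ k (Set.Ioi 0 ×ˢ U))
    (hx : dBase x ∈ U) :
    fderiv ℝ (fun y : CE (ι ⊕ Unit) => k (ltime y, dBase y)) x (Complex.I • eb (Sum.inr ())) =
      0 := by
  rw [lt_fderiv hU hk hx, lt_dBase_smul, lt_dBase_eb_inr]
  have e : ((2 * ltime x * ((Complex.I • (eb (Sum.inr ()) : CE (ι ⊕ Unit))) (Sum.inr ())).re,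
      Complex.I • (0 : CE ι)) : ℝ × CE ι) = 0 := by
    simp [eb_apply]
  rw [e, map_zero]

theorem lt_dz_inr (hU : IsOpen U) (hk : ContDiffOn ℝ ∞ k (Set.Ioi 0 ×ˢ U)) (hx : dBase x ∈ U) :
    dz (Sum.inr ()) (fun y : CE (ι ⊕ Unit) => k (ltime y, dBase y)) x =
      ((ltime x : ℝ) : ℂ) * deriv (fun s => k (s, dBase x)) (ltime x) := by
  unfold dz
  rw [lt_fderiv_inr hU hk hx, lt_fderiv_inr_I hU hk hx]
  ring

theorem lt_dzb_inr (hU : IsOpen U) (hk : ContDiffOn ℝ ∞ k (Set.Ioi 0 ×ˢ U)) (hx : dBase x ∈ U) :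
    dzb (Sum.inr ()) (fun y : CE (ι ⊕ Unit) => k (ltime y, dBase y)) x =
      ((ltime x : ℝ) : ℂ) * deriv (fun s => k (s, dBase x)) (ltime x) := by
  unfold dzb
  rw [lt_fderiv_inr hU hk hx, lt_fderiv_inr_I hU hk hx]
  ring

variable {h A At : ℝ → CE ι → Matrix ι ι ℂ}

theorem ltM_contDiffOn (F : ChartFlow U h A At) (j k : ι) :
    ContDiffOn ℝ ∞ (fun y : CE (ι ⊕ Unit) => ltM h y j k) {y | dBase y ∈ U} :=
  lt_contDiffOn (k := fun q : ℝ × CE ι => h q.1 q.2 j k) F.isOpen (F.smooth_h j k)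

theorem ltM_posDef (F : ChartFlow U h A At) (hx : dBase x ∈ U) : (ltM h x).PosDef :=
  F.pos _ (ltime_pos x) _ hx

theorem lt_mem_nhds (hU : IsOpen U) (hx : dBase x ∈ U) :
    {y : CE (ι ⊕ Unit) | dBase y ∈ U} ∈ 𝓝 x :=
  (hU.preimage (lt_dBaseL (ι := ι)).continuous).mem_nhds hx

theorem dzM_inl_ltM (F : ChartFlow U h A At) (hx : dBase x ∈ U) (l : ι) :
    dzM (Sum.inl l) (ltM h) x = dzM l (h (ltime x)) (dBase x) := by
  ext j k
  exact lt_dz_inl (k := fun q : ℝ × CE ι => h q.1 q.2 j k) F.isOpen (F.smooth_h j k) hx l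

theorem dzbM_inl_ltM (F : ChartFlow U h A At) (hx : dBase x ∈ U) (l : ι) :
    dzbM (Sum.inl l) (ltM h) x = dzbM l (h (ltime x)) (dBase x) := by
  ext j k
  exact lt_dzb_inl (k := fun q : ℝ × CE ι => h q.1 q.2 j k) F.isOpen (F.smooth_h j k) hx l

theorem dzM_inr_ltM (F : ChartFlow U h A At) (hx : dBase x ∈ U) :
    dzM (Sum.inr ()) (ltM h) x = - (((ltime x : ℝ) : ℂ) • A (ltime x) (dBase x)) := by
  ext j k
  have h1 := lt_dz_inr (k := fun q : ℝ × CE ι => h q.1 q.2 j k) F.isOpen (F.smooth_h j k) hx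
  simp only [(F.dt_h _ (ltime_pos x) _ hx j k).deriv] at h1
  rw [Matrix.neg_apply, Matrix.smul_apply, smul_eq_mul, ← mul_neg]
  exact h1

theorem dzbM_inr_ltM (F : ChartFlow U h A At) (hx : dBase x ∈ U) :
    dzbM (Sum.inr ()) (ltM h) x = - (((ltime x : ℝ) : ℂ) • A (ltime x) (dBase x)) := by
  ext j k
  have h1 := lt_dzb_inr (k := fun q : ℝ × CE ι => h q.1 q.2 j k) F.isOpen (F.smooth_h j k) hx
  simp only [(F.dt_h _ (ltime_pos x) _ hx j k).deriv] at h1
  rw [Matrix.neg_apply, Matrix.smul_apply, smul_eq_mul, ← mul_neg]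
  exact h1

/-- the jointly smooth function `(t, z) ↦ ∂_l h_{jk}`. -/
theorem lt_smooth_dz_h (F : ChartFlow U h A At) (l j k : ι) :
    ContDiffOn ℝ ∞ (fun q : ℝ × CE ι => dz l (fun w => h q.1 w j k) q.2) (Set.Ioi 0 ×ˢ U) :=
  contDiffOn_dz_param (F := fun q : ℝ × CE ι => h q.1 q.2 j k) isOpen_Ioi.uniqueDiffOn F.isOpen
    (F.smooth_h j k) l

/-- the jointly smooth function `(t, z) ↦ - t A_{jk}`. -/
theorem lt_smooth_tA (F : ChartFlow U h A At) (j k : ι) :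
    ContDiffOn ℝ ∞ (fun q : ℝ × CE ι => - (((q.1 : ℝ) : ℂ) * A q.1 q.2 j k))
      (Set.Ioi 0 ×ˢ U) :=
  ((Complex.ofRealCLM.contDiff.comp contDiff_fst).contDiffOn.mul (F.smooth_A j k)).neg

theorem lt_dzb_congr_inl (F : ChartFlow U h A At) (hx : dBase x ∈ U) (l j k : ι)
    (a : ι ⊕ Unit) :
    dzb a (fun y => dzM (Sum.inl l) (ltM h) y j k) x =
      dzb a (fun y : CE (ι ⊕ Unit) => dz l (fun w => h (ltime y) w j k) (dBase y)) x := by
  apply dzb_congr
  filter_upwards [lt_mem_nhds F.isOpen hx] with y hy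
  rw [dzM_inl_ltM F hy l]
  rfl

theorem lt_dzb_congr_inr (F : ChartFlow U h A At) (hx : dBase x ∈ U) (j k : ι)
    (a : ι ⊕ Unit) :
    dzb a (fun y => dzM (Sum.inr ()) (ltM h) y j k) x =
      dzb a (fun y : CE (ι ⊕ Unit) => - (((ltime y : ℝ) : ℂ) * A (ltime y) (dBase y) j k)) x := by
  apply dzb_congr
  filter_upwards [lt_mem_nhds F.isOpen hx] with y hy
  rw [dzM_inr_ltM F hy]
  rfl

theorem dzbM_dzM_inl_inl (F : ChartFlow U h A At) (hx : dBase x ∈ U) (l m : ι) :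
    dzbM (Sum.inl m) (dzM (Sum.inl l) (ltM h)) x =
      dzbM m (dzM l (h (ltime x))) (dBase x) := by
  ext j k
  rw [dzbM_apply, lt_dzb_congr_inl F hx]
  exact lt_dzb_inl (k := fun q : ℝ × CE ι => dz l (fun w => h q.1 w j k) q.2) F.isOpen
    (lt_smooth_dz_h F l j k) hx m

theorem dzbM_dzM_inr_inl (F : ChartFlow U h A At) (hx : dBase x ∈ U) (l : ι) :
    dzbM (Sum.inr ()) (dzM (Sum.inl l) (ltM h)) x =
      - (((ltime x : ℝ) : ℂ) • dzM l (A (ltime x)) (dBase x)) := by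
  ext j k
  rw [dzbM_apply, lt_dzb_congr_inl F hx]
  have h1 := lt_dzb_inr (k := fun q : ℝ × CE ι => dz l (fun w => h q.1 w j k) q.2) F.isOpen
    (lt_smooth_dz_h F l j k) hx
  have h2 := (hasDerivAt_dz_param (F := fun q : ℝ × CE ι => h q.1 q.2 j k) isOpen_Ioi F.isOpen
    (F.smooth_h j k) l (ltime_pos x) hx).deriv
  have h3 : dz l (fun w => deriv (fun s => h s w j k) (ltime x)) (dBase x) =
      - dz l (fun w => A (ltime x) w j k) (dBase x) := by
    rw [← dz_neg]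
    apply dz_congr
    filter_upwards [F.isOpen.mem_nhds hx] with w hw
    exact (F.dt_h _ (ltime_pos x) _ hw j k).deriv
  simp only at h1 h2
  rw [h1, h2, h3, Matrix.neg_apply, Matrix.smul_apply, smul_eq_mul, dzM_apply, mul_neg]

theorem dzbM_dzM_inl_inr (F : ChartFlow U h A At) (hx : dBase x ∈ U) (m : ι) :
    dzbM (Sum.inl m) (dzM (Sum.inr ()) (ltM h)) x =
      - (((ltime x : ℝ) : ℂ) • dzbM m (A (ltime x)) (dBase x)) := by
  ext j k
  rw [dzbM_apply, lt_dzb_congr_inr F hx]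
  have h1 := lt_dzb_inl (k := fun q : ℝ × CE ι => - (((q.1 : ℝ) : ℂ) * A q.1 q.2 j k)) F.isOpen
    (lt_smooth_tA F j k) hx m
  simp only at h1
  have hd : DifferentiableAt ℝ (fun w => A (ltime x) w j k) (dBase x) :=
    (((contDiffOn_slice (F := fun q : ℝ × CE ι => A q.1 q.2 j k) (F.smooth_A j k)
      (ltime_pos x)).contDiffAt (F.isOpen.mem_nhds hx)).differentiableAt (by simp))
  rw [h1, dzb_neg, dzb_const_mul _ hd, Matrix.neg_apply, Matrix.smul_apply, smul_eq_mul,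
    dzbM_apply]

theorem dzbM_dzM_inr_inr (F : ChartFlow U h A At) (hx : dBase x ∈ U) :
    dzbM (Sum.inr ()) (dzM (Sum.inr ()) (ltM h)) x =
      - (((ltime x : ℝ) : ℂ) • A (ltime x) (dBase x)) -
        (((ltime x ^ 2 : ℝ) : ℂ) • At (ltime x) (dBase x)) := by
  ext j k
  rw [dzbM_apply, lt_dzb_congr_inr F hx]
  have h1 := lt_dzb_inr (k := fun q : ℝ × CE ι => - (((q.1 : ℝ) : ℂ) * A q.1 q.2 j k)) F.isOpen
    (lt_smooth_tA F j k) hx
  simp only at h1
  have h2 : HasDerivAt (fun s : ℝ => - (((s : ℝ) : ℂ) * A s (dBase x) j k))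
      (- (1 * A (ltime x) (dBase x) j k + ((ltime x : ℝ) : ℂ) * At (ltime x) (dBase x) j k))
      (ltime x) :=
    (((hasDerivAt_id (ltime x)).ofReal_comp).mul (F.dt_A _ (ltime_pos x) _ hx j k)).neg
  rw [h1, h2.deriv, Matrix.sub_apply, Matrix.neg_apply, Matrix.smul_apply, Matrix.smul_apply,
    smul_eq_mul, smul_eq_mul]
  push_cast
  ring

end chain

/-! ### L-S7-1a-5 -/

section block

variable {U : Set (CE ι)} {h A At : ℝ → CE ι → Matrix ι ι ℂ}

/-- **the block formula** for the curvature of the pulled back metric. -/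
theorem griffM_ltM (F : ChartFlow U h A At) {t : ℝ} (ht : 0 < t) {z : CE ι} (hz : z ∈ U)
    (X : ι → ℂ) (τ : ℂ) :
    griffM (ltM h) (ltPt t z) (Sum.elim X fun _ => τ) =
      griffM (h t) z X
      + ((t : ℂ) * star τ) • ∑ l, X l • (dzM l (A t) z - A t z * (h t z)⁻¹ * dzM l (h t) z)
      + ((t : ℂ) * τ) • ∑ m, star (X m) • (dzbM m (A t) z - dzbM m (h t) z * (h t z)⁻¹ * A t z)
      + ((‖τ‖ ^ 2 : ℝ) : ℂ) •
          ((t : ℂ) • A t z + ((t ^ 2 : ℝ) : ℂ) • (At t z + A t z * (h t z)⁻¹ * A t z)) := by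
  have ht' : ltime (ltPt t z) = t := ltime_ltPt ht z
  have hz' : dBase (ltPt t z) = z := dBase_ltPt t z
  have hx : dBase (ltPt t z) ∈ U := by rw [hz']; exact hz
  have hτ : ((‖τ‖ ^ 2 : ℝ) : ℂ) = τ * star τ := by
    rw [Complex.star_def, Complex.mul_conj, Complex.normSq_eq_norm_sq]
  simp only [griffM, Fintype.sum_sum_type, Finset.univ_unique, Finset.sum_singleton,
    Sum.elim_inl, Sum.elim_inr, PUnit.default_eq_unit]
  simp only [dzbM_dzM_inl_inl F hx, dzbM_dzM_inr_inl F hx, dzbM_dzM_inl_inr F hx,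
    dzbM_dzM_inr_inr F hx, dzM_inl_ltM F hx, dzbM_inl_ltM F hx, dzM_inr_ltM F hx,
    dzbM_inr_ltM F hx, ltM_eq, ht', hz', Finset.sum_add_distrib]
  have S2 : ∑ l, (X l * star τ) • (- -(((t : ℝ) : ℂ) • dzM l (A t) z) +
      -(((t : ℝ) : ℂ) • A t z) * (h t z)⁻¹ * dzM l (h t) z) =
      ((t : ℂ) * star τ) • ∑ l, X l • (dzM l (A t) z - A t z * (h t z)⁻¹ * dzM l (h t) z) := by
    rw [Finset.smul_sum]
    refine Finset.sum_congr rfl fun l _ => ?_
    rw [Matrix.neg_mul, Matrix.neg_mul, Matrix.smul_mul, Matrix.smul_mul]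
    module
  have S3 : ∑ m, (τ * star (X m)) • (- -(((t : ℝ) : ℂ) • dzbM m (A t) z) +
      dzbM m (h t) z * (h t z)⁻¹ * -(((t : ℝ) : ℂ) • A t z)) =
      ((t : ℂ) * τ) • ∑ m, star (X m) • (dzbM m (A t) z - dzbM m (h t) z * (h t z)⁻¹ * A t z) := by
    rw [Finset.smul_sum]
    refine Finset.sum_congr rfl fun m _ => ?_
    rw [Matrix.mul_neg, Matrix.mul_smul]
    module
  have S4 : (τ * star τ) • (-(-(((t : ℝ) : ℂ) • A t z) - ((t ^ 2 : ℝ) : ℂ) • At t z) +
      -(((t : ℝ) : ℂ) • A t z) * (h t z)⁻¹ * -(((t : ℝ) : ℂ) • A t z)) =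
      ((‖τ‖ ^ 2 : ℝ) : ℂ) •
          ((t : ℂ) • A t z + ((t ^ 2 : ℝ) : ℂ) • (At t z + A t z * (h t z)⁻¹ * A t z)) := by
    rw [hτ, Matrix.neg_mul, Matrix.neg_mul, Matrix.mul_neg, Matrix.smul_mul, Matrix.smul_mul,
      Matrix.mul_smul]
    push_cast
    module
  rw [S2, S3, S4]
  abel

end block

section joint

variable {V : Type} [NormedAddCommGroup V] [NormedSpace ℝ V] {n : ℕ}

/-- the permutation of coordinates `((z, w), ζ) ↦ ((z, ζ), w)`. -/
noncomputable def jnPerm (p : CE ((Fin n ⊕ Unit) ⊕ Fin n)) : CE ((Fin n ⊕ Fin n) ⊕ Unit) :=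
  WithLp.toLp 2 (Sum.elim (Sum.elim (fun j => p (Sum.inl (Sum.inl j))) fun j => p (Sum.inr j))
    fun _ => p (Sum.inl (Sum.inr ())))

theorem dnorm_ltM_eq (h : ℝ → HFam V (Fin n)) (Φ : CE (Fin n) → V)
    (p : CE ((Fin n ⊕ Unit) ⊕ Fin n)) :
    dnorm (ltM fun t => h t Φ) p = jointNorm h Φ (jnPerm p) := rfl

/-- `jnPerm` as a continuous complex linear map. -/
noncomputable def lt_jnPermL : CE ((Fin n ⊕ Unit) ⊕ Fin n) →L[ℂ] CE ((Fin n ⊕ Fin n) ⊕ Unit) :=
  LinearMap.toContinuousLinearMap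
    { toFun := jnPerm
      map_add' := fun x y => by
        ext a
        rcases a with (a | a) | a <;> simp [jnPerm]
      map_smul' := fun c x => by
        ext a
        rcases a with (a | a) | a <;> simp [jnPerm] }

theorem lt_differentiableAt_jnPerm (p : CE ((Fin n ⊕ Unit) ⊕ Fin n)) :
    DifferentiableAt ℂ (jnPerm (n := n)) p := (lt_jnPermL (n := n)).differentiableAt

theorem lt_pBase_jnPerm (p : CE ((Fin n ⊕ Unit) ⊕ Fin n)) :
    pBase (jnPerm p) = dBase (dBase p) := rfl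

theorem levi_dnorm_ltM_posSemidef {h : ℝ → HFam V (Fin n)} {Φ : CE (Fin n) → V}
    {U : Set (CE (Fin n))} (hU : IsOpen U)
    (hsm : ContDiffOn ℝ ∞ (jointNorm h Φ) {p | pBase p ∈ U})
    (hJ : ∀ p : CE ((Fin n ⊕ Fin n) ⊕ Unit), pBase p ∈ U → (levi (jointNorm h Φ) p).PosSemidef)
    {p : CE ((Fin n ⊕ Unit) ⊕ Fin n)} (hp : dBase (dBase p) ∈ U) :
    (levi (dnorm (ltM fun t => h t Φ)) p).PosSemidef := by
  have hp' : pBase (jnPerm p) ∈ U := hp
  have hopen : IsOpen {q : CE ((Fin n ⊕ Fin n) ⊕ Unit) | pBase q ∈ U} := by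
    have hc : Continuous (pBase : CE ((Fin n ⊕ Fin n) ⊕ Unit) → CE (Fin n)) := by
      unfold pBase
      exact ((contDiff_piLp (𝕜 := ℝ) (n := 0) 2).2 fun j =>
        (contDiff_coord (k := Sum.inl (Sum.inl j))).of_le (by simp)).continuous
    exact hU.preimage hc
  have hf : ContDiffAt ℝ 2 (jointNorm h Φ) (jnPerm p) :=
    ((hsm.contDiffAt (hopen.mem_nhds hp')).of_le (by exact WithTop.coe_le_coe.2 le_top))
  exact levi_comp_hol_posSemidef jnPerm (jointNorm h Φ)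
    (Filter.Eventually.of_forall lt_differentiableAt_jnPerm) hf (hJ _ hp')

/-- joint positivity ⟹ Griffiths nonnegativity of the pulled back tangent metric. -/
theorem griffM_ltM_posSemidef {h : ℝ → HFam V (Fin n)} {Φ : CE (Fin n) → V}
    {U : Set (CE (Fin n))} {A At : ℝ → CE (Fin n) → Matrix (Fin n) (Fin n) ℂ}
    (F : ChartFlow U (fun t => h t Φ) A At)
    (hsm : ContDiffOn ℝ ∞ (jointNorm h Φ) {p | pBase p ∈ U})
    (hJ : ∀ p : CE ((Fin n ⊕ Fin n) ⊕ Unit), pBase p ∈ U → (levi (jointNorm h Φ) p).PosSemidef)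
    {x : CE (Fin n ⊕ Unit)} (hx : dBase x ∈ U) (Y : Fin n ⊕ Unit → ℂ) :
    (griffM (ltM fun t => h t Φ) x Y).PosSemidef :=
  griffM_posSemidef_of_levi (O := {y : CE (Fin n ⊕ Unit) | dBase y ∈ U})
    (F.isOpen.preimage (lt_dBaseL (ι := Fin n)).continuous) (fun j k => ltM_contDiffOn F j k)
    (fun _ hy => ltM_posDef F hy) hx
    (fun p hp => levi_dnorm_ltM_posSemidef F.isOpen hsm hJ (by rw [hp]; exact hx)) Y

end joint
end Claimed.Agent.R316
end

/- ===== packed: Claimed.Agent.R316.S7.H1.Harnack ===== -/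
section
/-!
# Row 316, BP-S7-1a, leaf L-S7-1a-6: Griffiths nonnegativity of the pulled back metric ⟹ curvature sign, matrix and scalar Harnack (~800 lines, one chart)

PROVED (helper11): no `sorry` in this file.  All statements of `Griff`, `Param`, `LogTime`, `CW/` may be used.

STANDING: `F : ChartFlow U h A At`, `hG`: `griffM (ltM h) x Y ≥ 0` for all `x` over `U` and all `Y`.  Evaluate at `x = ltPt t z` and use `griffM_ltM`.

* `A_isHermitian`: `F.ric`, `levi_isHermitian` (log det is smooth: `contDiffOn_slice`, `contDiffOn_logDet_of_posDef`).  `At_isHermitian`: derivative of `conj (A s z k j) = A s z j k` (`HasDerivAt.star`/`conj`, uniqueness of derivatives).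
* `griffM_posSemidef`: `τ = 0` in `griffM_ltM`.
* `harM_posSemidef`: `X = 0`, `τ = 1`: `t A + t² (A_t + A h⁻¹ A) = t² harM ≥ 0`; divide by `t²` (`posSemidef_smul_real`).  (`griffM (h t) z 0 = 0`.)
* `A_posSemidef`: `qf (A t z) X = tr (h⁻¹ griffM (h t) z X) ≥ 0` (`trace_inv_mul_griffM` for `H = h t` on `U`, `F.ric`, `trace_inv_mul_nonneg`, `posSemidef_iff_qf`).
* `dt_Rc`: `hasDerivAt_trace_inv_mul` (CW-3) with `H' = - A`.
* `dz_Rc`: `ofReal (Rc …) = tr (h⁻¹ A)` near `z` (`trace_mul_im`/`trace_inv_mul_im`: the trace is real), `dz_trace_inv_mul` (CW-3), cyclicity `tr (h⁻¹ A h⁻¹ ∂h) = tr (h⁻¹ ∂h h⁻¹ A)` (`Matrix.trace_mul_cycle`).  Same for `dzb`; `dzb_Rc` is also the conjugate of `dz_Rc` (`dzb` of a real function).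
* `scalar`: `M = griffM (ltM h) (ltPt t z) (X, 1/t) ≥ 0`, `0 ≤ tr (h⁻¹ M).re` and by `griffM_ltM`, linearity of the trace:
  `tr (h⁻¹ M).re = qf A X + Re ∑ X_l ∂_l R + Re ∑ conj X_m ∂̄_m R + t⁻² (t R + t² (tr h⁻¹ A_t + tr h⁻¹ A h⁻¹ A)) = qf A X + 2 Re ∑ X_l ∂_l R + R / t + R_t`.
-/

set_option autoImplicit false
set_option linter.unusedSectionVars false
open scoped ContDiff ComplexOrder Topology Matrix

namespace Claimed.Agent.R316

variable {ι : Type} [Fintype ι] [DecidableEq ι]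
variable {U : Set (CE ι)} {h A At : ℝ → CE ι → Matrix ι ι ℂ} {t : ℝ} {z : CE ι}

namespace ChartFlow

theorem hk_smooth_h (F : ChartFlow U h A At) (ht : 0 < t) (j k : ι) :
    ContDiffOn ℝ ∞ (fun w => h t w j k) U :=
  contDiffOn_slice (F := fun q : ℝ × CE ι => h q.1 q.2 j k) (F.smooth_h j k) ht

theorem hk_smooth_A (F : ChartFlow U h A At) (ht : 0 < t) (j k : ι) :
    ContDiffOn ℝ ∞ (fun w => A t w j k) U :=
  contDiffOn_slice (F := fun q : ℝ × CE ι => A q.1 q.2 j k) (F.smooth_A j k) ht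

theorem hk_diff_h (F : ChartFlow U h A At) (ht : 0 < t) (hz : z ∈ U) (j k : ι) :
    DifferentiableAt ℝ (fun w => h t w j k) z :=
  ((F.hk_smooth_h ht j k).contDiffAt (F.isOpen.mem_nhds hz)).differentiableAt (by simp)

theorem hk_diff_A (F : ChartFlow U h A At) (ht : 0 < t) (hz : z ∈ U) (j k : ι) :
    DifferentiableAt ℝ (fun w => A t w j k) z :=
  ((F.hk_smooth_A ht j k).contDiffAt (F.isOpen.mem_nhds hz)).differentiableAt (by simp)

theorem A_isHermitian (F : ChartFlow U h A At) (ht : 0 < t) (hz : z ∈ U) :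
    (A t z).IsHermitian := by
  rw [F.ric t ht z hz]
  apply Matrix.IsHermitian.neg
  apply levi_isHermitian
  have h1 : ContDiffOn ℝ ∞ (fun w => Real.log (h t w).det.re) U :=
    contDiffOn_logDet_of_posDef (fun j k => F.hk_smooth_h ht j k) fun w hw => F.pos t ht w hw
  exact (h1.contDiffAt (F.isOpen.mem_nhds hz)).of_le (WithTop.coe_le_coe.2 le_top)

theorem At_isHermitian (F : ChartFlow U h A At) (ht : 0 < t) (hz : z ∈ U) :
    (At t z).IsHermitian := by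
  ext j k
  rw [Matrix.conjTranspose_apply]
  have h1 : HasDerivAt (fun s => star (A s z k j)) (star (At t z k j)) t :=
    (F.dt_A t ht z hz k j).star
  have h2 : (fun s => star (A s z k j)) =ᶠ[𝓝 t] fun s => A s z j k := by
    filter_upwards [Ioi_mem_nhds ht] with s hs
    have := congrFun (congrFun (F.A_isHermitian (t := s) hs hz) j) k
    rwa [Matrix.conjTranspose_apply] at this
  exact (h1.congr_of_eventuallyEq h2.symm).unique (F.dt_A t ht z hz j k)

theorem hk_griffM_zero (H : CE ι → Matrix ι ι ℂ) (x : CE ι) : griffM H x 0 = 0 := by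
  unfold griffM
  simp

theorem griffM_posSemidef (F : ChartFlow U h A At)
    (hG : ∀ x : CE (ι ⊕ Unit), dBase x ∈ U → ∀ Y : ι ⊕ Unit → ℂ, (griffM (ltM h) x Y).PosSemidef)
    (ht : 0 < t) (hz : z ∈ U) (X : ι → ℂ) : (griffM (h t) z X).PosSemidef := by
  have h1 := hG (ltPt t z) (by rw [dBase_ltPt]; exact hz) (Sum.elim X fun _ => 0)
  rw [griffM_ltM F ht hz X 0] at h1
  simpa using h1

/-- (7.1) the matrix Harnack inequality. -/
theorem harM_posSemidef (F : ChartFlow U h A At)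
    (hG : ∀ x : CE (ι ⊕ Unit), dBase x ∈ U → ∀ Y : ι ⊕ Unit → ℂ, (griffM (ltM h) x Y).PosSemidef)
    (ht : 0 < t) (hz : z ∈ U) : (harM (h t z) (A t z) (At t z) t).PosSemidef := by
  have h1 := hG (ltPt t z) (by rw [dBase_ltPt]; exact hz) (Sum.elim 0 fun _ => 1)
  rw [griffM_ltM F ht hz 0 1, hk_griffM_zero] at h1
  simp only [Pi.zero_apply, zero_smul, Finset.sum_const_zero, smul_zero, star_zero, add_zero,
    zero_add, norm_one, one_pow, Complex.ofReal_one, one_smul] at h1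
  have h2 := posSemidef_smul_real (c := (t ^ 2)⁻¹) (by positivity) h1
  have e : (((t ^ 2)⁻¹ : ℝ) : ℂ) • ((t : ℂ) • A t z + ((t ^ 2 : ℝ) : ℂ) •
      (At t z + A t z * (h t z)⁻¹ * A t z)) = harM (h t z) (A t z) (At t z) t := by
    unfold harM
    rw [smul_add, smul_smul, smul_smul, ← Complex.ofReal_mul, ← Complex.ofReal_mul,
      inv_mul_cancel₀ (by positivity), Complex.ofReal_one, one_smul]
    have : (t ^ 2)⁻¹ * t = t⁻¹ := by field_simp
    rw [this, add_comm]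
  rwa [e] at h2

theorem hk_qf_A (F : ChartFlow U h A At) (ht : 0 < t) (hz : z ∈ U) (X : ι → ℂ) :
    ((h t z)⁻¹ * griffM (h t) z X).trace.re = qf (A t z) X := by
  rw [F.ric t ht z hz]
  exact trace_inv_mul_griffM (H := h t) F.isOpen (fun j k => F.hk_smooth_h ht j k)
    (fun w hw => F.pos t ht w hw) hz X

theorem A_posSemidef (F : ChartFlow U h A At)
    (hG : ∀ x : CE (ι ⊕ Unit), dBase x ∈ U → ∀ Y : ι ⊕ Unit → ℂ, (griffM (ltM h) x Y).PosSemidef)
    (ht : 0 < t) (hz : z ∈ U) : (A t z).PosSemidef := by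
  rw [posSemidef_iff_qf (F.A_isHermitian ht hz)]
  intro X
  rw [← F.hk_qf_A ht hz X]
  exact trace_inv_mul_nonneg (F.pos t ht z hz) (F.griffM_posSemidef hG ht hz X)

theorem dt_Rc (F : ChartFlow U h A At) (ht : 0 < t) (hz : z ∈ U) :
    HasDerivAt (fun s => Rc h A s z)
      (((h t z)⁻¹ * At t z).trace + ((h t z)⁻¹ * A t z * (h t z)⁻¹ * A t z).trace).re t := by
  have h1 := hasDerivAt_trace_inv_mul (H := fun s => h s z) (H' := - A t z) (A := fun s => A s z)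
    (fun j k => F.dt_h t ht z hz j k) (F.pos t ht z hz).det_pos.ne'
    (fun j k => F.dt_A t ht z hz j k)
  have h2 := Complex.reCLM.hasFDerivAt.comp_hasDerivAt t h1
  refine h2.congr_deriv ?_
  simp

theorem hk_Rc_ofReal (F : ChartFlow U h A At) (ht : 0 < t) (hz : z ∈ U) :
    (fun w => ((Rc h A t w : ℝ) : ℂ)) =ᶠ[𝓝 z] fun w => ((h t w)⁻¹ * A t w).trace := by
  filter_upwards [F.isOpen.mem_nhds hz] with w hw
  exact ofReal_trace_inv_mul_re (F.pos t ht w hw) (F.A_isHermitian ht hw)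

theorem dz_Rc (F : ChartFlow U h A At) (ht : 0 < t) (hz : z ∈ U) (l : ι) :
    dz l (fun w => ((Rc h A t w : ℝ) : ℂ)) z =
      ((h t z)⁻¹ * (dzM l (A t) z - A t z * (h t z)⁻¹ * dzM l (h t) z)).trace := by
  rw [dz_congr (F.hk_Rc_ofReal ht hz), dz_trace_inv_mul (H := h t) (A := A t)
    (fun j k => F.hk_diff_h ht hz j k) (F.pos t ht z hz).det_pos.ne'
    (fun j k => F.hk_diff_A ht hz j k), Matrix.mul_sub, Matrix.trace_sub]
  congr 1
  rw [Matrix.mul_assoc ((h t z)⁻¹ * dzM l (h t) z) (h t z)⁻¹ (A t z),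
    Matrix.trace_mul_comm ((h t z)⁻¹ * dzM l (h t) z) ((h t z)⁻¹ * A t z)]
  simp only [Matrix.mul_assoc]

theorem dzb_Rc (F : ChartFlow U h A At) (ht : 0 < t) (hz : z ∈ U) (m : ι) :
    dzb m (fun w => ((Rc h A t w : ℝ) : ℂ)) z =
      ((h t z)⁻¹ * (dzbM m (A t) z - dzbM m (h t) z * (h t z)⁻¹ * A t z)).trace := by
  rw [dzb_congr (F.hk_Rc_ofReal ht hz), dzb_trace_inv_mul (H := h t) (A := A t)
    (fun j k => F.hk_diff_h ht hz j k) (F.pos t ht z hz).det_pos.ne'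
    (fun j k => F.hk_diff_A ht hz j k), Matrix.mul_sub, Matrix.trace_sub]
  simp only [Matrix.mul_assoc]

/-- (7.2) the scalar Harnack inequality. -/
theorem scalar (F : ChartFlow U h A At)
    (hG : ∀ x : CE (ι ⊕ Unit), dBase x ∈ U → ∀ Y : ι ⊕ Unit → ℂ, (griffM (ltM h) x Y).PosSemidef)
    (ht : 0 < t) (hz : z ∈ U) (X : ι → ℂ) :
    0 ≤ deriv (fun s => Rc h A s z) t + Rc h A t z / t
      + 2 * (∑ k, X k * dz k (fun w => ((Rc h A t w : ℝ) : ℂ)) z).re + qf (A t z) X := by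
  have h1 := hG (ltPt t z) (by rw [dBase_ltPt]; exact hz)
    (Sum.elim X fun _ => (((t⁻¹ : ℝ)) : ℂ))
  have h2 := trace_inv_mul_nonneg (F.pos t ht z hz) h1
  rw [griffM_ltM F ht hz X] at h2
  have c1 : (t : ℂ) * star (((t⁻¹ : ℝ)) : ℂ) = 1 := by
    rw [Complex.star_def, Complex.conj_ofReal, ← Complex.ofReal_mul, mul_inv_cancel₀ ht.ne',
      Complex.ofReal_one]
  have c2 : (t : ℂ) * (((t⁻¹ : ℝ)) : ℂ) = 1 := by
    rw [← Complex.ofReal_mul, mul_inv_cancel₀ ht.ne', Complex.ofReal_one]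
  have c3 : ‖(((t⁻¹ : ℝ)) : ℂ)‖ ^ 2 = (t ^ 2)⁻¹ := by
    rw [Complex.norm_real, Real.norm_eq_abs, sq_abs, inv_pow]
  rw [c1, c2, c3, one_smul, one_smul] at h2
  simp only [Matrix.mul_add, Matrix.trace_add, Matrix.mul_sum, Matrix.trace_sum, Matrix.mul_smul,
    Matrix.trace_smul, Complex.add_re] at h2
  simp only [← F.dz_Rc ht hz, ← F.dzb_Rc ht hz, F.hk_qf_A ht hz X, smul_eq_mul] at h2
  have e1 : (∑ m, star (X m) * dzb m (fun w => ((Rc h A t w : ℝ) : ℂ)) z).re =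
      (∑ k, X k * dz k (fun w => ((Rc h A t w : ℝ) : ℂ)) z).re := by
    have : ∑ m, star (X m) * dzb m (fun w => ((Rc h A t w : ℝ) : ℂ)) z =
        (starRingEnd ℂ) (∑ k, X k * dz k (fun w => ((Rc h A t w : ℝ) : ℂ)) z) := by
      rw [map_sum]
      refine Finset.sum_congr rfl fun m _ => ?_
      rw [map_mul, dzb_ofReal]
      rfl
    rw [this, Complex.conj_re]
  rw [e1] at h2
  rw [(F.dt_Rc ht hz).deriv]
  have e2 : ((((t ^ 2)⁻¹ : ℝ) : ℂ) * ((t : ℂ) * ((h t z)⁻¹ * A t z).trace)).re =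
      Rc h A t z / t := by
    rw [← mul_assoc, ← Complex.ofReal_mul, Complex.re_ofReal_mul]
    unfold Rc
    field_simp
  have e3 : ((((t ^ 2)⁻¹ : ℝ) : ℂ) * (((t ^ 2 : ℝ) : ℂ) * ((h t z)⁻¹ * At t z).trace)).re =
      (((h t z)⁻¹ * At t z).trace).re := by
    rw [← mul_assoc, ← Complex.ofReal_mul, inv_mul_cancel₀ (by positivity), Complex.ofReal_one,
      one_mul]
  have e4 : ((((t ^ 2)⁻¹ : ℝ) : ℂ) * (((t ^ 2 : ℝ) : ℂ) *
      ((h t z)⁻¹ * (A t z * (h t z)⁻¹ * A t z)).trace)).re =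
      (((h t z)⁻¹ * A t z * (h t z)⁻¹ * A t z).trace).re := by
    rw [← mul_assoc, ← Complex.ofReal_mul, inv_mul_cancel₀ (by positivity), Complex.ofReal_one,
      one_mul]
    simp only [Matrix.mul_assoc]
  rw [mul_add, mul_add, mul_add, Complex.add_re, Complex.add_re, e2, e3, e4] at h2
  rw [Complex.add_re]
  linarith

/-- the flow at a point of the chart. -/
theorem pointFlow (F : ChartFlow U h A At)
    (hG : ∀ x : CE (ι ⊕ Unit), dBase x ∈ U → ∀ Y : ι ⊕ Unit → ℂ, (griffM (ltM h) x Y).PosSemidef)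
    (hz : z ∈ U) : PointFlow (fun s => h s z) (fun s => A s z) (fun s => At s z) :=
  ⟨fun t ht => F.pos t ht z hz, fun _ ht => F.A_isHermitian ht hz, fun t ht => F.dt_h t ht z hz,
    fun t ht => F.dt_A t ht z hz, fun _ ht => F.harM_posSemidef hG ht hz⟩

end ChartFlow
end Claimed.Agent.R316
end

/- ===== packed: Claimed.Agent.R316.S7.H1.Main ===== -/
section
/-!
# Row 316, BP-S7-1a, leaves L-S7-1a-8 (fields `bisec … mono`, ~500 lines) and L-S7-1a-9 (`ric_pos`, `ric_lower`, `power`, `R_o_le`, ~700 lines): assembly on the manifold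

BOTH PROVED (helper11): no `sorry` in this file.

## L-S7-1a-8
`F = fc_chartFlow D hg hΦ`, `hG = h1_griff …`.
* `h1_bisec`: `bisec_eq_griffM`; `t > 0`: `F.griffM_posSemidef`, `qf_nonneg`.  `t = 0`: `griffM_congr` with `fc_h_zero` on the open `U`, `bisec_eq_griffM` back, `I.bisec` (if `v = 0` or `w = 0` the value is `0`: `qf_zero_vec`, `griffM … 0 = 0`).
* `h1_matrix`: `F.harM_posSemidef` is the statement (`harM` unfolds).
* `h1_scalar`: `F.scalar`; replace `Rc` by `D.R` : `fc_R_chart` for all `s > 0` near `t` (`Filter.EventuallyEq.deriv_eq`) and for all `w ∈ U` near `z` (`dz_congr`).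
* `h1_mono`: for `v` the function `s ↦ qf (D.h s Φ z) v` is antitone on `Ioi 0` (`PointFlow.qf_h_antitone`, `F.A_posSemidef`) and continuous on `Ici 0` (`fc_contDiffOn_h`, `contDiffOn_timeline`), hence antitone on `Ici 0` (limit `s ↓ 0`: `ge_of_tendsto`/`ContinuousWithinAt.closure_le`);
  `posSemidef_sub_iff_qf`.

## L-S7-1a-9
* `h1_point_invariance`: `IsHForm.compat` for `A` and `B`: `(B - A) Φ z = Jᴴ ((B - A) Ψ w) J` (`CMfd.trans_eq`), `Matrix.PosSemidef.conjTranspose_mul_mul_same`/`loewner_conj`.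
* `h1_lower_on_compact`: for `x ∈ K` take the chosen chart `Ψ = 𝓜.pΦ x` at `w = 𝓜.co x`; `posDef_ge_smul` gives `2 a_x`; by continuity of the entries `A Ψ w' - a_x h Ψ w'` stays positive definite for `w'` near `w` (`eventually_posDef`); the image of this neighbourhood is a neighbourhood of `x` in the carrier (`IsParam.exists_isOpen_image`);
  finite subcover of `K`, `a = min a_x`; `h1_point_invariance` passes to all charts; `loewner_smul_le`.
* `h1_ricF_posDef`: `qf (ricF g Φ z) X = tr (g⁻¹ griffM (g Φ) z X)` (`trace_inv_mul_griffM`); `griffM (g Φ) z X` is positive definite for `X ≠ 0` (`bisec_eq_griffM`, `I.bisec`, `griffM_isHermitian`, `posDef_iff_qf`), nonzero because `0 < n` (`I.n_pos`); `trace_mul_pos`.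
* `h1_ric_pos`: `t = 0`: `fc_ric_zero`, `h1_ricF_posDef`.  `t > 0`: `s ↦ D.ric s Φ z` is continuous on `Ici 0` at `0` with positive definite value: some `t₀ ∈ (0, t]` has `D.ric t₀ Φ z` positive definite
  (quantitatively: `D.ric 0 ≥ 2c`, entries close; or `eventually_posDef` transported to `𝓝[≥] 0`); `posDef_ge_smul` (`P = t₀ A t₀`, `Q = h t₀`): `λ > 0`; `PointFlow.propagate`: `t A t ≥ λ h t`, positive definite (`posDef_of_loewner`).
* `h1_ric_lower`: `h1_lower_on_compact` at time `1` (`A = D.ric 1`, `h = D.h 1`), `PointFlow.propagate` from `t₀ = 1`, divide by `t`.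
* `h1_power`: `C = 1`, `a` from `h1_ric_lower`; `PointFlow.decay`; `qf (D.h 1 Φ z) v ≤ qf (g Φ z) v` (`D.le_g 1`).
* `h1_R_o_le`: `basepoint_bound` with `R = D.R · o`, `ρ = D.rho · o` (`fc_dt_rho`, `fc_R_continuousOn`, `D.P_nonpos`, `D.rho_ptw`); monotonicity of `t R` from `h1_scalar` with `X = 0` in the chosen chart at `o` (`mul_monotone_of_harnack`; differentiability from `ChartFlow.dt_Rc` + `fc_R_chart`).
-/

set_option autoImplicit false
set_option linter.unusedSectionVars false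
open scoped ContDiff ComplexOrder Topology Matrix

namespace Claimed.Agent.R316

variable {V : Type} [NormedAddCommGroup V] [NormedSpace ℝ V] [MeasurableSpace V] [BorelSpace V]
variable {n : ℕ} {𝓜 : CMfd V (Fin n)} {g : HFam V (Fin n)} {o : V}
variable (D : FlowData 𝓜 g o)
variable {Φ Ψ : CE (Fin n) → V} {U W : Set (CE (Fin n))} {t : ℝ} {z w : CE (Fin n)}

/-- joint positivity ⟹ Griffiths nonnegativity of the pulled back metric, in every chart. -/
theorem h1_griff (I : InitialData 𝓜 g) (hJ : StJointPositivity D) (hΦ : 𝓜.IsHol Φ U)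
    (x : CE (Fin n ⊕ Unit)) (hx : dBase x ∈ U) (Y : Fin n ⊕ Unit → ℂ) :
    (griffM (ltM fun s => D.h s Φ) x Y).PosSemidef :=
  griffM_ltM_posSemidef (fc_chartFlow D I.kahler.toIsMetric hΦ)
    (fc_jointNorm_contDiffOn D I.kahler.toIsMetric hΦ) (fun p hp => hJ Φ U hΦ p hp) hx Y

theorem h1_pointFlow (I : InitialData 𝓜 g) (hJ : StJointPositivity D) (hΦ : 𝓜.IsHol Φ U)
    (hz : z ∈ U) :
    PointFlow (fun s => D.h s Φ z) (fun s => D.ric s Φ z) (fun s => D.ricDt s Φ z) :=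
  (fc_chartFlow D I.kahler.toIsMetric hΦ).pointFlow (h1_griff D I hJ hΦ) hz


/-! ### L-S7-1a-8 -/

theorem h1_griffM_zero {ι : Type} [Fintype ι] [DecidableEq ι] (H : CE ι → Matrix ι ι ℂ)
    (x : CE ι) : griffM H x 0 = 0 := by
  unfold griffM
  simp

theorem h1_bisec (I : InitialData 𝓜 g) (hJ : StJointPositivity D) (ht : 0 ≤ t) :
    BisecNonneg 𝓜 (D.h t) := by
  intro Φ U hΦ z hz v w
  rw [bisec_eq_griffM]
  rcases eq_or_lt_of_le ht with h0 | h0
  · subst h0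
    have e : griffM (D.h 0 Φ) z w = griffM (g Φ) z w := by
      apply griffM_congr
      filter_upwards [(CMfd.isOpen_dom hΦ).mem_nhds hz] with y hy
      exact fc_h_zero D hΦ hy
    rw [e, ← bisec_eq_griffM]
    by_cases hv : v = 0
    · subst hv; rw [bisec_eq_griffM, qf_zero_vec]
    by_cases hw : w = 0
    · subst hw; rw [bisec_eq_griffM, h1_griffM_zero, qf_zero]
    exact (I.bisec Φ U hΦ z hz v w hv hw).le
  · exact qf_nonneg ((fc_chartFlow D I.kahler.toIsMetric hΦ).griffM_posSemidef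
      (h1_griff D I hJ hΦ) h0 hz w) v

theorem h1_matrix (I : InitialData 𝓜 g) (hJ : StJointPositivity D) (ht : 0 < t)
    (hΦ : 𝓜.IsHol Φ U) (hz : z ∈ U) :
    (D.ricDt t Φ z + D.ric t Φ z * (D.h t Φ z)⁻¹ * D.ric t Φ z +
      ((t⁻¹ : ℝ) : ℂ) • D.ric t Φ z).PosSemidef :=
  (fc_chartFlow D I.kahler.toIsMetric hΦ).harM_posSemidef (h1_griff D I hJ hΦ) ht hz

theorem h1_scalar (I : InitialData 𝓜 g) (hJ : StJointPositivity D) (ht : 0 < t)
    (hΦ : 𝓜.IsHol Φ U) (hz : z ∈ U) (X : Fin n → ℂ) :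
    0 ≤ deriv (fun s => D.R s (Φ z)) t + D.R t (Φ z) / t
      + 2 * (∑ k, X k * dz k (fun w => ((D.R t (Φ w) : ℝ) : ℂ)) z).re + qf (D.ric t Φ z) X := by
  have h1 := (fc_chartFlow D I.kahler.toIsMetric hΦ).scalar (h1_griff D I hJ hΦ) ht hz X
  have e1 : deriv (fun s => D.R s (Φ z)) t =
      deriv (fun s => Rc (fun s => D.h s Φ) (fun s => D.ric s Φ) s z) t := by
    apply Filter.EventuallyEq.deriv_eq
    filter_upwards [Ioi_mem_nhds ht] with s hs
    exact fc_R_chart D hΦ (le_of_lt hs) hz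
  have e2 : ∀ k, dz k (fun w => ((D.R t (Φ w) : ℝ) : ℂ)) z =
      dz k (fun w => ((Rc (fun s => D.h s Φ) (fun s => D.ric s Φ) t w : ℝ) : ℂ)) z := by
    intro k
    apply dz_congr
    filter_upwards [(CMfd.isOpen_dom hΦ).mem_nhds hz] with w hw
    rw [fc_R_chart D hΦ ht.le hw]
  rw [e1, fc_R_chart D hΦ ht.le hz]
  simp only [e2]
  exact h1

theorem h1_mono (I : InitialData 𝓜 g) (hJ : StJointPositivity D) {t' : ℝ} (ht : 0 ≤ t)
    (htt' : t ≤ t') : leF 𝓜 (D.h t') (D.h t) := by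
  intro Φ U hΦ z hz
  have hg : IsMetric 𝓜 g := I.kahler.toIsMetric
  rw [posSemidef_sub_iff_qf (fc_posDef D hΦ (ht.trans htt') hz).isHermitian
    (fc_posDef D hΦ ht hz).isHermitian]
  intro v
  have F := h1_pointFlow D I hJ hΦ hz
  have hc : ContinuousOn (fun s => qf (D.h s Φ z) v) (Set.Ici 0) :=
    (contDiffOn_qf (N := ∞) (H := fun s => D.h s Φ z) (v := fun _ => v)
      (fun j k => contDiffOn_timeline (F := fun q : ℝ × CE (Fin n) => D.h q.1 Φ q.2 j k)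
        (fc_contDiffOn_h D hg hΦ j k) hz) (fun _ => contDiffOn_const)).continuousOn
  have hm : AntitoneOn (fun s => qf (D.h s Φ z) v) (Set.Ici 0) := by
    apply antitoneOn_of_deriv_nonpos (convex_Ici 0) hc
    · rw [interior_Ici]
      exact fun x hx => (F.hasDerivAt_qf_h v hx).differentiableAt.differentiableWithinAt
    · rw [interior_Ici]
      intro x hx
      rw [(F.hasDerivAt_qf_h v hx).deriv]
      exact neg_nonpos.2 (qf_nonneg ((fc_chartFlow D hg hΦ).A_posSemidef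
        (h1_griff D I hJ hΦ) hx hz) v)
  exact hm (Set.mem_Ici.2 ht) (Set.mem_Ici.2 (ht.trans htt')) htt'


/-! ### L-S7-1a-9 -/

theorem h1_point_invariance {A B : HFam V (Fin n)} (hA : IsHForm 𝓜 A) (hB : IsHForm 𝓜 B)
    (hΦ : 𝓜.IsHol Φ U) (hΨ : 𝓜.IsHol Ψ W) (hz : z ∈ U) (hw : w ∈ W) (h : Φ z = Ψ w)
    (hle : (B Ψ w - A Ψ w).PosSemidef) : (B Φ z - A Φ z).PosSemidef := by
  have hmem : Φ z ∈ Ψ '' W := ⟨w, hw, h.symm⟩
  have e : Function.invFunOn Ψ W (Φ z) = w := CMfd.trans_eq hΦ hΨ hw h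
  rw [hA.compat hΦ hΨ z hz hmem, hB.compat hΦ hΨ z hz hmem, e]
  exact loewner_conj hle _

theorem h1_lower_on_compact {A h : HFam V (Fin n)} (hA : IsHForm 𝓜 A) (hh : IsMetric 𝓜 h)
    (hpos : ∀ (Φ : CE (Fin n) → V) (U : Set (CE (Fin n))), 𝓜.IsHol Φ U → ∀ z ∈ U, (A Φ z).PosDef)
    {K : Set V} (hK : IsCompact K) (hKM : K ⊆ 𝓜.carrier) :
    ∃ a : ℝ, 0 < a ∧ leFOn 𝓜 K (smulF (fun _ => a) h) A := by
  have hsm : ∀ a : ℝ, IsHForm 𝓜 (smulF (fun _ => a) h) := fun a =>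
    IsHForm.smulF (CMfd.smooth_of_contDiff contDiff_const) hh.toIsHForm
  refine hK.induction_on (p := fun S => ∃ a : ℝ, 0 < a ∧ leFOn 𝓜 S (smulF (fun _ => a) h) A)
    ⟨1, one_pos, fun Φ U _ z _ hzS => hzS.elim⟩ ?_ ?_ ?_
  · rintro S T hST ⟨a, ha, hT⟩
    exact ⟨a, ha, fun Φ U hΦ z hz hzS => hT Φ U hΦ z hz (hST hzS)⟩
  · rintro S T ⟨a, ha, hS⟩ ⟨b, hb, hT⟩
    refine ⟨min a b, lt_min ha hb, fun Φ U hΦ z hz hzS => ?_⟩
    rcases hzS with hzS | hzS
    · exact loewner_trans (loewner_smul_le (min_le_left a b) (hh.posDef hΦ z hz).posSemidef)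
        (hS Φ U hΦ z hz hzS)
    · exact loewner_trans (loewner_smul_le (min_le_right a b) (hh.posDef hΦ z hz).posSemidef)
        (hT Φ U hΦ z hz hzS)
  · intro x hx
    have hxM := hKM hx
    have hΨ := 𝓜.isHol_pΦ hxM
    have hw := 𝓜.co_mem hxM
    have hxw := 𝓜.pΦ_co hxM
    obtain ⟨a, ha, hle⟩ := posDef_ge_smul (hpos _ _ hΨ _ hw) (hh.posDef hΨ _ hw).isHermitian
    have hpd : (A (𝓜.pΦ x) (𝓜.co x) - (((a / 2 : ℝ)) : ℂ) • h (𝓜.pΦ x) (𝓜.co x)).PosDef := by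
      have h1 : (((a / 2 : ℝ) : ℂ) • h (𝓜.pΦ x) (𝓜.co x)).PosDef :=
        posDef_smul_real (by positivity) (hh.posDef hΨ _ hw)
      have h2 := posDef_of_loewner h1 (B := A (𝓜.pΦ x) (𝓜.co x) -
        (((a / 2 : ℝ)) : ℂ) • h (𝓜.pΦ x) (𝓜.co x)) (by
          have e : A (𝓜.pΦ x) (𝓜.co x) - ((a / 2 : ℝ) : ℂ) • h (𝓜.pΦ x) (𝓜.co x) -
              ((a / 2 : ℝ) : ℂ) • h (𝓜.pΦ x) (𝓜.co x) =
              A (𝓜.pΦ x) (𝓜.co x) - ((a : ℝ) : ℂ) • h (𝓜.pΦ x) (𝓜.co x) := by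
            rw [sub_sub, ← add_smul, ← Complex.ofReal_add, add_halves]
          rw [e]; exact hle)
      exact h2
    have hUo := CMfd.isOpen_dom hΨ
    have hev : ∀ᶠ y in 𝓝 (𝓜.co x), (A (𝓜.pΦ x) y - (((a / 2 : ℝ)) : ℂ) • h (𝓜.pΦ x) y).PosDef := by
      apply eventually_posDef (H := fun y => A (𝓜.pΦ x) y - (((a / 2 : ℝ)) : ℂ) • h (𝓜.pΦ x) y)
      · intro j k
        have c1 := (hA.contDiffAt hΨ hw j k).continuousAt
        have c2 := (hh.toIsHForm.contDiffAt hΨ hw j k).continuousAt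
        exact c1.sub (continuousAt_const.mul c2)
      · filter_upwards [hUo.mem_nhds hw] with y hy
        exact (hA.herm hΨ y hy).sub (isHermitian_smul_real _ (hh.herm hΨ y hy))
      · exact hpd
    obtain ⟨N, hNsub, hNo, hwN⟩ := mem_nhds_iff.1 hev
    obtain ⟨O, hO, hOeq⟩ := (𝓜.isParam hΨ).exists_isOpen_image (hNo.inter hUo)
      Set.inter_subset_right
    have hxO : x ∈ O := by
      have : x ∈ 𝓜.carrier ∩ O := by
        rw [← hOeq]; exact ⟨_, ⟨hwN, hw⟩, hxw⟩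
      exact this.2
    refine ⟨O, mem_nhdsWithin_of_mem_nhds (hO.mem_nhds hxO), a / 2, by positivity, ?_⟩
    intro Φ U hΦ z hz hzO
    have hmem : Φ z ∈ 𝓜.pΦ x '' (N ∩ 𝓜.pU x) := by
      rw [hOeq]; exact ⟨CMfd.mem_carrier hΦ hz, hzO⟩
    obtain ⟨y, ⟨hyN, hyU⟩, hy⟩ := hmem
    exact h1_point_invariance (hsm (a / 2)) hA hΦ hΨ hz hyU hy.symm (hNsub hyN).posSemidef

theorem h1_ne_zero_of_posDef (hn : 0 < n) {M : Matrix (Fin n) (Fin n) ℂ} (hM : M.PosDef) :
    M ≠ 0 := by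
  intro h0
  have hv : (Pi.single (⟨0, hn⟩ : Fin n) (1 : ℂ) : Fin n → ℂ) ≠ 0 := by
    intro h
    have := congrFun h ⟨0, hn⟩
    simp at this
  have := qf_pos hM hv
  rw [h0, qf_zero] at this
  exact lt_irrefl _ this

theorem h1_ricF_posDef (I : InitialData 𝓜 g) (hΦ : 𝓜.IsHol Φ U) (hz : z ∈ U) :
    (ricF g Φ z).PosDef := by
  have hg : IsMetric 𝓜 g := I.kahler.toIsMetric
  have hUo := CMfd.isOpen_dom hΦ
  rw [posDef_iff_qf ((isHForm_ricF hg).herm hΦ z hz)]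
  intro X hX
  have h1 := trace_inv_mul_griffM (H := g Φ) hUo (fun j k => hg.smooth hΦ j k)
    (fun x hx => hg.posDef hΦ x hx) hz X
  show 0 < qf (- levi (fun y => Real.log (g Φ y).det.re) z) X
  rw [← h1]
  have hherm := griffM_isHermitian (H := g Φ) hUo (fun j k => hg.smooth hΦ j k)
    (fun x hx => hg.posDef hΦ x hx) hz X
  have hpd : (griffM (g Φ) z X).PosDef := by
    rw [posDef_iff_qf hherm]
    intro u hu
    rw [← bisec_eq_griffM]
    exact I.bisec Φ U hΦ z hz u X hu hX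
  exact trace_mul_pos (hg.posDef hΦ z hz).inv hpd.posSemidef (h1_ne_zero_of_posDef I.n_pos hpd)

theorem h1_ric_pos (I : InitialData 𝓜 g) (hJ : StJointPositivity D) (ht : 0 ≤ t)
    (hΦ : 𝓜.IsHol Φ U) (hz : z ∈ U) : (D.ric t Φ z).PosDef := by
  have hg : IsMetric 𝓜 g := I.kahler.toIsMetric
  have h0pd : (D.ric 0 Φ z).PosDef := by
    rw [fc_ric_zero D hΦ hz]; exact h1_ricF_posDef I hΦ hz
  rcases eq_or_lt_of_le ht with h0 | h0
  · subst h0; exact h0pd
  have F := h1_pointFlow D I hJ hΦ hz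
  have hcont : ∀ j k, ContinuousOn (fun s => D.ric s Φ z j k) (Set.Ici 0) := fun j k =>
    (contDiffOn_timeline (F := fun q : ℝ × CE (Fin n) => D.ric q.1 Φ q.2 j k)
      (fc_contDiffOn_ric D hg hΦ j k) hz).continuousOn
  have hev : ∀ᶠ s in 𝓝 (0 : ℝ), (D.ric (max s 0) Φ z).PosDef := by
    apply eventually_posDef (H := fun s : ℝ => D.ric (max s 0) Φ z)
    · intro j k
      have h1 : ContinuousWithinAt (fun s => D.ric s Φ z j k) (Set.Ici 0) (max (0 : ℝ) 0) := by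
        rw [max_self]; exact hcont j k 0 (Set.mem_Ici.2 le_rfl)
      have h2 : ContinuousWithinAt ((fun s => D.ric s Φ z j k) ∘ fun s : ℝ => max s 0)
          Set.univ 0 :=
        ContinuousWithinAt.comp (f := fun s : ℝ => max s 0) h1
          (continuous_id.max continuous_const).continuousWithinAt
          (fun s _ => Set.mem_Ici.2 (le_max_right s 0))
      exact (continuousWithinAt_univ _ _).1 h2
    · exact Filter.Eventually.of_forall fun s =>
        (fc_ric_isHForm D (le_max_right s 0)).herm hΦ z hz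
    · simpa using h0pd
  obtain ⟨ε, hε, hball⟩ := Metric.eventually_nhds_iff.1 hev
  set t₀ : ℝ := min t (ε / 2) with ht₀
  have ht₀pos : 0 < t₀ := lt_min h0 (by positivity)
  have hpd₀ : (D.ric t₀ Φ z).PosDef := by
    have h1 : dist t₀ 0 < ε := by
      rw [Real.dist_eq, sub_zero, abs_of_pos ht₀pos]
      exact lt_of_le_of_lt (min_le_right _ _) (by linarith)
    have := hball h1
    rwa [max_eq_left ht₀pos.le] at this
  obtain ⟨lam, hlam, hle⟩ := posDef_ge_smul (posDef_smul_real ht₀pos hpd₀)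
    (fc_posDef D hΦ ht₀pos.le hz).isHermitian
  have h2 := F.propagate ht₀pos (min_le_left _ _) hle
  have h3 : (((t : ℝ) : ℂ) • D.ric t Φ z).PosDef :=
    posDef_of_loewner (posDef_smul_real hlam (fc_posDef D hΦ ht hz)) h2
  have h4 := posDef_smul_real (inv_pos.2 h0) h3
  rwa [smul_smul, ← Complex.ofReal_mul, inv_mul_cancel₀ h0.ne', Complex.ofReal_one, one_smul] at h4

theorem h1_ric_lower (I : InitialData 𝓜 g) (hJ : StJointPositivity D) {K : Set V}
    (hK : IsCompact K) (hKM : K ⊆ 𝓜.carrier) :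
    ∃ a : ℝ, 0 < a ∧ ∀ t : ℝ, 1 ≤ t →
      leFOn 𝓜 K (smulF (fun _ => a / t) (D.h t)) (D.ric t) := by
  obtain ⟨a, ha, hle⟩ := h1_lower_on_compact (fc_ric_isHForm D zero_le_one)
    (fc_metric D zero_le_one) (fun Φ U hΦ z hz => h1_ric_pos D I hJ zero_le_one hΦ hz) hK hKM
  refine ⟨a, ha, fun t ht Φ U hΦ z hz hzK => ?_⟩
  have ht0 : 0 < t := lt_of_lt_of_le one_pos ht
  have F := h1_pointFlow D I hJ hΦ hz
  have h1 := hle Φ U hΦ z hz hzK
  have h2 := F.propagate (lam := a) one_pos ht (by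
    simpa [smulF] using h1)
  have h3 := posSemidef_smul_real (inv_pos.2 ht0).le h2
  rw [smul_sub, smul_smul, smul_smul, ← Complex.ofReal_mul, ← Complex.ofReal_mul,
    inv_mul_cancel₀ ht0.ne', Complex.ofReal_one, one_smul, inv_mul_eq_div] at h3
  exact h3

theorem h1_power (I : InitialData 𝓜 g) (hJ : StJointPositivity D) {K : Set V}
    (hK : IsCompact K) (hKM : K ⊆ 𝓜.carrier) :
    ∃ C a : ℝ, 0 < a ∧ ∀ t : ℝ, 1 ≤ t →
      leFOn 𝓜 K (D.h t) (smulF (fun _ => C * t ^ (-a)) g) := by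
  have hg : IsMetric 𝓜 g := I.kahler.toIsMetric
  obtain ⟨a, ha, hle⟩ := h1_ric_lower D I hJ hK hKM
  refine ⟨1, a, ha, fun t ht Φ U hΦ z hz hzK => ?_⟩
  have ht0 : 0 < t := lt_of_lt_of_le one_pos ht
  have F := h1_pointFlow D I hJ hΦ hz
  show (((1 * t ^ (-a) : ℝ) : ℂ) • g Φ z - D.h t Φ z).PosSemidef
  rw [posSemidef_sub_iff_qf (fc_posDef D hΦ ht0.le hz).isHermitian
    (isHermitian_smul_real _ (hg.herm hΦ z hz))]
  intro v
  rw [qf_smul, one_mul]
  have hdec := F.decay (a := a) (fun s hs => by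
    have hs0 : 0 < s := lt_of_lt_of_le one_pos hs
    have h1 := hle s hs Φ U hΦ z hz hzK
    have h2 := posSemidef_smul_real hs0.le h1
    simp only [smulF] at h2
    rw [smul_sub, smul_smul, ← Complex.ofReal_mul, mul_div_cancel₀ _ hs0.ne'] at h2
    exact h2) v ht
  have h3 : qf (D.h 1 Φ z) v ≤ qf (g Φ z) v := qf_mono (D.le_g 1 zero_le_one Φ U hΦ z hz) v
  exact hdec.trans (mul_le_mul_of_nonneg_left h3 (Real.rpow_nonneg ht0.le _))

theorem h1_R_o_le (I : InitialData 𝓜 g) (ho : o ∈ 𝓜.carrier) (hJ : StJointPositivity D) :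
    ∃ C : ℝ, ∀ t : ℝ, 0 ≤ t → D.R t o ≤ C := by
  obtain ⟨C, hC⟩ := D.rho_ptw o ho
  have hΦ := 𝓜.isHol_pΦ ho
  have hz := 𝓜.co_mem ho
  have hoz := 𝓜.pΦ_co ho
  have hdiff : ∀ t : ℝ, 0 < t → DifferentiableAt ℝ (fun s => D.R s o) t := by
    intro t ht
    have h1 : ContDiffOn ℝ ∞ (fun s => D.R s (𝓜.pΦ o (𝓜.co o))) (Set.Ici 0) :=
      contDiffOn_timeline (F := fun q : ℝ × CE (Fin n) => D.R q.1 (𝓜.pΦ o q.2))
        (D.R_smooth _ _ hΦ) hz
    rw [hoz] at h1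
    exact ((h1.contDiffAt (Ici_mem_nhds ht)).differentiableAt (by simp))
  have hhar : ∀ t : ℝ, 0 < t → 0 ≤ deriv (fun s => D.R s o) t + D.R t o / t := by
    intro t ht
    have h1 := h1_scalar D I hJ ht hΦ hz 0
    rw [hoz] at h1
    simpa [qf_zero_vec] using h1
  exact basepoint_bound (R := fun s => D.R s o) (ρ := fun s => D.rho s o) (C := C)
    (fc_R_continuousOn D ho) (fun t ht => fc_dt_rho D ho ht)
    (fun t ht => neg_nonneg.2 (D.P_nonpos t ht o ho)) hC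
    (fun s t hs hst => mul_monotone_of_harnack hdiff hhar hs hst)

/-- **Proposition 7.1, chartwise part.** -/
theorem harnackA (I : InitialData 𝓜 g) (ho : o ∈ 𝓜.carrier) (hJ : StJointPositivity D) :
    HarnackA D where
  bisec _ ht := h1_bisec D I hJ ht
  ric_pos _ ht _ _ hΦ _ hz := h1_ric_pos D I hJ ht hΦ hz
  matrix _ ht _ _ hΦ _ hz := h1_matrix D I hJ ht hΦ hz
  scalar _ ht _ _ hΦ _ hz X := h1_scalar D I hJ ht hΦ hz X
  mono _ _ ht htt' := h1_mono D I hJ ht htt'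
  R_o_le := h1_R_o_le D I ho hJ
  ric_lower _ hK hKM := h1_ric_lower D I hJ hK hKM
  power _ hK hKM := h1_power D I hJ hK hKM

/-- `St71` from the chartwise part and the two metric fields (BP-S7-1b). -/
theorem st71_of_parts
    (hint : InitialData 𝓜 g → o ∈ 𝓜.carrier → HarnackA D → ∃ C : ℝ, ∀ t t' : ℝ, 0 < t → t < t' →
      ∀ x ∈ 𝓜.carrier, ∀ y ∈ 𝓜.carrier,
        D.R t x ≤ D.R t' y * (t' / t) * Real.exp (C * hdist 𝓜 (D.h t) x y ^ 2 / (t' - t)))
    (hprop : InitialData 𝓜 g → o ∈ 𝓜.carrier → HarnackA D →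
      ∀ t : ℝ, 0 ≤ t → IsProperMetric 𝓜 (D.h t)) : St71 D := by
  intro I ho hJ
  have H := harnackA D I ho hJ
  exact ⟨H.bisec, hprop I ho H, H.ric_pos, H.matrix, H.scalar, H.mono, H.R_o_le, hint I ho H,
    H.ric_lower, H.power⟩

end Claimed.Agent.R316
end
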