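/- Packed by merge_tool.py (helper293): 6 modules of Claimed.Agent.R316 in one file, same declarations.
   Old modules, in this order: B9.ContDefs, Base.NiTam.Main, S7.Clk.Point, S7.Clk.Mfd, S7.Clk.Main, S9.Main -/
import Claimed.Agent.R316.S3.Defs
import Claimed.Agent.R316.CM.FormsST
import Claimed.Agent.R316.Base.NiTam.Hamilton
import Claimed.Agent.R316.Base.NiTam.Norm
import Claimed.Agent.R316.Base.NiTam.Cutoff
import Claimed.Agent.R316.Base.NiTam.Sol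
import Claimed.Agent.R316.S7.H1.Propagate
import Claimed.Agent.R316.Base.Metric.Api
import Claimed.Agent.R316.S9.Inst
import Claimed.Agent.R316.S9.Book
import Claimed.Agent.R316.Pack021
import Claimed.Agent.R316.Pack020_2

/- ===== packed: Claimed.Agent.R316.B9.ContDefs ===== -/
section
/-!
# Row 316, package B9: continuation of the Chern-Ricci potential flow (R3).  DEFINITIONS

(R3) `S3.StContinuation` is proved in `ContA.lean` as an adapter on `B8M.UAtlas.continuation` (helper111: short time existence, uniqueness, overlap gluing on a uniform atlas);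
`Cont.lean` contains the a priori estimates (from (R1)) in uniform charts.
-/

set_option autoImplicit false
open scoped ContDiff ComplexOrder Topology

namespace Claimed.Agent.R316.B9

/-- torsion of a matrix function. -/
noncomputable def torA {ι : Type} [Fintype ι] [DecidableEq ι] (A : CE ι → Matrix ι ι ℂ) (z : CE ι)
    (j k l : ι) : ℂ :=
  dz l (fun y => A y j k) z - dz k (fun y => A y j l) z

end Claimed.Agent.R316.B9
end

/- ===== packed: Claimed.Agent.R316.Base.NiTam.Main ===== -/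
section
/-!
# Row 316, `BP-G10`: the Ni-Tam tensor maximum principle: GLUE and EXPORTS

Owner: helper268.  Everything in this file is PROVED from the leaves `G10-1 … G10-10`.

* `nt_flow_nonneg`: a Hodge heat flow in the Karp-Li class with bounded nonnegative initial form stays nonnegative.
* `nt_potential`: the case `B_t = A₀ + dd v_t`, `∂_t v = Δv + tr A₀ + c₀`, `v`, `Δv` bounded (KERNEL FREE).
* `nt1_main`, `nt2_main`: the fields `nt1`, `nt2` of `HeatData` for any kernel with `NTKernel 𝓜 g Hk`.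
-/

set_option autoImplicit false
set_option linter.unusedSectionVars false
set_option linter.unusedVariables false
open scoped ContDiff ComplexOrder Topology
open MeasureTheory

namespace Claimed.Agent.R316

variable {V : Type} [NormedAddCommGroup V] [NormedSpace ℝ V] [FiniteDimensional ℝ V]
  [MeasurableSpace V] [BorelSpace V]
variable {n : ℕ}
variable {𝓜 : CMfd V (Fin n)} {g : HFam V (Fin n)} {o : V}

/-! ### 1. Hodge flows -/

/-- **Ni-Tam**: a Hodge heat flow with `|B_0|` bounded, `B_0 ≥ 0` and `|B|² e^{-c r²}` integrable on `[0,T] × M` stays nonnegative. -/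
theorem nt_flow_nonneg (S : AnaSetting 𝓜 g) (hb : BisecNonneg 𝓜 g) (KL : KarpLiP 𝓜 g)
    (ho : o ∈ 𝓜.carrier) {T : ℝ} (hT : 0 < T) {B : ℝ → HFam V (Fin n)} (hB : IsHodgeFlow 𝓜 g T B)
    {Λ : ℝ} (hΛ : ∀ x ∈ 𝓜.carrier, ipH 𝓜 g (B 0) (B 0) x ≤ Λ)
    (hint : ∃ c : ℝ, IntegrableOn
      (fun p : ℝ × V => ipH 𝓜 g (B p.1) (B p.1) p.2 * Real.exp (-(c * hdist 𝓜 g o p.2 ^ 2)))
      (Set.Icc 0 T ×ˢ Set.univ) (volume.prod (hvol 𝓜 g)))
    (h0 : leF 𝓜 0 (B 0)) : ∀ t ∈ Set.Icc (0 : ℝ) T, leF 𝓜 0 (B t) := by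
  have hm : IsMetric 𝓜 g := S.kahler.toIsMetric
  have hN := nt_norm_le S hb KL ho hT hB hΛ hint
  have hΛ0 : 0 ≤ Λ :=
    le_trans (ipH_self_nonneg hm (hB.form.form 0 ⟨le_rfl, hT.le⟩) ho) (hΛ o ho)
  refine nt_hamilton S hb hT hB (Λ := Real.sqrt Λ) (fun t ht => ?_) h0
  exact nt_neg_le_of_ipH_le hm (hB.form.form t ht) (Real.sqrt_nonneg _)
    (fun x hx => by rw [Real.sq_sqrt hΛ0]; exact hN t ht x hx)

/-- forms with a potential solving the inhomogeneous heat equation are Hodge flows. -/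
theorem nt_isHodgeFlow_of_potential (hg : IsKahler 𝓜 g) {T : ℝ} (hT : 0 < T) {A₀ : HFam V (Fin n)}
    (hA : IsHForm 𝓜 A₀) (hcl : IsClosedForm 𝓜 A₀) {v : ℝ → V → ℝ}
    (hv : 𝓜.SmoothST (Set.Icc 0 T) v) {c₀ : ℝ}
    (hvt : ∀ t ∈ Set.Icc (0 : ℝ) T, ∀ x ∈ 𝓜.carrier, HasDerivWithinAt (fun s => v s x)
      (lap 𝓜 g (v t) x + tr 𝓜 g A₀ x + c₀) (Set.Icc 0 T) t) :
    IsHodgeFlow 𝓜 g T (fun t => A₀ + ddc (v t)) := by
  have hI : IsTimeDom (Set.Icc (0 : ℝ) T) := isTimeDom_Icc hT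
  refine ⟨(isHFormST_const hA _).add (isHFormST_ddc hI hv), fun t ht => ?_, ?_⟩
  · exact IsClosedForm.add hA (isHForm_ddc (hv.smooth ht)) hcl (isClosedForm_ddc (hv.smooth ht))
  · intro Φ U hΦ z hz t ht j k
    have h1 := (hasDerivWithinAt_ddc hI hv hvt hΦ hz ht j k).const_add (A₀ Φ z j k)
    have h2 : (fun x => lap 𝓜 g (v t) x + tr 𝓜 g A₀ x + c₀)
        = fun x => tr 𝓜 g (A₀ + ddc (v t)) x + c₀ := by
      funext x
      have := tr_add 𝓜 g A₀ (ddc (v t)) x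
      have h3 : tr 𝓜 g (A₀ + ddc (v t)) x = tr 𝓜 g A₀ x + tr 𝓜 g (ddc (v t)) x := this
      rw [h3, lap_eq_tr]; ring
    rw [h2, ddc_add_const] at h1
    exact h1

/-! ### 2. the kernel free theorem -/

/-- **Ni-Tam for forms with a bounded potential** (kernel free). -/
theorem nt_potential (S : AnaSetting 𝓜 g) (hb : BisecNonneg 𝓜 g) (KL : KarpLiP 𝓜 g)
    (VC : VolComparison 𝓜 g) {T : ℝ} (hT : 0 < T) {A₀ : HFam V (Fin n)} (hA : IsHForm 𝓜 A₀)
    (hcl : IsClosedForm 𝓜 A₀) {Λ₀ : ℝ} (hΛ₀ : ∀ x ∈ 𝓜.carrier, ipH 𝓜 g A₀ A₀ x ≤ Λ₀)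
    {v : ℝ → V → ℝ} (hv : 𝓜.SmoothST (Set.Icc 0 T) v) {c₀ : ℝ}
    (hvt : ∀ t ∈ Set.Icc (0 : ℝ) T, ∀ x ∈ 𝓜.carrier, HasDerivWithinAt (fun s => v s x)
      (lap 𝓜 g (v t) x + tr 𝓜 g A₀ x + c₀) (Set.Icc 0 T) t)
    {M₀ M₁ Λ₁ : ℝ} (hM₀ : ∀ t ∈ Set.Icc (0 : ℝ) T, ∀ x ∈ 𝓜.carrier, |v t x| ≤ M₀)
    (hM₁ : ∀ t ∈ Set.Icc (0 : ℝ) T, ∀ x ∈ 𝓜.carrier, |lap 𝓜 g (v t) x| ≤ M₁)
    (hΛ₁ : ∀ x ∈ 𝓜.carrier, ipH 𝓜 g (ddc (v 0)) (ddc (v 0)) x ≤ Λ₁)
    (h0 : leF 𝓜 0 (A₀ + ddc (v 0))) :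
    ∀ t ∈ Set.Icc (0 : ℝ) T, leF 𝓜 0 (A₀ + ddc (v t)) := by
  have hm : IsMetric 𝓜 g := S.kahler.toIsMetric
  obtain ⟨o, ho⟩ := S.conn.nonempty
  have hB := nt_isHodgeFlow_of_potential S.kahler hT hA hcl hv hvt
  have h0T : (0 : ℝ) ∈ Set.Icc (0 : ℝ) T := ⟨le_rfl, hT.le⟩
  have hΛ₀0 : 0 ≤ Λ₀ := le_trans (ipH_self_nonneg hm hA ho) (hΛ₀ o ho)
  obtain ⟨C, hC0, hC⟩ := nt_Vb_le VC ho
  obtain ⟨K, hK0, hK⟩ := nt_ball_bound S VC ho M₀ M₁
  refine nt_flow_nonneg S hb KL ho hT hB (Λ := 2 * Λ₀ + 2 * Λ₁) (fun x hx => ?_) ⟨1, ?_⟩ h0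
  · have h1 := nt_ipH_add_le hm hA (isHForm_ddc (hv.smooth h0T)) hx
    have h2 := hΛ₀ x hx
    have h3 := hΛ₁ x hx
    linarith
  · have hcont := (smoothST_ipH (isMetricST_const hm (Set.Icc (0 : ℝ) T)) hB.form hB.form).continuousOn
    have key := nt_integrableOn_st S ho
      (F := fun t x => ipH 𝓜 g (A₀ + ddc (v t)) (A₀ + ddc (v t)) x) (T := T)
      (K := 2 * Λ₀ * C + 2 * K) (q := 2 * n) (c := 1) hcont
      (fun t ht x hx => ipH_self_nonneg hm (hB.form.form t ht) hx) ?_ one_pos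
    · simpa only [one_mul] using key
    · intro t ht R hR
      have hsm : 𝓜.Smooth (v t) := hv.smooth ht
      have hd : IsHForm 𝓜 (ddc (v t)) := isHForm_ddc hsm
      have hi1 : IntegrableOn (fun x => ipH 𝓜 g (A₀ + ddc (v t)) (A₀ + ddc (v t)) x)
          (hball 𝓜 g o R) (hvol 𝓜 g) :=
        nt_integrableOn_hball S ho (smooth_ipH hm (hB.form.form t ht) (hB.form.form t ht)).continuousOn R
      have hi2 : IntegrableOn (fun x => ipH 𝓜 g (ddc (v t)) (ddc (v t)) x)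
          (hball 𝓜 g o R) (hvol 𝓜 g) :=
        nt_integrableOn_hball S ho (smooth_ipH hm hd hd).continuousOn R
      have hi3 : IntegrableOn (fun _ : V => 2 * Λ₀) (hball 𝓜 g o R) (hvol 𝓜 g) :=
        nt_integrableOn_hball S ho continuousOn_const R
      have hle : ∫ x in hball 𝓜 g o R, ipH 𝓜 g (A₀ + ddc (v t)) (A₀ + ddc (v t)) x ∂(hvol 𝓜 g) ≤
          ∫ x in hball 𝓜 g o R, (2 * Λ₀ + 2 * ipH 𝓜 g (ddc (v t)) (ddc (v t)) x) ∂(hvol 𝓜 g) := by
        refine setIntegral_mono_on hi1 (hi3.add (hi2.const_mul 2))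
          (measurableSet_hball hm S.conn o R) (fun x hx => ?_)
        have h1 := nt_ipH_add_le hm hA hd hx.1
        have h2 := hΛ₀ x hx.1
        linarith
      have heq : ∫ x in hball 𝓜 g o R, (2 * Λ₀ + 2 * ipH 𝓜 g (ddc (v t)) (ddc (v t)) x) ∂(hvol 𝓜 g)
          = 2 * Λ₀ * Vb 𝓜 g o R
            + 2 * ∫ x in hball 𝓜 g o R, ipH 𝓜 g (ddc (v t)) (ddc (v t)) x ∂(hvol 𝓜 g) := by
        rw [integral_add hi3 (hi2.const_mul 2), nt_setIntegral_const_hball VC ho, integral_const_mul]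
      have h4 := hC R hR
      have h5 := hK (v t) hsm (hM₀ t ht) (hM₁ t ht) R hR
      have h6 : 2 * Λ₀ * Vb 𝓜 g o R ≤ 2 * Λ₀ * (C * R ^ (2 * n)) :=
        mul_le_mul_of_nonneg_left h4 (by positivity)
      calc _ ≤ _ := hle
        _ = _ := heq
        _ ≤ 2 * Λ₀ * (C * R ^ (2 * n)) + 2 * (K * R ^ (2 * n)) := by linarith
        _ = (2 * Λ₀ * C + 2 * K) * R ^ (2 * n) := by ring

/-! ### 3. the kernel -/

section kernel

variable {Hk : ℝ → V → V → ℝ}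

theorem ntU_zero (𝓜 : CMfd V (Fin n)) (g : HFam V (Fin n)) (Hk : ℝ → V → V → ℝ) (f : V → ℝ) :
    ntU 𝓜 g Hk f 0 = f := by
  funext x; simp [ntU]

theorem ntU_of_ne (𝓜 : CMfd V (Fin n)) (g : HFam V (Fin n)) (Hk : ℝ → V → V → ℝ) (f : V → ℝ)
    {t : ℝ} (ht : t ≠ 0) : ntU 𝓜 g Hk f t = fun x => ∫ y, Hk t x y * f y ∂(hvol 𝓜 g) := by
  funext x; simp [ntU, ht]

/-- `|P_t f| ≤ sup |f|`. -/
theorem nt_abs_ntU_le (NK : NTKernel 𝓜 g Hk) {f : V → ℝ} {A : ℝ}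
    (hA : ∀ y ∈ 𝓜.carrier, |f y| ≤ A) {t : ℝ} (ht : 0 ≤ t) {x : V} (hx : x ∈ 𝓜.carrier) :
    |ntU 𝓜 g Hk f t x| ≤ A := by
  rcases ht.eq_or_lt with rfl | ht
  · rw [ntU_zero]; exact hA x hx
  · rw [ntU_of_ne 𝓜 g Hk f ht.ne']
    have h1 : |∫ y, Hk t x y * f y ∂(hvol 𝓜 g)| ≤ ∫ y, |Hk t x y * f y| ∂(hvol 𝓜 g) := by
      simpa only [Real.norm_eq_abs] using
        norm_integral_le_integral_norm (μ := hvol 𝓜 g) (fun y => Hk t x y * f y)
    have h2 : ∫ y, |Hk t x y * f y| ∂(hvol 𝓜 g) ≤ ∫ y, Hk t x y * A ∂(hvol 𝓜 g) := by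
      refine integral_mono_of_nonneg (Filter.Eventually.of_forall fun y => abs_nonneg _)
        ((NK.integrable t ht x hx).mul_const A) (ae_hvol_of_forall_mem fun y hy => ?_)
      show |Hk t x y * f y| ≤ Hk t x y * A
      rw [abs_mul, abs_of_pos (NK.pos t ht x hx y hy)]
      exact mul_le_mul_of_nonneg_left (hA y hy) (NK.pos t ht x hx y hy).le
    have h3 : ∫ y, Hk t x y * A ∂(hvol 𝓜 g) = A := by
      rw [integral_mul_const, NK.mass t ht x hx, one_mul]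
    linarith

/-- the solution with smooth initial value, on `[0,T]`. -/
theorem nt_isHeatSol_ntU (hm : IsMetric 𝓜 g) (NK : NTKernel 𝓜 g Hk) (ho : o ∈ 𝓜.carrier)
    {f : V → ℝ} (hf : 𝓜.Smooth f) (hG : SubGauss 𝓜 g o f) {T : ℝ} (hT : 0 < T) :
    IsHeatSol 𝓜 g (Set.Icc 0 T) (ntU 𝓜 g Hk f) := by
  refine nt_isHeatSol_of_Ioc hm hT ((NK.init o ho f hG hf).mono Set.Icc_subset_Ici_self) ?_
  intro t ht x hx
  have h1 := (NK.sol o ho f hG).2 t ht.1 x hx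
  rw [ntU_of_ne 𝓜 g Hk f ht.1.ne']
  refine (h1.congr_of_eventuallyEq ?_).hasDerivWithinAt
  filter_upwards [isOpen_ne.mem_nhds ht.1.ne'] with s hs
  rw [ntU_of_ne 𝓜 g Hk f hs]

end kernel

/-! ### 4. small facts on forms -/

theorem nt_ipH_zero (𝓜 : CMfd V (Fin n)) (g : HFam V (Fin n)) {B : HFam V (Fin n)} {x : V}
    (hB : B (𝓜.pΦ x) (𝓜.co x) = 0) : ipH 𝓜 g B B x = 0 := by
  simp [ipH, ipF, CMfd.scal, hB]

/-- the Hessian of a smooth function which is constant outside a compact set is bounded. -/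
theorem nt_exists_ipH_ddc_le (hm : IsMetric 𝓜 g) {f : V → ℝ} (hf : 𝓜.Smooth f) {K : Set V}
    (hK : IsCompact K) (hKc : K ⊆ 𝓜.carrier) {c : ℝ} (hc : ∀ y ∈ 𝓜.carrier, y ∉ K → f y = c) :
    ∃ Λ : ℝ, ∀ x ∈ 𝓜.carrier, ipH 𝓜 g (ddc f) (ddc f) x ≤ Λ := by
  have hcont : ContinuousOn (ipH 𝓜 g (ddc f) (ddc f)) 𝓜.carrier :=
    (smooth_ipH hm (isHForm_ddc hf) (isHForm_ddc hf)).continuousOn
  obtain ⟨Λ, hΛ⟩ := hK.exists_bound_of_continuousOn (hcont.mono hKc)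
  refine ⟨max Λ 0, fun x hx => ?_⟩
  by_cases hxK : x ∈ K
  · exact le_trans (le_trans (le_abs_self _) (hΛ x hxK)) (le_max_left _ _)
  · refine le_trans (le_of_eq (nt_ipH_zero 𝓜 g ?_)) (le_max_right _ _)
    have he : f =ᶠ[𝓝[𝓜.carrier] (𝓜.pΦ x (𝓜.co x))] fun _ => c := by
      rw [CMfd.pΦ_co 𝓜 hx]
      have h1 : Kᶜ ∈ 𝓝 x := hK.isClosed.isOpen_compl.mem_nhds hxK
      filter_upwards [mem_nhdsWithin_of_mem_nhds h1, self_mem_nhdsWithin] with y hy hy'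
      exact hc y hy' hy
    rw [ddc_congr_of_eventuallyEq (CMfd.isHol_pΦ 𝓜 hx) (CMfd.co_mem 𝓜 hx) he, ddc_const]

/-- boundedness of such a function. -/
theorem nt_exists_abs_le {f : V → ℝ} (hf : 𝓜.Smooth f) {K : Set V}
    (hK : IsCompact K) (hKc : K ⊆ 𝓜.carrier) {c : ℝ} (hc : ∀ y ∈ 𝓜.carrier, y ∉ K → f y = c) :
    ∃ A : ℝ, ∀ x ∈ 𝓜.carrier, |f x| ≤ A := by
  obtain ⟨A, hA⟩ := hK.exists_bound_of_continuousOn (hf.continuousOn.mono hKc)
  refine ⟨max A |c|, fun x hx => ?_⟩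
  by_cases hxK : x ∈ K
  · exact le_trans (hA x hxK) (le_max_left _ _)
  · rw [hc x hx hxK]; exact le_max_right _ _

/-- `|Δf| ≤ √(n |dd f|²)`. -/
theorem nt_abs_lap_le_of_ipH (hm : IsMetric 𝓜 g) {f : V → ℝ} (hf : 𝓜.Smooth f) {Λ : ℝ} {x : V}
    (hx : x ∈ 𝓜.carrier) (hΛ : ipH 𝓜 g (ddc f) (ddc f) x ≤ Λ) :
    |lap 𝓜 g f x| ≤ Real.sqrt (n * Λ) := by
  have h1 := tr_sq_le_card_mul_ipH hm (isHForm_ddc hf) hx
  rw [Fintype.card_fin] at h1
  refine Real.abs_le_sqrt (le_trans h1 ?_)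
  exact mul_le_mul_of_nonneg_left hΛ (Nat.cast_nonneg n)

/-! ### 5. EXPORTS -/

section exports

variable {Hk : ℝ → V → V → ℝ}

/-- **the field `nt1` of `HeatData`** (Hessian preservation (2.6)). -/
theorem nt1_main (S : AnaSetting 𝓜 g) (hb : BisecNonneg 𝓜 g) (KL : KarpLiP 𝓜 g)
    (NK : NTKernel 𝓜 g Hk) :
    ∀ (f : V → ℝ) (C c : ℝ) (K : Set V), 𝓜.Smooth f → IsCompact K → K ⊆ 𝓜.carrier →
    (∀ y ∈ 𝓜.carrier, y ∉ K → f y = c) → 0 ≤ C → leF 𝓜 (ddc f) (smulF (fun _ => C) g) →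
    ∀ a : ℝ, 0 < a → leF 𝓜 (ddc (fun x => ∫ y, Hk a x y * f y ∂(hvol 𝓜 g))) (smulF (fun _ => C) g) := by
  intro f C c K hf hK hKc hc hC hle a ha
  have hm : IsMetric 𝓜 g := S.kahler.toIsMetric
  obtain ⟨o, ho⟩ := S.conn.nonempty
  obtain ⟨A, hA⟩ := nt_exists_abs_le hf hK hKc hc
  obtain ⟨Λ, hΛ⟩ := nt_exists_ipH_ddc_le hm hf hK hKc hc
  have hG : SubGauss 𝓜 g o f := nt_subGauss_of_bounded S NK.vol ho hf.continuousOn hA
  have hu : IsHeatSol 𝓜 g (Set.Icc 0 a) (ntU 𝓜 g Hk f) := nt_isHeatSol_ntU hm NK ho hf hG ha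
  have hbd : ∀ t ∈ Set.Icc (0 : ℝ) a, ∀ x ∈ 𝓜.carrier, |ntU 𝓜 g Hk f t x| ≤ A :=
    fun t ht x hx => nt_abs_ntU_le NK hA ht.1 hx
  have hL : ∀ t ∈ Set.Icc (0 : ℝ) a, ∀ x ∈ 𝓜.carrier,
      |lap 𝓜 g (ntU 𝓜 g Hk f t) x| ≤ Real.sqrt (n * Λ) :=
    nt_abs_lap_le S ha hu hbd (fun x hx => by
      rw [ntU_zero]; exact nt_abs_lap_le_of_ipH hm hf hx (hΛ x hx))
  have hA₀ : IsHForm 𝓜 (smulF (fun _ => C) g) := IsHForm.smulF (CMfd.smooth_const C) hm.toIsHForm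
  have hcl : IsClosedForm 𝓜 (smulF (fun _ => C) g) :=
    IsClosedForm.smul_real C hm.toIsHForm S.kahler.closed
  have key := nt_potential S hb KL NK.vol ha hA₀ hcl (Λ₀ := C ^ 2 * n)
    (fun x hx => (nt_ipH_smulF_const hm C hx).le)
    (v := fun t x => - ntU 𝓜 g Hk f t x) hu.1.neg (c₀ := -(C * n))
    (fun t ht x hx => by
      have h1 := (hu.2 t ht x hx).neg
      have h2 : lap 𝓜 g (fun x => - ntU 𝓜 g Hk f t x) x + tr 𝓜 g (smulF (fun _ => C) g) x + -(C * n)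
          = - lap 𝓜 g (ntU 𝓜 g Hk f t) x := by
        rw [lap_neg, tr_smulF g g (fun _ => C) hx, tr_self hm hx, Fintype.card_fin]; ring
      rw [h2]; exact h1)
    (M₀ := A) (M₁ := Real.sqrt (n * Λ)) (Λ₁ := Λ)
    (fun t ht x hx => by rw [abs_neg]; exact hbd t ht x hx)
    (fun t ht x hx => by rw [lap_neg, abs_neg]; exact hL t ht x hx)
    (fun x hx => by
      have h1 : (ddc (fun x => - ntU 𝓜 g Hk f 0 x) : HFam V (Fin n)) = fun Φ z => - ddc f Φ z := by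
        funext Φ z; rw [ddc_neg, ntU_zero]
      rw [h1, nt_ipH_neg]; exact hΛ x hx)
    (fun Φ U hΦ z hz => by
      have h1 := hle Φ U hΦ z hz
      have h2 : (smulF (fun _ => C) g + ddc (fun x => - ntU 𝓜 g Hk f 0 x) : HFam V (Fin n)) Φ z
            - (0 : HFam V (Fin n)) Φ z
          = smulF (fun _ => C) g Φ z - ddc f Φ z := by
        simp only [Pi.add_apply, Pi.zero_apply, sub_zero]
        rw [ddc_neg, ntU_zero, sub_eq_add_neg]
      rw [h2]; exact h1)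
    a ⟨ha.le, le_rfl⟩
  intro Φ U hΦ z hz
  have h1 := key Φ U hΦ z hz
  have h2 : (smulF (fun _ => C) g + ddc (fun x => - ntU 𝓜 g Hk f a x) : HFam V (Fin n)) Φ z
        - (0 : HFam V (Fin n)) Φ z
      = smulF (fun _ => C) g Φ z - ddc (fun x => ∫ y, Hk a x y * f y ∂(hvol 𝓜 g)) Φ z := by
    simp only [Pi.add_apply, Pi.zero_apply, sub_zero]
    rw [ddc_neg, ntU_of_ne 𝓜 g Hk f ha.ne', sub_eq_add_neg]
  rw [h2] at h1; exact h1

/-- **the field `nt2` of `HeatData`** (the Hodge heat flow of a closed form `0 ≤ A ≤ g` stays nonnegative). -/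
theorem nt2_main (S : AnaSetting 𝓜 g) (hb : BisecNonneg 𝓜 g) (KL : KarpLiP 𝓜 g)
    (NK : NTKernel 𝓜 g Hk) :
    ∀ A : HFam V (Fin n), IsHForm 𝓜 A → IsClosedForm 𝓜 A → leF 𝓜 0 A → leF 𝓜 A g →
    ∀ b : ℝ, 0 < b →
      𝓜.Smooth (fun x => ∫ s in (0 : ℝ)..b, ∫ y, Hk s x y * tr 𝓜 g A y ∂(hvol 𝓜 g)) ∧
      leF 𝓜 0 (A + ddc (fun x => ∫ s in (0 : ℝ)..b, ∫ y, Hk s x y * tr 𝓜 g A y ∂(hvol 𝓜 g))) := by
  intro A hA hcl h0 h1 b hb0
  have hm : IsMetric 𝓜 g := S.kahler.toIsMetric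
  obtain ⟨o, ho⟩ := S.conn.nonempty
  have hsm : 𝓜.Smooth (tr 𝓜 g A) := smooth_tr hm hA
  have ha0 : ∀ y ∈ 𝓜.carrier, 0 ≤ tr 𝓜 g A y := fun y hy => tr_nonneg hm h0 hy
  have ha1 : ∀ y ∈ 𝓜.carrier, tr 𝓜 g A y ≤ n := fun y hy => by
    have := leF.tr_le hm h1 hy
    rwa [tr_self hm hy, Fintype.card_fin] at this
  have habs : ∀ y ∈ 𝓜.carrier, |tr 𝓜 g A y| ≤ n := fun y hy => by
    rw [abs_of_nonneg (ha0 y hy)]; exact ha1 y hy
  have hG : SubGauss 𝓜 g o (tr 𝓜 g A) := nt_subGauss_of_bounded S NK.vol ho hsm.continuousOn habs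
  have hu : IsHeatSol 𝓜 g (Set.Icc 0 b) (ntU 𝓜 g Hk (tr 𝓜 g A)) :=
    nt_isHeatSol_ntU hm NK ho hsm hG hb0
  have hbd : ∀ t : ℝ, 0 ≤ t → ∀ x ∈ 𝓜.carrier, |ntU 𝓜 g Hk (tr 𝓜 g A) t x| ≤ n :=
    fun t ht x hx => nt_abs_ntU_le NK habs ht hx
  obtain ⟨hW, hWt, hWl⟩ := nt_primitive hm hb0 hu
  have hbb : b ∈ Set.Icc (0 : ℝ) b := ⟨hb0.le, le_rfl⟩
  have h00 : (0 : ℝ) ∈ Set.Icc (0 : ℝ) b := ⟨le_rfl, hb0.le⟩
  -- the two primitives agree
  have heq : (fun x => ∫ s in (0 : ℝ)..b, ntU 𝓜 g Hk (tr 𝓜 g A) s x)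
      = fun x => ∫ s in (0 : ℝ)..b, ∫ y, Hk s x y * tr 𝓜 g A y ∂(hvol 𝓜 g) := by
    funext x
    refine intervalIntegral.integral_congr_ae (Filter.Eventually.of_forall fun s hs => ?_)
    rw [Set.uIoc_of_le hb0.le] at hs
    rw [ntU_of_ne 𝓜 g Hk _ hs.1.ne']
  have hW0 : (fun x => ∫ s in (0 : ℝ)..(0 : ℝ), ntU 𝓜 g Hk (tr 𝓜 g A) s x) = fun _ => (0 : ℝ) := by
    funext x; exact intervalIntegral.integral_same
  have key := nt_potential S hb KL NK.vol hb0 hA hcl (Λ₀ := (n : ℝ) ^ 2)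
    (fun x hx => le_trans (ipH_self_le_tr_sq hm h0 hx)
      (pow_le_pow_left₀ (ha0 x hx) (ha1 x hx) 2))
    (v := fun b' x => ∫ s in (0 : ℝ)..b', ntU 𝓜 g Hk (tr 𝓜 g A) s x) hW (c₀ := 0)
    (fun t ht x hx => by
      have h2 : lap 𝓜 g (fun x => ∫ s in (0 : ℝ)..t, ntU 𝓜 g Hk (tr 𝓜 g A) s x) x + tr 𝓜 g A x + 0
          = ntU 𝓜 g Hk (tr 𝓜 g A) t x := by
        rw [hWl t ht x hx, ntU_zero]; ring
      rw [h2]; exact hWt t ht x hx)
    (M₀ := n * b) (M₁ := 2 * n) (Λ₁ := 0)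
    (fun t ht x hx => by
      have h2 := intervalIntegral.norm_integral_le_of_norm_le_const (a := (0 : ℝ)) (b := t)
        (f := fun s => ntU 𝓜 g Hk (tr 𝓜 g A) s x) (C := n) (fun s hs => by
          rw [Set.uIoc_of_le ht.1] at hs
          exact hbd s hs.1.le x hx)
      rw [Real.norm_eq_abs, sub_zero, abs_of_nonneg ht.1] at h2
      exact le_trans h2 (mul_le_mul_of_nonneg_left ht.2 (Nat.cast_nonneg n)))
    (fun t ht x hx => by
      rw [hWl t ht x hx]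
      have h2 := hbd t ht.1 x hx
      have h3 := hbd 0 le_rfl x hx
      have h4 := abs_sub (ntU 𝓜 g Hk (tr 𝓜 g A) t x) (ntU 𝓜 g Hk (tr 𝓜 g A) 0 x)
      linarith)
    (fun x hx => by
      refine (nt_ipH_zero 𝓜 g ?_).le
      show ddc (fun x => ∫ s in (0 : ℝ)..(0 : ℝ), ntU 𝓜 g Hk (tr 𝓜 g A) s x) _ _ = 0
      rw [hW0, ddc_const])
    (fun Φ U hΦ z hz => by
      have h2 := h0 Φ U hΦ z hz
      have h3 : (A + ddc (fun x => ∫ s in (0 : ℝ)..(0 : ℝ), ntU 𝓜 g Hk (tr 𝓜 g A) s x) :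
          HFam V (Fin n)) Φ z = A Φ z := by
        simp only [Pi.add_apply]
        rw [hW0, ddc_const, add_zero]
      rw [h3]; exact h2)
    b hbb
  rw [← heq]
  exact ⟨hW.smooth hbb, key⟩

end exports

end Claimed.Agent.R316
end

/- ===== packed: Claimed.Agent.R316.S7.Clk.Point ===== -/
section
/-!
# Row 316, BP-S7-4 (sub-captain helper11): Proposition 7.4, the LINEAR ALGEBRA at one point

Leaves `L-S7-4-5` (static distortion ⟹ least eigenvalue) and `L-S7-4-6` (log-convexity of the dual norm in `τ = log t` ⟹ lower Ricci bound).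
BOTH PROVED (helper11): no `sorry` in this file.
`CW/MatAlg`, `CW/MatFun` (sorry free) and `hasDerivAt_qf` (`S7/H1/Propagate.lean`) may be used.

## L-S7-4-5  `ck_distortion`
`G = g Φ 0` in the unitary chart of `h_t` (so `h_t Φ 0 = 1 ≤ G`), `ρ = log det G`.  Fix `v ≠ 0`; by homogeneity (`qf_smul_vec`, `qf_one`) we may take `star v ⬝ᵥ v = 1`; `x = qf G v ≥ 1` (`qf_mono h1`, `qf_one`).
For every unit `w`: `qf G w ≤ B := (C (1 + √x) ^ C) ^ 2` (`hd`, `Real.sqrt_le_left`/`Real.le_sqrt`), hence `G ≤ B • 1` (`posSemidef_sub_iff_qf`, homogeneity) and `det G ≤ B ^ n` (`det_le_pow_mul` with `H = 1`).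
`1 + √x ≤ 2 √x`, so `B ≤ C ^ 2 4 ^ C x ^ C` (`Real.rpow` rules) and `exp ρ = det G ≤ (C ^ 2 4 ^ C x ^ C) ^ n`; take `n`-th and `C`-th roots (logarithms: `ρ ≤ n (2 log C + C log 4 + C log x)`):
`log x ≥ ρ / (n C) - log 4 - (2 / C) log C`, i.e. `1 ≤ exp (-(ρ / (n C))) * (4 * C ^ (2 / C)) * x`.

## L-S7-4-6  `PointFlow.ric_lower_of_decay`
Fix `w ≠ 0`, `y t = (h t)⁻¹ *ᵥ w`, `N t = qf (h t)⁻¹ w > 0`, `a t = qf (A t) (y t)`.
* `y' = (h⁻¹ A h⁻¹) w = h⁻¹ A y` (`hasDerivAt_matInv`, `dt_h`), `N' = a` (`ck_hasDerivAt_N`), `a' = qf At y + 2 qf (A h⁻¹ A) y` (`hasDerivAt_qf`; `ck_hasDerivAt_a`).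
* Harnack: `qf At y ≥ - qf (A h⁻¹ A) y - a / t`.  Cauchy-Schwarz for the form `h⁻¹` (`qf_cauchy_schwarz` with `v = w`, `w = A y`): `a ^ 2 ≤ N * qf (A h⁻¹ A) y`.  Hence `N a' ≥ a ^ 2 - N a / t`.
* `φ t = t a t / N t` has `φ' = (t / N ^ 2) (N a' + N a / t - a ^ 2) ≥ 0` on `Ioi 0`: monotone (`ck_phi_mono`).
* `E t = log N t - φ t₁ log t` has `E' = (φ t - φ t₁) / t ≤ 0` on `(0, t₁]`: `log N t₁ - log N t₀ ≤ φ t₁ (log t₁ - log t₀)` (`ck_secant`).
* `h t₀ ≥ e^{-α} G ⟹ N t₀ ≤ e^{α} qf G⁻¹ w`, `h t₁ ≤ e^{-β} G ⟹ N t₁ ≥ e^{β} qf G⁻¹ w` (`loewner_inv_anti`, `Matrix.inv_smul`/`qf_smul`), so `β - α ≤ log N t₁ - log N t₀`.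
* with `hκ` and `log t₁ - log t₀ > 0`: `κ ≤ φ t₁`, i.e. `κ qf (h t₁) y ≤ t₁ qf (A t₁) y` for `y = (h t₁)⁻¹ w` (`qf_inv_mulVec`); every vector is of this form (`w = h t₁ *ᵥ y`).  `posSemidef_sub_iff_qf`.
-/

set_option autoImplicit false
set_option linter.unusedSectionVars false
open scoped ContDiff ComplexOrder Topology Matrix

namespace Claimed.Agent.R316

/-! ### L-S7-4-5 -/

section distortion

/-- `star v ⬝ᵥ v` is the real number `qf 1 v`. -/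
theorem ck_star_dot_self {ι : Type} [Fintype ι] [DecidableEq ι] (v : ι → ℂ) :
    star v ⬝ᵥ v = ((qf (1 : Matrix ι ι ℂ) v : ℝ) : ℂ) := by
  rw [qf_ofReal v Matrix.isHermitian_one, Matrix.one_mulVec]

/-- a quadratic inequality for unit vectors extends to all vectors. -/
theorem ck_loewner_of_unit {ι : Type} [Fintype ι] [DecidableEq ι] {A B : Matrix ι ι ℂ}
    (hA : A.IsHermitian) (hB : B.IsHermitian)
    (h : ∀ v : ι → ℂ, star v ⬝ᵥ v = 1 → qf A v ≤ qf B v) : (B - A).PosSemidef := by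
  rw [posSemidef_sub_iff_qf hA hB]
  intro v
  by_cases hv : v = 0
  · subst hv; rw [qf_zero_vec, qf_zero_vec]
  have hN : 0 < qf (1 : Matrix ι ι ℂ) v := qf_pos Matrix.PosDef.one hv
  set N : ℝ := qf (1 : Matrix ι ι ℂ) v with hNdef
  set c : ℂ := (((Real.sqrt N)⁻¹ : ℝ) : ℂ) with hc
  have hs : 0 < Real.sqrt N := Real.sqrt_pos.2 hN
  have hnorm : ‖c‖ ^ 2 = N⁻¹ := by
    rw [hc, Complex.norm_real, Real.norm_eq_abs, sq_abs, inv_pow, Real.sq_sqrt hN.le]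
  have hu : star (c • v) ⬝ᵥ (c • v) = 1 := by
    rw [ck_star_dot_self, qf_smul_vec, hnorm, ← hNdef, inv_mul_cancel₀ hN.ne', Complex.ofReal_one]
  have := h _ hu
  rw [qf_smul_vec, qf_smul_vec, hnorm] at this
  exact le_of_mul_le_mul_left this (inv_pos.2 hN)

theorem ck_distortion_scalar {n : ℕ} (hn : 0 < n) {C x d : ℝ} (hC : 0 < C) (hx : 1 ≤ x)
    (hd0 : 0 < d) (hd : d ≤ ((C * (1 + Real.sqrt x) ^ C) ^ 2) ^ n) :
    1 ≤ Real.exp (-(Real.log d / (n * C))) * (4 * C ^ (2 / C)) * x := by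
  have hx0 : 0 < x := lt_of_lt_of_le one_pos hx
  have hs1 : 1 ≤ Real.sqrt x := by
    rw [show (1 : ℝ) = Real.sqrt 1 by simp]; exact Real.sqrt_le_sqrt hx
  have hp : 0 < 1 + Real.sqrt x := by linarith
  have hn' : (0 : ℝ) < n := Nat.cast_pos.2 hn
  have hlogd : Real.log d ≤ n * (2 * (Real.log C + C * Real.log (1 + Real.sqrt x))) := by
    have h1 := Real.log_le_log hd0 hd
    rw [Real.log_pow, Real.log_pow, Real.log_mul hC.ne' (Real.rpow_pos_of_pos hp C).ne',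
      Real.log_rpow hp] at h1
    simpa using h1
  have hsq : Real.log (1 + Real.sqrt x) ≤ Real.log 2 + 1 / 2 * Real.log x := by
    have h1 : Real.log (1 + Real.sqrt x) ≤ Real.log (2 * Real.sqrt x) :=
      Real.log_le_log hp (by linarith)
    rw [Real.log_mul two_ne_zero (by linarith : Real.sqrt x ≠ 0), Real.log_sqrt hx0.le] at h1
    linarith
  have h4 : Real.log 4 = 2 * Real.log 2 := by
    rw [show (4 : ℝ) = 2 ^ 2 by norm_num, Real.log_pow]; norm_num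
  have hmain : Real.log d / (n * C) ≤ 2 / C * Real.log C + Real.log 4 + Real.log x := by
    rw [div_le_iff₀ (mul_pos hn' hC)]
    have h5 : C * Real.log (1 + Real.sqrt x) ≤ C * (Real.log 2 + 1 / 2 * Real.log x) :=
      mul_le_mul_of_nonneg_left hsq hC.le
    have h6 : (n : ℝ) * (2 * (Real.log C + C * Real.log (1 + Real.sqrt x))) ≤
        n * (2 * (Real.log C + C * (Real.log 2 + 1 / 2 * Real.log x))) :=
      mul_le_mul_of_nonneg_left (by linarith) hn'.le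
    have e : (2 / C * Real.log C + Real.log 4 + Real.log x) * (n * C) =
        n * (2 * (Real.log C + C * (Real.log 2 + 1 / 2 * Real.log x))) := by
      rw [h4]; field_simp; ring
    rw [e]
    exact hlogd.trans h6
  have e : Real.exp (-(Real.log d / (n * C))) * (4 * C ^ (2 / C)) * x =
      Real.exp (-(Real.log d / (n * C)) + (Real.log 4 + Real.log C * (2 / C)) + Real.log x) := by
    rw [Real.exp_add, Real.exp_add, Real.exp_add, Real.exp_log hx0,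
      Real.exp_log (by norm_num : (0 : ℝ) < 4), Real.rpow_def_of_pos hC]
  rw [e]
  apply Real.one_le_exp
  have : Real.log C * (2 / C) = 2 / C * Real.log C := by ring
  linarith

/-- if the greatest singular length is bounded by a power of the least one, then the least one is bounded below by a power of the determinant. -/
theorem ck_distortion {n : ℕ} (hn : 0 < n) {G : Matrix (Fin n) (Fin n) ℂ} (hG : G.PosDef)
    (h1 : (G - 1).PosSemidef) {C : ℝ} (hC : 0 < C)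
    (hd : ∀ v w : Fin n → ℂ, star v ⬝ᵥ v = 1 → star w ⬝ᵥ w = 1 →
      Real.sqrt (qf G w) ≤ C * (1 + Real.sqrt (qf G v)) ^ C) :
    (((Real.exp (-(Real.log G.det.re / (n * C))) * (4 * C ^ (2 / C)) : ℝ) : ℂ) • G - 1).PosSemidef := by
  apply ck_loewner_of_unit Matrix.isHermitian_one (isHermitian_smul_real _ hG.isHermitian)
  intro v hv
  have hv1 : qf (1 : Matrix (Fin n) (Fin n) ℂ) v = 1 := by
    have := ck_star_dot_self v
    rw [hv] at this
    exact_mod_cast this.symm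
  rw [hv1, qf_smul]
  have hx : 1 ≤ qf G v := by
    rw [← hv1]; exact qf_mono h1 v
  apply ck_distortion_scalar hn hC hx (posDef_det_re_pos hG)
  set B : ℝ := (C * (1 + Real.sqrt (qf G v)) ^ C) ^ 2 with hB
  have hle : (((B : ℝ) : ℂ) • (1 : Matrix (Fin n) (Fin n) ℂ) - G).PosSemidef := by
    apply ck_loewner_of_unit hG.isHermitian (isHermitian_smul_real _ Matrix.isHermitian_one)
    intro w hw
    have hw1 : qf (1 : Matrix (Fin n) (Fin n) ℂ) w = 1 := by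
      have := ck_star_dot_self w
      rw [hw] at this
      exact_mod_cast this.symm
    rw [qf_smul, hw1, mul_one, hB]
    have h2 := hd v w hv hw
    have h3 : 0 ≤ qf G w := qf_nonneg hG.posSemidef w
    calc qf G w = Real.sqrt (qf G w) ^ 2 := (Real.sq_sqrt h3).symm
      _ ≤ _ := pow_le_pow_left₀ (Real.sqrt_nonneg _) h2 2
  have := det_le_pow_mul Matrix.PosDef.one hG.posSemidef hle
  simpa using this

end distortion

/-! ### L-S7-4-6 -/

section secant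

variable {ι : Type} [Fintype ι] [DecidableEq ι]
variable {h A At : ℝ → Matrix ι ι ℂ}

/-! `ck_hasDerivAt_inv, _y, _N, _a`, `ck_cs`, `ck_N_pos`, `ck_phi_mono` now live in `S7/H1/Propagate.lean`. -/

/-- the end point derivative of a convex function dominates the secant slope. -/
theorem ck_secant (F : PointFlow h A At) {w : ι → ℂ} (hw : w ≠ 0) {t₀ t₁ : ℝ} (h0 : 0 < t₀)
    (h01 : t₀ ≤ t₁) :
    Real.log (qf (h t₁)⁻¹ w) - Real.log (qf (h t₀)⁻¹ w) ≤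
      t₁ * qf (A t₁) ((h t₁)⁻¹ *ᵥ w) / qf (h t₁)⁻¹ w * (Real.log t₁ - Real.log t₀) := by
  set φ₁ : ℝ := t₁ * qf (A t₁) ((h t₁)⁻¹ *ᵥ w) / qf (h t₁)⁻¹ w with hφ₁
  have hd : ∀ x ∈ Set.Icc t₀ t₁, HasDerivAt (fun t => Real.log (qf (h t)⁻¹ w) - φ₁ * Real.log t)
      (qf (A x) ((h x)⁻¹ *ᵥ w) / qf (h x)⁻¹ w - φ₁ * x⁻¹) x := fun x hx => by
    have hx0 : 0 < x := lt_of_lt_of_le h0 hx.1
    exact ((ck_hasDerivAt_N F w hx0).log (ck_N_pos F hw hx0).ne').sub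
      ((Real.hasDerivAt_log hx0.ne').const_mul _)
  have hm : AntitoneOn (fun t => Real.log (qf (h t)⁻¹ w) - φ₁ * Real.log t) (Set.Icc t₀ t₁) := by
    apply antitoneOn_of_deriv_nonpos (convex_Icc t₀ t₁)
    · exact fun x hx => (hd x hx).continuousAt.continuousWithinAt
    · rw [interior_Icc]
      exact fun x hx => (hd x (Set.Ioo_subset_Icc_self hx)).differentiableAt.differentiableWithinAt
    · rw [interior_Icc]
      intro x hx
      rw [(hd x (Set.Ioo_subset_Icc_self hx)).deriv]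
      have hx0 : 0 < x := lt_trans h0 hx.1
      have := ck_phi_mono F hw (Set.mem_Ioi.2 hx0) (Set.mem_Ioi.2 (lt_trans hx0 hx.2)) hx.2.le
      simp only at this
      rw [← hφ₁] at this
      have e : qf (A x) ((h x)⁻¹ *ᵥ w) / qf (h x)⁻¹ w - φ₁ * x⁻¹ =
          (x * qf (A x) ((h x)⁻¹ *ᵥ w) / qf (h x)⁻¹ w - φ₁) * x⁻¹ := by
        field_simp
      rw [e]
      exact mul_nonpos_of_nonpos_of_nonneg (by linarith) (inv_nonneg.2 hx0.le)
  have := hm (Set.left_mem_Icc.2 h01) (Set.right_mem_Icc.2 h01) h01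
  simp only at this
  linarith

theorem ck_inv_smul {M : Matrix ι ι ℂ} (hM : M.PosDef) {c : ℝ} (hc : c ≠ 0) :
    (((c : ℝ) : ℂ) • M)⁻¹ = (((c⁻¹ : ℝ)) : ℂ) • M⁻¹ := by
  apply Matrix.inv_eq_right_inv
  rw [Matrix.smul_mul, Matrix.mul_smul, smul_smul, mul_inv_cancel_of_posDef hM,
    ← Complex.ofReal_mul, mul_inv_cancel₀ hc, Complex.ofReal_one, one_smul]

/-- (7.11) at one point. -/
theorem PointFlow.ric_lower_of_decay (F : PointFlow h A At) {G : Matrix ι ι ℂ} (hG : G.PosDef)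
    {t₀ t₁ α β κ : ℝ} (h0 : 0 < t₀) (h01 : t₀ < t₁)
    (hlow : (h t₀ - ((Real.exp (-α) : ℝ) : ℂ) • G).PosSemidef)
    (hup : (((Real.exp (-β) : ℝ) : ℂ) • G - h t₁).PosSemidef)
    (hκ : κ * (Real.log t₁ - Real.log t₀) ≤ β - α) :
    (((t₁ : ℝ) : ℂ) • A t₁ - ((κ : ℝ) : ℂ) • h t₁).PosSemidef := by
  have h1 : 0 < t₁ := lt_trans h0 h01
  rw [posSemidef_sub_iff_qf (isHermitian_smul_real _ (F.pos t₁ h1).isHermitian)
    (isHermitian_smul_real _ (F.herm t₁ h1))]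
  intro y
  rw [qf_smul, qf_smul]
  by_cases hy : y = 0
  · subst hy; simp [qf_zero_vec]
  set w : ι → ℂ := h t₁ *ᵥ y with hw
  have hyw : (h t₁)⁻¹ *ᵥ w = y := by
    rw [hw, Matrix.mulVec_mulVec, inv_mul_cancel_of_posDef (F.pos t₁ h1), Matrix.one_mulVec]
  have hw0 : w ≠ 0 := by
    intro h0'
    apply hy
    rw [← hyw, h0', Matrix.mulVec_zero]
  have hsec := ck_secant F hw0 h0 h01.le
  rw [hyw] at hsec
  have hN1 : qf (h t₁)⁻¹ w = qf (h t₁) y := by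
    rw [← qf_inv_mulVec (F.pos t₁ h1), hyw]
  have hg0 : 0 < qf G⁻¹ w := qf_pos hG.inv hw0
  have hNt0 : qf (h t₀)⁻¹ w ≤ Real.exp α * qf G⁻¹ w := by
    have := qf_mono (loewner_inv_anti (posDef_smul_real (Real.exp_pos (-α)) hG) hlow) w
    rwa [ck_inv_smul hG (Real.exp_pos _).ne', qf_smul, ← Real.exp_neg, neg_neg] at this
  have hNt1 : Real.exp β * qf G⁻¹ w ≤ qf (h t₁)⁻¹ w := by
    have := qf_mono (loewner_inv_anti (F.pos t₁ h1) hup) w
    rwa [ck_inv_smul hG (Real.exp_pos _).ne', qf_smul, ← Real.exp_neg, neg_neg] at this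
  have hl0 : Real.log (qf (h t₀)⁻¹ w) ≤ α + Real.log (qf G⁻¹ w) := by
    have := Real.log_le_log (ck_N_pos F hw0 h0) hNt0
    rwa [Real.log_mul (Real.exp_pos _).ne' hg0.ne', Real.log_exp] at this
  have hl1 : β + Real.log (qf G⁻¹ w) ≤ Real.log (qf (h t₁)⁻¹ w) := by
    have := Real.log_le_log (mul_pos (Real.exp_pos β) hg0) hNt1
    rwa [Real.log_mul (Real.exp_pos _).ne' hg0.ne', Real.log_exp] at this
  have hΔ : 0 < Real.log t₁ - Real.log t₀ := sub_pos.2 (Real.log_lt_log h0 h01)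
  have hk : κ * (Real.log t₁ - Real.log t₀) ≤
      t₁ * qf (A t₁) y / qf (h t₁)⁻¹ w * (Real.log t₁ - Real.log t₀) := by linarith
  have hk' := le_of_mul_le_mul_right hk hΔ
  rw [le_div_iff₀ (ck_N_pos F hw0 h1), hN1] at hk'
  exact hk'

end secant
end Claimed.Agent.R316
end

/- ===== packed: Claimed.Agent.R316.S7.Clk.Mfd ===== -/
section
/-!
# Row 316, BP-S7-4 (sub-captain helper11): Proposition 7.4, the steps ON THE MANIFOLD

Leaves `L-S7-4-7 … L-S7-4-11`: ALL PROVED (helper11), no `sorry` in this file.  Used: statements of `Clk/Real.lean`, `Clk/Point.lean`, `S7/H1/*`, `CW/`, `CM/`, `Base/Metric/Api.lean` (list in the channel message of helper11).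
`[FiniteDimensional ℝ V]` is assumed where `hdist` is used (as in `Base/Metric/Api.lean`).

Chart at a point `x` of the carrier: `𝓜.isHol_pΦ hx : 𝓜.IsHol (𝓜.pΦ x) (𝓜.pU x)`, `𝓜.co_mem hx`, `𝓜.pΦ_co hx` (`CM/Trans.lean`).

## L-S7-4-7  `s74_clock` (the base point data form a `Clock`)
`Φ = 𝓜.pΦ o`, `z = 𝓜.co o`, `Φ z = o`.
* `dρ`: `fc_dt_rho D ho ht`.   `ρ_zero`: `D.clk 0 = - D.P 0 o`, `fc_P_chart` at `t = 0` and `fc_h_zero`.
* `R_pos`: `fc_R_chart`: `D.R t o = ((D.h t Φ z)⁻¹ * D.ric t Φ z).trace.re`; `trace_mul_pos (fc_posDef …).inv (H.ric_pos …).posSemidef` and `D.ric t Φ z ≠ 0` (positive definite, `0 < n`: evaluate `qf` on `Pi.single ⟨0, I.n_pos⟩ 1`).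
* `R_diff`: `contDiffOn_timeline (D.R_smooth Φ U hΦ) hz : ContDiffOn ℝ ∞ (fun s => D.R s (Φ z)) (Ici 0)`; `Ici_mem_nhds ht`.
* `harnack`: `H.scalar t ht Φ U hΦ z hz 0` (`simp [qf_zero_vec]`).  `R_le`: `H.R_o_le`.  `ρ_le`: `D.rho_ptw o ho`.

## L-S7-4-8  `s74_rho_ratio`
* `s74_dist_small`: `exists_hcball_of_isCompact` (metric `g`): `K ⊆ hball g o R₀`; `K' = hcball g o R₀` is compact (`I.proper`); `H.power K'` gives `C, a`; `c_t = max C 1 * t ^ (-a) > 0`, `D.h t ≤ c_t g` on `K'` (`loewner_trans`, `loewner_smul_le`);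
  `hball (smulF c_t g) o (√c_t R₀) = hball g o R₀` (`hdist_smulF_const`); `hdist_le_of_leFOn_hball` (metric `smulF (fun _ => c_t) g`: `IsMetric.smulF`, constants are smooth: `CMfd.smooth_of_contDiff contDiff_const`):
  `hdist (D.h t) o x ≤ √c_t hdist g o x ≤ √c_t R₀ ≤ η` for `t` large (`t ^ (-a) → 0`: `tendsto_rpow_neg_atTop`).
* `s74_R_compare`: `C` from `H.integrated`; choose `η` with `exp (|C| η ^ 2) ≤ √(1 + ε)`-type bound and `T ≥ 1` with `(T + 1) / T` small, precisely: `(1 + 1 / T) * exp (|C| η ^ 2) ≤ 1 + ε`.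
  `H.integrated v (v + 1)` for `(x, o)` and `(o, x)`; `hdist_comm`; `D.R_nonneg`.
* `s74_rho_bdd`: `(D.P_smooth.smooth hT).continuousOn` on the compact `K` (`IsCompact.exists_bound_of_continuousOn`).
* `s74_rho_ratio`: `ck_ratio_bound` with `a = D.rho · x`, `A = D.R · x`, `b = D.clk`, `B = D.R · o`, `ε / 2`, `T` from `s74_R_compare`, `M` from `s74_rho_bdd`, `CR` from `H.R_o_le`, at `t = D.tOf s`: `b t = s` (`Clock.ρ_T`), `T ≤ t ↔ D.clk T ≤ s` (`Clock.le_T_iff`).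

## L-S7-4-9  `s74_decay`
* `s74_decay_lower`: `det_ratio_smul_le (fc_posDef …) (D.le_g t ht Φ U hΦ z hz)`; `det h / det g = exp (P) = exp (- ρ)` (`fc_P_chart`, `Real.exp_sub`, `Real.exp_log`, `posDef_det_re_pos`).
* `s74_decay_upper`: `r, c, …, tK` from `LC K`; `C₁` from `SD r c K`.  For `t ≥ max tK 0` and `p = Ψ z ∈ K` take `Φ` from `LC`; `0 ∈ U₀`, `𝓜.IsHol Φ U₀` from `IsLocBihol`; on the ball `cI c ≤ D.h t Φ w ≤ g Φ w` (`D.le_g` in the local `IsHol` piece, `loewner_trans`);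
  `G = g Φ 0`: `G - 1 ≥ 0` (`D.le_g`, `D.h t Φ 0 = 1`), `log det G = D.rho t p` (`fc_P_chart`, `logDet_one`); `ck_distortion` gives `1 ≤ exp (- ρ / (n C₁)) (4 C₁ ^ (2 / C₁)) G`, i.e. the claim in the chart `Φ` at `0` with `c = 1 / (n C₁)`, `C = 4 C₁ ^ (2 / C₁)`;
  `h1_point_invariance` (forms `D.h t` and `smulF (fun x => C * exp (-(c * D.rho t x))) g`, or with the constant function of value at `p`) passes to `(Ψ, z)`.
* `s74_decay`: `s74_rho_ratio` with `ε = 1/2`: `s / 2 ≤ ρ(x, t(s)) ≤ 2 s`; `cK = c / 4`; `C exp (- c s / 2) ≤ exp (- c s / 4)` for `s ≥ 4 log C / c`; `t(s) ≥ t₀` for `s ≥ D.clk t₀`; `loewner_trans`, `loewner_smul_le`.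

## L-S7-4-10  `s74_ric_lower`
`cK, s₁` from the decay on `K = {o}`; `a0 = min (cK / 4) (1 / 2)`, `b0 = cK - 2 a0 > 0`; for `s ≥ max (s₁ / a0) 1`: `t₀ = t(a0 s) < t₁ = t(s)`, `PointFlow.ric_lower_of_decay (h1_pointFlow D I hJ hΦ hz)` with `G = g Φ z`, `α = 2 a0 s`, `β = cK s`, `κ = b0 q(a0 s)`;
`hκ`: `Clock.log_T_le`: `q(a0 s) (log t₁ - log t₀) ≤ s - a0 s ≤ s`, times `b0`.

## L-S7-4-11  `s74_window_bound`, `s74_window_ric`
* `s74_window_bound`: `C` from `H.integrated`, `Λ = 2 K0 exp (|C| ρ ^ 2 / δ)`.  `R₀ = D.R t₀ o > 0`, `t = t₀ + z / R₀`, `t' = t₀ + 2 δ / R₀`: `δ / R₀ < t₀ / 4`, so `3 t₀ / 4 < t`, `t' < 3 t₀ / 2`, `t' / t ≤ 2`, `t' - t = (2 δ - z) / R₀ ≥ δ / R₀`;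
  `hdist (D.h t) x o = hdist (D.h t) o x < ρ / √R₀` (`hdist_comm`), so `C d ^ 2 / (t' - t) ≤ |C| ρ ^ 2 / δ`.
* `s74_window_ric`: `tOf (clk t₀) = t₀` (`Clock.T_ρ`); divide by `t₀`; `b0 q(a0 s) / t₀ ≥ b0 R₀ / K0`; `loewner_trans`, `loewner_smul_le`.
-/

set_option autoImplicit false
set_option linter.unusedSectionVars false
open scoped ContDiff ComplexOrder Topology Matrix
open Filter

namespace Claimed.Agent.R316

variable {V : Type} [NormedAddCommGroup V] [NormedSpace ℝ V] [MeasurableSpace V] [BorelSpace V]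
variable {n : ℕ} {𝓜 : CMfd V (Fin n)} {g : HFam V (Fin n)} {o : V}
variable (D : FlowData 𝓜 g o)
variable {Φ : CE (Fin n) → V} {U : Set (CE (Fin n))} {t : ℝ} {z : CE (Fin n)} {K : Set V}

theorem s74_tOf_eq : D.tOf = ckT D.clk := rfl

theorem s74_q_eq : D.q = ckQ (fun t => D.R t o) D.clk := rfl

/-! ### L-S7-4-7 -/

section inst

theorem s74_clock (I : InitialData 𝓜 g) (ho : o ∈ 𝓜.carrier) (H : D.Harnack) :
    Clock (fun t => D.R t o) D.clk := by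
  have hΦ := 𝓜.isHol_pΦ ho
  have hz := 𝓜.co_mem ho
  have hoz := 𝓜.pΦ_co ho
  have hg : IsMetric 𝓜 g := I.kahler.toIsMetric
  refine ⟨fun t ht => fc_dt_rho D ho ht, ?_, ?_, ?_, ?_, H.R_o_le, D.rho_ptw o ho⟩
  · have h1 := fc_P_chart D hg hΦ (le_refl (0 : ℝ)) hz
    rw [fc_h_zero D hΦ hz, sub_self, hoz] at h1
    show - D.P 0 o = 0
    rw [h1, neg_zero]
  · intro t ht
    have h1 := fc_R_chart D hΦ ht hz
    rw [hoz] at h1
    show 0 < D.R t o
    rw [h1]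
    have hpd := H.ric_pos t ht _ _ hΦ _ hz
    apply trace_mul_pos (fc_posDef D hΦ ht hz).inv hpd.posSemidef
    intro h0
    have hv : (Pi.single (⟨0, I.n_pos⟩ : Fin n) (1 : ℂ) : Fin n → ℂ) ≠ 0 := by
      intro h
      have := congrFun h ⟨0, I.n_pos⟩
      simp at this
    have := qf_pos hpd hv
    rw [h0, qf_zero] at this
    exact lt_irrefl _ this
  · intro t ht
    have h1 : ContDiffOn ℝ ∞ (fun s => D.R s (𝓜.pΦ o (𝓜.co o))) (Set.Ici 0) :=
      contDiffOn_timeline (F := fun q : ℝ × CE (Fin n) => D.R q.1 (𝓜.pΦ o q.2))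
        (D.R_smooth _ _ hΦ) hz
    rw [hoz] at h1
    exact ((h1.contDiffAt (Ici_mem_nhds ht)).differentiableAt (by simp))
  · intro t ht
    have h1 := H.scalar t ht _ _ hΦ _ hz 0
    rw [hoz] at h1
    simpa [qf_zero_vec] using h1

end inst

/-! ### L-S7-4-8 -/

section ratio

variable [FiniteDimensional ℝ V]

omit [MeasurableSpace V] [BorelSpace V] [FiniteDimensional ℝ V] in
theorem s74_isMetric_smul (hg : IsMetric 𝓜 g) {c : ℝ} (hc : 0 < c) :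
    IsMetric 𝓜 (smulF (fun _ => c) g) :=
  IsMetric.smulF (CMfd.smooth_of_contDiff contDiff_const) (fun _ _ => hc) hg

/-- the `h_t`-distances from `o` tend to zero uniformly on compact sets. -/
theorem s74_dist_small (I : InitialData 𝓜 g) (ho : o ∈ 𝓜.carrier) (H : D.Harnack)
    (hK : IsCompact K) (hKM : K ⊆ 𝓜.carrier) {η : ℝ} (hη : 0 < η) :
    ∃ T : ℝ, 1 ≤ T ∧ ∀ t : ℝ, T ≤ t → ∀ x ∈ K, hdist 𝓜 (D.h t) o x ≤ η := by
  have hg : IsMetric 𝓜 g := I.kahler.toIsMetric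
  obtain ⟨R₀, hR₀, hKR⟩ := exists_hcball_of_isCompact hg I.conn ho hK hKM
  have hK' : IsCompact (hcball 𝓜 g o R₀) := I.proper o ho R₀
  obtain ⟨C, a, ha, hpow⟩ := H.power _ hK' (hcball_subset_carrier _ _ _ _)
  set C' : ℝ := max C 1 with hC'
  have hC'0 : 0 < C' := lt_of_lt_of_le one_pos (le_max_right _ _)
  have hlim : Tendsto (fun t : ℝ => Real.sqrt (C' * t ^ (-a)) * R₀) atTop (𝓝 0) := by
    have h1 : Tendsto (fun t : ℝ => C' * t ^ (-a)) atTop (𝓝 (C' * 0)) :=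
      (tendsto_rpow_neg_atTop ha).const_mul C'
    rw [mul_zero] at h1
    have h2 := (Real.continuous_sqrt.tendsto 0).comp h1
    rw [Real.sqrt_zero] at h2
    simpa using h2.mul_const R₀
  obtain ⟨T, hT⟩ := ((hlim.eventually (gt_mem_nhds hη)).and (eventually_ge_atTop 1)).exists_forall_of_atTop
  refine ⟨max T 1, le_max_right _ _, fun t ht x hx => ?_⟩
  have htT : T ≤ t := (le_max_left _ _).trans ht
  have ht1 : 1 ≤ t := (le_max_right _ _).trans ht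
  have ht0 : 0 < t := lt_of_lt_of_le one_pos ht1
  obtain ⟨hsmall, -⟩ := hT t htT
  set c : ℝ := C' * t ^ (-a) with hc
  have hc0 : 0 < c := mul_pos hC'0 (Real.rpow_pos_of_pos ht0 _)
  have hsc : 0 < Real.sqrt c := Real.sqrt_pos.2 hc0
  have hm' := s74_isMetric_smul hg hc0
  have hsub : hball 𝓜 (smulF (fun _ => c) g) o (Real.sqrt c * R₀) ⊆ hcball 𝓜 g o R₀ := by
    intro y hy
    refine ⟨hy.1, ?_⟩
    have := hy.2
    rw [hdist_smulF_const hg hc0] at this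
    exact (lt_of_mul_lt_mul_left this hsc.le).le
  have hle : leFOn 𝓜 (hball 𝓜 (smulF (fun _ => c) g) o (Real.sqrt c * R₀)) (D.h t)
      (smulF (fun _ => c) g) := by
    intro Φ U hΦ z hz hzS
    have h1 := hpow t ht1 Φ U hΦ z hz (hsub hzS)
    have h2 : (smulF (fun _ => c) g Φ z - smulF (fun _ => C * t ^ (-a)) g Φ z).PosSemidef := by
      apply loewner_smul_le _ (hg.posDef hΦ z hz).posSemidef
      exact mul_le_mul_of_nonneg_right (le_max_left _ _) (Real.rpow_nonneg ht0.le _)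
    exact loewner_trans h1 h2
  have hxb : x ∈ hball 𝓜 (smulF (fun _ => c) g) o (Real.sqrt c * R₀) := by
    refine ⟨hKM hx, ?_⟩
    rw [hdist_smulF_const hg hc0]
    exact mul_lt_mul_of_pos_left (hKR hx).2 hsc
  have h3 := hdist_le_of_leFOn_hball (fc_metric D ht0.le) hm' I.conn ho hle hxb
  exact (h3.trans hxb.2.le).trans hsmall.le

theorem s74_R_compare (I : InitialData 𝓜 g) (ho : o ∈ 𝓜.carrier) (H : D.Harnack)
    (hK : IsCompact K) (hKM : K ⊆ 𝓜.carrier) {ε : ℝ} (hε : 0 < ε) :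
    ∃ T : ℝ, 1 ≤ T ∧ ∀ v : ℝ, T ≤ v → ∀ x ∈ K,
      D.R v x ≤ (1 + ε) * D.R (v + 1) o ∧ D.R v o ≤ (1 + ε) * D.R (v + 1) x := by
  obtain ⟨C, hC⟩ := H.integrated
  set e : ℝ := min ε 1 / 3 with he
  have he0 : 0 < e := by
    have : 0 < min ε 1 := lt_min hε one_pos
    positivity
  have he1 : (1 + e) * (1 + e) ≤ 1 + ε := by
    have h1 : 3 * e ≤ ε := by rw [he]; linarith [min_le_left ε 1]
    have h2 : 3 * e ≤ 1 := by rw [he]; linarith [min_le_right ε 1]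
    nlinarith
  set η : ℝ := Real.sqrt (Real.log (1 + e) / (|C| + 1)) with hη
  have hlog : 0 < Real.log (1 + e) := Real.log_pos (by linarith)
  have hC1 : 0 < |C| + 1 := by positivity
  have hη0 : 0 < η := Real.sqrt_pos.2 (div_pos hlog hC1)
  have hη2 : |C| * η ^ 2 ≤ Real.log (1 + e) := by
    rw [hη, Real.sq_sqrt (div_pos hlog hC1).le, mul_div_assoc']
    rw [div_le_iff₀ hC1]
    nlinarith [abs_nonneg C]
  obtain ⟨T, hT1, hT⟩ := s74_dist_small D I ho H hK hKM hη0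
  refine ⟨max T (1 / e), hT1.trans (le_max_left _ _), fun v hv x hx => ?_⟩
  have hvT : T ≤ v := (le_max_left _ _).trans hv
  have hve : 1 / e ≤ v := (le_max_right _ _).trans hv
  have hv0 : 0 < v := lt_of_lt_of_le one_pos (hT1.trans hvT)
  have hd := hT v hvT x hx
  have hd0 := hdist_nonneg 𝓜 (D.h v) o x
  have hfac : (v + 1) / v ≤ 1 + e := by
    rw [div_le_iff₀ hv0]
    rw [div_le_iff₀ he0] at hve
    linarith
  have hexp : Real.exp (C * hdist 𝓜 (D.h v) o x ^ 2 / (v + 1 - v)) ≤ 1 + e := by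
    rw [add_sub_cancel_left, div_one, ← Real.exp_log (by linarith : 0 < 1 + e)]
    apply Real.exp_le_exp.2
    have h1 : hdist 𝓜 (D.h v) o x ^ 2 ≤ η ^ 2 := pow_le_pow_left₀ hd0 hd 2
    have h2 : C * hdist 𝓜 (D.h v) o x ^ 2 ≤ |C| * hdist 𝓜 (D.h v) o x ^ 2 :=
      mul_le_mul_of_nonneg_right (le_abs_self C) (by positivity)
    have h3 : |C| * hdist 𝓜 (D.h v) o x ^ 2 ≤ |C| * η ^ 2 :=
      mul_le_mul_of_nonneg_left h1 (abs_nonneg C)
    linarith
  have hkey : ∀ r : ℝ, 0 ≤ r →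
      r * ((v + 1) / v) * Real.exp (C * hdist 𝓜 (D.h v) o x ^ 2 / (v + 1 - v)) ≤ (1 + ε) * r := by
    intro r hr
    have h1 : r * ((v + 1) / v) ≤ r * (1 + e) := mul_le_mul_of_nonneg_left hfac hr
    have h2 : r * ((v + 1) / v) * Real.exp (C * hdist 𝓜 (D.h v) o x ^ 2 / (v + 1 - v)) ≤
        r * (1 + e) * (1 + e) :=
      mul_le_mul h1 hexp (Real.exp_pos _).le (mul_nonneg hr (by linarith))
    have h3 : r * ((1 + e) * (1 + e)) ≤ r * (1 + ε) := mul_le_mul_of_nonneg_left he1 hr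
    linarith
  constructor
  · have h1 := hC v (v + 1) hv0 (by linarith) x (hKM hx) o ho
    rw [hdist_comm (fc_metric D hv0.le) x o] at h1
    exact h1.trans (hkey _ (D.R_nonneg _ (by linarith) o ho))
  · have h1 := hC v (v + 1) hv0 (by linarith) o ho x (hKM hx)
    exact h1.trans (hkey _ (D.R_nonneg _ (by linarith) x (hKM hx)))

omit [FiniteDimensional ℝ V] in
theorem s74_rho_bdd (hK : IsCompact K) (hKM : K ⊆ 𝓜.carrier) {T : ℝ} (hT : 0 ≤ T) :
    ∃ M : ℝ, ∀ x ∈ K, D.rho T x ≤ M := by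
  have hc : ContinuousOn (D.P T) 𝓜.carrier := (D.P_smooth.smooth (Set.mem_Ici.2 hT)).continuousOn
  obtain ⟨M, hM⟩ := hK.exists_bound_of_continuousOn (hc.mono hKM)
  refine ⟨M, fun x hx => ?_⟩
  have := hM x hx
  rw [Real.norm_eq_abs] at this
  exact (neg_le_abs _).trans this

theorem s74_rho_ratio (I : InitialData 𝓜 g) (ho : o ∈ 𝓜.carrier) (H : D.Harnack)
    (hK : IsCompact K) (hKM : K ⊆ 𝓜.carrier) {ε : ℝ} (hε : 0 < ε) :
    ∃ s₁ : ℝ, ∀ s : ℝ, s₁ ≤ s → ∀ x ∈ K, |D.rho (D.tOf s) x / s - 1| ≤ ε := by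
  have c := s74_clock D I ho H
  have hε2 : 0 < ε / 2 := by positivity
  obtain ⟨T, hT1, hT⟩ := s74_R_compare D I ho H hK hKM hε2
  have hT0 : 0 ≤ T := zero_le_one.trans hT1
  obtain ⟨M, hM⟩ := s74_rho_bdd D hK hKM hT0
  obtain ⟨CR, hCR⟩ := H.R_o_le
  refine ⟨max (max (D.clk T) 1) ((M + D.clk T + (1 + ε / 2) * CR) / (ε / 2)), fun s hs x hx => ?_⟩
  have hs1 : D.clk T ≤ s := (le_max_left _ _).trans ((le_max_left _ _).trans hs)
  have hs2 : 1 ≤ s := (le_max_right _ _).trans ((le_max_left _ _).trans hs)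
  have hs3 : (M + D.clk T + (1 + ε / 2) * CR) / (ε / 2) ≤ s := (le_max_right _ _).trans hs
  have hs0 : 0 < s := lt_of_lt_of_le one_pos hs2
  have hbt : D.clk (D.tOf s) = s := c.ρ_T hs0.le
  have hTt : T ≤ D.tOf s := (c.le_T_iff hT0 hs0.le).2 hs1
  have := ck_ratio_bound (a := fun t => D.rho t x) (b := D.clk) (A := fun t => D.R t x)
    (B := fun t => D.R t o) (CR := CR) (T := T) (M := M) hε2 hT0
    (fun t ht => fc_dt_rho D (hKM hx) ht) c.dρ
    (fun t ht => neg_nonneg.2 (D.P_nonpos t ht x (hKM hx)))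
    (fun t ht => c.ρ_nonneg ht) hCR (fun v hv => (hT v hv x hx).1) (fun v hv => (hT v hv x hx).2)
    (hM x hx) hTt (by rw [hbt]; exact hs0)
    (by rw [hbt]; rw [div_le_iff₀ hε2] at hs3; linarith)
  simp only [hbt] at this
  linarith

end ratio

/-! ### L-S7-4-9 -/

section decay

/-- every eigenvalue of `h_t` relative to `g` is at least `det h_t / det g = e^{-ρ}`. -/
theorem s74_decay_lower (I : InitialData 𝓜 g) (hΦ : 𝓜.IsHol Φ U) (hz : z ∈ U) (ht : 0 ≤ t) :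
    (D.h t Φ z - ((Real.exp (-(D.rho t (Φ z))) : ℝ) : ℂ) • g Φ z).PosSemidef := by
  have hg : IsMetric 𝓜 g := I.kahler.toIsMetric
  have hH := fc_posDef D hΦ ht hz
  have hG := hg.posDef hΦ z hz
  have h1 := det_ratio_smul_le hH (D.le_g t ht Φ U hΦ z hz)
  have e : (D.h t Φ z).det.re / (g Φ z).det.re = Real.exp (-(D.rho t (Φ z))) := by
    show _ = Real.exp (- - D.P t (Φ z))
    rw [neg_neg, fc_P_chart D hg hΦ ht hz, Real.exp_sub, Real.exp_log (posDef_det_re_pos hH),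
      Real.exp_log (posDef_det_re_pos hG)]
  rwa [e] at h1

/-- unitary charts + static distortion: every eigenvalue of `h_t` relative to `g` is at most `C e^{-c ρ}`. -/
theorem s74_decay_upper (I : InitialData 𝓜 g) (LC : D.LocalCharts) (SD : StaticDistortion 𝓜 g)
    (hK : IsCompact K) (hKM : K ⊆ 𝓜.carrier) :
    ∃ c C t₀ : ℝ, 0 < c ∧ 0 < C ∧ 0 ≤ t₀ ∧ ∀ t : ℝ, t₀ ≤ t →
      ∀ (Φ : CE (Fin n) → V) (U : Set (CE (Fin n))), 𝓜.IsHol Φ U → ∀ z ∈ U, Φ z ∈ K →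
        (((C * Real.exp (-(c * D.rho t (Φ z))) : ℝ) : ℂ) • g Φ z - D.h t Φ z).PosSemidef := by
  have hg : IsMetric 𝓜 g := I.kahler.toIsMetric
  obtain ⟨r, c, C, tK, Ck, hr, hc, hLC⟩ := LC K hK hKM
  obtain ⟨C₁, hC₁, hSD⟩ := SD r c K hr hc hK hKM
  have hn : (0 : ℝ) < n := Nat.cast_pos.2 I.n_pos
  refine ⟨1 / (n * C₁), 4 * C₁ ^ (2 / C₁), max tK 0, by positivity, by positivity,
    le_max_right _ _, fun t ht Ψ W hΨ z hz hzK => ?_⟩
  have ht0 : 0 ≤ t := (le_max_right _ _).trans ht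
  obtain ⟨Φ, hloc, hΦ0, hunit, hbd, -⟩ := hLC t ((le_max_left _ _).trans ht) (Ψ z) hzK
  have h0mem : (0 : CE (Fin n)) ∈ Metric.ball (0 : CE (Fin n)) r := Metric.mem_ball_self hr
  obtain ⟨U₀, -, h0U₀, hΦU₀⟩ := hloc.2 0 h0mem
  have hG : (g Φ 0).PosDef := hg.posDef hΦU₀ 0 h0U₀
  have h1 : (g Φ 0 - 1).PosSemidef := by
    have := D.le_g t ht0 Φ U₀ hΦU₀ 0 h0U₀
    rwa [show flowMetric g D.U t Φ 0 = D.h t Φ 0 from rfl, hunit] at this
  have hgc : ∀ w ∈ Metric.ball (0 : CE (Fin n)) r, leM (cI c) (g Φ w) := by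
    intro w hw
    obtain ⟨Uw, -, hwU, hΦU⟩ := hloc.2 w hw
    exact loewner_trans (hbd w hw).1 (D.le_g t ht0 Φ Uw hΦU w hwU)
  have hd := hSD Φ hloc (by rw [hΦ0]; exact hzK) hgc
  have key := ck_distortion I.n_pos hG h1 hC₁ hd
  have hρ : Real.log (g Φ 0).det.re = D.rho t (Ψ z) := by
    have := fc_P_chart D hg hΦU₀ ht0 h0U₀
    rw [hunit, logDet_one, hΦ0] at this
    show _ = - D.P t (Ψ z)
    rw [this]; ring
  rw [hρ] at key
  set κ : ℝ := 4 * C₁ ^ (2 / C₁) * Real.exp (-(1 / (n * C₁) * D.rho t (Ψ z))) with hκ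
  have hκ' : Real.exp (-(D.rho t (Ψ z) / (n * C₁))) * (4 * C₁ ^ (2 / C₁)) = κ := by
    rw [hκ, mul_comm]
    congr 2
    ring
  rw [hκ', ← hunit] at key
  exact h1_point_invariance (A := D.h t) (B := smulF (fun _ => κ) g)
    (fc_metric D ht0).toIsHForm
    (IsHForm.smulF (CMfd.smooth_of_contDiff contDiff_const) hg.toIsHForm) hΨ hΦU₀ hz h0U₀
    hΦ0.symm key

/-- (7.10). -/
theorem s74_decay [FiniteDimensional ℝ V] (I : InitialData 𝓜 g) (ho : o ∈ 𝓜.carrier)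
    (H : D.Harnack) (LC : D.LocalCharts) (SD : StaticDistortion 𝓜 g)
    (hK : IsCompact K) (hKM : K ⊆ 𝓜.carrier) :
    ∃ cK s₁ : ℝ, 0 < cK ∧ ∀ s : ℝ, s₁ ≤ s →
      leFOn 𝓜 K (smulF (fun _ => Real.exp (-(2 * s))) g) (D.hs s) ∧
      leFOn 𝓜 K (D.hs s) (smulF (fun _ => Real.exp (-(cK * s))) g) := by
  have hg : IsMetric 𝓜 g := I.kahler.toIsMetric
  have c := s74_clock D I ho H
  obtain ⟨c', C, t₀, hc', hC, ht₀, hup⟩ := s74_decay_upper D I LC SD hK hKM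
  obtain ⟨s₁, hs₁⟩ := s74_rho_ratio D I ho H hK hKM (ε := 1 / 2) (by norm_num)
  refine ⟨c' / 4, max (max s₁ 1) (max (D.clk t₀) (4 * Real.log C / c')), by positivity,
    fun s hs => ?_⟩
  have hs1 : s₁ ≤ s := (le_max_left _ _).trans ((le_max_left _ _).trans hs)
  have hs2 : 1 ≤ s := (le_max_right _ _).trans ((le_max_left _ _).trans hs)
  have hs3 : D.clk t₀ ≤ s := (le_max_left _ _).trans ((le_max_right _ _).trans hs)
  have hs4 : 4 * Real.log C / c' ≤ s := (le_max_right _ _).trans ((le_max_right _ _).trans hs)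
  have hs0 : 0 < s := lt_of_lt_of_le one_pos hs2
  have htt : t₀ ≤ D.tOf s := (c.le_T_iff ht₀ hs0.le).2 hs3
  have ht0 : 0 ≤ D.tOf s := ht₀.trans htt
  have hρ : ∀ x ∈ K, s / 2 ≤ D.rho (D.tOf s) x ∧ D.rho (D.tOf s) x ≤ 2 * s := by
    intro x hx
    have := abs_le.1 (hs₁ s hs1 x hx)
    constructor
    · have h1 : 1 / 2 ≤ D.rho (D.tOf s) x / s := by linarith [this.1]
      rw [le_div_iff₀ hs0] at h1
      linarith
    · have h1 : D.rho (D.tOf s) x / s ≤ 3 / 2 := by linarith [this.2]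
      rw [div_le_iff₀ hs0] at h1
      linarith
  constructor
  · intro Φ U hΦ z hz hzK
    have h1 := s74_decay_lower D I hΦ hz ht0
    have h2 : (((Real.exp (-(D.rho (D.tOf s) (Φ z))) : ℝ) : ℂ) • g Φ z -
        ((Real.exp (-(2 * s)) : ℝ) : ℂ) • g Φ z).PosSemidef :=
      loewner_smul_le (Real.exp_le_exp.2 (by linarith [(hρ _ hzK).2])) (hg.posDef hΦ z hz).posSemidef
    exact loewner_trans h2 h1
  · intro Φ U hΦ z hz hzK
    have h1 := hup _ htt Φ U hΦ z hz hzK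
    have h2 : (((Real.exp (-(c' / 4 * s)) : ℝ) : ℂ) • g Φ z -
        ((C * Real.exp (-(c' * D.rho (D.tOf s) (Φ z))) : ℝ) : ℂ) • g Φ z).PosSemidef := by
      apply loewner_smul_le _ (hg.posDef hΦ z hz).posSemidef
      rw [← Real.exp_log hC, ← Real.exp_add]
      apply Real.exp_le_exp.2
      rw [div_le_iff₀ hc'] at hs4
      have h3 : c' * (s / 2) ≤ c' * D.rho (D.tOf s) (Φ z) :=
        mul_le_mul_of_nonneg_left (hρ _ hzK).1 hc'.le
      linarith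
    exact loewner_trans h1 h2

end decay

/-! ### L-S7-4-10 -/

section ricLower

/-- (7.11). -/
theorem s74_ric_lower (I : InitialData 𝓜 g) (ho : o ∈ 𝓜.carrier) (hJ : StJointPositivity D)
    (H : D.Harnack)
    (hdec : ∃ cK s₁ : ℝ, 0 < cK ∧ ∀ s : ℝ, s₁ ≤ s →
      leFOn 𝓜 {o} (smulF (fun _ => Real.exp (-(2 * s))) g) (D.hs s) ∧
      leFOn 𝓜 {o} (D.hs s) (smulF (fun _ => Real.exp (-(cK * s))) g)) :
    ∃ a0 b0 s₁ : ℝ, 0 < a0 ∧ a0 < 1 ∧ 0 < b0 ∧ ∀ s : ℝ, s₁ ≤ s →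
      leFOn 𝓜 {o} (smulF (fun _ => b0 * D.q (a0 * s)) (D.hs s))
        (smulF (fun _ => D.tOf s) (D.ric (D.tOf s))) := by
  have hg : IsMetric 𝓜 g := I.kahler.toIsMetric
  have c := s74_clock D I ho H
  obtain ⟨cK, s₁, hcK, hdec⟩ := hdec
  set a0 : ℝ := min (cK / 4) (1 / 2) with ha0
  have ha0pos : 0 < a0 := lt_min (by positivity) (by norm_num)
  have ha01 : a0 < 1 := lt_of_le_of_lt (min_le_right _ _) (by norm_num)
  have ha0c : a0 ≤ cK / 4 := min_le_left _ _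
  have hb0 : 0 < cK - 2 * a0 := by linarith
  refine ⟨a0, cK - 2 * a0, max (s₁ / a0) (max s₁ 1), ha0pos, ha01, hb0, fun s hs => ?_⟩
  have hs1 : s₁ / a0 ≤ s := (le_max_left _ _).trans hs
  have hs2 : s₁ ≤ s := (le_max_left _ _).trans ((le_max_right _ _).trans hs)
  have hs3 : 1 ≤ s := (le_max_right _ _).trans ((le_max_right _ _).trans hs)
  have hs0 : 0 < s := lt_of_lt_of_le one_pos hs3
  have has : s₁ ≤ a0 * s := by
    rw [div_le_iff₀ ha0pos] at hs1; linarith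
  have has0 : 0 < a0 * s := mul_pos ha0pos hs0
  have hlt : a0 * s < s := by nlinarith
  intro Φ U hΦ z hz hzo
  have F := h1_pointFlow D I hJ hΦ hz
  have ht0 : 0 < D.tOf (a0 * s) := c.T_pos has0
  have ht01 : D.tOf (a0 * s) < D.tOf s :=
    c.T_strictMonoOn (Set.mem_Ici.2 has0.le) (Set.mem_Ici.2 hs0.le) hlt
  have hlow := (hdec (a0 * s) has).1 Φ U hΦ z hz hzo
  have hup := (hdec s hs2).2 Φ U hΦ z hz hzo
  have hlog := c.log_T_le has0 hlt.le
  have hκ : (cK - 2 * a0) * D.q (a0 * s) * (Real.log (D.tOf s) - Real.log (D.tOf (a0 * s))) ≤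
      cK * s - 2 * (a0 * s) := by
    have h1 : (cK - 2 * a0) * (D.q (a0 * s) * (Real.log (D.tOf s) - Real.log (D.tOf (a0 * s)))) ≤
        (cK - 2 * a0) * (s - a0 * s) := mul_le_mul_of_nonneg_left hlog hb0.le
    have h2 : (cK - 2 * a0) * (s - a0 * s) ≤ (cK - 2 * a0) * s :=
      mul_le_mul_of_nonneg_left (by linarith) hb0.le
    nlinarith
  exact F.ric_lower_of_decay (hg.posDef hΦ z hz) ht0 ht01 hlow hup hκ

end ricLower

/-! ### L-S7-4-11 -/

section window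

/-- integrated Harnack inequality with the future time buffer `t' = t₀ + 2 δ / R₀`. -/
theorem s74_window_bound [FiniteDimensional ℝ V] (_I : InitialData 𝓜 g) (ho : o ∈ 𝓜.carrier)
    (H : D.Harnack) {δ K0 ρ : ℝ} (hδ : 0 < δ) (hK0 : 0 ≤ K0) (hρ : 0 < ρ) :
    ∃ Λ : ℝ, ∀ t₀ : ℝ, 0 < t₀ → 4 * δ < t₀ * D.R t₀ o →
      D.R (t₀ + 2 * δ / D.R t₀ o) o ≤ K0 * D.R t₀ o →
      ∀ z ∈ Set.Icc (-δ) δ, ∀ x ∈ hball 𝓜 (D.h (t₀ + z / D.R t₀ o)) o (ρ / Real.sqrt (D.R t₀ o)),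
        D.R (t₀ + z / D.R t₀ o) x ≤ Λ * D.R t₀ o := by
  obtain ⟨C, hC⟩ := H.integrated
  refine ⟨2 * K0 * Real.exp (|C| * ρ ^ 2 / δ), fun t₀ ht₀ h4 hbuf z hz x hx => ?_⟩
  set R₀ : ℝ := D.R t₀ o with hR₀
  have hR0 : 0 < R₀ := by
    by_contra hneg
    have : t₀ * R₀ ≤ 0 := mul_nonpos_of_nonneg_of_nonpos ht₀.le (not_lt.1 hneg)
    linarith
  set t : ℝ := t₀ + z / R₀ with ht
  set t' : ℝ := t₀ + 2 * δ / R₀ with ht'
  have hδR : δ / R₀ < t₀ / 4 := by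
    rw [div_lt_iff₀ hR0]; linarith
  have hzR1 : -(δ / R₀) ≤ z / R₀ := by
    rw [← neg_div]; exact div_le_div_of_nonneg_right hz.1 hR0.le
  have hzR2 : z / R₀ ≤ δ / R₀ := div_le_div_of_nonneg_right hz.2 hR0.le
  have h2δ : 2 * δ / R₀ = 2 * (δ / R₀) := by ring
  have htlow : 3 * t₀ / 4 < t := by rw [ht]; linarith
  have ht0 : 0 < t := lt_trans (by positivity) htlow
  have ht'up : t' < 3 * t₀ / 2 := by rw [ht', h2δ]; linarith
  have hdiff : δ / R₀ ≤ t' - t := by rw [ht', ht, h2δ]; linarith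
  have hδR0 : 0 < δ / R₀ := div_pos hδ hR0
  have htt' : t < t' := by linarith
  have hratio : t' / t ≤ 2 := by
    rw [div_le_iff₀ ht0]; linarith
  have h1 := hC t t' ht0 htt' x hx.1 o ho
  rw [hdist_comm (fc_metric D ht0.le) x o] at h1
  have hd0 := hdist_nonneg 𝓜 (D.h t) o x
  have hd := hx.2
  have hsq : hdist 𝓜 (D.h t) o x ^ 2 ≤ ρ ^ 2 / R₀ := by
    have := pow_le_pow_left₀ hd0 hd.le 2
    rwa [div_pow, Real.sq_sqrt hR0.le] at this
  have hexp : C * hdist 𝓜 (D.h t) o x ^ 2 / (t' - t) ≤ |C| * ρ ^ 2 / δ := by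
    have hpos : 0 < t' - t := by linarith
    rw [div_le_iff₀ hpos]
    have a1 : C * hdist 𝓜 (D.h t) o x ^ 2 ≤ |C| * hdist 𝓜 (D.h t) o x ^ 2 :=
      mul_le_mul_of_nonneg_right (le_abs_self C) (by positivity)
    have a2 : |C| * hdist 𝓜 (D.h t) o x ^ 2 ≤ |C| * (ρ ^ 2 / R₀) :=
      mul_le_mul_of_nonneg_left hsq (abs_nonneg C)
    have a3 : |C| * ρ ^ 2 / δ * (δ / R₀) ≤ |C| * ρ ^ 2 / δ * (t' - t) :=
      mul_le_mul_of_nonneg_left hdiff (by positivity)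
    have a4 : |C| * ρ ^ 2 / δ * (δ / R₀) = |C| * (ρ ^ 2 / R₀) := by
      field_simp
    linarith
  have hRt' : 0 ≤ D.R t' o := D.R_nonneg t' (by linarith) o ho
  calc D.R t x ≤ D.R t' o * (t' / t) * Real.exp (C * hdist 𝓜 (D.h t) o x ^ 2 / (t' - t)) := h1
    _ ≤ (K0 * R₀) * 2 * Real.exp (|C| * ρ ^ 2 / δ) := by
        apply mul_le_mul _ (Real.exp_le_exp.2 hexp) (Real.exp_pos _).le
          (by positivity)
        exact mul_le_mul hbuf hratio (div_pos (by linarith) ht0).le (by positivity)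
    _ = 2 * K0 * Real.exp (|C| * ρ ^ 2 / δ) * R₀ := by ring

theorem s74_window_ric (I : InitialData 𝓜 g) (ho : o ∈ 𝓜.carrier) (H : D.Harnack)
    {a0 b0 K0 t₀ : ℝ} (hb0 : 0 < b0) (hK0 : 1 ≤ K0) (ht₀ : 0 < t₀)
    (hq : t₀ * D.R t₀ o ≤ K0 * D.q (a0 * D.clk t₀))
    (hr : leFOn 𝓜 {o} (smulF (fun _ => b0 * D.q (a0 * D.clk t₀)) (D.hs (D.clk t₀)))
      (smulF (fun _ => D.tOf (D.clk t₀)) (D.ric (D.tOf (D.clk t₀))))) :
    leFOn 𝓜 {o} (smulF (fun _ => b0 / K0 * D.R t₀ o) (D.h t₀)) (D.ric t₀) := by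
  have c := s74_clock D I ho H
  have hT : D.tOf (D.clk t₀) = t₀ := c.T_ρ ht₀.le
  have hK0' : 0 < K0 := lt_of_lt_of_le one_pos hK0
  intro Φ U hΦ z hz hzo
  have h1 := hr Φ U hΦ z hz hzo
  simp only [smulF, FlowData.hs, hT] at h1 ⊢
  have h2 := posSemidef_smul_real (inv_pos.2 ht₀).le h1
  rw [smul_sub, smul_smul, smul_smul, ← Complex.ofReal_mul, ← Complex.ofReal_mul,
    inv_mul_cancel₀ ht₀.ne', Complex.ofReal_one, one_smul] at h2
  have h3 : (((t₀⁻¹ * (b0 * D.q (a0 * D.clk t₀)) : ℝ) : ℂ) • D.h t₀ Φ z -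
      ((b0 / K0 * D.R t₀ o : ℝ) : ℂ) • D.h t₀ Φ z).PosSemidef := by
    apply loewner_smul_le _ (fc_posDef D hΦ ht₀.le hz).posSemidef
    rw [div_mul_eq_mul_div, div_le_iff₀ hK0', inv_mul_eq_div, div_mul_eq_mul_div, le_div_iff₀ ht₀]
    have := mul_le_mul_of_nonneg_left hq hb0.le
    linarith
  exact loewner_trans h3 h2

end window

end Claimed.Agent.R316
end

/- ===== packed: Claimed.Agent.R316.S7.Clk.Main ===== -/
section
/-!
# Row 316, BP-S7-4 (sub-captain helper11): Proposition 7.4 (`St74a`, `St74b` of `Top/S7.lean`), ASSEMBLY (proved)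

`st74a D : St74a D` (volume clock: `ClockFacts`) and `st74b D : St74b D` (selected Ricci windows: `Windows`) from the leaves
`L-S7-4-1 … 4` (`Clk/Real.lean`, real analysis, Mathlib only), `L-S7-4-5, 6` (`Clk/Point.lean`, matrices), `L-S7-4-7 … 11` (`Clk/Mfd.lean`).
`[FiniteDimensional ℝ V]` as in `Base/Metric/Api.lean`.
-/

set_option autoImplicit false
set_option linter.unusedSectionVars false
open scoped ContDiff ComplexOrder Topology Matrix
open Filter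

namespace Claimed.Agent.R316

variable {V : Type} [NormedAddCommGroup V] [NormedSpace ℝ V] [MeasurableSpace V] [BorelSpace V]
variable [FiniteDimensional ℝ V]
variable {n : ℕ} {𝓜 : CMfd V (Fin n)} {g : HFam V (Fin n)} {o : V}
variable (D : FlowData 𝓜 g o)

/-- **Proposition 7.4, first half.** -/
theorem st74a : St74a D := by
  intro I ho hJ H LC SD
  have c := s74_clock D I ho H
  exact
    { clk_strictMono := c.strictMonoOn
      clk_tendsto := c.tendsto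
      q_mono := c.Q_mono
      q_pos := fun s hs => c.Q_pos hs
      q_le := c.Q_le
      q_liminf := c.Q_liminf
      rho_ratio := fun K hK hKM ε hε => s74_rho_ratio D I ho H hK hKM hε
      decay := fun K hK hKM => s74_decay D I ho H LC SD hK hKM
      ric_lower := s74_ric_lower D I ho hJ H
        (s74_decay D I ho H LC SD isCompact_singleton (Set.singleton_subset_iff.2 ho)) }

/-- **Proposition 7.4, second half.** -/
theorem st74b : St74b D := by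
  intro I ho H CF
  have c := s74_clock D I ho H
  obtain ⟨a0, b0, s₁, ha0, ha1, hb0, hric⟩ := CF.ric_lower
  obtain ⟨ti, δ, K0, hδ, hK0, hti, hall, hdef⟩ := c.windows ha0 ha1 s₁
  have hK0' : (0 : ℝ) < K0 := lt_of_lt_of_le one_pos hK0
  refine ⟨ti, δ, b0 / K0, hδ, div_pos hb0 hK0', hti, fun i => ⟨(hall i).1, (hall i).2.1⟩, ?_, ?_,
    hdef⟩
  · intro ρ hρ
    obtain ⟨Λ, hΛ⟩ := s74_window_bound D I ho H hδ hK0'.le hρ
    exact ⟨Λ, 0, fun i _ => hΛ (ti i) (hall i).1 (hall i).2.1 (hall i).2.2.2.2⟩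
  · intro i
    exact s74_window_ric D I ho H hb0 hK0 (hall i).1 (hall i).2.2.2.1 (hric _ (hall i).2.2.1)

end Claimed.Agent.R316
end

/- ===== packed: Claimed.Agent.R316.S9.Main ===== -/
section
/-!
# Row 316, Section 9: the main theorem (Proposition 9.1, polynomial models)

`s9_main` is the export of the package `R316/S9`; it is PROVED here from
`asm_main` (Asm), `vol_main` (Vol), `exists_par`, `exists_start` (Par), `exists_asmData` (Inst),
`degacc_bound` (Book) and the grid facts of `Ctx`.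
-/

set_option autoImplicit false
open MvPolynomial

namespace Claimed.Agent.R316.S9

/-- the input is inconsistent in dimension `0`. -/
theorem S9Input.n_pos {n d : ℕ} (I : S9Input n d) : 0 < n := by
  rcases Nat.eq_zero_or_pos n with h0 | h0
  · exfalso
    subst h0
    have h := I.det I.s0 (I.s0 + 1) le_rfl (by linarith)
    rw [Matrix.det_isEmpty, norm_one] at h
    have h2 : Real.exp (-(I.s0 + 1 - I.s0) / 2) < 1 := by
      rw [Real.exp_lt_one_iff]; linarith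
    linarith
  · exact h0

/-- **Proposition 9.1 (polynomial models).**  The constant `Cd` is chosen before the macro width
`h`. -/
theorem s9_main {n d : ℕ} (hd : 2 ≤ d) (I : S9Input n d) :
    ∃ Cd : ℝ, ∀ h : ℝ, 0 < h → h < 1 → Nonempty (S9Output I h Cd) := by
  have hn : 0 < n := I.n_pos
  obtain ⟨cs, c, Dd, hasm⟩ := asm_main n d hd
  obtain ⟨A, Ai, Cv, cv, hvol⟩ := vol_main hd hn I
  have hvol' : VolProp I A Ai Cv cv := hvol
  refine ⟨(cs : ℝ) / 2, fun h hh hh1 => ?_⟩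
  obtain ⟨P⟩ := exists_par I hh (max Dd 1)
  obtain ⟨j0, hreg0, hlate⟩ := exists_start hh hn P (2 * cv + 1) c Cv
  let C : Ctx I h (max Dd 1) (2 * cv + 1) c Cv := ⟨hh, hh1, hn, P, j0, hreg0, hlate⟩
  obtain ⟨Y, X, hreg, hF, hΔ, hx, hy, hw, hsm1, hsm2⟩ := exists_asmData hd C hvol' le_rfl
  obtain ⟨H, G, Gi, hHG⟩ := hasm Y hsm1 hsm2
  obtain ⟨D, hD⟩ := degacc_bound C (le_max_right _ _) X Y.w hw G
    (fun k hk hk' => (hHG k).2.2.2.2.2.2.2.2.2.2.2.2.2.1 ((hreg k).mpr hk) ((hreg (k + 1)).mpr hk'))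
    (fun k hk => (hHG k).2.2.2.2.2.2.2.2.2.2.2.2.2.2 ((hreg k).mpr hk))
    (fun k => (hHG k).2.2.2.2.2.2.2.1.trans (le_max_left _ _))
  have hs1 : ∀ k, 1 ≤ C.s k := fun k => I.hs0.trans (C.s_ge k)
  have hpow : ∀ k, C.s k ^ (2 * cv + 1) ≤ C.s k ^ (3 * (2 * cv + 1)) := fun k =>
    pow_le_pow_right₀ (hs1 k) (by omega)
  refine ⟨{
    s := C.s, H := H, G := G, Gi := Gi, C := c, Cp := 3 * (2 * cv + 1)
    ch := min (1 / 4) (Real.exp h - 1), Dd := Dd, D := D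
    hch := lt_min (by norm_num) (by have := Real.add_one_lt_exp hh.ne'; linarith)
    s_ge := C.s_ge
    s_tendsto := C.s_tendsto
    step_lb := C.step_lb
    step_ub := C.step_ub
    fixH := fun k => (hHG k).1
    fixG := fun k => (hHG k).2.1
    fixGi := fun k => (hHG k).2.2.1
    conj := fun k => by rw [← hF k]; exact (hHG k).2.2.2.1
    G_Gi := fun k => (hHG k).2.2.2.2.1
    Gi_G := fun k => (hHG k).2.2.2.2.2.1
    degH := fun k => (hHG k).2.2.2.2.2.2.1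
    degG := fun k => (hHG k).2.2.2.2.2.2.2.1
    degGi := fun k => (hHG k).2.2.2.2.2.2.2.2.1
    nrmH := fun k => by
      have := (hHG k).2.2.2.2.2.2.2.2.2.2.1
      rw [hx k, ← Real.exp_nat_mul] at this
      exact this
    linH := fun k => by
      rw [(hHG k).2.2.2.2.2.2.2.2.2.1]
      exact ((Y.bLam k).trans (hy k).le).trans (hpow k)
    linHinv := fun k => ⟨Y.Lami k, by rw [(hHG k).2.2.2.2.2.2.2.2.2.1]; exact Y.Lami_Lam k,
      ((Y.bLami k).trans (hy k).le).trans (hpow k)⟩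
    nrmG := fun k => by
      have := (hHG k).2.2.2.2.2.2.2.2.2.2.2.1
      rw [hx k, ← Real.exp_nat_mul, ← Real.exp_add, hΔ k] at this
      refine this.trans (le_of_eq ?_)
      congr 1; ring
    linGi := fun k => by
      have := (hHG k).2.2.2.2.2.2.2.2.2.2.2.2.1
      rw [hy k, hΔ k, ← pow_mul] at this
      rw [mul_comm 3]
      exact this
    degacc := hD }⟩

end Claimed.Agent.R316.S9
end
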