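/- Packed by merge_tool.py (helper293): 3 modules of Claimed.Agent.R316 in one file, same declarations.
   Old modules, in this order: Base.Metric.Local, Base.Metric.Topo, Base.Metric.Mono -/
import Claimed.Agent.R316.Pack008

/- ===== packed: Claimed.Agent.R316.Base.Metric.Local ===== -/
section
/-!
# Row 316 base layer, `BP-G0`, leaf `G0-4`: comparison of `hdist` with the parametrisations

Statements: helper97 (export file `Api.lean`, section 4 first part, `hdist_pos`, `hdist_eq_zero_iff`).  Sub-captain of `BP-G0`: helper268.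
CHANGE w.r.t. the first export file: `hdist_pos`, `hdist_eq_zero_iff` need `hconn` (for points in different components the set of curves is empty and `sInf ∅ = 0`).

RECIPE: lower bounds WITHOUT exit times.  `A` positive definite matrix, `N v := √(qf A v)`, `w ∈ U`, `s₀ > 0`, `m > 0` such that on `K := {ζ | N (ζ - w) ≤ 2 s₀}` (a compact subset of `U`)
`m² qf A v ≤ qf (h Φ ζ) v`.  Truncation `ψ = g0psi s₀` : `ψ' = 1 - σ((s - s₀)/s₀) ∈ [0,1]`, `ψ s = s` for `s ≤ s₀`, `ψ` constant on `[2 s₀, ∞)`.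
`u = g0u` : `u x = ψ (√(N(Φ⁻¹ x - w)² + κ²))` on `Φ '' U`, `u = ψ (2 s₀)` elsewhere.
`g0_key_deriv`: for a `C¹` curve `γ` in the carrier, `F := u ∘ γ` is differentiable at every `t`, `m |F' t| ≤ speed t`:
 (1) `γ t ∈ Φ '' U`: then `γ s ∈ Φ '' U` near `t` (`IsParam.image`), `c := invFunOn Φ U ∘ γ` is differentiable at `t`, `γ' = dΦ c'` (`IsParam.hasFDerivAt_invFunOn_comp`, `IsParam.coVec_deriv`), `speed² = qf (h Φ (c t)) (c' t)` (`ambQ_param`);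
     `F = ψ ∘ f ∘ c` near `t`, `f ζ = √(qf A (ζ - w) + κ²)`, `df_ζ v = reForm A (ζ - w) v / f ζ` (`g0_hasFDerivAt_qf`), `|reForm A a v| ≤ N a N v` (`qf_cauchy_schwarz`), `N (ζ - w) ≤ f ζ`: `|F'| ≤ ψ'(f) N(c')`.
     If `c t ∈ K`: `m N(c') ≤ speed`.  If not: `f (c t) > 2 s₀`, `ψ' = 0`.
 (2) `γ t ∉ Φ '' U`: `Φ '' K` is compact, hence closed, `γ t ∉ Φ '' K`, so `γ s ∉ Φ '' K` near `t`, where `F = ψ (2 s₀)` (`g0psi_const`): `F' = 0`.
`g0_key`: `t ↦ len γ a t - m F t` has derivative `≥ 0` (`hasDerivAt_len`, `monotone_of_deriv_nonneg`).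
`g0_len_lower`: `u (Φ w) = ψ κ = κ` (`κ ≤ s₀`), `u (Φ z) ≥ ψ (N (z - w)) = N (z - w)` if `N (z - w) ≤ s₀`, `u y ≥ ψ s₀ = s₀` if `y` is not in `Φ '' {N < s₀}`; let `κ → 0` (`le_of_forall_pos_le_add`).
Upper bounds: segment `t ↦ w + t (z - w)`, `hdist_le_integral_param`.
-/

set_option autoImplicit false
set_option linter.unusedSectionVars false
set_option linter.unusedVariables false
open scoped ContDiff ComplexOrder Topology
open MeasureTheory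

namespace Claimed.Agent.R316

variable {V : Type} [NormedAddCommGroup V] [NormedSpace ℝ V] [FiniteDimensional ℝ V]
variable {ι : Type} [Fintype ι] [DecidableEq ι]
variable {𝓜 : CMfd V ι} {h h' : HFam V ι}

/-! ### the truncation -/

section trunc

/-- the truncation `ψ`: `ψ s = ∫₀ˢ (1 - σ((r - s₀)/s₀)) dr`. -/
noncomputable def g0psi (s₀ s : ℝ) : ℝ :=
  ∫ r in (0 : ℝ)..s, (1 - Real.smoothTransition ((r - s₀) / s₀))

theorem g0psi_eqns_cite : True := by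
  have := @g0psi.eq_1
  trivial

theorem g0psi_continuous_integrand (s₀ : ℝ) :
    Continuous fun r : ℝ => 1 - Real.smoothTransition ((r - s₀) / s₀) :=
  continuous_const.sub (Real.smoothTransition.continuous.comp
    ((continuous_id.sub continuous_const).div_const s₀))

theorem g0psi_hasDerivAt (s₀ s : ℝ) :
    HasDerivAt (g0psi s₀) (1 - Real.smoothTransition ((s - s₀) / s₀)) s :=
  ((g0psi_continuous_integrand s₀).integral_hasStrictDerivAt 0 s).hasDerivAt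

theorem g0psi_monotone (s₀ : ℝ) : Monotone (g0psi s₀) := by
  refine monotone_of_deriv_nonneg (fun s => (g0psi_hasDerivAt s₀ s).differentiableAt) fun s => ?_
  rw [(g0psi_hasDerivAt s₀ s).deriv]
  linarith [Real.smoothTransition.le_one ((s - s₀) / s₀)]

theorem g0psi_eq_self {s₀ : ℝ} (hs₀ : 0 < s₀) {s : ℝ} (hs : s ≤ s₀) : g0psi s₀ s = s := by
  have : ∫ r in (0 : ℝ)..s, (1 - Real.smoothTransition ((r - s₀) / s₀)) =
      ∫ r in (0 : ℝ)..s, (1 : ℝ) := by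
    refine intervalIntegral.integral_congr fun r hr => ?_
    have hr' : r ≤ s₀ := by
      rcases Set.mem_uIcc.1 hr with h | h
      · exact h.2.trans hs
      · exact h.2.trans hs₀.le
    have : (r - s₀) / s₀ ≤ 0 := div_nonpos_of_nonpos_of_nonneg (by linarith) hs₀.le
    simp only [Real.smoothTransition.zero_of_nonpos this, sub_zero]
  unfold g0psi
  rw [this]
  simp

theorem g0psi_const {s₀ : ℝ} (hs₀ : 0 < s₀) {s : ℝ} (hs : 2 * s₀ ≤ s) :
    g0psi s₀ s = g0psi s₀ (2 * s₀) := by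
  have hc := g0psi_continuous_integrand s₀
  have h1 := intervalIntegral.integral_add_adjacent_intervals (μ := volume)
    (hc.intervalIntegrable 0 (2 * s₀)) (hc.intervalIntegrable (2 * s₀) s)
  have h2 : ∫ r in (2 * s₀)..s, (1 - Real.smoothTransition ((r - s₀) / s₀)) =
      ∫ r in (2 * s₀)..s, (0 : ℝ) := by
    refine intervalIntegral.integral_congr fun r hr => ?_
    rw [Set.uIcc_of_le hs] at hr
    have : 1 ≤ (r - s₀) / s₀ := by
      rw [le_div_iff₀ hs₀]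
      linarith [hr.1]
    simp only [Real.smoothTransition.one_of_one_le this, sub_self]
  unfold g0psi
  rw [← h1, h2]
  simp

end trunc

/-! ### linear algebra -/

section linalg

/-- `qf 1 v = ‖v‖²`. -/
theorem g0_qf_one (v : CE ι) : qf (1 : Matrix ι ι ℂ) v = ‖v‖ ^ 2 := by
  rw [qf_one, EuclideanSpace.norm_sq_eq]

theorem g0_continuous_qf (A : Matrix ι ι ℂ) : Continuous fun v : CE ι => qf A v := by
  simp only [qf_eq_sum]
  refine Complex.continuous_re.comp ?_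
  refine continuous_finsetSum _ fun j _ => continuous_finsetSum _ fun k _ => ?_
  have hj : ∀ j : ι, Continuous (fun v : CE ι => v j) :=
    fun j => (EuclideanSpace.proj (𝕜 := ℂ) j).continuous
  exact ((Complex.continuous_conj.comp (hj j)).mul continuous_const).mul (hj k)

theorem g0_qf_smul_real (A : Matrix ι ι ℂ) (c : ℝ) (v : CE ι) :
    qf A (c • v : CE ι) = c ^ 2 * qf A v := by
  have := qf_smul_vec A (v : ι → ℂ) (c : ℂ)
  rw [Complex.norm_real, Real.norm_eq_abs, sq_abs] at this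
  rw [← this]
  congr 1

/-- the norm of a positive definite matrix is equivalent to the Euclidean norm. -/
theorem g0_norm_equiv {A : Matrix ι ι ℂ} (hA : A.PosDef) :
    ∃ c C : ℝ, 0 < c ∧ 0 < C ∧ ∀ v : CE ι,
      c * ‖v‖ ≤ Real.sqrt (qf A v) ∧ Real.sqrt (qf A v) ≤ C * ‖v‖ := by
  rcases subsingleton_or_nontrivial (CE ι) with hsub | hnt
  · refine ⟨1, 1, one_pos, one_pos, fun v => ?_⟩
    have : v = 0 := Subsingleton.elim _ _
    subst this
    have h0 : qf A (0 : ι → ℂ) = 0 := qf_zero_vec A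
    simp [h0]
  · have hcomp : IsCompact (Metric.sphere (0 : CE ι) 1) := isCompact_sphere 0 1
    have hne : (Metric.sphere (0 : CE ι) 1).Nonempty := NormedSpace.sphere_nonempty.2 zero_le_one
    have hcont : ContinuousOn (fun v : CE ι => Real.sqrt (qf A v)) (Metric.sphere (0 : CE ι) 1) :=
      (Real.continuous_sqrt.comp (g0_continuous_qf A)).continuousOn
    obtain ⟨v₁, hv₁, hmin⟩ := hcomp.exists_isMinOn hne hcont
    obtain ⟨v₂, hv₂, hmax⟩ := hcomp.exists_isMaxOn hne hcont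
    have hpos : ∀ v ∈ Metric.sphere (0 : CE ι) 1, 0 < Real.sqrt (qf A v) := by
      intro v hv
      refine Real.sqrt_pos.2 (qf_pos hA ?_)
      intro h0
      have : v = 0 := by
        ext k
        exact congrFun h0 k
      rw [this] at hv
      simp at hv
    refine ⟨_, _, hpos v₁ hv₁, hpos v₂ hv₂, fun v => ?_⟩
    rcases eq_or_ne v 0 with rfl | hv
    · have h0 : qf A (0 : ι → ℂ) = 0 := qf_zero_vec A
      simp [h0]
    · have hn : 0 < ‖v‖ := norm_pos_iff.2 hv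
      have hu : (‖v‖⁻¹ • v) ∈ Metric.sphere (0 : CE ι) 1 := by
        rw [mem_sphere_zero_iff_norm, norm_smul, norm_inv, norm_norm, inv_mul_cancel₀ hn.ne']
      have e : Real.sqrt (qf A v) = ‖v‖ * Real.sqrt (qf A (‖v‖⁻¹ • v : CE ι)) := by
        rw [g0_qf_smul_real, Real.sqrt_mul (sq_nonneg _), Real.sqrt_sq (inv_nonneg.2 hn.le),
          ← mul_assoc, mul_inv_cancel₀ hn.ne', one_mul]
      rw [e]
      constructor
      · rw [mul_comm]
        exact mul_le_mul_of_nonneg_left (hmin hu) hn.le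
      · rw [mul_comm _ ‖v‖]
        exact mul_le_mul_of_nonneg_left (hmax hu) hn.le

/-- Cauchy-Schwarz for `reForm`. -/
theorem g0_abs_reForm_le {A : Matrix ι ι ℂ} (hA : A.PosSemidef) (a b : CE ι) :
    |reForm A a b| ≤ Real.sqrt (qf A a) * Real.sqrt (qf A b) := by
  have h2 := qf_cauchy_schwarz hA (a : ι → ℂ) (b : ι → ℂ)
  rw [← Real.sqrt_mul (qf_nonneg hA _)]
  refine (Complex.abs_re_le_norm _).trans ?_
  exact Real.le_sqrt_of_sq_le h2

theorem g0_reForm_symm {A : Matrix ι ι ℂ} (hA : A.IsHermitian) (a b : CE ι) :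
    reForm A a b = reForm A b a := by
  unfold reForm
  rw [← Complex.conj_re, ← Complex.star_def, ← Matrix.star_dotProduct,
      Matrix.star_mulVec, hA.eq, ← Matrix.dotProduct_mulVec]

/-- derivative of the quadratic form. -/
theorem g0_hasFDerivAt_qf {A : Matrix ι ι ℂ} (hA : A.IsHermitian) (w ζ : CE ι) :
    HasFDerivAt (fun y : CE ι => qf A (y - w)) ((2 : ℝ) • mkBil (reFormₗ A) (ζ - w)) ζ := by
  have h1 : HasFDerivAt (fun y : CE ι => y - w) (ContinuousLinearMap.id ℝ (CE ι)) ζ :=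
    (hasFDerivAt_id ζ).sub_const w
  have h2 := (mkBil (reFormₗ A)).hasFDerivAt_of_bilinear h1 h1
  have e : (fun y : CE ι => qf A (y - w)) =
      fun y => mkBil (reFormₗ A) (y - w) (y - w) := rfl
  rw [e]
  have e2 : (2 : ℝ) • mkBil (reFormₗ A) (ζ - w) =
      (mkBil (reFormₗ A)).precompR (CE ι) (ζ - w) (ContinuousLinearMap.id ℝ (CE ι)) +
        (mkBil (reFormₗ A)).precompL (CE ι) (ContinuousLinearMap.id ℝ (CE ι)) (ζ - w) := by
    refine ContinuousLinearMap.ext fun v => ?_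
    have : reFormₗ A v (ζ - w) = reFormₗ A (ζ - w) v := g0_reForm_symm hA _ _
    simp only [ContinuousLinearMap.smul_apply, ContinuousLinearMap.add_apply,
      ContinuousLinearMap.precompR_apply, ContinuousLinearMap.precompL_apply,
      ContinuousLinearMap.id_apply, mkBil_apply, smul_eq_mul, this,
      ContinuousLinearMap.compL_apply, ContinuousLinearMap.comp_apply]
    ring
  rw [e2]
  exact h2

/-- the `N`-balls are compact. -/
theorem g0_isCompact_qf_le {A : Matrix ι ι ℂ} (hA : A.PosDef) (w : CE ι) (R : ℝ) :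
    IsCompact {ζ : CE ι | qf A (ζ - w) ≤ R} := by
  obtain ⟨c, C, hc, hC, H⟩ := g0_norm_equiv hA
  have hcl : IsClosed {ζ : CE ι | qf A (ζ - w) ≤ R} :=
    isClosed_le ((g0_continuous_qf A).comp (continuous_id.sub continuous_const)) continuous_const
  refine Metric.isCompact_of_isClosed_isBounded hcl ?_
  refine (Metric.isBounded_closedBall (x := w) (r := Real.sqrt R / c)).subset fun ζ hζ => ?_
  rw [Metric.mem_closedBall, dist_eq_norm, le_div_iff₀ hc, mul_comm]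
  exact ((H (ζ - w)).1).trans (Real.sqrt_le_sqrt hζ)

end linalg

section local_

variable {Φ : CE ι → V} {U : Set (CE ι)}

open Classical in
/-- the truncated regularised distance function from `Φ w`. -/
noncomputable def g0u (Φ : CE ι → V) (U : Set (CE ι)) (A : Matrix ι ι ℂ) (w : CE ι) (s₀ κ : ℝ)
    (x : V) : ℝ :=
  if x ∈ Φ '' U then g0psi s₀ (Real.sqrt (qf A (Function.invFunOn Φ U x - w) + κ ^ 2))
  else g0psi s₀ (2 * s₀)

theorem g0u_eqns_cite : True := by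
  have := @g0u.eq_1
  trivial

theorem g0_aux_bound {ψ' r fz Na Nb m sp : ℝ} (h0 : 0 ≤ ψ') (h1 : ψ' ≤ 1) (hfz : 0 < fz)
    (hr : |r| ≤ Na * Nb) (hNa : Na ≤ fz) (hNb : 0 ≤ Nb) (hm : 0 < m) (hsp : m * Nb ≤ sp) :
    m * |ψ' * (r / fz)| ≤ sp := by
  refine le_trans (mul_le_mul_of_nonneg_left ?_ hm.le) hsp
  rw [abs_mul, abs_div, abs_of_nonneg h0, abs_of_pos hfz]
  have h2 : |r| / fz ≤ Nb := by
    rw [div_le_iff₀ hfz]
    calc |r| ≤ Na * Nb := hr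
      _ ≤ fz * Nb := mul_le_mul_of_nonneg_right hNa hNb
      _ = Nb * fz := mul_comm _ _
  calc ψ' * (|r| / fz) ≤ 1 * Nb :=
        mul_le_mul h1 h2 (div_nonneg (abs_nonneg _) hfz.le) zero_le_one
    _ = Nb := one_mul _

/-- derivative of `u` along a curve. -/
theorem g0_key_deriv (hm : IsHForm 𝓜 h) (hΦ : 𝓜.IsHol Φ U) {A : Matrix ι ι ℂ} (hA : A.PosDef)
    {w : CE ι} {s₀ m κ : ℝ} (hs₀ : 0 < s₀) (hm0 : 0 < m) (hκ : 0 < κ)
    (hK : ∀ ζ : CE ι, qf A (ζ - w) ≤ (2 * s₀) ^ 2 →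
      ζ ∈ U ∧ ∀ v : CE ι, m ^ 2 * qf A v ≤ qf (h Φ ζ) v)
    {γ : ℝ → V} (hγ : IsC1Curve 𝓜 γ) (t : ℝ) :
    ∃ F' : ℝ, HasDerivAt (fun s => g0u Φ U A w s₀ κ (γ s)) F' t ∧
      m * |F'| ≤ Real.sqrt (ambQ 𝓜 h (γ t) (deriv γ t)) := by
  have hp := 𝓜.isParam hΦ
  have hAs := hA.posSemidef
  have hfar : ∀ ζ : CE ι, ¬ qf A (ζ - w) ≤ (2 * s₀) ^ 2 →
      2 * s₀ ≤ Real.sqrt (qf A (ζ - w) + κ ^ 2) := by
    intro ζ hζ
    push Not at hζ
    apply Real.le_sqrt_of_sq_le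
    nlinarith [sq_nonneg κ]
  by_cases hx : γ t ∈ Φ '' U
  · set c := Function.invFunOn Φ U ∘ γ with hc
    have hM : ∀ᶠ y in 𝓝 t, γ y ∈ 𝓜.carrier := Filter.Eventually.of_forall hγ.2
    obtain ⟨hd, hv⟩ := hp.hasFDerivAt_invFunOn_comp (hγ.differentiableAt t) hM hx
    have hct : c t ∈ U := hp.invFunOn_mem hx
    have hΦc : Φ (c t) = γ t := hp.rightInv hx
    have hder : deriv γ t = fderiv ℝ Φ (c t) (deriv c t) := by
      exact hv 1
    have hspeed : ambQ 𝓜 h (γ t) (deriv γ t) = qf (h Φ (c t)) (deriv c t : CE ι) := by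
      rw [hder, ← hΦc]
      exact ambQ_param hm hΦ hct _
    obtain ⟨O, hO, hOe⟩ := hp.image
    have hnear : ∀ᶠ s in 𝓝 t, γ s ∈ Φ '' U := by
      have hxO : γ t ∈ O := (hOe ▸ hx : γ t ∈ 𝓜.carrier ∩ O).2
      filter_upwards [(hγ.differentiableAt t).continuousAt.preimage_mem_nhds (hO.mem_nhds hxO)]
        with s hs
      rw [hOe]
      exact ⟨hγ.2 s, hs⟩
    set f : CE ι → ℝ := fun ζ => Real.sqrt (qf A (ζ - w) + κ ^ 2) with hf
    have hqa : 0 ≤ qf A (c t - w) := qf_nonneg hAs _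
    have hpos : 0 < qf A (c t - w) + κ ^ 2 := by positivity
    have hf1 : HasFDerivAt (fun y : CE ι => qf A (y - w) + κ ^ 2)
        ((2 : ℝ) • mkBil (reFormₗ A) (c t - w)) (c t) :=
      (g0_hasFDerivAt_qf hA.isHermitian w (c t)).add_const _
    have hf2 := hf1.sqrt hpos.ne'
    have hf3 := hf2.comp_hasDerivAt t hd.hasDerivAt
    have hf4 := (g0psi_hasDerivAt s₀ (f (c t))).comp t hf3
    have hev : (fun s => g0u Φ U A w s₀ κ (γ s)) =ᶠ[𝓝 t] (g0psi s₀ ∘ (f ∘ c)) := by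
      filter_upwards [hnear] with s hs
      simp only [g0u, if_pos hs]
      rfl
    refine ⟨_, hf4.congr_of_eventuallyEq hev, ?_⟩
    have hfz : 0 < f (c t) := Real.sqrt_pos.2 hpos
    have hinner : ((1 / (2 * Real.sqrt (qf A (c t - w) + κ ^ 2))) •
        ((2 : ℝ) • mkBil (reFormₗ A) (c t - w))) (deriv c t) =
        reForm A (c t - w) (deriv c t) / f (c t) := by
      simp only [smul_apply, mkBil_apply, smul_eq_mul]
      have : reFormₗ A (c t - w) (deriv c t) = reForm A (c t - w) (deriv c t) := rfl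
      rw [this]
      have hfe : f (c t) = Real.sqrt (qf A (c t - w) + κ ^ 2) := rfl
      rw [hfe]
      have hne : Real.sqrt (qf A (c t - w) + κ ^ 2) ≠ 0 := (Real.sqrt_pos.2 hpos).ne'
      field_simp
    rw [hinner, hspeed]
    by_cases hin : qf A (c t - w) ≤ (2 * s₀) ^ 2
    · have hb := (hK (c t) hin).2 (deriv c t)
      refine g0_aux_bound (Na := Real.sqrt (qf A (c t - w)))
        (Nb := Real.sqrt (qf A (deriv c t : CE ι))) ?_ ?_ hfz
        (g0_abs_reForm_le hAs _ _) ?_ (Real.sqrt_nonneg _) hm0 ?_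
      · linarith [Real.smoothTransition.le_one ((f (c t) - s₀) / s₀)]
      · linarith [Real.smoothTransition.nonneg ((f (c t) - s₀) / s₀)]
      · exact Real.sqrt_le_sqrt (by nlinarith [sq_nonneg κ])
      · rw [← Real.sqrt_sq hm0.le, ← Real.sqrt_mul (sq_nonneg m)]
        exact Real.sqrt_le_sqrt hb
    · have h2 : 1 ≤ (f (c t) - s₀) / s₀ := by
        rw [le_div_iff₀ hs₀]
        have := hfar (c t) hin
        linarith
      rw [Real.smoothTransition.one_of_one_le h2]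
      simp [Real.sqrt_nonneg]
  · have hKc : IsCompact {ζ : CE ι | qf A (ζ - w) ≤ (2 * s₀) ^ 2} := g0_isCompact_qf_le hA w _
    have hKU : {ζ : CE ι | qf A (ζ - w) ≤ (2 * s₀) ^ 2} ⊆ U := fun ζ hζ => (hK ζ hζ).1
    have hcl : IsClosed (Φ '' {ζ : CE ι | qf A (ζ - w) ≤ (2 * s₀) ^ 2}) :=
      (hKc.image_of_continuousOn (hp.continuousOn.mono hKU)).isClosed
    have hnot : γ t ∉ Φ '' {ζ : CE ι | qf A (ζ - w) ≤ (2 * s₀) ^ 2} :=
      fun hh => hx (Set.image_mono hKU hh)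
    have hnear : ∀ᶠ s in 𝓝 t, γ s ∉ Φ '' {ζ : CE ι | qf A (ζ - w) ≤ (2 * s₀) ^ 2} :=
      (hγ.differentiableAt t).continuousAt.preimage_mem_nhds (hcl.isOpen_compl.mem_nhds hnot)
    have hev : (fun s => g0u Φ U A w s₀ κ (γ s)) =ᶠ[𝓝 t] fun _ => g0psi s₀ (2 * s₀) := by
      filter_upwards [hnear] with s hs
      by_cases hsU : γ s ∈ Φ '' U
      · simp only [g0u, if_pos hsU]
        apply g0psi_const hs₀
        apply hfar
        intro hle
        exact hs ⟨_, hle, hp.rightInv hsU⟩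
      · simp only [g0u, if_neg hsU]
    refine ⟨0, (hasDerivAt_const t _).congr_of_eventuallyEq hev, ?_⟩
    simp [Real.sqrt_nonneg]

/-- **key estimate**. -/
theorem g0_key (hm : IsHForm 𝓜 h) (hΦ : 𝓜.IsHol Φ U) {A : Matrix ι ι ℂ} (hA : A.PosDef)
    {w : CE ι} {s₀ m κ : ℝ} (hs₀ : 0 < s₀) (hm0 : 0 < m) (hκ : 0 < κ)
    (hK : ∀ ζ : CE ι, qf A (ζ - w) ≤ (2 * s₀) ^ 2 →
      ζ ∈ U ∧ ∀ v : CE ι, m ^ 2 * qf A v ≤ qf (h Φ ζ) v)
    {γ : ℝ → V} (hγ : IsC1Curve 𝓜 γ) {a b : ℝ} (hab : a ≤ b) :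
    m * (g0u Φ U A w s₀ κ (γ b) - g0u Φ U A w s₀ κ (γ a)) ≤ len 𝓜 h γ a b := by
  choose F' hF' hbound using fun t => g0_key_deriv hm hΦ hA hs₀ hm0 hκ hK hγ t
  have hG : ∀ t, HasDerivAt (fun s => len 𝓜 h γ a s - m * g0u Φ U A w s₀ κ (γ s))
      (Real.sqrt (ambQ 𝓜 h (γ t) (deriv γ t)) - m * F' t) t := fun t =>
    (hasDerivAt_len hm hγ a t).sub ((hF' t).const_mul m)
  have hmono : Monotone (fun s => len 𝓜 h γ a s - m * g0u Φ U A w s₀ κ (γ s)) := by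
    refine monotone_of_deriv_nonneg (fun t => (hG t).differentiableAt) fun t => ?_
    rw [(hG t).deriv]
    have := hbound t
    have h2 : m * F' t ≤ m * |F' t| := mul_le_mul_of_nonneg_left (le_abs_self _) hm0.le
    linarith
  have := hmono hab
  simp only [len_self] at this
  linarith

/-- lower bound for the length of a curve starting at `Φ w`: end point in the small `N`-ball. -/
theorem g0_len_lower (hm : IsHForm 𝓜 h) (hΦ : 𝓜.IsHol Φ U) {A : Matrix ι ι ℂ} (hA : A.PosDef)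
    {w : CE ι} {s₀ m : ℝ} (hs₀ : 0 < s₀) (hm0 : 0 < m)
    (hK : ∀ ζ : CE ι, qf A (ζ - w) ≤ (2 * s₀) ^ 2 →
      ζ ∈ U ∧ ∀ v : CE ι, m ^ 2 * qf A v ≤ qf (h Φ ζ) v)
    {γ : ℝ → V} (hγ : IsC1Curve 𝓜 γ) {a b : ℝ} (hab : a ≤ b) (ha : γ a = Φ w) {z : CE ι}
    (hz : qf A (z - w) ≤ s₀ ^ 2) (hb : γ b = Φ z) :
    m * Real.sqrt (qf A (z - w)) ≤ len 𝓜 h γ a b := by
  have hp := 𝓜.isParam hΦ
  have hq0 : qf A (w - w) = 0 := by
    rw [sub_self]
    exact qf_zero_vec A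
  have hwU : w ∈ U := (hK w (by rw [hq0]; positivity)).1
  have hzU : z ∈ U := (hK z (hz.trans (by nlinarith))).1
  refine le_of_forall_pos_le_add fun ε hε => ?_
  set κ := min s₀ (ε / m) with hκdef
  have hκ : 0 < κ := lt_min hs₀ (div_pos hε hm0)
  have key := g0_key hm hΦ hA hs₀ hm0 hκ hK hγ hab
  rw [ha, hb] at key
  have hu1 : g0u Φ U A w s₀ κ (Φ w) = κ := by
    simp only [g0u, if_pos (Set.mem_image_of_mem Φ hwU), hp.leftInv hwU]
    rw [hq0, zero_add, Real.sqrt_sq hκ.le, g0psi_eq_self hs₀ (min_le_left _ _)]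
  have hu2 : Real.sqrt (qf A (z - w)) ≤ g0u Φ U A w s₀ κ (Φ z) := by
    simp only [g0u, if_pos (Set.mem_image_of_mem Φ hzU), hp.leftInv hzU]
    have h1 : Real.sqrt (qf A (z - w)) ≤ s₀ :=
      (Real.sqrt_le_sqrt hz).trans (by rw [Real.sqrt_sq hs₀.le])
    calc Real.sqrt (qf A (z - w)) = g0psi s₀ (Real.sqrt (qf A (z - w))) :=
          (g0psi_eq_self hs₀ h1).symm
      _ ≤ _ := g0psi_monotone s₀ (Real.sqrt_le_sqrt (by nlinarith [sq_nonneg κ]))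
  have hκε : m * κ ≤ ε := by
    calc m * κ ≤ m * (ε / m) := mul_le_mul_of_nonneg_left (min_le_right _ _) hm0.le
      _ = ε := by field_simp
  have h3 := mul_le_mul_of_nonneg_left hu2 hm0.le
  rw [hu1] at key
  linarith

/-- lower bound for the length of a curve starting at `Φ w`: end point outside the small `N`-ball. -/
theorem g0_len_lower_out (hm : IsHForm 𝓜 h) (hΦ : 𝓜.IsHol Φ U) {A : Matrix ι ι ℂ} (hA : A.PosDef)
    {w : CE ι} {s₀ m : ℝ} (hs₀ : 0 < s₀) (hm0 : 0 < m)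
    (hK : ∀ ζ : CE ι, qf A (ζ - w) ≤ (2 * s₀) ^ 2 →
      ζ ∈ U ∧ ∀ v : CE ι, m ^ 2 * qf A v ≤ qf (h Φ ζ) v)
    {γ : ℝ → V} (hγ : IsC1Curve 𝓜 γ) {a b : ℝ} (hab : a ≤ b) (ha : γ a = Φ w)
    (hb : ∀ z : CE ι, qf A (z - w) < s₀ ^ 2 → γ b ≠ Φ z) :
    m * s₀ ≤ len 𝓜 h γ a b := by
  have hp := 𝓜.isParam hΦ
  have hq0 : qf A (w - w) = 0 := by
    rw [sub_self]
    exact qf_zero_vec A
  have hwU : w ∈ U := (hK w (by rw [hq0]; positivity)).1
  refine le_of_forall_pos_le_add fun ε hε => ?_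
  set κ := min s₀ (ε / m) with hκdef
  have hκ : 0 < κ := lt_min hs₀ (div_pos hε hm0)
  have key := g0_key hm hΦ hA hs₀ hm0 hκ hK hγ hab
  rw [ha] at key
  have hu1 : g0u Φ U A w s₀ κ (Φ w) = κ := by
    simp only [g0u, if_pos (Set.mem_image_of_mem Φ hwU), hp.leftInv hwU]
    rw [hq0, zero_add, Real.sqrt_sq hκ.le, g0psi_eq_self hs₀ (min_le_left _ _)]
  have hu2 : s₀ ≤ g0u Φ U A w s₀ κ (γ b) := by
    by_cases hbU : γ b ∈ Φ '' U
    · simp only [g0u, if_pos hbU]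
      have h1 : ¬ qf A (Function.invFunOn Φ U (γ b) - w) < s₀ ^ 2 := fun hlt =>
        hb _ hlt (hp.rightInv hbU).symm
      push Not at h1
      calc s₀ = g0psi s₀ s₀ := (g0psi_eq_self hs₀ le_rfl).symm
        _ ≤ _ := g0psi_monotone s₀ (Real.le_sqrt_of_sq_le (by nlinarith [sq_nonneg κ]))
    · simp only [g0u, if_neg hbU]
      calc s₀ = g0psi s₀ s₀ := (g0psi_eq_self hs₀ le_rfl).symm
        _ ≤ _ := g0psi_monotone s₀ (by linarith)
  have hκε : m * κ ≤ ε := by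
    calc m * κ ≤ m * (ε / m) := mul_le_mul_of_nonneg_left (min_le_right _ _) hm0.le
      _ = ε := by field_simp
  have h3 := mul_le_mul_of_nonneg_left hu2 hm0.le
  rw [hu1] at key
  linarith

theorem g0_abs_qf_le (D : Matrix ι ι ℂ) (v : CE ι) :
    |qf D v| ≤ (∑ j, ∑ k, ‖D j k‖) * ‖v‖ ^ 2 := by
  rw [qf_eq_sum]
  refine (Complex.abs_re_le_norm _).trans ?_
  rw [Finset.sum_mul]
  refine (norm_sum_le _ _).trans (Finset.sum_le_sum fun j _ => ?_)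
  rw [Finset.sum_mul]
  refine (norm_sum_le _ _).trans (Finset.sum_le_sum fun k _ => ?_)
  rw [norm_mul, norm_mul, RCLike.norm_conj]
  have hj : ‖v j‖ ≤ ‖v‖ := PiLp.norm_apply_le v j
  have hk : ‖v k‖ ≤ ‖v‖ := PiLp.norm_apply_le v k
  have h1 : ‖v j‖ * ‖v k‖ ≤ ‖v‖ * ‖v‖ := mul_le_mul hj hk (norm_nonneg _) (norm_nonneg _)
  calc ‖v j‖ * ‖D j k‖ * ‖v k‖ = ‖D j k‖ * (‖v j‖ * ‖v k‖) := by ring
    _ ≤ ‖D j k‖ * (‖v‖ * ‖v‖) := mul_le_mul_of_nonneg_left h1 (norm_nonneg _)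
    _ = ‖D j k‖ * ‖v‖ ^ 2 := by ring

/-- continuity of the metric at `z₀`, in the Loewner sense. -/
theorem g0_pinch (hm : IsMetric 𝓜 h) (hΦ : 𝓜.IsHol Φ U) {z₀ : CE ι} (hz₀ : z₀ ∈ U) {ε : ℝ}
    (hε : 0 < ε) : ∃ ρ > 0, Metric.closedBall z₀ ρ ⊆ U ∧ ∀ ζ ∈ Metric.closedBall z₀ ρ, ∀ v : CE ι,
      (1 - ε) * qf (h Φ z₀) v ≤ qf (h Φ ζ) v ∧ qf (h Φ ζ) v ≤ (1 + ε) * qf (h Φ z₀) v := by
  have hp := 𝓜.isParam hΦ
  obtain ⟨c, C, hc, hC, H⟩ := g0_norm_equiv (hm.posDef hΦ z₀ hz₀)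
  have hη : 0 < ε * c ^ 2 := by positivity
  have hcont : ContinuousAt (fun ζ => ∑ j, ∑ k, ‖(h Φ ζ - h Φ z₀) j k‖) z₀ := by
    refine tendsto_finsetSum _ fun j _ => tendsto_finsetSum _ fun k _ => ?_
    have h1 : ContinuousAt (fun ζ => h Φ ζ j k) z₀ :=
      (hm.smooth hΦ j k).continuousOn.continuousAt (hp.isOpen.mem_nhds hz₀)
    exact (h1.sub continuousAt_const).norm
  have h0 : (fun ζ => ∑ j, ∑ k, ‖(h Φ ζ - h Φ z₀) j k‖) z₀ < ε * c ^ 2 := by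
    simpa using hη
  have hev := (hcont.eventually (gt_mem_nhds h0)).and (hp.isOpen.mem_nhds hz₀)
  obtain ⟨ρ₁, hρ₁, hball⟩ := Metric.eventually_nhds_iff_ball.1 hev
  have hsub : Metric.closedBall z₀ (ρ₁ / 2) ⊆ Metric.ball z₀ ρ₁ :=
    Metric.closedBall_subset_ball (by linarith)
  refine ⟨ρ₁ / 2, by positivity, fun ζ hζ => (hball ζ (hsub hζ)).2, fun ζ hζ v => ?_⟩
  have h1 := (hball ζ (hsub hζ)).1
  have h2 := g0_abs_qf_le (h Φ ζ - h Φ z₀) v
  rw [qf_sub] at h2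
  have h3 : c ^ 2 * ‖v‖ ^ 2 ≤ qf (h Φ z₀) v := by
    have h4 := (H v).1
    have h5 : 0 ≤ qf (h Φ z₀) v := qf_nonneg (hm.posDef hΦ z₀ hz₀).posSemidef _
    calc c ^ 2 * ‖v‖ ^ 2 = (c * ‖v‖) ^ 2 := by ring
      _ ≤ Real.sqrt (qf (h Φ z₀) v) ^ 2 := pow_le_pow_left₀ (by positivity) h4 2
      _ = qf (h Φ z₀) v := Real.sq_sqrt h5
  have h6 : (∑ j, ∑ k, ‖(h Φ ζ - h Φ z₀) j k‖) * ‖v‖ ^ 2 ≤ ε * qf (h Φ z₀) v := by
    calc (∑ j, ∑ k, ‖(h Φ ζ - h Φ z₀) j k‖) * ‖v‖ ^ 2 ≤ (ε * c ^ 2) * ‖v‖ ^ 2 :=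
          mul_le_mul_of_nonneg_right h1.le (by positivity)
      _ = ε * (c ^ 2 * ‖v‖ ^ 2) := by ring
      _ ≤ ε * qf (h Φ z₀) v := mul_le_mul_of_nonneg_left h3 hε.le
  have h7 := abs_le.1 (h2.trans h6)
  constructor <;> linarith [h7.1, h7.2]

/-- uniform comparison with the Euclidean norm on compact subsets of the domain. -/
theorem g0_uniform_bounds (hm : IsMetric 𝓜 h) (hΦ : 𝓜.IsHol Φ U) {K : Set (CE ι)}
    (hK : IsCompact K) (hKU : K ⊆ U) : ∃ c C : ℝ, 0 < c ∧ 0 < C ∧ ∀ ζ ∈ K, ∀ v : CE ι,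
      c ^ 2 * ‖v‖ ^ 2 ≤ qf (h Φ ζ) v ∧ qf (h Φ ζ) v ≤ C ^ 2 * ‖v‖ ^ 2 := by
  refine hK.induction_on (p := fun S => ∃ c C : ℝ, 0 < c ∧ 0 < C ∧ ∀ ζ ∈ S, ∀ v : CE ι,
      c ^ 2 * ‖v‖ ^ 2 ≤ qf (h Φ ζ) v ∧ qf (h Φ ζ) v ≤ C ^ 2 * ‖v‖ ^ 2) ?_ ?_ ?_ ?_
  · exact ⟨1, 1, one_pos, one_pos, fun ζ hζ => absurd hζ (Set.notMem_empty ζ)⟩
  · rintro S T hST ⟨c, C, hc, hC, H⟩
    exact ⟨c, C, hc, hC, fun ζ hζ => H ζ (hST hζ)⟩
  · rintro S T ⟨c₁, C₁, hc₁, hC₁, H₁⟩ ⟨c₂, C₂, hc₂, hC₂, H₂⟩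
    refine ⟨min c₁ c₂, max C₁ C₂, lt_min hc₁ hc₂, lt_max_of_lt_left hC₁, fun ζ hζ v => ?_⟩
    have hn : 0 ≤ ‖v‖ ^ 2 := by positivity
    have a1 : (min c₁ c₂) ^ 2 ≤ c₁ ^ 2 :=
      pow_le_pow_left₀ (lt_min hc₁ hc₂).le (min_le_left _ _) 2
    have a2 : (min c₁ c₂) ^ 2 ≤ c₂ ^ 2 :=
      pow_le_pow_left₀ (lt_min hc₁ hc₂).le (min_le_right _ _) 2
    have b1 : C₁ ^ 2 ≤ (max C₁ C₂) ^ 2 := pow_le_pow_left₀ hC₁.le (le_max_left _ _) 2
    have b2 : C₂ ^ 2 ≤ (max C₁ C₂) ^ 2 := pow_le_pow_left₀ hC₂.le (le_max_right _ _) 2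
    rcases hζ with hζ | hζ
    · exact ⟨(mul_le_mul_of_nonneg_right a1 hn).trans (H₁ ζ hζ v).1,
        (H₁ ζ hζ v).2.trans (mul_le_mul_of_nonneg_right b1 hn)⟩
    · exact ⟨(mul_le_mul_of_nonneg_right a2 hn).trans (H₂ ζ hζ v).1,
        (H₂ ζ hζ v).2.trans (mul_le_mul_of_nonneg_right b2 hn)⟩
  · intro x hx
    obtain ⟨ρ, hρ, -, Hρ⟩ := g0_pinch hm hΦ (hKU hx) (ε := 1 / 2) (by norm_num)
    obtain ⟨c, C, hc, hC, H⟩ := g0_norm_equiv (hm.posDef hΦ x (hKU hx))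
    refine ⟨Metric.closedBall x ρ, mem_nhdsWithin_of_mem_nhds (Metric.closedBall_mem_nhds x hρ),
      c / 2, 2 * C, by positivity, by positivity, fun ζ hζ v => ?_⟩
    have h5 : 0 ≤ qf (h Φ x) v := qf_nonneg (hm.posDef hΦ x (hKU hx)).posSemidef _
    have h3 : c ^ 2 * ‖v‖ ^ 2 ≤ qf (h Φ x) v := by
      calc c ^ 2 * ‖v‖ ^ 2 = (c * ‖v‖) ^ 2 := by ring
        _ ≤ Real.sqrt (qf (h Φ x) v) ^ 2 := pow_le_pow_left₀ (by positivity) (H v).1 2
        _ = qf (h Φ x) v := Real.sq_sqrt h5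
    have h4 : qf (h Φ x) v ≤ C ^ 2 * ‖v‖ ^ 2 := by
      calc qf (h Φ x) v = Real.sqrt (qf (h Φ x) v) ^ 2 := (Real.sq_sqrt h5).symm
        _ ≤ (C * ‖v‖) ^ 2 := pow_le_pow_left₀ (Real.sqrt_nonneg _) (H v).2 2
        _ = C ^ 2 * ‖v‖ ^ 2 := by ring
    have hn : 0 ≤ ‖v‖ ^ 2 := by positivity
    obtain ⟨e1, e2⟩ := Hρ ζ hζ v
    constructor
    · nlinarith
    · nlinarith

/-- the segment as a `C¹` curve. -/
theorem g0_exists_curve_segment (hΦ : 𝓜.IsHol Φ U) {z w : CE ι}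
    (hseg : ∀ t ∈ Set.Icc (0 : ℝ) 1, w + t • (z - w) ∈ U) :
    ∃ γ : ℝ → V, IsC1Curve 𝓜 γ ∧ γ 0 = Φ w ∧ γ 1 = Φ z := by
  have hp := 𝓜.isParam hΦ
  have hmem : ∀ t : ℝ, w + Real.smoothTransition t • (z - w) ∈ U := fun t =>
    hseg _ ⟨Real.smoothTransition.nonneg t, Real.smoothTransition.le_one t⟩
  refine ⟨fun t => Φ (w + Real.smoothTransition t • (z - w)), ⟨?_, fun t => hp.mem (hmem t)⟩,
    by simp, by simp⟩
  rw [← contDiffOn_univ]
  have h1 : ContDiff ℝ 1 (fun t : ℝ => w + Real.smoothTransition t • (z - w)) :=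
    contDiff_const.add (Real.smoothTransition.contDiff.smul contDiff_const)
  exact (hp.smooth.of_le (by exact_mod_cast le_top)).comp h1.contDiffOn (fun t _ => hmem t)

/-- upper bound by the segment. -/
theorem g0_hdist_le_segment (hm : IsMetric 𝓜 h) (hΦ : 𝓜.IsHol Φ U) {A : Matrix ι ι ℂ} {z w : CE ι}
    {M : ℝ} (hM : 0 ≤ M)
    (hseg : ∀ t ∈ Set.Icc (0 : ℝ) 1, w + t • (z - w) ∈ U ∧
      qf (h Φ (w + t • (z - w))) (z - w) ≤ M ^ 2 * qf A (z - w)) :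
    hdist 𝓜 h (Φ w) (Φ z) ≤ M * Real.sqrt (qf A (z - w)) := by
  set c : ℝ → CE ι := fun t => w + t • (z - w) with hc
  have hcd : ContDiff ℝ 1 c := contDiff_const.add (contDiff_id.smul contDiff_const)
  have h1 := hdist_le_integral_param hm hΦ zero_le_one hcd.contDiffOn (fun t ht => (hseg t ht).1)
  have hc0 : c 0 = w := by simp [hc]
  have hc1 : c 1 = z := by simp [hc]
  rw [hc0, hc1] at h1
  refine h1.trans ((le_abs_self _).trans ?_)
  have h2 := intervalIntegral.norm_integral_le_of_norm_le_const (a := 0) (b := 1)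
    (C := M * Real.sqrt (qf A (z - w)))
    (f := fun t => Real.sqrt (qf (h Φ (c t)) (derivWithin c (Set.Icc 0 1) t : CE ι))) ?_
  · simpa using h2
  · intro t ht
    rw [Set.uIoc_of_le zero_le_one] at ht
    have ht' : t ∈ Set.Icc (0 : ℝ) 1 := ⟨ht.1.le, ht.2⟩
    have hd : HasDerivAt c (z - w) t := by
      have := ((hasDerivAt_id t).smul_const (z - w)).const_add w
      rw [one_smul] at this
      exact this
    have hdw : derivWithin c (Set.Icc 0 1) t = z - w :=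
      hd.hasDerivWithinAt.derivWithin (uniqueDiffOn_Icc zero_lt_one t ht')
    rw [hdw, Real.norm_eq_abs, abs_of_nonneg (Real.sqrt_nonneg _), ← Real.sqrt_sq hM,
      ← Real.sqrt_mul (sq_nonneg M)]
    exact Real.sqrt_le_sqrt (hseg t ht').2

/-- lower bound for the distance. -/
theorem g0_hdist_lower (hm : IsHForm 𝓜 h) (hΦ : 𝓜.IsHol Φ U) {A : Matrix ι ι ℂ} (hA : A.PosDef)
    {w : CE ι} {s₀ m : ℝ} (hs₀ : 0 < s₀) (hm0 : 0 < m)
    (hK : ∀ ζ : CE ι, qf A (ζ - w) ≤ (2 * s₀) ^ 2 →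
      ζ ∈ U ∧ ∀ v : CE ι, m ^ 2 * qf A v ≤ qf (h Φ ζ) v) {z : CE ι}
    (hz : qf A (z - w) ≤ s₀ ^ 2) :
    m * Real.sqrt (qf A (z - w)) ≤ hdist 𝓜 h (Φ w) (Φ z) := by
  have hseg : ∀ t ∈ Set.Icc (0 : ℝ) 1, w + t • (z - w) ∈ U := by
    intro t ht
    refine (hK _ ?_).1
    have e : qf A ((w + t • (z - w) : CE ι) - w) = t ^ 2 * qf A (z - w) := by
      have h1 : qf A (t • (z - w) : CE ι) = t ^ 2 * qf A (z - w) := g0_qf_smul_real A t (z - w)
      rw [← h1]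
      congr 1
      simp
    have hq : 0 ≤ qf A (z - w) := qf_nonneg hA.posSemidef _
    have ht2 : t ^ 2 ≤ 1 := by nlinarith [ht.1, ht.2]
    calc qf A ((w + t • (z - w) : CE ι) - w) = t ^ 2 * qf A (z - w) := e
      _ ≤ 1 * qf A (z - w) := mul_le_mul_of_nonneg_right ht2 hq
      _ ≤ (2 * s₀) ^ 2 := by nlinarith
  obtain ⟨γ₀, h0, h1, h2⟩ := g0_exists_curve_segment hΦ hseg
  refine le_csInf ⟨_, γ₀, h0, h1, h2, rfl⟩ ?_
  rintro _ ⟨γ, hγ, hγ0, hγ1, rfl⟩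
  exact g0_len_lower hm hΦ hA hs₀ hm0 hK hγ zero_le_one hγ0 hz hγ1

theorem g0_qf_sub_comm (A : Matrix ι ι ℂ) (a b : CE ι) : qf A (a - b) = qf A (b - a) := by
  have := qf_neg_vec A ((b : ι → ℂ) - (a : ι → ℂ))
  rw [neg_sub] at this
  exact this

theorem g0_qf_one_sub (a b : CE ι) : qf (1 : Matrix ι ι ℂ) (a - b) = ‖a - b‖ ^ 2 :=
  g0_qf_one (a - b)

/-- **infinitesimally Euclidean**: near `z₀` the distance is `(1 ± ε)` times the norm of `h(z₀)`. -/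
theorem hdist_local_compare (hm : IsMetric 𝓜 h) (hΦ : 𝓜.IsHol Φ U) {z₀ : CE ι} (hz₀ : z₀ ∈ U) {ε : ℝ}
    (hε : 0 < ε) : ∃ δ > 0, Metric.ball z₀ δ ⊆ U ∧ ∀ z ∈ Metric.ball z₀ δ, ∀ w ∈ Metric.ball z₀ δ,
      (1 - ε) * Real.sqrt (qf (h Φ z₀) (z - w)) ≤ hdist 𝓜 h (Φ z) (Φ w) ∧
      hdist 𝓜 h (Φ z) (Φ w) ≤ (1 + ε) * Real.sqrt (qf (h Φ z₀) (z - w)) := by
  set ε' : ℝ := min ε (1 / 2) with hε'
  have hε'0 : 0 < ε' := lt_min hε (by norm_num)
  have hε'1 : ε' ≤ 1 / 2 := min_le_right _ _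
  have hε'ε : ε' ≤ ε := min_le_left _ _
  have hH := hm.posDef hΦ z₀ hz₀
  obtain ⟨ρ, hρ, hρU, Hρ⟩ := g0_pinch hm hΦ hz₀ hε'0
  obtain ⟨c, C, hc, hC, H⟩ := g0_norm_equiv hH
  set s₀ : ℝ := c * ρ / 4 with hs₀def
  have hs₀ : 0 < s₀ := by positivity
  set δ : ℝ := min (ρ / 2) (s₀ / (2 * C)) with hδdef
  have hδ : 0 < δ := lt_min (by positivity) (by positivity)
  have hδρ : δ ≤ ρ / 2 := min_le_left _ _
  have hδs : δ ≤ s₀ / (2 * C) := min_le_right _ _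
  have hsub : Metric.ball z₀ δ ⊆ Metric.closedBall z₀ ρ := fun ζ hζ => by
    rw [Metric.mem_ball] at hζ
    rw [Metric.mem_closedBall]
    linarith
  set m : ℝ := Real.sqrt (1 - ε') with hmdef
  have hm0 : 0 < m := Real.sqrt_pos.2 (by linarith)
  have hm2 : m ^ 2 = 1 - ε' := Real.sq_sqrt (by linarith)
  have hm1 : 1 - ε ≤ m := by
    have : 1 - ε' ≤ m := Real.le_sqrt_of_sq_le (by nlinarith)
    linarith
  set M : ℝ := Real.sqrt (1 + ε') with hMdef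
  have hM0 : 0 ≤ M := Real.sqrt_nonneg _
  have hM2 : M ^ 2 = 1 + ε' := Real.sq_sqrt (by linarith)
  have hM1 : M ≤ 1 + ε := by
    have : M ≤ 1 + ε' := by
      rw [hMdef, Real.sqrt_le_left (by linarith)]
      nlinarith
    linarith
  refine ⟨δ, hδ, hsub.trans hρU, fun z hz w hw => ?_⟩
  have hsq : 0 ≤ Real.sqrt (qf (h Φ z₀) (z - w)) := Real.sqrt_nonneg _
  constructor
  · have hK : ∀ ζ : CE ι, qf (h Φ z₀) (ζ - z) ≤ (2 * s₀) ^ 2 →
        ζ ∈ U ∧ ∀ v : CE ι, m ^ 2 * qf (h Φ z₀) v ≤ qf (h Φ ζ) v := by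
      intro ζ hζ
      have h1 : c * ‖ζ - z‖ ≤ 2 * s₀ :=
        ((H (ζ - z)).1).trans (Real.sqrt_le_iff.2 ⟨by positivity, hζ⟩)
      have h2 : ‖ζ - z‖ ≤ ρ / 2 := by
        have : c * ‖ζ - z‖ ≤ c * (ρ / 2) := by
          rw [hs₀def] at h1
          linarith
        exact le_of_mul_le_mul_left this hc
      have h3 : ζ ∈ Metric.closedBall z₀ ρ := by
        rw [Metric.mem_closedBall]
        rw [Metric.mem_ball] at hz
        calc dist ζ z₀ ≤ dist ζ z + dist z z₀ := dist_triangle _ _ _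
          _ ≤ ρ / 2 + ρ / 2 := by
            rw [dist_eq_norm ζ z]
            linarith
          _ = ρ := by ring
      refine ⟨hρU h3, fun v => ?_⟩
      rw [hm2]
      exact (Hρ ζ h3 v).1
    have hzw : qf (h Φ z₀) (w - z) ≤ s₀ ^ 2 := by
      have h1 : ‖w - z‖ ≤ 2 * δ := by
        rw [Metric.mem_ball] at hz hw
        rw [← dist_eq_norm]
        calc dist w z ≤ dist w z₀ + dist z₀ z := dist_triangle _ _ _
          _ ≤ 2 * δ := by
            rw [dist_comm z₀ z]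
            linarith
      have h2 : Real.sqrt (qf (h Φ z₀) (w - z)) ≤ s₀ := by
        refine ((H (w - z)).2).trans ?_
        calc C * ‖w - z‖ ≤ C * (2 * (s₀ / (2 * C))) :=
              mul_le_mul_of_nonneg_left (h1.trans (by linarith)) hC.le
          _ = s₀ := by field_simp
      exact (Real.sqrt_le_left hs₀.le).1 h2
    have h1 := g0_hdist_lower hm.toIsHForm hΦ hH hs₀ hm0 hK hzw
    rw [g0_qf_sub_comm] at h1
    exact (mul_le_mul_of_nonneg_right hm1 hsq).trans h1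
  · have h1 := g0_hdist_le_segment hm hΦ (A := h Φ z₀) (z := w) (w := z) hM0 (fun t ht => by
      have hmem : z + t • (w - z) ∈ Metric.ball z₀ δ :=
        (convex_ball z₀ δ).add_smul_sub_mem hz hw ht
      refine ⟨hρU (hsub hmem), ?_⟩
      rw [hM2]
      exact (Hρ _ (hsub hmem) (w - z)).2)
    rw [g0_qf_sub_comm] at h1
    exact h1.trans (mul_le_mul_of_nonneg_right hM1 hsq)

/-- bi-Lipschitz comparison on compact subsets of a parametrisation (for nearby points). -/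
theorem hdist_compare_compact (hm : IsMetric 𝓜 h) (hΦ : 𝓜.IsHol Φ U) {K : Set (CE ι)}
    (hK : IsCompact K) (hKU : K ⊆ U) : ∃ c C δ : ℝ, 0 < c ∧ 0 < C ∧ 0 < δ ∧
      ∀ z ∈ K, ∀ w ∈ K, ‖z - w‖ < δ →
        c * ‖z - w‖ ≤ hdist 𝓜 h (Φ z) (Φ w) ∧ hdist 𝓜 h (Φ z) (Φ w) ≤ C * ‖z - w‖ := by
  have hp := 𝓜.isParam hΦ
  obtain ⟨r, hr, hrU⟩ := hK.exists_cthickening_subset_open hp.isOpen hKU
  obtain ⟨c, C, hc, hC, H⟩ := g0_uniform_bounds hm hΦ (hK.cthickening (r := r)) hrU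
  refine ⟨c, C, r / 2, hc, hC, by positivity, fun z hz w hw hzw => ?_⟩
  have hnear : ∀ ζ : CE ι, ‖ζ - z‖ ≤ r → ζ ∈ Metric.cthickening r K := fun ζ hζ =>
    Metric.mem_cthickening_of_dist_le ζ z r K hz (by rwa [dist_eq_norm])
  have hnorm : Real.sqrt (qf (1 : Matrix ι ι ℂ) (w - z)) = ‖z - w‖ := by
    rw [g0_qf_one_sub, Real.sqrt_sq (norm_nonneg _), norm_sub_rev]
  constructor
  · have hK' : ∀ ζ : CE ι, qf (1 : Matrix ι ι ℂ) (ζ - z) ≤ (2 * (r / 2)) ^ 2 →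
        ζ ∈ U ∧ ∀ v : CE ι, c ^ 2 * qf (1 : Matrix ι ι ℂ) v ≤ qf (h Φ ζ) v := by
      intro ζ hζ
      rw [g0_qf_one_sub] at hζ
      have h1 : ‖ζ - z‖ ≤ r := by
        have := abs_le_of_sq_le_sq' hζ (by positivity)
        linarith [this.2]
      refine ⟨hrU (hnear ζ h1), fun v => ?_⟩
      rw [g0_qf_one]
      exact (H ζ (hnear ζ h1) v).1
    have hzw' : qf (1 : Matrix ι ι ℂ) (w - z) ≤ (r / 2) ^ 2 := by
      rw [g0_qf_one_sub, norm_sub_rev]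
      exact pow_le_pow_left₀ (norm_nonneg _) hzw.le 2
    have h1 := g0_hdist_lower hm.toIsHForm hΦ Matrix.PosDef.one (by positivity : 0 < r / 2) hc hK'
      hzw'
    rwa [hnorm] at h1
  · have h1 := g0_hdist_le_segment hm hΦ (A := 1) (z := w) (w := z) hC.le (fun t ht => by
      have hmem : ‖(z + t • (w - z)) - z‖ ≤ r := by
        rw [add_sub_cancel_left, norm_smul, Real.norm_eq_abs, abs_of_nonneg ht.1, norm_sub_rev]
        calc t * ‖z - w‖ ≤ 1 * ‖z - w‖ := mul_le_mul_of_nonneg_right ht.2 (norm_nonneg _)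
          _ ≤ r := by linarith
      refine ⟨hrU (hnear _ hmem), ?_⟩
      rw [g0_qf_one_sub]
      exact (H _ (hnear _ hmem) (w - z)).2)
    rwa [hnorm] at h1

/-- curves which leave a neighbourhood of `x` have a definite length. -/
theorem g0_exists_len_lower (hm : IsMetric 𝓜 h) {x : V} (hx : x ∈ 𝓜.carrier) {O : Set V}
    (hO : O ∈ 𝓝 x) : ∃ r > 0, ∀ γ : ℝ → V, IsC1Curve 𝓜 γ → γ 0 = x → γ 1 ∉ O →
      r ≤ len 𝓜 h γ 0 1 := by
  obtain ⟨Φ, U, hΦ, z₀, hz₀, rfl⟩ := 𝓜.cover x hx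
  have hp := 𝓜.isParam hΦ
  have hcont : ContinuousAt Φ z₀ := (hp.differentiableAt hz₀).continuousAt
  have hev := (hcont.preimage_mem_nhds hO)
  obtain ⟨ρ₁, hρ₁, hball⟩ := Metric.mem_nhds_iff.1 (Filter.inter_mem hev (hp.isOpen.mem_nhds hz₀))
  set ρ : ℝ := ρ₁ / 2 with hρdef
  have hρ : 0 < ρ := by positivity
  have hsub : Metric.closedBall z₀ ρ ⊆ Metric.ball z₀ ρ₁ :=
    Metric.closedBall_subset_ball (by rw [hρdef]; linarith)
  obtain ⟨c, C, hc, hC, H⟩ := g0_uniform_bounds hm hΦ (isCompact_closedBall z₀ ρ)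
    (fun ζ hζ => (hball (hsub hζ)).2)
  refine ⟨c * (ρ / 2), by positivity, fun γ hγ h0 h1 => ?_⟩
  have hK' : ∀ ζ : CE ι, qf (1 : Matrix ι ι ℂ) (ζ - z₀) ≤ (2 * (ρ / 2)) ^ 2 →
      ζ ∈ U ∧ ∀ v : CE ι, c ^ 2 * qf (1 : Matrix ι ι ℂ) v ≤ qf (h Φ ζ) v := by
    intro ζ hζ
    rw [g0_qf_one_sub] at hζ
    have h1 : ‖ζ - z₀‖ ≤ ρ := by
      have := abs_le_of_sq_le_sq' hζ (by positivity)
      linarith [this.2]
    have h2 : ζ ∈ Metric.closedBall z₀ ρ := by rwa [Metric.mem_closedBall, dist_eq_norm]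
    refine ⟨(hball (hsub h2)).2, fun v => ?_⟩
    rw [g0_qf_one]
    exact (H ζ h2 v).1
  refine g0_len_lower_out hm.toIsHForm hΦ Matrix.PosDef.one (by positivity : 0 < ρ / 2) hc hK' hγ
    zero_le_one h0 (fun z hz hγz => h1 ?_)
  rw [g0_qf_one_sub] at hz
  have h3 : ‖z - z₀‖ < ρ / 2 := lt_of_pow_lt_pow_left₀ 2 (by positivity) hz
  have h4 : z ∈ Metric.ball z₀ ρ₁ := by
    rw [Metric.mem_ball, dist_eq_norm]
    rw [hρdef] at h3
    linarith
  rw [hγz]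
  exact (hball h4).1

/-- points outside a neighbourhood of `x` have a definite distance from `x`. -/
theorem g0_exists_hdist_lower (hm : IsMetric 𝓜 h) (hconn : IsConnected 𝓜.carrier) {x : V}
    (hx : x ∈ 𝓜.carrier) {O : Set V} (hO : O ∈ 𝓝 x) :
    ∃ r > 0, ∀ y ∈ 𝓜.carrier, y ∉ O → r ≤ hdist 𝓜 h x y := by
  obtain ⟨r, hr, H⟩ := g0_exists_len_lower hm hx hO
  refine ⟨r, hr, fun y hy hyO => ?_⟩
  obtain ⟨γ₀, h0, h1, h2⟩ := exists_c1Curve hconn hx hy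
  refine le_csInf ⟨_, γ₀, h0, h1, h2, rfl⟩ ?_
  rintro _ ⟨γ, hγ, hγ0, hγ1, rfl⟩
  exact H γ hγ hγ0 (hγ1 ▸ hyO)

theorem hdist_pos (hm : IsMetric 𝓜 h) (hconn : IsConnected 𝓜.carrier) {x y : V}
    (hx : x ∈ 𝓜.carrier) (hy : y ∈ 𝓜.carrier) (hne : x ≠ y) :
    0 < hdist 𝓜 h x y := by
  obtain ⟨r, hr, H⟩ := g0_exists_hdist_lower hm hconn hx (isOpen_ne.mem_nhds hne : {p | p ≠ y} ∈ 𝓝 x)
  exact hr.trans_le (H y hy (by simp))

theorem hdist_eq_zero_iff (hm : IsMetric 𝓜 h) (hconn : IsConnected 𝓜.carrier) {x y : V}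
    (hx : x ∈ 𝓜.carrier) (hy : y ∈ 𝓜.carrier) :
    hdist 𝓜 h x y = 0 ↔ x = y := by
  constructor
  · intro h0
    by_contra hne
    exact (hdist_pos hm hconn hx hy hne).ne' h0
  · rintro rfl
    exact hdist_self hx

end local_

end Claimed.Agent.R316
end

/- ===== packed: Claimed.Agent.R316.Base.Metric.Topo ===== -/
section
/-!
# Row 316 base layer, `BP-G0`, leaf `G0-5`: topology of `hdist`

Statements: helper97 (export file `Api.lean`, section 4, second part).  Sub-captain of `BP-G0`: helper268.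

RECIPE.
* `g0_tendsto_hdist_self`: `x = Φ z₀` (`𝓜.cover`), `hdist_local_compare` with `ε = 1`: `hdist (Φ z₀) (Φ w) ≤ 2 √(qf A (z₀ - w)) → 0` as `w → z₀` (`g0_continuous_qf`);
  transfer to `𝓝[carrier] x` by `IsParam.map_nhds_eq` (`map Φ (𝓝 z₀) = 𝓝[carrier] (Φ z₀)`).
* `continuousOn_hdist`: `|d(p,q) - d(p₀,q₀)| ≤ d(p,p₀) + d(q,q₀)` (`hdist_triangle`, `hdist_comm`), squeeze; `nhdsWithin_prod_eq`.
* `hasBasis_nhdsWithin_hball`: `hball x r ∈ 𝓝[carrier] x` by `g0_tendsto_hdist_self`; conversely a set `carrier ∩ O`, `O ∈ 𝓝 x`, contains `hball x r`, `r` from `g0_exists_hdist_lower`.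
* open / closed balls: `ContinuousOn.isOpen_inter_preimage`-type statements: `continuousOn_iff'`, `continuousOn_iff_isClosed`.
* `exists_norm_le_hdist`: by contradiction with sequences `x_k, y_k ∈ K`, `‖x_k - y_k‖ > k d(x_k,y_k)`; `‖x_k - y_k‖ ≤ diam`, so `d(x_k,y_k) → 0`; subsequences converge to `x, y ∈ K`, `d(x,y) = 0`, `x = y = Φ z₀`;
  near `z₀`: `‖Φ z - Φ w‖ ≤ L ‖z - w‖` (`Φ` is `C¹`: `ContDiffAt.exists_lipschitzOnWith`) and `c ‖z - w‖ ≤ d(Φ z, Φ w)` (`hdist_compare_compact` on a closed ball); contradiction for `k > L/c`.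
* measurability: the carrier is measurable (`CMfd.isLocallyClosed_carrier`, `IsLocallyClosed.measurableSet`), `hdist o ·` is continuous on it and `0` outside (`hdist_of_not_mem_right`): `Measurable.piecewise` /
  `ContinuousOn.measurable_piecewise`.  For `o ∉ carrier` the function is `0`.
-/

set_option autoImplicit false
set_option linter.unusedSectionVars false
set_option linter.unusedVariables false
open scoped ContDiff ComplexOrder Topology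
open MeasureTheory

namespace Claimed.Agent.R316

variable {V : Type} [NormedAddCommGroup V] [NormedSpace ℝ V] [FiniteDimensional ℝ V]
variable {ι : Type} [Fintype ι] [DecidableEq ι]
variable {𝓜 : CMfd V ι} {h h' : HFam V ι}

section local_

variable {Φ : CE ι → V} {U : Set (CE ι)}

/-- `hdist x y → 0` as `y → x` in the carrier. -/
theorem g0_tendsto_hdist_self (hm : IsMetric 𝓜 h) {x : V} (hx : x ∈ 𝓜.carrier) :
    Filter.Tendsto (fun y => hdist 𝓜 h x y) (𝓝[𝓜.carrier] x) (𝓝 0) := by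
  obtain ⟨Φ, U, hΦ, z₀, hz₀, rfl⟩ := 𝓜.cover x hx
  have hp := 𝓜.isParam hΦ
  rw [← hp.map_nhds_eq hz₀, Filter.tendsto_map'_iff]
  obtain ⟨δ, hδ, -, H⟩ := hdist_local_compare hm hΦ hz₀ (ε := 1) one_pos
  have hlim : Filter.Tendsto (fun w : CE ι => (1 + 1) * Real.sqrt (qf (h Φ z₀) (z₀ - w))) (𝓝 z₀)
      (𝓝 0) := by
    have hc : Continuous (fun w : CE ι => (1 + 1) * Real.sqrt (qf (h Φ z₀) (z₀ - w))) :=
      continuous_const.mul (Real.continuous_sqrt.comp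
        ((g0_continuous_qf (h Φ z₀)).comp (continuous_const.sub continuous_id)))
    have h0 := hc.tendsto z₀
    have hq0 : qf (h Φ z₀) (z₀ - z₀) = 0 := by
      rw [sub_self]
      exact qf_zero_vec _
    simp only [hq0, Real.sqrt_zero, mul_zero] at h0
    exact h0
  refine squeeze_zero' (Filter.Eventually.of_forall fun w => hdist_nonneg 𝓜 h _ _) ?_ hlim
  filter_upwards [Metric.ball_mem_nhds z₀ hδ] with w hw
  exact (H z₀ (Metric.mem_ball_self hδ) w hw).2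

theorem continuousOn_hdist (hm : IsMetric 𝓜 h) (hconn : IsConnected 𝓜.carrier) :
    ContinuousOn (fun p : V × V => hdist 𝓜 h p.1 p.2) (𝓜.carrier ×ˢ 𝓜.carrier) := by
  rintro ⟨p₀, q₀⟩ ⟨hp₀, hq₀⟩
  unfold ContinuousWithinAt
  rw [tendsto_iff_norm_sub_tendsto_zero]
  have hg : Filter.Tendsto (fun p : V × V => hdist 𝓜 h p₀ p.1 + hdist 𝓜 h q₀ p.2)
      (𝓝[𝓜.carrier ×ˢ 𝓜.carrier] (p₀, q₀)) (𝓝 0) := by
    rw [nhdsWithin_prod_eq]
    have h1 := (g0_tendsto_hdist_self hm hp₀).comp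
      (Filter.tendsto_fst (f := 𝓝[𝓜.carrier] p₀) (g := 𝓝[𝓜.carrier] q₀))
    have h2 := (g0_tendsto_hdist_self hm hq₀).comp
      (Filter.tendsto_snd (f := 𝓝[𝓜.carrier] p₀) (g := 𝓝[𝓜.carrier] q₀))
    simpa using h1.add h2
  refine squeeze_zero' (Filter.Eventually.of_forall fun p => norm_nonneg _) ?_ hg
  filter_upwards [self_mem_nhdsWithin] with p hp
  obtain ⟨hp1, hp2⟩ := hp
  have a1 := hdist_triangle hm hconn hp1 hp₀ hp2
  have a2 := hdist_triangle hm hconn hp₀ hq₀ hp2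
  have b1 := hdist_triangle hm hconn hp₀ hp1 hq₀
  have b2 := hdist_triangle hm hconn hp1 hp2 hq₀
  rw [hdist_comm hm p.1 p₀] at a1
  rw [hdist_comm hm p.2 q₀] at b2
  rw [Real.norm_eq_abs, abs_le]
  constructor <;> linarith

theorem continuousOn_hdist_right (hm : IsMetric 𝓜 h) (hconn : IsConnected 𝓜.carrier) {o : V}
    (ho : o ∈ 𝓜.carrier) : ContinuousOn (fun y => hdist 𝓜 h o y) 𝓜.carrier :=
  (continuousOn_hdist hm hconn).comp (f := fun y : V => (o, y))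
    (continuous_const.prodMk continuous_id).continuousOn (fun y hy => ⟨ho, hy⟩)

/-- the metric balls are a basis of neighbourhoods for the subspace topology. -/
theorem hasBasis_nhdsWithin_hball (hm : IsMetric 𝓜 h) (hconn : IsConnected 𝓜.carrier) {x : V}
    (hx : x ∈ 𝓜.carrier) : (𝓝[𝓜.carrier] x).HasBasis (fun r : ℝ => 0 < r) (fun r => hball 𝓜 h x r) := by
  rw [Filter.hasBasis_iff]
  intro t
  constructor
  · intro ht
    obtain ⟨O, hO, hOt⟩ := mem_nhdsWithin_iff_exists_mem_nhds_inter.1 ht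
    obtain ⟨r, hr, H⟩ := g0_exists_hdist_lower hm hconn hx hO
    refine ⟨r, hr, fun y hy => hOt ⟨?_, hy.1⟩⟩
    by_contra hyO
    exact absurd hy.2 (not_lt.2 (H y hy.1 hyO))
  · rintro ⟨r, hr, hsub⟩
    refine Filter.mem_of_superset ?_ hsub
    filter_upwards [(g0_tendsto_hdist_self hm hx).eventually (gt_mem_nhds hr), self_mem_nhdsWithin]
      with y hy1 hy2
    exact ⟨hy2, hy1⟩

theorem exists_isOpen_hball (hm : IsMetric 𝓜 h) (hconn : IsConnected 𝓜.carrier) {x : V}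
    (hx : x ∈ 𝓜.carrier) (r : ℝ) : ∃ O : Set V, IsOpen O ∧ hball 𝓜 h x r = 𝓜.carrier ∩ O := by
  obtain ⟨O, hO, he⟩ := continuousOn_iff'.1 (continuousOn_hdist_right hm hconn hx) (Set.Iio r)
    isOpen_Iio
  refine ⟨O, hO, ?_⟩
  rw [Set.inter_comm, ← he]
  ext y
  exact ⟨fun hy => ⟨hy.2, hy.1⟩, fun hy => ⟨hy.2, hy.1⟩⟩

/-- closed balls are relatively closed. -/
theorem exists_isClosed_hcball (hm : IsMetric 𝓜 h) (hconn : IsConnected 𝓜.carrier) {x : V}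
    (hx : x ∈ 𝓜.carrier) (r : ℝ) : ∃ F : Set V, IsClosed F ∧ hcball 𝓜 h x r = 𝓜.carrier ∩ F := by
  obtain ⟨F, hF, he⟩ := continuousOn_iff_isClosed.1 (continuousOn_hdist_right hm hconn hx)
    (Set.Iic r) isClosed_Iic
  refine ⟨F, hF, ?_⟩
  rw [Set.inter_comm, ← he]
  ext y
  exact ⟨fun hy => ⟨hy.2, hy.1⟩, fun hy => ⟨hy.2, hy.1⟩⟩

theorem hball_subset_carrier (𝓜 : CMfd V ι) (h : HFam V ι) (x : V) (r : ℝ) :
    hball 𝓜 h x r ⊆ 𝓜.carrier := fun _ hy => hy.1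

theorem hcball_subset_carrier (𝓜 : CMfd V ι) (h : HFam V ι) (x : V) (r : ℝ) :
    hcball 𝓜 h x r ⊆ 𝓜.carrier := fun _ hy => hy.1

theorem hball_subset_hcball (𝓜 : CMfd V ι) (h : HFam V ι) (x : V) (r : ℝ) :
    hball 𝓜 h x r ⊆ hcball 𝓜 h x r := fun _ hy => ⟨hy.1, hy.2.le⟩

theorem hball_mono (𝓜 : CMfd V ι) (h : HFam V ι) (x : V) {r R : ℝ} (hrR : r ≤ R) :
    hball 𝓜 h x r ⊆ hball 𝓜 h x R := fun _ hy => ⟨hy.1, hy.2.trans_le hrR⟩

theorem hcball_mono (𝓜 : CMfd V ι) (h : HFam V ι) (x : V) {r R : ℝ} (hrR : r ≤ R) :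
    hcball 𝓜 h x r ⊆ hcball 𝓜 h x R := fun _ hy => ⟨hy.1, hy.2.trans hrR⟩

/-- balls with different centres. -/
theorem hball_subset_hball (hm : IsMetric 𝓜 h) (hconn : IsConnected 𝓜.carrier) {x y : V}
    (hx : x ∈ 𝓜.carrier) (hy : y ∈ 𝓜.carrier) {r R : ℝ} (hR : r + hdist 𝓜 h x y ≤ R) :
    hball 𝓜 h x r ⊆ hball 𝓜 h y R := by
  intro p hp
  refine ⟨hp.1, ?_⟩
  have h1 := hdist_triangle hm hconn hy hx hp.1
  rw [hdist_comm hm y x] at h1
  linarith [hp.2]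

theorem mem_hball_self {x : V} (hx : x ∈ 𝓜.carrier) {r : ℝ} (hr : 0 < r) : x ∈ hball 𝓜 h x r :=
  ⟨hx, by rw [hdist_self hx]; exact hr⟩

/-- local comparison with the ambient norm. -/
theorem g0_local_norm_le_hdist (hm : IsMetric 𝓜 h) {x : V} (hx : x ∈ 𝓜.carrier) :
    ∃ O : Set V, IsOpen O ∧ x ∈ O ∧ ∃ C : ℝ, 0 < C ∧ ∀ p ∈ 𝓜.carrier ∩ O, ∀ q ∈ 𝓜.carrier ∩ O,
      ‖p - q‖ ≤ C * hdist 𝓜 h p q := by
  obtain ⟨Φ, U, hΦ, z₀, hz₀, rfl⟩ := 𝓜.cover x hx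
  have hp := 𝓜.isParam hΦ
  obtain ⟨L, t, ht, hL⟩ :=
    ((hp.contDiffAt hz₀).of_le (by exact_mod_cast le_top : (1 : WithTop ℕ∞) ≤ ∞)).exists_lipschitzOnWith
  obtain ⟨ρ₁, hρ₁, hball⟩ := Metric.mem_nhds_iff.1 (Filter.inter_mem ht (hp.isOpen.mem_nhds hz₀))
  have hsub : Metric.closedBall z₀ (ρ₁ / 2) ⊆ Metric.ball z₀ ρ₁ :=
    Metric.closedBall_subset_ball (by linarith)
  obtain ⟨c, C, δ, hc, hC, hδ, H⟩ := hdist_compare_compact hm hΦ
    (isCompact_closedBall z₀ (ρ₁ / 2)) (fun ζ hζ => (hball (hsub hζ)).2)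
  set ρ : ℝ := min (ρ₁ / 2) (δ / 3) with hρdef
  have hρ : 0 < ρ := lt_min (by positivity) (by positivity)
  have hsub2 : Metric.ball z₀ ρ ⊆ Metric.closedBall z₀ (ρ₁ / 2) := fun ζ hζ => by
    rw [Metric.mem_ball] at hζ
    rw [Metric.mem_closedBall]
    exact hζ.le.trans (min_le_left _ _)
  obtain ⟨O, hO, hOe⟩ := hp.exists_isOpen_image (Metric.isOpen_ball (x := z₀) (ε := ρ))
    (fun ζ hζ => (hball (hsub (hsub2 hζ))).2)
  have hxO : Φ z₀ ∈ 𝓜.carrier ∩ O := by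
    rw [← hOe]
    exact ⟨z₀, Metric.mem_ball_self hρ, rfl⟩
  refine ⟨O, hO, hxO.2, ((L : ℝ) + 1) / c, by positivity, ?_⟩
  intro p hpO q hqO
  rw [← hOe] at hpO hqO
  obtain ⟨z, hz, rfl⟩ := hpO
  obtain ⟨w, hw, rfl⟩ := hqO
  have hzw : ‖z - w‖ < δ := by
    rw [Metric.mem_ball] at hz hw
    rw [← dist_eq_norm]
    have h3 : ρ ≤ δ / 3 := min_le_right _ _
    calc dist z w ≤ dist z z₀ + dist z₀ w := dist_triangle _ _ _
      _ < δ := by
        rw [dist_comm z₀ w]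
        linarith
  have h1 := (H z (hsub2 hz) w (hsub2 hw) hzw).1
  have h2 := hL.dist_le_mul z (hball (hsub (hsub2 hz))).1 w (hball (hsub (hsub2 hw))).1
  rw [dist_eq_norm, dist_eq_norm] at h2
  have hn : 0 ≤ ‖z - w‖ := norm_nonneg _
  calc ‖Φ z - Φ w‖ ≤ L * ‖z - w‖ := h2
    _ ≤ ((L : ℝ) + 1) * ‖z - w‖ := by nlinarith
    _ = ((L : ℝ) + 1) / c * (c * ‖z - w‖) := by field_simp
    _ ≤ ((L : ℝ) + 1) / c * hdist 𝓜 h (Φ z) (Φ w) :=
        mul_le_mul_of_nonneg_left h1 (by positivity)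

/-- comparison with the ambient norm on compact sets: lower bound. -/
theorem exists_norm_le_hdist (hm : IsMetric 𝓜 h) (hconn : IsConnected 𝓜.carrier) {K : Set V}
    (hK : IsCompact K) (hKM : K ⊆ 𝓜.carrier) :
    ∃ C : ℝ, 0 < C ∧ ∀ x ∈ K, ∀ y ∈ K, ‖x - y‖ ≤ C * hdist 𝓜 h x y := by
  obtain ⟨R, hR, hRK⟩ := hK.isBounded.exists_pos_norm_le
  have key : ∃ C : ℝ, 0 < C ∧ ∀ p ∈ K ×ˢ K, ‖p.1 - p.2‖ ≤ C * hdist 𝓜 h p.1 p.2 := by
    refine (hK.prod hK).induction_on (p := fun S => ∃ C : ℝ, 0 < C ∧ ∀ p ∈ S,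
      ‖p.1 - p.2‖ ≤ C * hdist 𝓜 h p.1 p.2) ?_ ?_ ?_ ?_
    · exact ⟨1, one_pos, fun p hp => absurd hp (Set.notMem_empty p)⟩
    · rintro S T hST ⟨C, hC, H⟩
      exact ⟨C, hC, fun p hp => H p (hST hp)⟩
    · rintro S T ⟨C₁, hC₁, H₁⟩ ⟨C₂, hC₂, H₂⟩
      refine ⟨max C₁ C₂, lt_max_of_lt_left hC₁, fun p hp => ?_⟩
      have hd := hdist_nonneg 𝓜 h p.1 p.2
      rcases hp with hp | hp
      · exact (H₁ p hp).trans (mul_le_mul_of_nonneg_right (le_max_left _ _) hd)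
      · exact (H₂ p hp).trans (mul_le_mul_of_nonneg_right (le_max_right _ _) hd)
    · rintro ⟨p, q⟩ ⟨hp, hq⟩
      rcases eq_or_ne p q with rfl | hne
      · obtain ⟨O, hO, hpO, C, hC, H⟩ := g0_local_norm_le_hdist hm (hKM hp)
        refine ⟨(K ×ˢ K) ∩ (O ×ˢ O), inter_mem_nhdsWithin _
          ((hO.prod hO).mem_nhds ⟨hpO, hpO⟩), C, hC, ?_⟩
        rintro ⟨a, b⟩ ⟨⟨ha, hb⟩, haO, hbO⟩
        exact H a ⟨hKM ha, haO⟩ b ⟨hKM hb, hbO⟩
      · have hd : 0 < hdist 𝓜 h p q := hdist_pos hm hconn (hKM hp) (hKM hq) hne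
        have hcw : ContinuousWithinAt (fun p : V × V => hdist 𝓜 h p.1 p.2) (K ×ˢ K) (p, q) :=
          ((continuousOn_hdist hm hconn) (p, q) ⟨hKM hp, hKM hq⟩).mono (Set.prod_mono hKM hKM)
        have hev := hcw.eventually (lt_mem_nhds (half_lt_self hd))
        refine ⟨{a | a ∈ K ×ˢ K ∧ hdist 𝓜 h p q / 2 < hdist 𝓜 h a.1 a.2}, ?_,
          2 * R / (hdist 𝓜 h p q / 2), by positivity, ?_⟩
        · filter_upwards [hev, self_mem_nhdsWithin] with a ha1 ha2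
          exact ⟨ha2, ha1⟩
        · rintro ⟨a, b⟩ ⟨⟨ha, hb⟩, hab⟩
          have h1 : ‖a - b‖ ≤ 2 * R := by
            calc ‖a - b‖ ≤ ‖a‖ + ‖b‖ := norm_sub_le _ _
              _ ≤ 2 * R := by linarith [hRK a ha, hRK b hb]
          simp only at hab ⊢
          calc ‖a - b‖ ≤ 2 * R := h1
            _ = 2 * R / (hdist 𝓜 h p q / 2) * (hdist 𝓜 h p q / 2) := by field_simp
            _ ≤ 2 * R / (hdist 𝓜 h p q / 2) * hdist 𝓜 h a b :=
                mul_le_mul_of_nonneg_left hab.le (by positivity)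
  obtain ⟨C, hC, H⟩ := key
  exact ⟨C, hC, fun x hx y hy => H (x, y) ⟨hx, hy⟩⟩

variable [MeasurableSpace V] [BorelSpace V]

theorem g0_measurableSet_carrier (𝓜 : CMfd V ι) : MeasurableSet 𝓜.carrier := by
  obtain ⟨O, Z, hO, hZ, he⟩ := 𝓜.isLocallyClosed_carrier
  rw [he]
  exact hO.measurableSet.inter hZ.measurableSet

theorem measurable_hdist_right (hm : IsMetric 𝓜 h) (hconn : IsConnected 𝓜.carrier) (o : V) :
    Measurable fun y => hdist 𝓜 h o y := by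
  classical
  by_cases ho : o ∈ 𝓜.carrier
  · have hM : MeasurableSet 𝓜.carrier := g0_measurableSet_carrier 𝓜
    have e : (fun y => hdist 𝓜 h o y) =
        𝓜.carrier.piecewise (fun y => hdist 𝓜 h o y) (fun _ => 0) := by
      funext y
      by_cases hy : y ∈ 𝓜.carrier
      · rw [Set.piecewise_eq_of_mem _ _ _ hy]
      · rw [Set.piecewise_eq_of_notMem _ _ _ hy, hdist_of_not_mem_right hy]
    rw [e]
    exact (continuousOn_hdist_right hm hconn ho).measurable_piecewise continuousOn_const hM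
  · have e : (fun y => hdist 𝓜 h o y) = fun _ => 0 := funext fun y => hdist_of_not_mem_left ho
    rw [e]
    exact measurable_const

theorem measurableSet_hball (hm : IsMetric 𝓜 h) (hconn : IsConnected 𝓜.carrier) (x : V) (r : ℝ) :
    MeasurableSet (hball 𝓜 h x r) :=
  (g0_measurableSet_carrier 𝓜).inter
    (measurableSet_lt (measurable_hdist_right hm hconn x) measurable_const)

theorem measurableSet_hcball (hm : IsMetric 𝓜 h) (hconn : IsConnected 𝓜.carrier) (x : V) (r : ℝ) :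
    MeasurableSet (hcball 𝓜 h x r) :=
  (g0_measurableSet_carrier 𝓜).inter
    (measurableSet_le (measurable_hdist_right hm hconn x) measurable_const)

end local_

end Claimed.Agent.R316
end

/- ===== packed: Claimed.Agent.R316.Base.Metric.Mono ===== -/
section
/-!
# Row 316 base layer, `BP-G0`, leaf `G0-6`: monotonicity, scaling, restriction, Lipschitz functions

Statements: helper97 (export file `Api.lean`, sections 5 and 6).  Sub-captain of `BP-G0`: helper268.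

RECIPE.
* `hdist_mono`: `le_csInf` over the curves for `h'` (nonempty: `exists_c1Curve`), `csInf_le` + `len_mono`.
* `hdist_smulF_const`: the set of lengths for `c h` is `√c •` the set for `h` (`ambQ_smulF`, `Real.sqrt_mul`, `intervalIntegral.integral_const_mul`); `Real.sInf_smul_of_nonneg`.
* curves of `h'`-length `< R` from `x` stay in `hball h' x R` for `t ∈ [0,1]` (`g0_hdist_le_of_curve`); use `g0_stop` first, so that ALL points `γ t`, `t ∈ ℝ`, lie in `γ '' Icc 0 1`.  Then `ambQ_mono_on` pointwise.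
* restriction: `g0_ambQ_restr`: `Ψ := (𝓜.restr O hO).pΦ x`, `w := (𝓜.restr O hO).co x` is a holomorphic parametrisation of `𝓜` (`CMfd.restr_isHol`), `a = dΨ_w v` (`CMfd.tangent_eq`), both sides are `qf (h Ψ w) v` (`IsParam.coVec_fderiv`, `ambQ_param`).
* `abs_sub_le_of_gradSq_le(_hball)`: along a curve `|(u ∘ γ)'| ≤ 2 C speed` (`abs_deriv_comp_le`); `t ↦ 2 C len γ 0 t ∓ u (γ t)` is monotone (`monotone_of_deriv_nonneg`, or on `Icc 0 1`: `monotoneOn_of_deriv_nonneg`); infimum over curves.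
* `gradSq_le_of_lipschitz`: `Ψ, w` the chosen parametrisation at `x`, `H = h Ψ w`, `ξ = grad10 (u ∘ Ψ) w`.  If `u ∘ Ψ` is not differentiable at `w`, then `fderiv = 0`, `ξ = 0` (also for `fun y => ((u ∘ Ψ) y : ℂ)`: it is differentiable iff `u ∘ Ψ` is), `gradSq = 0`.
  Otherwise put `v := H⁻¹ *ᵥ star ξ`, `Q := qf (H⁻¹)ᵀ ξ = qf H v` and `∑ ξ_k v_k = Q` (`dual_attained`), so `d(u∘Ψ)_w v = 2 Q` (`fderiv_real_eq`).  For small `t > 0`: `u(Ψ(w + t v)) - u(Ψ w) ≤ L d ≤ L (1+ε) t √Q`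
  (`hdist_local_compare`); divide by `t`, `t → 0`, `ε → 0`: `2 Q ≤ L √Q`, hence `Q ≤ L²/4`.
-/

set_option autoImplicit false
set_option linter.unusedSectionVars false
set_option linter.unusedVariables false
open scoped ContDiff ComplexOrder Topology
open MeasureTheory

namespace Claimed.Agent.R316

variable {V : Type} [NormedAddCommGroup V] [NormedSpace ℝ V] [FiniteDimensional ℝ V]
variable {ι : Type} [Fintype ι] [DecidableEq ι]
variable {𝓜 : CMfd V ι} {h h' : HFam V ι}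

/-! ### 5. Monotonicity and scaling -/

section mono

/-- a curve from `x` of length `< R`, stopped outside `[0,1]`, stays in the ball. -/
theorem g0_exists_curve_in_hball (hm : IsMetric 𝓜 h) (hconn : IsConnected 𝓜.carrier) {x y : V}
    (hx : x ∈ 𝓜.carrier) (hy : y ∈ 𝓜.carrier) {L : ℝ} (hL : hdist 𝓜 h x y < L) :
    ∃ γ : ℝ → V, IsC1Curve 𝓜 γ ∧ γ 0 = x ∧ γ 1 = y ∧ len 𝓜 h γ 0 1 < L ∧
      ∀ t, γ t ∈ hball 𝓜 h x L := by
  obtain ⟨γ₀, hγ₀, h0, h1, hlt⟩ := g0_exists_curve_lt hconn hx hy hL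
  obtain ⟨s1, s2, s3, s4, s5⟩ := g0_stop hγ₀
  refine ⟨_, s1, s2.trans h0, s3.trans h1, by rw [s5 h hm]; exact hlt, fun t => ?_⟩
  obtain ⟨s, hs, hse⟩ := s4 t
  rw [← hse]
  refine ⟨hγ₀.2 s, ?_⟩
  rw [← h0]
  exact (g0_hdist_le_of_curve hm hγ₀ hs).trans_lt hlt

theorem g0_isC1Curve_restr {O : Set V} (hO : IsOpen O) {γ : ℝ → V} :
    IsC1Curve (𝓜.restr O hO) γ ↔ IsC1Curve 𝓜 γ ∧ ∀ t, γ t ∈ O :=
  ⟨fun hγ => ⟨⟨hγ.1, fun t => (hγ.2 t).1⟩, fun t => (hγ.2 t).2⟩,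
    fun hγ => ⟨hγ.1.1, fun t => ⟨hγ.1.2 t, hγ.2 t⟩⟩⟩

theorem g0_ambQ_restr (hm : IsHForm 𝓜 h) {O : Set V} (hO : IsOpen O) {x a : V}
    (hx : x ∈ 𝓜.carrier ∩ O) (ha : a ∈ 𝓜.tangent x) :
    ambQ (𝓜.restr O hO) h x a = ambQ 𝓜 h x a := by
  have hx' : x ∈ (𝓜.restr O hO).carrier := hx
  have hΨ : 𝓜.IsHol ((𝓜.restr O hO).pΦ x) ((𝓜.restr O hO).pU x) :=
    ((𝓜.restr O hO).isHol_pΦ hx').1
  have hw := (𝓜.restr O hO).co_mem hx'
  have hxe := (𝓜.restr O hO).pΦ_co hx'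
  have ha' : a ∈ Set.range (fderiv ℝ ((𝓜.restr O hO).pΦ x) ((𝓜.restr O hO).co x)) := by
    rw [← CMfd.tangent_eq hΨ hw, hxe]
    exact ha
  obtain ⟨v, rfl⟩ := ha'
  have h1 := ambQ_param hm hΨ hw v
  rw [hxe] at h1
  rw [h1]
  unfold ambQ
  rw [(𝓜.isParam hΨ).coVec_fderiv hw]

theorem g0_len_restr (hm : IsHForm 𝓜 h) {O : Set V} (hO : IsOpen O) {γ : ℝ → V}
    (hγ : IsC1Curve (𝓜.restr O hO) γ) (a b : ℝ) :
    len (𝓜.restr O hO) h γ a b = len 𝓜 h γ a b := by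
  have hγ' := (g0_isC1Curve_restr hO).1 hγ
  unfold len
  refine intervalIntegral.integral_congr fun t _ => ?_
  rw [g0_ambQ_restr hm hO (hγ.2 t) (hγ'.1.deriv_mem_tangent t)]

theorem hdist_mono (hm : IsMetric 𝓜 h) (hm' : IsMetric 𝓜 h') (hle : leF 𝓜 h h')
    (hconn : IsConnected 𝓜.carrier) {x y : V} (hx : x ∈ 𝓜.carrier) (hy : y ∈ 𝓜.carrier) :
    hdist 𝓜 h x y ≤ hdist 𝓜 h' x y := by
  obtain ⟨γ₀, h0, h1, h2⟩ := exists_c1Curve hconn hx hy
  refine le_csInf ⟨_, γ₀, h0, h1, h2, rfl⟩ ?_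
  rintro _ ⟨γ, hγ, hγ0, hγ1, rfl⟩
  rw [← hγ0, ← hγ1]
  exact (hdist_le_len hm hγ zero_le_one).trans
    (len_mono hm.toIsHForm hm'.toIsHForm hle hγ zero_le_one)

open Pointwise in
theorem hdist_smulF_const (hm : IsMetric 𝓜 h) {c : ℝ} (hc : 0 < c) (x y : V) :
    hdist 𝓜 (smulF (fun _ => c) h) x y = Real.sqrt c * hdist 𝓜 h x y := by
  have hlen : ∀ γ : ℝ → V, IsC1Curve 𝓜 γ →
      len 𝓜 (smulF (fun _ => c) h) γ 0 1 = Real.sqrt c * len 𝓜 h γ 0 1 := by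
    intro γ hγ
    unfold len
    rw [← intervalIntegral.integral_const_mul]
    refine intervalIntegral.integral_congr fun t _ => ?_
    rw [ambQ_smulF _ (hγ.2 t), Real.sqrt_mul hc.le]
  have hset : {L : ℝ | ∃ γ : ℝ → V, IsC1Curve 𝓜 γ ∧ γ 0 = x ∧ γ 1 = y ∧
      L = len 𝓜 (smulF (fun _ => c) h) γ 0 1} = Real.sqrt c • {L : ℝ | ∃ γ : ℝ → V,
      IsC1Curve 𝓜 γ ∧ γ 0 = x ∧ γ 1 = y ∧ L = len 𝓜 h γ 0 1} := by
    ext L
    rw [Set.mem_smul_set]
    constructor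
    · rintro ⟨γ, hγ, h0, h1, rfl⟩
      exact ⟨_, ⟨γ, hγ, h0, h1, rfl⟩, (hlen γ hγ).symm⟩
    · rintro ⟨_, ⟨γ, hγ, h0, h1, rfl⟩, rfl⟩
      exact ⟨γ, hγ, h0, h1, (hlen γ hγ).symm⟩
  unfold hdist
  rw [hset, Real.sInf_smul_of_nonneg (Real.sqrt_nonneg c), smul_eq_mul]

/-- local version: if `h ≤ h'` on the `h'`-ball `B_{h'}(x,R)` then `d_h(x,y) ≤ d_{h'}(x,y)` for `y` in that ball. -/
theorem hdist_le_of_leFOn_hball (hm : IsMetric 𝓜 h) (hm' : IsMetric 𝓜 h')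
    (hconn : IsConnected 𝓜.carrier) {x y : V} (hx : x ∈ 𝓜.carrier) {R : ℝ}
    (hle : leFOn 𝓜 (hball 𝓜 h' x R) h h') (hy : y ∈ hball 𝓜 h' x R) :
    hdist 𝓜 h x y ≤ hdist 𝓜 h' x y := by
  refine le_of_forall_pos_le_add fun ε hε => ?_
  have hL : hdist 𝓜 h' x y < min (hdist 𝓜 h' x y + ε) R := lt_min (by linarith) hy.2
  obtain ⟨γ, hγ, h0, h1, hlt, hin⟩ := g0_exists_curve_in_hball hm' hconn hx hy.1 hL
  have h2 : len 𝓜 h γ 0 1 ≤ len 𝓜 h' γ 0 1 :=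
    intervalIntegral.integral_mono_on zero_le_one
      ((hγ.continuous_speed hm.toIsHForm).intervalIntegrable _ _)
      ((hγ.continuous_speed hm'.toIsHForm).intervalIntegrable _ _)
      fun t _ => Real.sqrt_le_sqrt (ambQ_mono_on hle (hγ.2 t)
        (hball_mono 𝓜 h' x (min_le_right _ _) (hin t)) _)
  have h3 := hdist_le_len hm hγ zero_le_one
  rw [h0, h1] at h3
  have h4 : min (hdist 𝓜 h' x y + ε) R ≤ hdist 𝓜 h' x y + ε := min_le_left _ _
  linarith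

/-- distance of an open submanifold dominates the distance of the manifold. -/
theorem hdist_le_hdist_restr (hm : IsMetric 𝓜 h) {O : Set V} (hO : IsOpen O) {x y : V}
    (hconn : IsConnected (𝓜.carrier ∩ O)) (hx : x ∈ 𝓜.carrier ∩ O) (hy : y ∈ 𝓜.carrier ∩ O) :
    hdist 𝓜 h x y ≤ hdist (𝓜.restr O hO) h x y := by
  have hconn' : IsConnected (𝓜.restr O hO).carrier := hconn
  obtain ⟨γ₀, h0, h1, h2⟩ := exists_c1Curve hconn' (x := x) (y := y) hx hy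
  refine le_csInf ⟨_, γ₀, h0, h1, h2, rfl⟩ ?_
  rintro _ ⟨γ, hγ, hγ0, hγ1, rfl⟩
  rw [g0_len_restr hm.toIsHForm hO hγ, ← hγ0, ← hγ1]
  exact hdist_le_len hm ((g0_isC1Curve_restr hO).1 hγ).1 zero_le_one

/-- they agree for points whose distance is smaller than the distance to the complement. -/
theorem hdist_restr_eq (hm : IsMetric 𝓜 h) (hconn : IsConnected 𝓜.carrier) {O : Set V}
    (hO : IsOpen O) {x y : V} (hx : x ∈ 𝓜.carrier) {R : ℝ} (hsub : hball 𝓜 h x R ⊆ O)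
    (hy : y ∈ hball 𝓜 h x R) : hdist (𝓜.restr O hO) h x y = hdist 𝓜 h x y := by
  have hcurve : ∀ L, hdist 𝓜 h x y < L → L ≤ R → ∃ γ : ℝ → V, IsC1Curve (𝓜.restr O hO) γ ∧
      γ 0 = x ∧ γ 1 = y ∧ len (𝓜.restr O hO) h γ 0 1 < L := by
    intro L hL hLR
    obtain ⟨γ, hγ, h0, h1, hlt, hin⟩ := g0_exists_curve_in_hball hm hconn hx hy.1 hL
    have hγ' : IsC1Curve (𝓜.restr O hO) γ :=
      (g0_isC1Curve_restr hO).2 ⟨hγ, fun t => hsub (hball_mono 𝓜 h x hLR (hin t))⟩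
    exact ⟨γ, hγ', h0, h1, by rw [g0_len_restr hm.toIsHForm hO hγ']; exact hlt⟩
  apply le_antisymm
  · refine le_of_forall_pos_le_add fun ε hε => ?_
    have hL : hdist 𝓜 h x y < min (hdist 𝓜 h x y + ε) R := lt_min (by linarith) hy.2
    obtain ⟨γ, hγ, h0, h1, hlt⟩ := hcurve _ hL (min_le_right _ _)
    have h3 : hdist (𝓜.restr O hO) h x y ≤ len (𝓜.restr O hO) h γ 0 1 :=
      csInf_le (g0_bddBelow _ h x y) ⟨γ, hγ, h0, h1, rfl⟩
    have h4 : min (hdist 𝓜 h x y + ε) R ≤ hdist 𝓜 h x y + ε := min_le_left _ _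
    linarith
  · obtain ⟨γ₀, h0, h1, h2, -⟩ := hcurve R hy.2 le_rfl
    refine le_csInf ⟨_, γ₀, h0, h1, h2, rfl⟩ ?_
    rintro _ ⟨γ, hγ, hγ0, hγ1, rfl⟩
    rw [g0_len_restr hm.toIsHForm hO hγ, ← hγ0, ← hγ1]
    exact hdist_le_len hm ((g0_isC1Curve_restr hO).1 hγ).1 zero_le_one

end mono

/-! ### 6. Lipschitz functions -/

section lip

/-- a gradient bound along a curve. -/
theorem g0_abs_sub_le_len (hm : IsMetric 𝓜 h) {u : V → ℝ} (hu : 𝓜.Smooth u) {C : ℝ} (hC : 0 ≤ C)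
    {γ : ℝ → V} (hγ : IsC1Curve 𝓜 γ) (hgrad : ∀ t, gradSq 𝓜 h u (γ t) ≤ C ^ 2) :
    |u (γ 0) - u (γ 1)| ≤ 2 * C * len 𝓜 h γ 0 1 := by
  have hd : ∀ t, DifferentiableAt ℝ (u ∘ γ) t ∧ |deriv (u ∘ γ) t| ≤
      2 * C * Real.sqrt (ambQ 𝓜 h (γ t) (deriv γ t)) := by
    intro t
    obtain ⟨h1, h2⟩ := abs_deriv_comp_le hm hu (hγ.differentiableAt t)
      (Filter.Eventually.of_forall hγ.2)
    refine ⟨h1, h2.trans ?_⟩
    have h3 : Real.sqrt (gradSq 𝓜 h u (γ t)) ≤ C :=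
      (Real.sqrt_le_sqrt (hgrad t)).trans (by rw [Real.sqrt_sq hC])
    exact mul_le_mul_of_nonneg_right (mul_le_mul_of_nonneg_left h3 (by norm_num))
      (Real.sqrt_nonneg _)
  have hG1 : ∀ t, HasDerivAt (fun s => 2 * C * len 𝓜 h γ 0 s - (u ∘ γ) s)
      (2 * C * Real.sqrt (ambQ 𝓜 h (γ t) (deriv γ t)) - deriv (u ∘ γ) t) t := fun t =>
    ((hasDerivAt_len hm.toIsHForm hγ 0 t).const_mul (2 * C)).sub (hd t).1.hasDerivAt
  have hG2 : ∀ t, HasDerivAt (fun s => 2 * C * len 𝓜 h γ 0 s + (u ∘ γ) s)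
      (2 * C * Real.sqrt (ambQ 𝓜 h (γ t) (deriv γ t)) + deriv (u ∘ γ) t) t := fun t =>
    ((hasDerivAt_len hm.toIsHForm hγ 0 t).const_mul (2 * C)).add (hd t).1.hasDerivAt
  have hm1 : Monotone (fun s => 2 * C * len 𝓜 h γ 0 s - (u ∘ γ) s) := by
    refine monotone_of_deriv_nonneg (fun t => (hG1 t).differentiableAt) fun t => ?_
    rw [(hG1 t).deriv]
    linarith [(abs_le.1 (hd t).2).2]
  have hm2 : Monotone (fun s => 2 * C * len 𝓜 h γ 0 s + (u ∘ γ) s) := by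
    refine monotone_of_deriv_nonneg (fun t => (hG2 t).differentiableAt) fun t => ?_
    rw [(hG2 t).deriv]
    linarith [(abs_le.1 (hd t).2).1]
  have a1 := hm1 zero_le_one
  have a2 := hm2 zero_le_one
  simp only [len_self, mul_zero, Function.comp_apply] at a1 a2
  rw [abs_le]
  constructor <;> linarith

/-- local version on a ball. -/
theorem abs_sub_le_of_gradSq_le_hball (hm : IsMetric 𝓜 h) (hconn : IsConnected 𝓜.carrier)
    {u : V → ℝ} (hu : 𝓜.Smooth u) {C R : ℝ} (hC : 0 ≤ C) {x y : V} (hx : x ∈ 𝓜.carrier)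
    (hgrad : ∀ p ∈ hball 𝓜 h x R, gradSq 𝓜 h u p ≤ C ^ 2) (hy : y ∈ hball 𝓜 h x R) :
    |u x - u y| ≤ 2 * C * hdist 𝓜 h x y := by
  refine le_of_forall_pos_le_add fun ε hε => ?_
  have hC1 : 0 < 2 * C + 1 := by linarith
  have hL : hdist 𝓜 h x y < min (hdist 𝓜 h x y + ε / (2 * C + 1)) R :=
    lt_min (by have := div_pos hε hC1; linarith) hy.2
  obtain ⟨γ, hγ, h0, h1, hlt, hin⟩ := g0_exists_curve_in_hball hm hconn hx hy.1 hL
  have h2 := g0_abs_sub_le_len hm hu hC hγ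
    (fun t => hgrad _ (hball_mono 𝓜 h x (min_le_right _ _) (hin t)))
  rw [h0, h1] at h2
  have h4 : min (hdist 𝓜 h x y + ε / (2 * C + 1)) R ≤ hdist 𝓜 h x y + ε / (2 * C + 1) :=
    min_le_left _ _
  have h5 : len 𝓜 h γ 0 1 ≤ hdist 𝓜 h x y + ε / (2 * C + 1) := (hlt.trans_le h4).le
  have h6 : 2 * C * (ε / (2 * C + 1)) ≤ ε := by
    rw [mul_div_assoc', div_le_iff₀ hC1]
    nlinarith
  calc |u x - u y| ≤ 2 * C * len 𝓜 h γ 0 1 := h2
    _ ≤ 2 * C * (hdist 𝓜 h x y + ε / (2 * C + 1)) :=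
        mul_le_mul_of_nonneg_left h5 (by linarith)
    _ = 2 * C * hdist 𝓜 h x y + 2 * C * (ε / (2 * C + 1)) := by ring
    _ ≤ 2 * C * hdist 𝓜 h x y + ε := by linarith

/-- a gradient bound gives a Lipschitz bound (`|du| = 2 |∂u|`). -/
theorem abs_sub_le_of_gradSq_le (hm : IsMetric 𝓜 h) (hconn : IsConnected 𝓜.carrier) {u : V → ℝ}
    (hu : 𝓜.Smooth u) {C : ℝ} (hC : 0 ≤ C) (hgrad : ∀ x ∈ 𝓜.carrier, gradSq 𝓜 h u x ≤ C ^ 2) {x y : V}
    (hx : x ∈ 𝓜.carrier) (hy : y ∈ 𝓜.carrier) : |u x - u y| ≤ 2 * C * hdist 𝓜 h x y :=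
  abs_sub_le_of_gradSq_le_hball hm hconn hu (R := hdist 𝓜 h x y + 1) hC hx
    (fun p hp => hgrad p hp.1) ⟨hy, by linarith⟩

/-- conversely a function which is `L`-Lipschitz near `x` has `gradSq ≤ L²/4` at `x`
(also at points of non-differentiability, where `fderiv = 0`). -/
theorem gradSq_le_of_lipschitz (hm : IsMetric 𝓜 h) {u : V → ℝ} {L : ℝ} (hL : 0 ≤ L) {x : V}
    (hx : x ∈ 𝓜.carrier)
    (hlip : ∀ᶠ y in 𝓝[𝓜.carrier] x, |u y - u x| ≤ L * hdist 𝓜 h x y) :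
    gradSq 𝓜 h u x ≤ L ^ 2 / 4 := by
  have hΨ := 𝓜.isHol_pΦ hx
  have hw := 𝓜.co_mem hx
  have hxe := 𝓜.pΦ_co hx
  have hp := 𝓜.isParam hΨ
  set Ψ := 𝓜.pΦ x with hΨdef
  set w := 𝓜.co x with hwdef
  have hH : (h Ψ w).PosDef := hm.posDef hΨ w hw
  set ξ : ι → ℂ := grad10 (u ∘ Ψ) w with hξ
  have hgs : gradSq 𝓜 h u x = qf ((h Ψ w)⁻¹).transpose ξ := rfl
  rw [hgs]
  by_cases hd : DifferentiableAt ℝ (u ∘ Ψ) w
  · set v : CE ι := WithLp.toLp 2 ((h Ψ w)⁻¹.mulVec (star ξ)) with hv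
    set Q : ℝ := qf ((h Ψ w)⁻¹).transpose ξ with hQ
    obtain ⟨d1, d2⟩ := dual_attained hH ξ
    have hQv : qf (h Ψ w) v = Q := d1
    have hQ0 : 0 ≤ Q := by
      rw [← hQv]
      exact qf_nonneg hH.posSemidef _
    have hfd : fderiv ℝ (u ∘ Ψ) w v = 2 * Q := by
      rw [fderiv_real_eq _ hd]
      have : ∑ j, grad10 (u ∘ Ψ) w j * v j = ((Q : ℝ) : ℂ) := d2
      rw [this, Complex.ofReal_re]
    have hline : HasDerivAt (fun t : ℝ => w + t • v) v 0 := by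
      have := ((hasDerivAt_id (0 : ℝ)).smul_const v).const_add w
      rw [one_smul] at this
      exact this
    have hw0 : w + (0 : ℝ) • v = w := by simp
    have hcomp : HasDerivAt (fun t : ℝ => (u ∘ Ψ) (w + t • v)) (2 * Q) 0 := by
      have h1 : HasFDerivAt (u ∘ Ψ) (fderiv ℝ (u ∘ Ψ) w) (w + (0 : ℝ) • v) := by
        rw [hw0]
        exact hd.hasFDerivAt
      have := h1.comp_hasDerivAt (0 : ℝ) hline
      rw [hfd] at this
      exact this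
    have hslope := hcomp.tendsto_slope_zero_right
    have htend : Filter.Tendsto (fun t : ℝ => w + t • v) (𝓝[>] 0) (𝓝 w) := by
      have := hline.continuousAt.tendsto
      rw [hw0] at this
      exact this.mono_left nhdsWithin_le_nhds
    have hlip' : ∀ᶠ ζ in 𝓝 w, |u (Ψ ζ) - u x| ≤ L * hdist 𝓜 h x (Ψ ζ) := by
      rw [← hxe, ← hp.map_nhds_eq hw] at hlip
      rw [← hxe]
      exact hlip
    have key : ∀ ε > 0, 2 * Q ≤ L * ((1 + ε) * Real.sqrt Q) := by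
      intro ε hε
      obtain ⟨δ, hδ, -, Hδ⟩ := hdist_local_compare hm hΨ hw hε
      refine le_of_tendsto hslope ?_
      filter_upwards [htend.eventually hlip', htend.eventually (Metric.ball_mem_nhds w hδ),
        self_mem_nhdsWithin] with t ht1 ht2 ht3
      have ht : 0 < t := ht3
      have h1 := (Hδ w (Metric.mem_ball_self hδ) _ ht2).2
      have e1 : qf (h Ψ w) (w - (w + t • v : CE ι)) = t ^ 2 * Q := by
        rw [g0_qf_sub_comm, ← hQv]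
        have h2 : qf (h Ψ w) (t • v : CE ι) = t ^ 2 * qf (h Ψ w) v := g0_qf_smul_real _ t v
        rw [← h2]
        congr 1
        simp
      rw [e1, Real.sqrt_mul (sq_nonneg t), Real.sqrt_sq ht.le, hxe] at h1
      have h3 := (abs_le.1 ht1).2
      simp only [zero_add, zero_smul, add_zero, Function.comp_apply, smul_eq_mul, hxe]
      rw [inv_mul_le_iff₀ ht]
      calc u (Ψ (w + t • v)) - u x ≤ L * hdist 𝓜 h x (Ψ (w + t • v)) := h3
        _ ≤ L * ((1 + ε) * (t * Real.sqrt Q)) := mul_le_mul_of_nonneg_left h1 hL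
        _ = t * (L * ((1 + ε) * Real.sqrt Q)) := by ring
    have key2 : 2 * Q ≤ L * Real.sqrt Q := by
      refine le_of_forall_pos_le_add fun ε hε => ?_
      have hpos : 0 < L * Real.sqrt Q + 1 := by positivity
      have := key (ε / (L * Real.sqrt Q + 1)) (div_pos hε hpos)
      have h6 : L * Real.sqrt Q * (ε / (L * Real.sqrt Q + 1)) ≤ ε := by
        rw [mul_div_assoc', div_le_iff₀ hpos]
        have : 0 ≤ L * Real.sqrt Q := by positivity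
        nlinarith
      nlinarith
    have hs : Real.sqrt Q ^ 2 = Q := Real.sq_sqrt hQ0
    have hs0 := Real.sqrt_nonneg Q
    rcases hs0.eq_or_lt with h0 | hpos
    · rw [← hs, ← h0]
      have : 0 ≤ L ^ 2 / 4 := by positivity
      simpa using this
    · have : 2 * Real.sqrt Q ≤ L := by
        have : 2 * Real.sqrt Q * Real.sqrt Q ≤ L * Real.sqrt Q := by nlinarith
        exact le_of_mul_le_mul_right this hpos
      nlinarith
  · have hd' : ¬ DifferentiableAt ℝ (fun y => (((u ∘ Ψ) y : ℝ) : ℂ)) w := by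
      intro hc
      apply hd
      have := Complex.reCLM.differentiableAt.comp w hc
      exact this
    have hξ0 : ξ = 0 := by
      funext k
      simp only [hξ, grad10, dz, fderiv_zero_of_not_differentiableAt hd']
      simp
    rw [hξ0, qf_zero_vec]
    positivity

end lip

end Claimed.Agent.R316
end
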