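/- Packed by merge_tool.py (helper293): 9 modules of Claimed.Agent.R316 in one file, same declarations.
   Old modules, in this order: B8.Gauss, B8.HeatSG, B8.Pot, B8.PotA, B8.PotB, B8.PotC, B8.PotD, B8.HeatSolve, B8.Frozen -/
import Claimed.Agent.R316.B8.Form
import Claimed.Agent.R316.B8.MaxP
import Claimed.Agent.R316.Pack001

/- ===== packed: Claimed.Agent.R316.B8.Gauss ===== -/
section
/-!
# B8-GAUSS: the Gaussian `gk z = (4π)^{-m/2} exp(-‖z‖²/4)` is a Schwartz function; explicit first and second derivatives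

LEAF (proofs only).  `gk` is the heat kernel of `E` at time `1`.

Recipes.
* `gk_contDiff`: `contDiff_norm_sq`, `Real.contDiff_exp`, `ContDiff.comp`, `fun_prop`.
* `fderiv_gk`: chain rule; `HasStrictFDerivAt.norm_sq` / `hasFDerivAt_norm_sq`-type lemma: `D(‖z‖²) = 2 ⟪z,·⟫`.
* `gk_decay` (the only real work).  Strong induction on `n`, for all `k` at once.
  `n = 0`: `s^k exp(-s²/4)` is bounded on `s ≥ 0` (e.g. `s^k ≤ k! 2^k... exp(s)`-type bounds, or `Real.tendsto_pow_mul_exp_neg_atTop_nhds_zero`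
  + continuity; or `exp(-s²/4) ≤ exp(1 - s)` because `s²/4 - s + 1 = (s/2-1)² ≥ 0`, and `s^k exp(-s) ≤ k!`  by `Real.pow_div_factorial_le_exp`).
  `n + 1`: `‖iteratedFDeriv ℝ (n+1) gk z‖ = ‖iteratedFDeriv ℝ n (fderiv ℝ gk) z‖` (`norm_iteratedFDeriv_fderiv`), and
  `fderiv ℝ gk = fun z => gk z • Λ z` with the continuous LINEAR map `Λ z = -(1/2) • innerSL ℝ z`.  By the Leibniz bound
  `norm_iteratedFDeriv_smul_le` (or `ContinuousLinearMap.norm_iteratedFDeriv_le_of_bilinear_of_le_one`):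
  `‖D^n(gk • Λ)(z)‖ ≤ ∑_{i ≤ n} C(n,i) ‖D^i gk (z)‖ ‖D^{n-i} Λ (z)‖`, where `‖D^0 Λ(z)‖ ≤ ‖z‖/2`, `‖D^1 Λ‖ ≤ 1/2`, `D^j Λ = 0` for `j ≥ 2`
  (`ContinuousLinearMap.iteratedFDeriv_...`/`IsBoundedLinearMap`; a crude bound `‖D^j Λ (z)‖ ≤ 1 + ‖z‖` for all `j` is enough,
  cf. `ContinuousLinearMap.hasTemperateGrowth`/`norm_iteratedFDeriv_le...`).  Multiply by `‖z‖^k` and use the induction hypothesis with
  exponents `k` and `k+1`.
  ALTERNATIVE: `Function.HasTemperateGrowth` API + ODE-free argument of your choice; any proof is fine.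
* `integral_gk`: `GaussianFourier.integral_rexp_neg_mul_sq_norm` with `b = 1/4`: `∫ exp(-‖z‖²/4) = (4π)^{m/2}`.
-/

set_option autoImplicit false
set_option maxSynthPendingDepth 3
set_option linter.unusedSectionVars false

open scoped Topology ContDiff RealInnerProductSpace SchwartzMap
open Set Filter Metric Module MeasureTheory

namespace Claimed.Agent.R316.B8

variable {E : Type*} [NormedAddCommGroup E] [InnerProductSpace ℝ E] [FiniteDimensional ℝ E]

/-- the heat kernel at time `1`. -/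
noncomputable def gk (z : E) : ℝ :=
  (4 * Real.pi) ^ (-(finrank ℝ E : ℝ) / 2) * Real.exp (-‖z‖ ^ 2 / 4)

theorem gk_pos (z : E) : 0 < gk z := by
  unfold gk; positivity

theorem gk_contDiff : ContDiff ℝ ∞ (gk : E → ℝ) := by
  unfold gk
  exact contDiff_const.mul (Real.contDiff_exp.comp (((contDiff_norm_sq ℝ).neg).div_const 4))

theorem hasFDerivAt_gk (z : E) : HasFDerivAt (gk : E → ℝ) ((-(gk z / 2)) • innerSL ℝ z) z := by
  have h1 : HasFDerivAt (fun x : E => ‖x‖ ^ 2) (2 • (innerSL ℝ z)) z :=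
    (hasStrictFDerivAt_norm_sq z).hasFDerivAt
  have h2 : HasFDerivAt (fun x : E => -‖x‖ ^ 2 / 4)
      ((4 : ℝ)⁻¹ • (-((2 : ℕ) • (innerSL ℝ z : E →L[ℝ] ℝ)))) z := by
    have := (h1.neg).const_smul (4 : ℝ)⁻¹
    refine this.congr_of_eventuallyEq (Eventually.of_forall fun x => ?_)
    simp [div_eq_inv_mul]
  have h3 := (h2.exp).const_mul ((4 * Real.pi) ^ (-(finrank ℝ E : ℝ) / 2))
  refine h3.congr_fderiv ?_
  ext v
  simp [gk]
  ring

theorem fderiv_gk (z : E) : fderiv ℝ gk z = (-(gk z / 2)) • innerSL ℝ z := (hasFDerivAt_gk z).fderiv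

theorem fderiv_gk_eq : fderiv ℝ (gk : E → ℝ) =
    fun z => gk z • ((-(1 / 2 : ℝ)) • (innerSL ℝ : E →L[ℝ] E →L[ℝ] ℝ)) z := by
  funext z
  rw [fderiv_gk]
  ext v
  simp
  ring

theorem gk_decay_aux : ∀ n k : ℕ, ∃ C : ℝ, ∀ z : E,
    (1 + ‖z‖) ^ k * ‖iteratedFDeriv ℝ n (gk : E → ℝ) z‖ ≤ C := by
  intro n
  induction n using Nat.strong_induction_on with
  | _ n ih =>
    intro k
    rcases n with _ | n
    · refine ⟨(4 * Real.pi) ^ (-(finrank ℝ E : ℝ) / 2) * (k.factorial * Real.exp 2), fun z => ?_⟩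
      rw [norm_iteratedFDeriv_zero, Real.norm_of_nonneg (gk_pos z).le]
      unfold gk
      set c := (4 * Real.pi) ^ (-(finrank ℝ E : ℝ) / 2) with hc
      have hc0 : 0 ≤ c := by positivity
      have h1 : (1 + ‖z‖) ^ k ≤ k.factorial * Real.exp (1 + ‖z‖) := by
        have := Real.pow_div_factorial_le_exp (1 + ‖z‖) (by positivity) k
        rwa [div_le_iff₀ (by positivity), mul_comm] at this
      have h2 : Real.exp (-‖z‖ ^ 2 / 4) ≤ Real.exp (2 - (1 + ‖z‖)) := by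
        apply Real.exp_le_exp.mpr
        nlinarith [sq_nonneg (‖z‖ / 2 - 1)]
      calc (1 + ‖z‖) ^ k * (c * Real.exp (-‖z‖ ^ 2 / 4))
          ≤ (k.factorial * Real.exp (1 + ‖z‖)) * (c * Real.exp (2 - (1 + ‖z‖))) := by
            gcongr
        _ = c * (k.factorial * (Real.exp (1 + ‖z‖) * Real.exp (2 - (1 + ‖z‖)))) := by ring
        _ = c * (k.factorial * Real.exp 2) := by
            rw [← Real.exp_add]; congr 3; ring
    · set Λ : E →L[ℝ] E →L[ℝ] ℝ := (-(1 / 2 : ℝ)) • (innerSL ℝ : E →L[ℝ] E →L[ℝ] ℝ) with hΛ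
      obtain ⟨kk, CC, hCC0, hCC⟩ := (Λ.hasTemperateGrowth).norm_iteratedFDeriv_le_uniform n
      choose! C hC using ih
      refine ⟨∑ i ∈ Finset.range (n + 1), (n.choose i : ℝ) * (CC * C i (k + kk)), fun z => ?_⟩
      rw [← norm_iteratedFDeriv_fderiv, fderiv_gk_eq]
      have h1 := norm_iteratedFDeriv_smul_le (𝕜 := ℝ) (f := (gk : E → ℝ)) (g := fun z => Λ z)
        (N := ∞) gk_contDiff Λ.contDiff z (n := n) (by exact_mod_cast le_top)
      calc (1 + ‖z‖) ^ k * ‖iteratedFDeriv ℝ n (fun z => gk z • Λ z) z‖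
          ≤ (1 + ‖z‖) ^ k * ∑ i ∈ Finset.range (n + 1), (n.choose i : ℝ) *
              ‖iteratedFDeriv ℝ i (gk : E → ℝ) z‖ * ‖iteratedFDeriv ℝ (n - i) (fun z => Λ z) z‖ := by
            gcongr
        _ = ∑ i ∈ Finset.range (n + 1), (1 + ‖z‖) ^ k * ((n.choose i : ℝ) *
              ‖iteratedFDeriv ℝ i (gk : E → ℝ) z‖ * ‖iteratedFDeriv ℝ (n - i) (fun z => Λ z) z‖) := by
            rw [Finset.mul_sum]
        _ ≤ ∑ i ∈ Finset.range (n + 1), (n.choose i : ℝ) * (CC * C i (k + kk)) := by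
            refine Finset.sum_le_sum fun i hi => ?_
            have hi' : i < n + 1 := Finset.mem_range.mp hi
            have h2 := hCC (n - i) (Nat.sub_le _ _) z
            have h3 := hC i hi' (k + kk) z
            calc (1 + ‖z‖) ^ k * ((n.choose i : ℝ) *
                ‖iteratedFDeriv ℝ i (gk : E → ℝ) z‖ * ‖iteratedFDeriv ℝ (n - i) (fun z => Λ z) z‖)
                ≤ (1 + ‖z‖) ^ k * ((n.choose i : ℝ) *
                  ‖iteratedFDeriv ℝ i (gk : E → ℝ) z‖ * (CC * (1 + ‖z‖) ^ kk)) := by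
                  gcongr
              _ = (n.choose i : ℝ) * (CC * ((1 + ‖z‖) ^ (k + kk) *
                  ‖iteratedFDeriv ℝ i (gk : E → ℝ) z‖)) := by
                  rw [pow_add]; ring
              _ ≤ (n.choose i : ℝ) * (CC * C i (k + kk)) := by
                  gcongr

theorem gk_decay : ∀ k n : ℕ, ∃ C : ℝ, ∀ z : E, ‖z‖ ^ k * ‖iteratedFDeriv ℝ n (gk : E → ℝ) z‖ ≤ C := by
  intro k n
  obtain ⟨C, hC⟩ := gk_decay_aux (E := E) n k
  refine ⟨C, fun z => le_trans ?_ (hC z)⟩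
  gcongr
  linarith

/-- the Gaussian as a Schwartz function. -/
noncomputable def gS : 𝓢(E, ℝ) := ⟨gk, gk_contDiff, gk_decay⟩

/-- its derivatives as Schwartz functions. -/
noncomputable def gS1 : 𝓢(E, E →L[ℝ] ℝ) := SchwartzMap.fderivCLM ℝ E ℝ gS

noncomputable def gS2 : 𝓢(E, Bil E) := SchwartzMap.fderivCLM ℝ E (E →L[ℝ] ℝ) gS1

noncomputable def gS3 : 𝓢(E, E →L[ℝ] Bil E) := SchwartzMap.fderivCLM ℝ E (Bil E) gS2

theorem gS_apply (z : E) : (gS : 𝓢(E, ℝ)) z = gk z := rfl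

theorem gS1_apply (z : E) : (gS1 : 𝓢(E, E →L[ℝ] ℝ)) z = fderiv ℝ gk z := rfl

theorem gS2_apply (z : E) : (gS2 : 𝓢(E, Bil E)) z = fderiv ℝ (fderiv ℝ gk) z := rfl

theorem fderiv2_gk (z : E) :
    fderiv ℝ (fderiv ℝ gk) z = gk z • ((1 / 4 : ℝ) • sqB (innerSL ℝ z) - (1 / 2 : ℝ) • innB) := by
  rw [fderiv_gk_eq]
  set Λ : E →L[ℝ] E →L[ℝ] ℝ := (-(1 / 2 : ℝ)) • (innerSL ℝ : E →L[ℝ] E →L[ℝ] ℝ) with hΛ
  have h := (hasFDerivAt_gk z).smul (Λ.hasFDerivAt (x := z))
  have h' : fderiv ℝ (fun z => gk z • Λ z) z = _ := h.fderiv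
  rw [h']
  ext v w
  have hin : ∀ a b : E, (innerSL ℝ a : E →L[ℝ] ℝ) b = ⟪a, b⟫ := fun a b => innerSL_apply_apply ℝ a b
  simp [hΛ, sqB_apply, innB_apply]
  rw [hin, hin]
  ring

/-- `Δ gk = gk (‖z‖²/4 - m/2)`. -/
theorem trB_gS2 (z : E) :
    trB ((gS2 : 𝓢(E, Bil E)) z) = gk z * (‖z‖ ^ 2 / 4 - (finrank ℝ E : ℝ) / 2) := by
  rw [gS2_apply, fderiv2_gk, map_smul, map_sub, map_smul, map_smul, trB_sqB_inner, trB_innB]
  simp only [smul_eq_mul]
  ring

/-- Euler type identity used for the time derivative: `m gk + D gk(z) z = - 2 Δ gk`. -/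
theorem gk_euler (z : E) :
    (finrank ℝ E : ℝ) * gk z + fderiv ℝ gk z z = - 2 * trB ((gS2 : 𝓢(E, Bil E)) z) := by
  rw [trB_gS2, fderiv_gk]
  simp only [_root_.smul_apply, innerSL_apply_apply, real_inner_self_eq_norm_sq, smul_eq_mul]
  ring

variable [MeasurableSpace E] [BorelSpace E]

theorem integral_gk : ∫ z : E, gk z = 1 := by
  unfold gk
  rw [integral_const_mul]
  have h := GaussianFourier.integral_rexp_neg_mul_sq_norm (V := E) (b := 1 / 4) (by norm_num)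
  have h2 : (fun z : E => Real.exp (-‖z‖ ^ 2 / 4)) = fun z : E => Real.exp (-(1 / 4) * ‖z‖ ^ 2) := by
    funext z; congr 1; ring
  rw [h2, h]
  have h3 : Real.pi / (1 / 4) = 4 * Real.pi := by ring
  rw [h3, ← Real.rpow_add (by positivity)]
  have : -(finrank ℝ E : ℝ) / 2 + (finrank ℝ E : ℝ) / 2 = 0 := by ring
  rw [this, Real.rpow_zero]

theorem integrable_gk : Integrable (gk : E → ℝ) := (gS : 𝓢(E, ℝ)).integrable

end Claimed.Agent.R316.B8
end

/- ===== packed: Claimed.Agent.R316.B8.HeatSG ===== -/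
section
/-!
# B8-HEATSG: the heat semigroup `hs σ φ = Tk gS √σ φ` and its derivatives

LEAF (proofs only; everything is a corollary of `ConvT.lean` and `Gauss.lean`, which may be used sorried).

`hs σ φ x = ∫ φ(x - √σ z) gk z dz`, `hs1 = D_x hs`, `hs2 = D_x² hs`.
Constants (depending only on `E`, `α`): `cH0 α = mom α gS`, `cH1 = mom 0 gS1`, `cH2 α = mom α gS2`, `cH3 α = mom α gS3`.

Recipes.
* `hs_hasFDerivAt`, `hs1_hasFDerivAt`: `hasFDerivAt_Tk` with `r = √σ`, `HasFDerivAt.const_smul`; `(√σ)⁻¹ * (√σ)⁻¹ = σ⁻¹`.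
* `hs1_le`: `norm_Tk_le`; `(√σ)⁻¹ = σ^(-1/2)` (`Real.sqrt_eq_rpow`, `Real.rpow_neg`).
* `hs2_le`: `norm_Tk_le_hol` with `∫ gS2 = 0` (`integral_fderiv_schwartz gS1`); `σ⁻¹ (√σ)^α = σ^(-1+α/2)`.
* `hs2_lip`: `Tk_lip_hol` for `κ = gS2`; `σ⁻¹ (√σ)⁻¹ (√σ)^α = σ^(-3/2+α/2)`.
* `hs_hasDerivAt`: chain rule `σ ↦ √σ` (`Real.hasDerivAt_sqrt`) with `hasDerivAt_Tk_r`, `κ = gS`,
  `κ' = postcompCLM ((-2) • trB) gS2` (`gk_euler`), `clm_Tk`:  `-(√σ)⁻¹ * (-2) * (1/(2√σ)) = σ⁻¹`.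
* `hs_sub_le`: `norm_Tk_sub_le_hol` with `∫ gS = 1`.
* continuity: `continuous_Tk` composed with `(σ, s, x) ↦ (s, √σ, x)`; `σ⁻¹`, `(√σ)⁻¹` are continuous on `Ioi 0`.
-/

set_option autoImplicit false
set_option maxSynthPendingDepth 3
set_option linter.unusedSectionVars false

open scoped Topology ContDiff SchwartzMap
open Set Filter Metric Module MeasureTheory

namespace Claimed.Agent.R316.B8

variable {E : Type*} [NormedAddCommGroup E] [InnerProductSpace ℝ E] [FiniteDimensional ℝ E]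
  [MeasurableSpace E] [BorelSpace E]

/-- heat semigroup. -/
noncomputable def hs (σ : ℝ) (φ : E → ℝ) (x : E) : ℝ := Tk gS (Real.sqrt σ) φ x

/-- its first spatial derivative. -/
noncomputable def hs1 (σ : ℝ) (φ : E → ℝ) (x : E) : E →L[ℝ] ℝ :=
  (Real.sqrt σ)⁻¹ • Tk gS1 (Real.sqrt σ) φ x

/-- its second spatial derivative. -/
noncomputable def hs2 (σ : ℝ) (φ : E → ℝ) (x : E) : Bil E := σ⁻¹ • Tk gS2 (Real.sqrt σ) φ x

variable (E) in
noncomputable def cH0 (α : ℝ) : ℝ := mom α (gS : 𝓢(E, ℝ))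
variable (E) in
noncomputable def cH1 : ℝ := mom 0 (gS1 : 𝓢(E, E →L[ℝ] ℝ))
variable (E) in
noncomputable def cH2 (α : ℝ) : ℝ := mom α (gS2 : 𝓢(E, Bil E))
variable (E) in
noncomputable def cH3 (α : ℝ) : ℝ := mom α (gS3 : 𝓢(E, E →L[ℝ] Bil E))

theorem cH0_nonneg (α : ℝ) : 0 ≤ cH0 E α := mom_nonneg _ _
theorem cH1_nonneg : 0 ≤ cH1 E := mom_nonneg _ _
theorem cH2_nonneg (α : ℝ) : 0 ≤ cH2 E α := mom_nonneg _ _
theorem cH3_nonneg (α : ℝ) : 0 ≤ cH3 E α := mom_nonneg _ _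

variable {φ : E → ℝ} {K H α σ : ℝ}

theorem integral_gS : ∫ z : E, (gS : 𝓢(E, ℝ)) z = 1 := integral_gk

theorem mom_zero_gS : mom 0 (gS : 𝓢(E, ℝ)) = 1 := by
  rw [mom_zero, ← integral_gk (E := E)]
  congr 1
  funext z
  rw [gS_apply, Real.norm_of_nonneg (gk_pos z).le]

/-- SG1. -/
theorem hs_le (σ : ℝ) (hb : SupB univ φ K) (x : E) : |hs σ φ x| ≤ K := by
  have := norm_Tk_le (gS : 𝓢(E, ℝ)) (Real.sqrt σ) x hb
  rwa [mom_zero_gS, mul_one] at this

theorem hs_zero (hc : Continuous φ) (x : E) : hs 0 φ x = φ x := by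
  simp only [hs, Tk, Real.sqrt_zero, zero_smul, sub_zero]
  rw [integral_smul, integral_gS, smul_eq_mul, mul_one]

/-- positivity preserving. -/
theorem hs_nonneg (σ : ℝ) (h : ∀ x, 0 ≤ φ x) (x : E) : 0 ≤ hs σ φ x :=
  integral_nonneg fun z => mul_nonneg (h _) (gk_pos z).le

/-- SG2. -/
theorem hs_hasFDerivAt (hσ : 0 < σ) (hc : Continuous φ) (hb : SupB univ φ K) (x : E) :
    HasFDerivAt (hs σ φ) (hs1 σ φ x) x :=
  hasFDerivAt_Tk (gS : 𝓢(E, ℝ)) (Real.sqrt_pos.mpr hσ) hc hb x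

/-- SG3. -/
theorem hs1_hasFDerivAt (hσ : 0 < σ) (hc : Continuous φ) (hb : SupB univ φ K) (x : E) :
    HasFDerivAt (hs1 σ φ) (hs2 σ φ x) x := by
  have h := (hasFDerivAt_Tk (gS1 : 𝓢(E, E →L[ℝ] ℝ)) (Real.sqrt_pos.mpr hσ) hc hb x).const_smul
    (Real.sqrt σ)⁻¹
  refine h.congr_fderiv ?_
  rw [smul_smul, ← mul_inv, Real.mul_self_sqrt hσ.le]
  rfl

theorem sqrt_inv_eq_rpow (hσ : 0 < σ) : (Real.sqrt σ)⁻¹ = σ ^ (-(1 / 2) : ℝ) := by
  rw [Real.sqrt_eq_rpow, Real.rpow_neg hσ.le]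

theorem sqrt_rpow_eq (hσ : 0 ≤ σ) (α : ℝ) : (Real.sqrt σ) ^ α = σ ^ (α / 2) := by
  rw [Real.sqrt_eq_rpow, ← Real.rpow_mul hσ]
  congr 1; ring

/-- SG4. -/
theorem hs1_le (hσ : 0 < σ) (hb : SupB univ φ K) (x : E) :
    ‖hs1 σ φ x‖ ≤ cH1 E * σ ^ (-(1 / 2) : ℝ) * K := by
  have h := norm_Tk_le (gS1 : 𝓢(E, E →L[ℝ] ℝ)) (Real.sqrt σ) x hb
  have h0 : 0 ≤ (Real.sqrt σ)⁻¹ := inv_nonneg.mpr (Real.sqrt_nonneg _)
  rw [hs1, norm_smul, Real.norm_of_nonneg h0, ← sqrt_inv_eq_rpow hσ]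
  calc (Real.sqrt σ)⁻¹ * ‖Tk gS1 (Real.sqrt σ) φ x‖ ≤ (Real.sqrt σ)⁻¹ * (K * mom 0 gS1) := by gcongr
    _ = cH1 E * (Real.sqrt σ)⁻¹ * K := by rw [cH1]; ring

/-- SG5. -/
theorem hs2_le (hα : 0 ≤ α) (hσ : 0 < σ) (hc : Continuous φ) (hb : SupB univ φ K)
    (hh : HolB α univ φ H) (x : E) : ‖hs2 σ φ x‖ ≤ cH2 E α * σ ^ (-1 + α / 2) * H := by
  have h := norm_Tk_le_hol (κ := (gS2 : 𝓢(E, Bil E))) (integral_fderiv_schwartz gS1) hα
    (Real.sqrt_nonneg σ) hc hb hh x
  have h0 : 0 ≤ σ⁻¹ := inv_nonneg.mpr hσ.le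
  rw [hs2, norm_smul, Real.norm_of_nonneg h0, Real.rpow_add hσ, Real.rpow_neg_one,
    ← sqrt_rpow_eq hσ.le]
  calc σ⁻¹ * ‖Tk gS2 (Real.sqrt σ) φ x‖ ≤ σ⁻¹ * (H * (Real.sqrt σ) ^ α * mom α gS2) := by gcongr
    _ = cH2 E α * (σ⁻¹ * (Real.sqrt σ) ^ α) * H := by rw [cH2]; ring

/-- SG6. -/
theorem hs2_lip (hα : 0 ≤ α) (hσ : 0 < σ) (hc : Continuous φ) (hb : SupB univ φ K)
    (hh : HolB α univ φ H) (x y : E) :
    ‖hs2 σ φ x - hs2 σ φ y‖ ≤ cH3 E α * σ ^ (-(3 / 2) + α / 2) * H * ‖x - y‖ := by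
  have h := Tk_lip_hol (gS2 : 𝓢(E, Bil E)) hα (Real.sqrt_pos.mpr hσ) hc hb hh x y
  have h0 : 0 ≤ σ⁻¹ := inv_nonneg.mpr hσ.le
  have h1 : σ ^ (-(3 / 2) + α / 2) = σ⁻¹ * ((Real.sqrt σ)⁻¹ * (Real.sqrt σ) ^ α) := by
    rw [sqrt_inv_eq_rpow hσ, sqrt_rpow_eq hσ.le, ← Real.rpow_neg_one, ← Real.rpow_add hσ,
      ← Real.rpow_add hσ]
    congr 1; ring
  rw [hs2, hs2, ← smul_sub, norm_smul, Real.norm_of_nonneg h0, h1]
  calc σ⁻¹ * ‖Tk gS2 (Real.sqrt σ) φ x - Tk gS2 (Real.sqrt σ) φ y‖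
      ≤ σ⁻¹ * ((Real.sqrt σ)⁻¹ * (H * (Real.sqrt σ) ^ α *
        mom α (SchwartzMap.fderivCLM ℝ E (Bil E) gS2)) * ‖x - y‖) := by gcongr
    _ = cH3 E α * (σ⁻¹ * ((Real.sqrt σ)⁻¹ * (Real.sqrt σ) ^ α)) * H * ‖x - y‖ := by
        rw [cH3, gS3]; ring

/-- SG7: the heat equation. -/
theorem hs_hasDerivAt (hσ : 0 < σ) (hc : Continuous φ) (hb : SupB univ φ K) (x : E) :
    HasDerivAt (fun s => hs s φ x) (trB (hs2 σ φ x)) σ := by
  have hs0 : 0 < Real.sqrt σ := Real.sqrt_pos.mpr hσ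
  set L : Bil E →L[ℝ] ℝ := (-2 : ℝ) • trB with hL
  set κ' : 𝓢(E, ℝ) := SchwartzMap.postcompCLM (𝕜 := ℝ) L gS2 with hκ'
  have hκ : ∀ z : E, κ' z = (finrank ℝ E : ℝ) • (gS : 𝓢(E, ℝ)) z + fderiv ℝ (gS : 𝓢(E, ℝ)) z z := by
    intro z
    have := gk_euler z
    rw [hκ', SchwartzMap.postcompCLM_apply, hL]
    simp only [_root_.smul_apply, smul_eq_mul]
    rw [← this]
    rfl
  have h1 := hasDerivAt_Tk_r (κ := (gS : 𝓢(E, ℝ))) (κ' := κ') hκ hs0 hc hb x
  have h2 := h1.scomp σ (Real.hasDerivAt_sqrt hσ.ne')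
  refine h2.congr_deriv ?_
  rw [hκ', ← clm_Tk L gS2 _ hc hb x, hs2, hL, map_smul]
  simp only [_root_.smul_apply, smul_eq_mul]
  have h3 : Real.sqrt σ * Real.sqrt σ = σ := Real.mul_self_sqrt hσ.le
  have h4 : σ⁻¹ = (Real.sqrt σ)⁻¹ * (Real.sqrt σ)⁻¹ := by rw [← mul_inv, h3]
  rw [h4]
  field_simp

/-- SG8: convergence to the initial value. -/
theorem hs_sub_le (hα : 0 ≤ α) (hσ : 0 ≤ σ) (hc : Continuous φ) (hb : SupB univ φ K)
    (hh : HolB α univ φ H) (x : E) : |hs σ φ x - φ x| ≤ cH0 E α * σ ^ (α / 2) * H := by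
  have h := norm_Tk_sub_le_hol (gS : 𝓢(E, ℝ)) hα (Real.sqrt_nonneg σ) hc hb hh x
  rw [integral_gS, smul_eq_mul, mul_one, sqrt_rpow_eq hσ, Real.norm_eq_abs] at h
  calc |hs σ φ x - φ x| ≤ H * σ ^ (α / 2) * mom α gS := h
    _ = cH0 E α * σ ^ (α / 2) * H := by rw [cH0]; ring

theorem continuous_sg_map : Continuous (fun q : ℝ × ℝ × E => ((q.2.1, Real.sqrt q.1, q.2.2) : ℝ × ℝ × E)) := by
  fun_prop

/-- SG9: joint continuity, `q = (σ, s, x)`. -/
theorem hs_continuous {f : ℝ → E → ℝ} (hc : Continuous (fun q : ℝ × E => f q.1 q.2))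
    (hb : ∀ t, SupB univ (f t) K) :
    Continuous (fun q : ℝ × ℝ × E => hs q.1 (f q.2.1) q.2.2) :=
  (continuous_Tk (gS : 𝓢(E, ℝ)) hc hb).comp continuous_sg_map

theorem hs1_continuousOn {f : ℝ → E → ℝ} (hc : Continuous (fun q : ℝ × E => f q.1 q.2))
    (hb : ∀ t, SupB univ (f t) K) :
    ContinuousOn (fun q : ℝ × ℝ × E => hs1 q.1 (f q.2.1) q.2.2) (Ioi 0 ×ˢ univ) := by
  have h1 : Continuous (fun q : ℝ × ℝ × E => Tk gS1 (Real.sqrt q.1) (f q.2.1) q.2.2) :=
    (continuous_Tk (gS1 : 𝓢(E, E →L[ℝ] ℝ)) hc hb).comp continuous_sg_map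
  have h2 : ContinuousOn (fun q : ℝ × ℝ × E => (Real.sqrt q.1)⁻¹) (Ioi 0 ×ˢ univ) := by
    refine ContinuousOn.inv₀ (by fun_prop) fun q hq => ?_
    exact (Real.sqrt_pos.mpr hq.1).ne'
  exact h2.smul h1.continuousOn

theorem hs2_continuousOn {f : ℝ → E → ℝ} (hc : Continuous (fun q : ℝ × E => f q.1 q.2))
    (hb : ∀ t, SupB univ (f t) K) :
    ContinuousOn (fun q : ℝ × ℝ × E => hs2 q.1 (f q.2.1) q.2.2) (Ioi 0 ×ˢ univ) := by
  have h1 : Continuous (fun q : ℝ × ℝ × E => Tk gS2 (Real.sqrt q.1) (f q.2.1) q.2.2) :=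
    (continuous_Tk (gS2 : 𝓢(E, Bil E)) hc hb).comp continuous_sg_map
  have h2 : ContinuousOn (fun q : ℝ × ℝ × E => (q.1)⁻¹) (Ioi 0 ×ˢ univ) := by
    refine ContinuousOn.inv₀ (by fun_prop) fun q hq => ?_
    exact (ne_of_gt hq.1)
  exact h2.smul h1.continuousOn

end Claimed.Agent.R316.B8
end

/- ===== packed: Claimed.Agent.R316.B8.Pot ===== -/
section
/-!
# B8-POT: the heat potential `pot f t x = ∫_0^t hs σ (f (t-σ)) x dσ` (definitions only)

Leaves: `PotA.lean` (bounds, x-derivatives), `PotB.lean` (Hölder bound), `PotC.lean` (joint continuity), `PotD.lean` (time derivative).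
-/

set_option autoImplicit false
set_option maxSynthPendingDepth 3
set_option linter.unusedSectionVars false

open scoped Topology ContDiff
open Set Filter Metric Module MeasureTheory

namespace Claimed.Agent.R316.B8

variable {E : Type*} [NormedAddCommGroup E] [InnerProductSpace ℝ E] [FiniteDimensional ℝ E]
  [MeasurableSpace E] [BorelSpace E]

/-- the heat potential (Duhamel integral). -/
noncomputable def pot (f : ℝ → E → ℝ) (t : ℝ) (x : E) : ℝ := ∫ σ in (0 : ℝ)..t, hs σ (f (t - σ)) x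

/-- its first spatial derivative. -/
noncomputable def pot1 (f : ℝ → E → ℝ) (t : ℝ) (x : E) : E →L[ℝ] ℝ :=
  ∫ σ in (0 : ℝ)..t, hs1 σ (f (t - σ)) x

/-- its second spatial derivative. -/
noncomputable def pot2 (f : ℝ → E → ℝ) (t : ℝ) (x : E) : Bil E :=
  ∫ σ in (0 : ℝ)..t, hs2 σ (f (t - σ)) x

end Claimed.Agent.R316.B8
end

/- ===== packed: Claimed.Agent.R316.B8.PotA ===== -/
section
/-!
# B8-POT-A: heat potential, integrability, bounds, differentiation in `x`

LEAF (proofs only).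
`f : ℝ → E → ℝ` is defined for ALL times, `YB α univ univ f F0` (jointly continuous, `|f| ≤ F0`, `[f(t)]_α ≤ F0`).
Everything uses only the interface SG1–SG9 of `HeatSG.lean` and the earlier `Pot*.lean` files (which may be used sorried).

* **POT-A** (section `A`): integrability in `σ`, bounds, differentiation in `x` under the integral.
  `hasFDerivAt_integral_of_dominated_of_fderiv_le` (interval version in `intervalIntegral`) with the dominating functions
  `cH1 σ^{-1/2} F0`, `cH2 σ^{-1+α/2} F0` (independent of `x`); `intervalIntegral.intervalIntegrable_rpow'` (exponent `> -1`),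
  `integral_rpow`.  Measurability in `σ`: continuity on `Ioo 0 t` from SG9 composed with `σ ↦ (σ, t - σ, x)`
  (`ContinuousOn.aestronglyMeasurable`, the end points are null).
-/

set_option autoImplicit false
set_option maxSynthPendingDepth 3
set_option linter.unusedSectionVars false
set_option linter.unusedVariables false

open scoped Topology ContDiff
open Set Filter Metric Module MeasureTheory

namespace Claimed.Agent.R316.B8

variable {E : Type*} [NormedAddCommGroup E] [InnerProductSpace ℝ E] [FiniteDimensional ℝ E]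
  [MeasurableSpace E] [BorelSpace E]

variable {f : ℝ → E → ℝ} {F0 α t : ℝ}

section A

theorem YB.cont_univ (hf : YB α univ univ f F0) : Continuous (fun q : ℝ × E => f q.1 q.2) := by
  have := hf.cont
  rwa [univ_prod_univ, continuousOn_univ] at this

theorem YB.cont_slice (hf : YB α univ univ f F0) (s : ℝ) : Continuous (f s) :=
  hf.cont_univ.comp (continuous_const.prodMk continuous_id)

theorem YB.sup_univ (hf : YB α univ univ f F0) (s : ℝ) : SupB univ (f s) F0 := hf.sup s (mem_univ _)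

theorem YB.hol_univ (hf : YB α univ univ f F0) (s : ℝ) : HolB α univ (f s) F0 := hf.hol s (mem_univ _)

theorem YB.nonneg_univ (hf : YB α univ univ f F0) : 0 ≤ F0 :=
  (norm_nonneg _).trans (hf.sup_univ 0 (0 : E) (mem_univ _))

theorem intervalIntegrable_of_bound {G : Type*} [NormedAddCommGroup G] {g : ℝ → G} {b : ℝ → ℝ}
    (ht : 0 ≤ t) (hg : ContinuousOn g (Ioi 0)) (hb : IntervalIntegrable b volume 0 t)
    (hle : ∀ σ ∈ Ioc 0 t, ‖g σ‖ ≤ b σ) : IntervalIntegrable g volume 0 t := by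
  rw [intervalIntegrable_iff_integrableOn_Ioc_of_le ht] at hb ⊢
  refine Integrable.mono' hb ?_ ?_
  · exact (hg.mono (fun σ hσ => hσ.1)).aestronglyMeasurable measurableSet_Ioc
  · exact ae_restrict_of_forall_mem measurableSet_Ioc hle

theorem pot_path_cont (t : ℝ) (x : E) : Continuous (fun σ : ℝ => ((σ, t - σ, x) : ℝ × ℝ × E)) := by
  fun_prop

theorem hs_path_continuous (hf : YB α univ univ f F0) (t : ℝ) (x : E) :
    Continuous (fun σ => hs σ (f (t - σ)) x) :=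
  (hs_continuous hf.cont_univ hf.sup_univ).comp (pot_path_cont t x)

theorem hs1_path_continuousOn (hf : YB α univ univ f F0) (t : ℝ) (x : E) :
    ContinuousOn (fun σ => hs1 σ (f (t - σ)) x) (Ioi 0) :=
  (hs1_continuousOn hf.cont_univ hf.sup_univ).comp (pot_path_cont t x).continuousOn
    (fun σ hσ => ⟨hσ, mem_univ _⟩)

theorem hs2_path_continuousOn (hf : YB α univ univ f F0) (t : ℝ) (x : E) :
    ContinuousOn (fun σ => hs2 σ (f (t - σ)) x) (Ioi 0) :=
  (hs2_continuousOn hf.cont_univ hf.sup_univ).comp (pot_path_cont t x).continuousOn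
    (fun σ hσ => ⟨hσ, mem_univ _⟩)

theorem bound1_intervalIntegrable (a b c d : ℝ) :
    IntervalIntegrable (fun σ : ℝ => c * σ ^ (-(1 / 2) : ℝ) * d) volume a b :=
  ((intervalIntegral.intervalIntegrable_rpow' (by norm_num)).const_mul c).mul_const d

theorem bound2_intervalIntegrable (hα : 0 < α) (a b c d : ℝ) :
    IntervalIntegrable (fun σ : ℝ => c * σ ^ (-1 + α / 2) * d) volume a b :=
  ((intervalIntegral.intervalIntegrable_rpow' (by linarith)).const_mul c).mul_const d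

theorem hs_intervalIntegrable (hf : YB α univ univ f F0) (ht : 0 ≤ t) (x : E) :
    IntervalIntegrable (fun σ => hs σ (f (t - σ)) x) volume 0 t :=
  (hs_path_continuous hf t x).intervalIntegrable _ _

theorem hs1_intervalIntegrable (hf : YB α univ univ f F0) (ht : 0 ≤ t) (x : E) :
    IntervalIntegrable (fun σ => hs1 σ (f (t - σ)) x) volume 0 t :=
  intervalIntegrable_of_bound ht (hs1_path_continuousOn hf t x)
    (bound1_intervalIntegrable 0 t (cH1 E) F0) (fun σ hσ => hs1_le hσ.1 (hf.sup_univ _) x)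

theorem hs2_intervalIntegrable (hα : 0 < α) (hf : YB α univ univ f F0) (ht : 0 ≤ t) (x : E) :
    IntervalIntegrable (fun σ => hs2 σ (f (t - σ)) x) volume 0 t :=
  intervalIntegrable_of_bound ht (hs2_path_continuousOn hf t x)
    (bound2_intervalIntegrable hα 0 t (cH2 E α) F0)
    (fun σ hσ => hs2_le hα.le hσ.1 (hf.cont_slice _) (hf.sup_univ _) (hf.hol_univ _) x)

theorem pot_zero (f : ℝ → E → ℝ) (x : E) : pot f 0 x = 0 := by
  simp [pot]

theorem pot_le (hf : YB α univ univ f F0) (ht : 0 ≤ t) (x : E) : |pot f t x| ≤ t * F0 := by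
  have h := intervalIntegral.norm_integral_le_of_norm_le_const (a := 0) (b := t) (C := F0)
    (f := fun σ => hs σ (f (t - σ)) x) (fun σ _ => hs_le σ (hf.sup_univ _) x)
  rw [sub_zero, abs_of_nonneg ht, mul_comm] at h
  exact h

theorem integral_bound1 (ht : 0 ≤ t) (c d : ℝ) :
    ∫ σ in (0 : ℝ)..t, c * σ ^ (-(1 / 2) : ℝ) * d = 2 * c * t ^ (1 / 2 : ℝ) * d := by
  rw [intervalIntegral.integral_mul_const, intervalIntegral.integral_const_mul,
    integral_rpow (Or.inl (by norm_num))]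
  have h1 : (-(1 / 2) + 1 : ℝ) = 1 / 2 := by norm_num
  rw [h1, Real.zero_rpow (by norm_num)]
  ring

theorem integral_bound2 (hα : 0 < α) (ht : 0 ≤ t) (c d : ℝ) :
    ∫ σ in (0 : ℝ)..t, c * σ ^ (-1 + α / 2) * d = 2 / α * c * t ^ (α / 2) * d := by
  rw [intervalIntegral.integral_mul_const, intervalIntegral.integral_const_mul,
    integral_rpow (Or.inl (by linarith))]
  have h1 : (-1 + α / 2 + 1 : ℝ) = α / 2 := by ring
  rw [h1, Real.zero_rpow (by positivity), sub_zero]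
  field_simp

theorem pot1_le (hf : YB α univ univ f F0) (ht : 0 ≤ t) (x : E) :
    ‖pot1 f t x‖ ≤ 2 * cH1 E * t ^ (1 / 2 : ℝ) * F0 := by
  rw [← integral_bound1 ht]
  exact intervalIntegral.norm_integral_le_of_norm_le ht
    (Eventually.of_forall fun σ hσ => hs1_le hσ.1 (hf.sup_univ _) x)
    (bound1_intervalIntegrable 0 t (cH1 E) F0)

theorem pot2_le (hα : 0 < α) (hf : YB α univ univ f F0) (ht : 0 ≤ t) (x : E) :
    ‖pot2 f t x‖ ≤ 2 / α * cH2 E α * t ^ (α / 2) * F0 := by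
  rw [← integral_bound2 hα ht]
  exact intervalIntegral.norm_integral_le_of_norm_le ht
    (Eventually.of_forall fun σ hσ =>
      hs2_le hα.le hσ.1 (hf.cont_slice _) (hf.sup_univ _) (hf.hol_univ _) x)
    (bound2_intervalIntegrable hα 0 t (cH2 E α) F0)

theorem pot_hasFDerivAt (hf : YB α univ univ f F0) (ht : 0 ≤ t) (x : E) :
    HasFDerivAt (pot f t) (pot1 f t x) x := by
  refine intervalIntegral.hasFDerivAt_integral_of_dominated_of_fderiv_le (𝕜 := ℝ) (μ := volume)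
    (F := fun x σ => hs σ (f (t - σ)) x) (F' := fun x σ => hs1 σ (f (t - σ)) x) (s := univ)
    (bound := fun σ : ℝ => cH1 E * σ ^ (-(1 / 2) : ℝ) * F0) univ_mem ?_ ?_ ?_ ?_ ?_ ?_
  · exact Eventually.of_forall fun y => (hs_path_continuous hf t y).aestronglyMeasurable
  · exact hs_intervalIntegrable hf ht x
  · rw [uIoc_of_le ht]
    exact ((hs1_path_continuousOn hf t x).mono (fun σ hσ => hσ.1)).aestronglyMeasurable
      measurableSet_Ioc
  · refine Eventually.of_forall fun σ hσ y _ => ?_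
    rw [uIoc_of_le ht] at hσ
    exact hs1_le hσ.1 (hf.sup_univ _) y
  · exact bound1_intervalIntegrable 0 t (cH1 E) F0
  · refine Eventually.of_forall fun σ hσ y _ => ?_
    rw [uIoc_of_le ht] at hσ
    exact hs_hasFDerivAt hσ.1 (hf.cont_slice _) (hf.sup_univ _) y

theorem pot1_hasFDerivAt (hα : 0 < α) (hf : YB α univ univ f F0) (ht : 0 ≤ t) (x : E) :
    HasFDerivAt (pot1 f t) (pot2 f t x) x := by
  refine intervalIntegral.hasFDerivAt_integral_of_dominated_of_fderiv_le (𝕜 := ℝ) (μ := volume)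
    (F := fun x σ => hs1 σ (f (t - σ)) x) (F' := fun x σ => hs2 σ (f (t - σ)) x) (s := univ)
    (bound := fun σ : ℝ => cH2 E α * σ ^ (-1 + α / 2) * F0) univ_mem ?_ ?_ ?_ ?_ ?_ ?_
  · refine Eventually.of_forall fun y => ?_
    rw [uIoc_of_le ht]
    exact ((hs1_path_continuousOn hf t y).mono (fun σ hσ => hσ.1)).aestronglyMeasurable
      measurableSet_Ioc
  · exact hs1_intervalIntegrable hf ht x
  · rw [uIoc_of_le ht]
    exact ((hs2_path_continuousOn hf t x).mono (fun σ hσ => hσ.1)).aestronglyMeasurable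
      measurableSet_Ioc
  · refine Eventually.of_forall fun σ hσ y _ => ?_
    rw [uIoc_of_le ht] at hσ
    exact hs2_le hα.le hσ.1 (hf.cont_slice _) (hf.sup_univ _) (hf.hol_univ _) y
  · exact bound2_intervalIntegrable hα 0 t (cH2 E α) F0
  · refine Eventually.of_forall fun σ hσ y _ => ?_
    rw [uIoc_of_le ht] at hσ
    exact hs1_hasFDerivAt hσ.1 (hf.cont_slice _) (hf.sup_univ _) y

end A

end Claimed.Agent.R316.B8
end

/- ===== packed: Claimed.Agent.R316.B8.PotB ===== -/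
section
/-!
# B8-POT-B: heat potential, Hölder bound of the second derivatives

LEAF (proofs only).
`f : ℝ → E → ℝ` is defined for ALL times, `YB α univ univ f F0` (jointly continuous, `|f| ≤ F0`, `[f(t)]_α ≤ F0`).
Everything uses only the interface SG1–SG9 of `HeatSG.lean` and the earlier `Pot*.lean` files (which may be used sorried).

* **POT-B** (section `B`): Hölder bound of `pot2`.  `d = ‖x - y‖ > 0`.  Split `∫_0^t = ∫_0^{min t d²} + ∫_{min t d²}^t`.
  Near part: each term `≤ cH2 σ^{-1+α/2} F0` (SG5), total `≤ 2 cH2 (2/α) d^α F0`.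
  Far part: SG6: `≤ cH3 σ^{-3/2+α/2} F0 d`, and `∫_{d²}^∞ σ^{-3/2+α/2} dσ = (2/(1-α)) d^{α-1}`.
-/

set_option autoImplicit false
set_option maxSynthPendingDepth 3
set_option linter.unusedSectionVars false
set_option linter.unusedVariables false

open scoped Topology ContDiff
open Set Filter Metric Module MeasureTheory

namespace Claimed.Agent.R316.B8

variable {E : Type*} [NormedAddCommGroup E] [InnerProductSpace ℝ E] [FiniteDimensional ℝ E]
  [MeasurableSpace E] [BorelSpace E]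

variable {f : ℝ → E → ℝ} {F0 α t : ℝ}

section B

theorem integral_far_le {d : ℝ} (hα1 : α < 1) (hd : 0 < d) (htd : d ^ 2 < t) :
    ∫ σ in (d ^ 2)..t, σ ^ (-(3 / 2) + α / 2) ≤ 2 / (1 - α) * d ^ (α - 1) := by
  have hτ : 0 < d ^ 2 := by positivity
  have hnot : (0 : ℝ) ∉ uIcc (d ^ 2) t := by
    rw [uIcc_of_le htd.le]
    intro h
    exact absurd h.1 (not_le.mpr hτ)
  rw [integral_rpow (Or.inr ⟨by linarith, hnot⟩)]
  have h1 : (-(3 / 2) + α / 2 + 1 : ℝ) = -((1 - α) / 2) := by ring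
  rw [h1]
  have h2 : (d ^ 2) ^ (-((1 - α) / 2)) = d ^ (α - 1) := by
    rw [← Real.rpow_natCast, ← Real.rpow_mul hd.le]; congr 1; push_cast; ring
  rw [h2]
  have h3 : 0 ≤ t ^ (-((1 - α) / 2)) := Real.rpow_nonneg (hτ.le.trans htd.le) _
  have h4 : 0 < 1 - α := by linarith
  rw [div_neg, ← neg_div, neg_sub, div_div_eq_mul_div, div_mul_eq_mul_div]
  apply div_le_div_of_nonneg_right _ h4.le
  nlinarith

theorem pot2_hol (hα0 : 0 < α) (hα1 : α < 1) (hf : YB α univ univ f F0) (ht : 0 ≤ t) :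
    HolB α univ (pot2 f t) ((4 / α * cH2 E α + 2 / (1 - α) * cH3 E α) * F0) := by
  intro x _ y _
  have hF0 := hf.nonneg_univ
  have h2 := cH2_nonneg (E := E) α
  have h3 := cH3_nonneg (E := E) α
  have h1α : 0 < 1 - α := by linarith
  set d := ‖x - y‖ with hd
  have hd0 : 0 ≤ d := norm_nonneg _
  have hdα : 0 ≤ d ^ α := Real.rpow_nonneg hd0 _
  have hsq : (d ^ 2) ^ (α / 2) = d ^ α := by
    rw [← Real.rpow_natCast, ← Real.rpow_mul hd0]; congr 1; push_cast; ring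
  have hfarnn : 0 ≤ 2 / (1 - α) * cH3 E α * F0 * d ^ α := by positivity
  rcases le_or_gt t (d ^ 2) with htd | htd
  · have hx := pot2_le hα0 hf ht x
    have hy := pot2_le hα0 hf ht y
    have h4 : t ^ (α / 2) ≤ d ^ α := by
      rw [← hsq]; exact Real.rpow_le_rpow ht htd (by positivity)
    calc ‖pot2 f t x - pot2 f t y‖ ≤ ‖pot2 f t x‖ + ‖pot2 f t y‖ := norm_sub_le _ _
      _ ≤ 2 * (2 / α * cH2 E α * t ^ (α / 2) * F0) := by linarith
      _ ≤ 2 * (2 / α * cH2 E α * d ^ α * F0) := by gcongr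
      _ = 4 / α * cH2 E α * F0 * d ^ α := by ring
      _ ≤ (4 / α * cH2 E α + 2 / (1 - α) * cH3 E α) * F0 * d ^ α := by linarith
  · rcases eq_or_lt_of_le hd0 with hd00 | hdpos
    · have hxy : x = y := by
        rw [hd] at hd00
        exact sub_eq_zero.mp (norm_eq_zero.mp hd00.symm)
      rw [hxy, sub_self, norm_zero]
      positivity
    have hτ : 0 < d ^ 2 := by positivity
    have hix : ∀ z, IntervalIntegrable (fun σ => hs2 σ (f (t - σ)) z) volume 0 (d ^ 2) := fun z =>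
      (hs2_intervalIntegrable hα0 hf ht z).mono_set (by
        rw [uIcc_of_le hτ.le, uIcc_of_le ht]; exact Icc_subset_Icc_right htd.le)
    have hix' : ∀ z, IntervalIntegrable (fun σ => hs2 σ (f (t - σ)) z) volume (d ^ 2) t := fun z =>
      (hs2_intervalIntegrable hα0 hf ht z).mono_set (by
        rw [uIcc_of_le htd.le, uIcc_of_le ht]; exact Icc_subset_Icc_left hτ.le)
    have hsplit : ∀ z, pot2 f t z = (∫ σ in (0 : ℝ)..(d ^ 2), hs2 σ (f (t - σ)) z)
        + ∫ σ in (d ^ 2)..t, hs2 σ (f (t - σ)) z := fun z =>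
      (intervalIntegral.integral_add_adjacent_intervals (hix z) (hix' z)).symm
    have near : ∀ z, ‖∫ σ in (0 : ℝ)..(d ^ 2), hs2 σ (f (t - σ)) z‖
        ≤ 2 / α * cH2 E α * d ^ α * F0 := by
      intro z
      rw [← hsq, ← integral_bound2 hα0 hτ.le]
      exact intervalIntegral.norm_integral_le_of_norm_le hτ.le
        (Eventually.of_forall fun σ hσ =>
          hs2_le hα0.le hσ.1 (hf.cont_slice _) (hf.sup_univ _) (hf.hol_univ _) z)
        (bound2_intervalIntegrable hα0 0 (d ^ 2) (cH2 E α) F0)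
    have far : ‖(∫ σ in (d ^ 2)..t, hs2 σ (f (t - σ)) x) - ∫ σ in (d ^ 2)..t, hs2 σ (f (t - σ)) y‖
        ≤ 2 / (1 - α) * cH3 E α * F0 * d ^ α := by
      rw [← intervalIntegral.integral_sub (hix' x) (hix' y)]
      have hnot : (0 : ℝ) ∉ uIcc (d ^ 2) t := by
        rw [uIcc_of_le htd.le]
        intro h
        exact absurd h.1 (not_le.mpr hτ)
      have hb : IntervalIntegrable (fun σ : ℝ => cH3 E α * σ ^ (-(3 / 2) + α / 2) * F0 * d) volume
          (d ^ 2) t :=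
        (((intervalIntegral.intervalIntegrable_rpow (Or.inr hnot)).const_mul _).mul_const _).mul_const _
      refine (intervalIntegral.norm_integral_le_of_norm_le htd.le (Eventually.of_forall fun σ hσ =>
        hs2_lip hα0.le (hτ.trans hσ.1) (hf.cont_slice _) (hf.sup_univ _) (hf.hol_univ _) x y)
        hb).trans ?_
      rw [intervalIntegral.integral_mul_const, intervalIntegral.integral_mul_const,
        intervalIntegral.integral_const_mul]
      have h5 := integral_far_le hα1 hdpos htd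
      have h6 : d ^ (α - 1) * d = d ^ α := by
        rw [Real.rpow_sub_one hdpos.ne']; field_simp
      calc cH3 E α * (∫ σ in (d ^ 2)..t, σ ^ (-(3 / 2) + α / 2)) * F0 * d
          ≤ cH3 E α * (2 / (1 - α) * d ^ (α - 1)) * F0 * d := by gcongr
        _ = 2 / (1 - α) * cH3 E α * F0 * (d ^ (α - 1) * d) := by ring
        _ = _ := by rw [h6]
    rw [hsplit x, hsplit y]
    have hx := near x
    have hy := near y
    calc ‖(∫ σ in (0 : ℝ)..(d ^ 2), hs2 σ (f (t - σ)) x) + (∫ σ in (d ^ 2)..t, hs2 σ (f (t - σ)) x)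
          - ((∫ σ in (0 : ℝ)..(d ^ 2), hs2 σ (f (t - σ)) y) + ∫ σ in (d ^ 2)..t, hs2 σ (f (t - σ)) y)‖
        = ‖(∫ σ in (0 : ℝ)..(d ^ 2), hs2 σ (f (t - σ)) x) - (∫ σ in (0 : ℝ)..(d ^ 2), hs2 σ (f (t - σ)) y)
          + ((∫ σ in (d ^ 2)..t, hs2 σ (f (t - σ)) x) - ∫ σ in (d ^ 2)..t, hs2 σ (f (t - σ)) y)‖ := by
          congr 1; abel
      _ ≤ ‖(∫ σ in (0 : ℝ)..(d ^ 2), hs2 σ (f (t - σ)) x)‖ + ‖(∫ σ in (0 : ℝ)..(d ^ 2), hs2 σ (f (t - σ)) y)‖
          + ‖(∫ σ in (d ^ 2)..t, hs2 σ (f (t - σ)) x) - ∫ σ in (d ^ 2)..t, hs2 σ (f (t - σ)) y‖ :=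
          (norm_add_le _ _).trans (add_le_add_left (norm_sub_le _ _) _)
      _ ≤ 2 / α * cH2 E α * d ^ α * F0 + 2 / α * cH2 E α * d ^ α * F0
          + 2 / (1 - α) * cH3 E α * F0 * d ^ α := by linarith
      _ = (4 / α * cH2 E α + 2 / (1 - α) * cH3 E α) * F0 * d ^ α := by ring

end B

end Claimed.Agent.R316.B8
end

/- ===== packed: Claimed.Agent.R316.B8.PotC ===== -/
section
/-!
# B8-POT-C: heat potential, joint continuity

LEAF (proofs only).
`f : ℝ → E → ℝ` is defined for ALL times, `YB α univ univ f F0` (jointly continuous, `|f| ≤ F0`, `[f(t)]_α ≤ F0`).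
Everything uses only the interface SG1–SG9 of `HeatSG.lean` and the earlier `Pot*.lean` files (which may be used sorried).

* **POT-C** (section `C`): joint continuity on `Ici 0 ×ˢ univ`.
  `intervalIntegral.continuousAt_parametric_primitive_of_dominated` (parameter `(t,x)`, variable upper limit), or write
  `∫_0^t = ∫_{(0,T)} 1_{σ<t} …` and use `continuousWithinAt_of_dominated`; dominating functions as in POT-A (they do not depend on `(t,x)`);
  for a.e. `σ` (`σ ≠ t₀`) the integrand is continuous at `(t₀,x₀)` by SG9.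
-/

set_option autoImplicit false
set_option maxSynthPendingDepth 3
set_option linter.unusedSectionVars false
set_option linter.unusedVariables false

open scoped Topology ContDiff
open Set Filter Metric Module MeasureTheory

namespace Claimed.Agent.R316.B8

variable {E : Type*} [NormedAddCommGroup E] [InnerProductSpace ℝ E] [FiniteDimensional ℝ E]
  [MeasurableSpace E] [BorelSpace E]

variable {f : ℝ → E → ℝ} {F0 α t : ℝ}

section C

theorem continuousOn_param_primitive {G : Type*} [NormedAddCommGroup G] [NormedSpace ℝ G]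
    {g : ℝ → ℝ × E → G} {b : ℝ → ℝ}
    (hmeas : ∀ q, ContinuousOn (fun σ => g σ q) (Ioi 0))
    (hbound : ∀ σ, 0 < σ → ∀ q, ‖g σ q‖ ≤ b σ)
    (hbint : ∀ a c, IntervalIntegrable b volume a c)
    (hcont : ∀ σ, 0 < σ → Continuous (fun q => g σ q)) :
    ContinuousOn (fun q : ℝ × E => ∫ σ in (0 : ℝ)..q.1, g σ q) (Ici 0 ×ˢ univ) := by
  intro q₀ hq₀
  have ht₀ : 0 ≤ q₀.1 := hq₀.1
  set F : ℝ × E → ℝ → G := fun q => indicator (Ioi 0) (fun σ => g σ q) with hF
  have key := intervalIntegral.continuousAt_parametric_primitive_of_dominated (μ := volume)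
    (F := F) (fun σ => |b σ|) (-1) (q₀.1 + 1) (a₀ := 0) (b₀ := q₀.1) (x₀ := q₀) ?_ ?_ ?_ ?_
    ⟨by norm_num, by linarith⟩ ⟨by linarith, by linarith⟩ (by simp)
  · have hmap : ContinuousAt (fun q : ℝ × E => ((q, q.1) : (ℝ × E) × ℝ)) q₀ := by fun_prop
    have h2 : ContinuousAt (fun q : ℝ × E => ∫ σ in (0 : ℝ)..q.1, F q σ) q₀ :=
      ContinuousAt.comp (g := fun p : (ℝ × E) × ℝ => ∫ σ in (0 : ℝ)..p.2, F p.1 σ)
        (f := fun q : ℝ × E => ((q, q.1) : (ℝ × E) × ℝ)) (x := q₀) key hmap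
    refine h2.continuousWithinAt.congr (fun q hq => ?_) ?_
    · have hq1 : 0 ≤ q.1 := hq.1
      rw [intervalIntegral.integral_of_le hq1, intervalIntegral.integral_of_le hq1]
      refine setIntegral_congr_fun measurableSet_Ioc fun σ hσ => ?_
      simp only [hF]
      rw [indicator_of_mem (show σ ∈ Ioi (0 : ℝ) from hσ.1)]
    · rw [intervalIntegral.integral_of_le ht₀, intervalIntegral.integral_of_le ht₀]
      refine setIntegral_congr_fun measurableSet_Ioc fun σ hσ => ?_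
      simp only [hF]
      rw [indicator_of_mem (show σ ∈ Ioi (0 : ℝ) from hσ.1)]
  · intro q
    have h1 : AEStronglyMeasurable (F q) volume :=
      (aestronglyMeasurable_indicator_iff measurableSet_Ioi).mpr
        ((hmeas q).aestronglyMeasurable measurableSet_Ioi)
    exact h1.mono_measure Measure.restrict_le_self
  · refine Eventually.of_forall fun q => Eventually.of_forall fun σ => ?_
    simp only [hF]
    by_cases hσ : 0 < σ
    · rw [indicator_of_mem (show σ ∈ Ioi (0 : ℝ) from hσ)]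
      exact (hbound σ hσ q).trans (le_abs_self _)
    · rw [indicator_of_notMem (show σ ∉ Ioi (0 : ℝ) from hσ), norm_zero]
      exact abs_nonneg _
  · exact (hbint _ _).abs
  · refine Eventually.of_forall fun σ => ?_
    simp only [hF]
    by_cases hσ : 0 < σ
    · have : (fun q : ℝ × E => indicator (Ioi 0) (fun σ => g σ q) σ) = fun q => g σ q := by
        funext q
        rw [indicator_of_mem (show σ ∈ Ioi (0 : ℝ) from hσ)]
      rw [this]
      exact (hcont σ hσ).continuousAt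
    · have : (fun q : ℝ × E => indicator (Ioi 0) (fun σ => g σ q) σ) = fun q => 0 := by
        funext q
        rw [indicator_of_notMem (show σ ∉ Ioi (0 : ℝ) from hσ)]
      rw [this]
      exact continuousAt_const

theorem pot_param_cont (σ : ℝ) : Continuous (fun q : ℝ × E => ((σ, q.1 - σ, q.2) : ℝ × ℝ × E)) := by
  fun_prop

theorem pot_continuousOn (hf : YB α univ univ f F0) :
    ContinuousOn (fun q : ℝ × E => pot f q.1 q.2) (Ici 0 ×ˢ univ) :=
  continuousOn_param_primitive (g := fun σ q => hs σ (f (q.1 - σ)) q.2) (b := fun _ => F0)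
    (fun q => (hs_path_continuous hf q.1 q.2).continuousOn)
    (fun σ _ q => hs_le σ (hf.sup_univ _) q.2) (fun a c => intervalIntegrable_const)
    (fun σ _ => (hs_continuous hf.cont_univ hf.sup_univ).comp (pot_param_cont σ))

theorem pot1_continuousOn (hf : YB α univ univ f F0) :
    ContinuousOn (fun q : ℝ × E => pot1 f q.1 q.2) (Ici 0 ×ˢ univ) :=
  continuousOn_param_primitive (g := fun σ q => hs1 σ (f (q.1 - σ)) q.2)
    (b := fun σ : ℝ => cH1 E * σ ^ (-(1 / 2) : ℝ) * F0)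
    (fun q => hs1_path_continuousOn hf q.1 q.2)
    (fun σ hσ q => hs1_le hσ (hf.sup_univ _) q.2) (fun a c => bound1_intervalIntegrable a c _ _)
    (fun σ hσ => (hs1_continuousOn hf.cont_univ hf.sup_univ).comp_continuous (pot_param_cont σ)
      (fun q => ⟨hσ, mem_univ _⟩))

theorem pot2_continuousOn (hα : 0 < α) (hf : YB α univ univ f F0) :
    ContinuousOn (fun q : ℝ × E => pot2 f q.1 q.2) (Ici 0 ×ˢ univ) :=
  continuousOn_param_primitive (g := fun σ q => hs2 σ (f (q.1 - σ)) q.2)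
    (b := fun σ : ℝ => cH2 E α * σ ^ (-1 + α / 2) * F0)
    (fun q => hs2_path_continuousOn hf q.1 q.2)
    (fun σ hσ q => hs2_le hα.le hσ (hf.cont_slice _) (hf.sup_univ _) (hf.hol_univ _) q.2)
    (fun a c => bound2_intervalIntegrable hα a c _ _)
    (fun σ hσ => (hs2_continuousOn hf.cont_univ hf.sup_univ).comp_continuous (pot_param_cont σ)
      (fun q => ⟨hσ, mem_univ _⟩))

end C

end Claimed.Agent.R316.B8
end

/- ===== packed: Claimed.Agent.R316.B8.PotD ===== -/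
section
/-!
# B8-POT-D: heat potential, time derivative

LEAF (proofs only).
`f : ℝ → E → ℝ` is defined for ALL times, `YB α univ univ f F0` (jointly continuous, `|f| ≤ F0`, `[f(t)]_α ≤ F0`).
Everything uses only the interface SG1–SG9 of `HeatSG.lean` and the earlier `Pot*.lean` files (which may be used sorried).

* **POT-D** (section `D`): time derivative.  Prove the INTEGRATED identity
  `pot f t x = ∫_0^t (f r x + trB (pot2 f r x)) dr`, then FTC (`intervalIntegral.integral_hasDerivWithinAt_right` or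
  `…integral_hasDerivAt_right` + one sided version at `0`) using continuity of `r ↦ f r x + trB (pot2 f r x)` on `Ici 0` (POT-C).
  Proof of the identity: `pot f t x = ∫_0^t hs (t-s) (f s) x ds` (substitution).  For fixed `s < t`:
  `hs (t-s) (f s) x - f s x = ∫_s^t trB (hs2 (r-s) (f s) x) dr` (SG7 on `(0, t-s]`, SG8/`hs_zero`+SG9 for continuity at `0`, SG5 for integrability:
  `intervalIntegral.integral_eq_sub_of_hasDerivAt_of_le`-type lemma with `ContinuousOn` on the closed interval and derivative in the open one).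
  Integrate in `s` and exchange the order of integration on the triangle `0 < s < r < t`
  (`MeasureTheory.integral_integral_swap`/`intervalIntegral_integral_swap…` with indicator functions; integrability from `|…| ≤ m cH2 (r-s)^{-1+α/2} F0`
  and measurability from SG9):  `∫_0^t ∫_s^t G(r-s,s) dr ds = ∫_0^t ∫_0^r G(r-s,s) ds dr = ∫_0^t trB (pot2 f r x) dr`.
-/

set_option autoImplicit false
set_option maxSynthPendingDepth 3
set_option linter.unusedSectionVars false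
set_option linter.unusedVariables false

open scoped Topology ContDiff
open Set Filter Metric Module MeasureTheory

namespace Claimed.Agent.R316.B8

variable {E : Type*} [NormedAddCommGroup E] [InnerProductSpace ℝ E] [FiniteDimensional ℝ E]
  [MeasurableSpace E] [BorelSpace E]

variable {f : ℝ → E → ℝ} {F0 α t : ℝ}

section D

/-- `Δ` of the heat semigroup applied to the slice `f s`. -/
noncomputable def Gd (f : ℝ → E → ℝ) (x : E) (σ s : ℝ) : ℝ := trB (hs2 σ (f s) x)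

/-- the same on the triangle `s < r`. -/
noncomputable def Hd (f : ℝ → E → ℝ) (x : E) (s r : ℝ) : ℝ := if s < r then Gd f x (r - s) s else 0

theorem Gd_le (hα : 0 < α) (hf : YB α univ univ f F0) (x : E) {σ : ℝ} (hσ : 0 < σ) (s : ℝ) :
    ‖Gd f x σ s‖ ≤ (‖(trB : Bil E →L[ℝ] ℝ)‖ * cH2 E α) * σ ^ (-1 + α / 2) * F0 := by
  have h := hs2_le hα.le hσ (hf.cont_slice s) (hf.sup_univ s) (hf.hol_univ s) x
  calc ‖Gd f x σ s‖ ≤ ‖(trB : Bil E →L[ℝ] ℝ)‖ * ‖hs2 σ (f s) x‖ := trB.le_opNorm _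
    _ ≤ ‖(trB : Bil E →L[ℝ] ℝ)‖ * (cH2 E α * σ ^ (-1 + α / 2) * F0) := by gcongr
    _ = _ := by ring

theorem Gd_continuousOn (hf : YB α univ univ f F0) (x : E) :
    ContinuousOn (fun p : ℝ × ℝ => Gd f x p.1 p.2) (Ioi 0 ×ˢ univ) := by
  have h1 : Continuous (fun p : ℝ × ℝ => ((p.1, p.2, x) : ℝ × ℝ × E)) := by fun_prop
  exact trB.continuous.comp_continuousOn
    ((hs2_continuousOn hf.cont_univ hf.sup_univ).comp h1.continuousOn (fun p hp => ⟨hp.1, mem_univ _⟩))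

theorem Gd_ftc (hα : 0 < α) (hf : YB α univ univ f F0) (x : E) (s : ℝ) {τ : ℝ} (hτ : 0 ≤ τ) :
    ∫ σ in (0 : ℝ)..τ, Gd f x σ s = hs τ (f s) x - f s x := by
  have hc : Continuous (fun σ => hs σ (f s) x) := by
    have h1 : Continuous (fun q : ℝ × E => (fun _ : ℝ => f s) q.1 q.2) :=
      (hf.cont_slice s).comp continuous_snd
    have h2 := hs_continuous (f := fun _ : ℝ => f s) h1 (fun _ => hf.sup_univ s)
    have h3 : Continuous (fun σ : ℝ => ((σ, (0 : ℝ), x) : ℝ × ℝ × E)) := by fun_prop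
    exact h2.comp h3
  have hG : ContinuousOn (fun σ => Gd f x σ s) (Ioi 0) := by
    have h3 : Continuous (fun σ : ℝ => ((σ, s) : ℝ × ℝ)) := by fun_prop
    exact (Gd_continuousOn hf x).comp h3.continuousOn (fun σ hσ => ⟨hσ, mem_univ _⟩)
  have h := intervalIntegral.integral_eq_sub_of_hasDerivAt_of_le hτ hc.continuousOn
    (fun σ hσ => hs_hasDerivAt hσ.1 (hf.cont_slice s) (hf.sup_univ s) x)
    (intervalIntegrable_of_bound hτ hG (bound2_intervalIntegrable hα 0 τ _ F0)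
      (fun σ hσ => Gd_le hα hf x hσ.1 s))
  rw [hs_zero (hf.cont_slice s)] at h
  exact h

theorem trB_pot2 (hα : 0 < α) (hf : YB α univ univ f F0) (x : E) {r : ℝ} (hr : 0 ≤ r) :
    trB (pot2 f r x) = ∫ σ in (0 : ℝ)..r, Gd f x σ (r - σ) :=
  (trB.intervalIntegral_comp_comm (hs2_intervalIntegrable hα hf hr x)).symm

theorem Hd_inner1 (hα : 0 < α) (hf : YB α univ univ f F0) (x : E) {s : ℝ} (hs0 : 0 ≤ s)
    (hst : s ≤ t) : ∫ r in (0 : ℝ)..t, Hd f x s r = hs (t - s) (f s) x - f s x := by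
  have h1 : (fun r => Hd f x s r) = indicator (Ioi s) (fun r => Gd f x (r - s) s) := by
    funext r
    by_cases h : s < r
    · rw [indicator_of_mem (show r ∈ Ioi s from h)]; simp [Hd, h]
    · rw [indicator_of_notMem (show r ∉ Ioi s from h)]; simp [Hd, h]
  rw [intervalIntegral.integral_of_le (hs0.trans hst), h1, setIntegral_indicator measurableSet_Ioi,
    Ioc_inter_Ioi, sup_eq_right.mpr hs0, ← intervalIntegral.integral_of_le hst,
    intervalIntegral.integral_comp_sub_right (fun ρ => Gd f x ρ s) s, sub_self,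
    Gd_ftc hα hf x s (sub_nonneg.mpr hst)]

theorem Hd_inner2 (hα : 0 < α) (hf : YB α univ univ f F0) (x : E) {r : ℝ} (hr0 : 0 ≤ r)
    (hrt : r ≤ t) : ∫ s in (0 : ℝ)..t, Hd f x s r = trB (pot2 f r x) := by
  have h1 : (fun s => Hd f x s r) = indicator (Iio r) (fun s => Gd f x (r - s) s) := by
    funext s
    by_cases h : s < r
    · rw [indicator_of_mem (show s ∈ Iio r from h)]; simp [Hd, h]
    · rw [indicator_of_notMem (show s ∉ Iio r from h)]; simp [Hd, h]
  have h2 : Ioc 0 t ∩ Iio r = Ioo 0 r := by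
    ext s
    simp only [mem_inter_iff, mem_Ioc, mem_Iio, mem_Ioo]
    constructor
    · rintro ⟨⟨a, _⟩, b⟩; exact ⟨a, b⟩
    · rintro ⟨a, b⟩; exact ⟨⟨a, (b.le.trans hrt)⟩, b⟩
  rw [intervalIntegral.integral_of_le (hr0.trans hrt), h1, setIntegral_indicator measurableSet_Iio,
    h2, ← integral_Ioc_eq_integral_Ioo, ← intervalIntegral.integral_of_le hr0, trB_pot2 hα hf x hr0]
  have h3 := intervalIntegral.integral_comp_sub_left (fun σ => Gd f x σ (r - σ)) r (a := 0) (b := r)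
  simp only [sub_sub_cancel, sub_self, sub_zero] at h3
  exact h3

theorem Hd_aesm (hf : YB α univ univ f F0) (x : E) (μ : Measure (ℝ × ℝ)) :
    AEStronglyMeasurable (Function.uncurry (Hd f x)) μ := by
  have h1 : Function.uncurry (Hd f x)
      = indicator {p : ℝ × ℝ | p.1 < p.2} (fun p => Gd f x (p.2 - p.1) p.1) := by
    funext p
    by_cases h : p.1 < p.2
    · rw [indicator_of_mem (show p ∈ {p : ℝ × ℝ | p.1 < p.2} from h)]; simp [Function.uncurry, Hd, h]
    · rw [indicator_of_notMem (show p ∉ {p : ℝ × ℝ | p.1 < p.2} from h)]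
      simp [Function.uncurry, Hd, h]
  have hopen : IsOpen {p : ℝ × ℝ | p.1 < p.2} := isOpen_lt continuous_fst continuous_snd
  rw [h1, aestronglyMeasurable_indicator_iff hopen.measurableSet]
  have h2 : Continuous (fun p : ℝ × ℝ => ((p.2 - p.1, p.1) : ℝ × ℝ)) := by fun_prop
  have h3 : ContinuousOn (fun p : ℝ × ℝ => Gd f x (p.2 - p.1) p.1) {p : ℝ × ℝ | p.1 < p.2} :=
    (Gd_continuousOn hf x).comp h2.continuousOn (fun p hp => ⟨show (0 : ℝ) < p.2 - p.1 from sub_pos.mpr hp, mem_univ _⟩)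
  exact h3.aestronglyMeasurable hopen.measurableSet

theorem Hd_integrableOn (hα : 0 < α) (hf : YB α univ univ f F0) (ht : 0 ≤ t) (x : E) :
    IntegrableOn (Function.uncurry (Hd f x)) (uIoc 0 t ×ˢ uIoc 0 t) := by
  rw [uIoc_of_le ht]
  have hS : MeasurableSet (Ioc 0 t ×ˢ Ioc 0 t : Set (ℝ × ℝ)) := measurableSet_Ioc.prod measurableSet_Ioc
  rw [← integrable_indicator_iff hS, Measure.volume_eq_prod]
  set g' : ℝ × ℝ → ℝ := indicator (Ioc 0 t ×ˢ Ioc 0 t) (Function.uncurry (Hd f x)) with hg'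
  have hmeas : AEStronglyMeasurable g' ((volume : Measure ℝ).prod (volume : Measure ℝ)) :=
    (Hd_aesm hf x _).indicator hS
  have hΨ := measurePreserving_prod_add (volume : Measure ℝ) (volume : Measure ℝ)
  rw [← hΨ.integrable_comp hmeas]
  set c : ℝ := ‖(trB : Bil E →L[ℝ] ℝ)‖ * cH2 E α with hc
  have ha : Integrable (indicator (Ioc 0 t) (fun _ : ℝ => (1 : ℝ))) := by
    rw [integrable_indicator_iff measurableSet_Ioc]
    exact integrableOn_const (by simp)
  have hb : Integrable (indicator (Ioc 0 t) (fun ρ : ℝ => c * ρ ^ (-1 + α / 2) * F0)) := by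
    rw [integrable_indicator_iff measurableSet_Ioc]
    exact (intervalIntegrable_iff_integrableOn_Ioc_of_le ht).mp (bound2_intervalIntegrable hα 0 t c F0)
  refine (ha.mul_prod hb).mono' (hmeas.comp_measurePreserving hΨ) (Eventually.of_forall fun z => ?_)
  simp only [Function.comp, hg']
  by_cases hz : (z.1, z.1 + z.2) ∈ (Ioc 0 t ×ˢ Ioc 0 t : Set (ℝ × ℝ))
  · rw [indicator_of_mem hz]
    obtain ⟨h1, h2⟩ := hz
    simp only at h1 h2
    by_cases h3 : 0 < z.2
    · have h4 : z.2 ∈ Ioc 0 t := ⟨h3, by linarith [h1.1, h2.2]⟩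
      rw [indicator_of_mem h1, indicator_of_mem h4, one_mul]
      have h5 : z.1 < z.1 + z.2 := by linarith
      simp only [Function.uncurry, Hd, h5, if_true, add_sub_cancel_left]
      exact Gd_le hα hf x h3 _
    · have h5 : ¬ z.1 < z.1 + z.2 := by linarith
      simp only [Function.uncurry, Hd, h5, if_false, norm_zero]
      rw [indicator_of_mem h1, one_mul]
      rw [indicator_of_notMem (fun h => h3 h.1)]
  · rw [indicator_of_notMem hz, norm_zero]
    have hF0 := hf.nonneg_univ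
    have hc0 : 0 ≤ c := mul_nonneg (norm_nonneg _) (cH2_nonneg α)
    refine mul_nonneg (indicator_nonneg (fun _ _ => zero_le_one) _) (indicator_nonneg (fun ρ hρ => ?_) _)
    have := Real.rpow_nonneg hρ.1.le (-1 + α / 2)
    positivity

theorem trB_pot2_continuousOn (hα : 0 < α) (hf : YB α univ univ f F0) (x : E) :
    ContinuousOn (fun r => trB (pot2 f r x)) (Ici 0) := by
  have h3 : Continuous (fun r : ℝ => ((r, x) : ℝ × E)) := by fun_prop
  have h4 : ContinuousOn (fun r : ℝ => pot2 f r x) (Ici 0) :=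
    ContinuousOn.comp (g := fun q : ℝ × E => pot2 f q.1 q.2) (f := fun r : ℝ => ((r, x) : ℝ × E))
      (pot2_continuousOn hα hf) h3.continuousOn (fun r hr => ⟨hr, mem_univ _⟩)
  exact (trB : Bil E →L[ℝ] ℝ).continuous.comp_continuousOn h4

/-- integrated form of `∂_t pot = f + Δ pot`. -/
theorem pot_eq_integral (hα : 0 < α) (hf : YB α univ univ f F0) (ht : 0 ≤ t) (x : E) :
    pot f t x = ∫ r in (0 : ℝ)..t, (f r x + trB (pot2 f r x)) := by
  have hfc : Continuous (fun s => f s x) := hf.cont_univ.comp (continuous_id.prodMk continuous_const)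
  have h1 : pot f t x = ∫ s in (0 : ℝ)..t, hs (t - s) (f s) x := by
    have h := intervalIntegral.integral_comp_sub_left (fun σ => hs σ (f (t - σ)) x) t (a := 0) (b := t)
    simp only [sub_sub_cancel, sub_self, sub_zero] at h
    rw [h, pot]
  have hhc : Continuous (fun s => hs (t - s) (f s) x) := by
    have h3 : Continuous (fun s : ℝ => ((t - s, s, x) : ℝ × ℝ × E)) := by fun_prop
    exact (hs_continuous hf.cont_univ hf.sup_univ).comp h3
  have h2 : ∫ s in (0 : ℝ)..t, hs (t - s) (f s) x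
      = (∫ s in (0 : ℝ)..t, f s x) + ∫ s in (0 : ℝ)..t, ∫ r in (0 : ℝ)..t, Hd f x s r := by
    have h3 : ∫ s in (0 : ℝ)..t, ∫ r in (0 : ℝ)..t, Hd f x s r
        = ∫ s in (0 : ℝ)..t, (hs (t - s) (f s) x - f s x) := by
      refine intervalIntegral.integral_congr fun s hs' => ?_
      rw [uIcc_of_le ht] at hs'
      exact Hd_inner1 hα hf x hs'.1 hs'.2
    rw [h3, intervalIntegral.integral_sub (hhc.intervalIntegrable _ _) (hfc.intervalIntegrable _ _)]
    ring
  have h4 : ∫ s in (0 : ℝ)..t, ∫ r in (0 : ℝ)..t, Hd f x s r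
      = ∫ r in (0 : ℝ)..t, trB (pot2 f r x) := by
    rw [intervalIntegral_intervalIntegral_swap (Hd_integrableOn hα hf ht x)]
    refine intervalIntegral.integral_congr fun r hr => ?_
    rw [uIcc_of_le ht] at hr
    exact Hd_inner2 hα hf x hr.1 hr.2
  have hpc : ContinuousOn (fun r => trB (pot2 f r x)) (uIcc 0 t) := by
    rw [uIcc_of_le ht]
    exact (trB_pot2_continuousOn hα hf x).mono (fun r hr => hr.1)
  rw [h1, h2, h4, intervalIntegral.integral_add (hfc.intervalIntegrable _ _) hpc.intervalIntegrable]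

theorem pot_hasDerivWithinAt (hα : 0 < α) (hf : YB α univ univ f F0) (ht : 0 ≤ t) (x : E) :
    HasDerivWithinAt (fun s => pot f s x) (f t x + trB (pot2 f t x)) (Ici 0) t := by
  set φ : ℝ → ℝ := fun r => f r x + trB (pot2 f r x) with hφ
  have hfc : Continuous (fun s => f s x) := hf.cont_univ.comp (continuous_id.prodMk continuous_const)
  have hφc : ContinuousOn φ (Ici 0) := by
    exact hfc.continuousOn.add (trB_pot2_continuousOn hα hf x)
  have hφ' : Continuous (fun r => φ (max r 0)) :=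
    hφc.comp_continuous (continuous_id.max continuous_const) (fun r => show (0 : ℝ) ≤ max r 0 from le_max_right _ _)
  have h1 := (hφ'.integral_hasStrictDerivAt 0 t).hasDerivAt.hasDerivWithinAt (s := Ici 0)
  rw [max_eq_left ht] at h1
  have hcongr : ∀ s ∈ Ici (0 : ℝ), pot f s x = ∫ r in (0 : ℝ)..s, φ (max r 0) := by
    intro s hs'
    rw [pot_eq_integral hα hf hs' x]
    refine intervalIntegral.integral_congr fun r hr => ?_
    rw [uIcc_of_le hs'] at hr
    simp only [hφ]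
    rw [max_eq_left hr.1]
  exact h1.congr hcongr (hcongr t ht)

end D

end Claimed.Agent.R316.B8
end

/- ===== packed: Claimed.Agent.R316.B8.HeatSolve ===== -/
section
/-!
# B8-HEATSOLVE: solvability of `u_t - Δu = f`, `u(0) = 0` in `X`, with the Schauder bound

LEAF (proofs only; assembly of `PotA`–`PotD`, all usable sorried).

Recipe.  No measurable structure in the statement: start with `letI : MeasurableSpace E := borel E; haveI : BorelSpace E := ⟨rfl⟩`.
Clamp: `f̃ t = f (max 0 (min t T))`, `YB.clamp` gives `YB α univ univ f̃ F0`, and `f̃ = f` on `Icc 0 T`.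
`u = pot f̃`, `ut t x = f̃ t x + trB (pot2 f̃ t x)`.
* `D1 u t x = pot1 f̃ t x`, `D2 u t x = pot2 f̃ t x` for `t ≥ 0` (`HasFDerivAt.fderiv`, `funext`).
* `ContDiff ℝ 2 (u t)`: `contDiff_succ_iff_fderiv`/`contDiff_one_iff_fderiv` twice with continuity of `pot2 f̃ t` (slice of `pot2_continuousOn`).
* `C21`: `pot_hasDerivWithinAt.mono (Icc_subset_Ici_self)`, `pot*_continuousOn.mono`.
* `XB`: `pot_le`, `pot1_le`, `pot2_le`, `pot2_hol`; `ut`: `|ut| ≤ F0 + m ‖pot2‖`, `[ut]_α ≤ F0 + m [pot2]_α` (`norm_trB_le`, `HolB.clm_comp`).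
  `t ≤ Tm`, so `C = 1 + Tm + 2 cH1 Tm^{1/2} + (1 + m)(2/α cH2 Tm^{α/2} + 4/α cH2 + 2/(1-α) cH3)` works.
* equation: `Lop_constOp`.
`heat_apriori`: let `(v, vt)` be the solution given by `heat_solve` for `f = Lop heatOp u ut`; `strip_unique` (+`strip_unique_dt`) with
`heatOp_adm.bdd` gives `u = v`, `ut = vt` on the strip; transfer the bound with `XB.congr`.
-/

set_option autoImplicit false
set_option maxSynthPendingDepth 3
set_option linter.unusedSectionVars false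

open scoped Topology ContDiff
open Set Filter Metric Module

namespace Claimed.Agent.R316.B8

variable {E : Type*} [NormedAddCommGroup E] [InnerProductSpace ℝ E] [FiniteDimensional ℝ E]

/-- a function with continuous second derivative is `C²`. -/
theorem contDiff_two_of_hasFDerivAt {g : E → ℝ} {g1 : E → E →L[ℝ] ℝ} {g2 : E → Bil E}
    (h1 : ∀ x, HasFDerivAt g (g1 x) x) (h2 : ∀ x, HasFDerivAt g1 (g2 x) x) (hc : Continuous g2) :
    ContDiff ℝ 2 g := by
  have e : (2 : WithTop ℕ∞) = ((1 : ℕ) : WithTop ℕ∞) + 1 := by norm_num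
  rw [e, contDiff_succ_iff_hasFDerivAt]
  refine ⟨g1, ?_, h1⟩
  have e' : (((1 : ℕ) : WithTop ℕ∞)) = ((0 : ℕ) : WithTop ℕ∞) + 1 := by norm_num
  rw [e', contDiff_succ_iff_hasFDerivAt]
  exact ⟨g2, by simpa using (contDiff_zero (𝕜 := ℝ)).mpr hc, h2⟩

/-- `heat_solve` with a Borel structure on `E`. -/
theorem heat_solve_aux [MeasurableSpace E] [BorelSpace E] {α Tm : ℝ} (hα0 : 0 < α) (hα1 : α < 1)
    (hTm : 0 < Tm) :
    ∃ C : ℝ, 0 ≤ C ∧ ∀ (T : ℝ) (f : ℝ → E → ℝ) (F0 : ℝ), 0 < T → T ≤ Tm →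
      YB α (Icc 0 T) univ f F0 →
      ∃ u ut : ℝ → E → ℝ, C21 (Icc 0 T) univ u ut ∧ XB α (Icc 0 T) univ u ut (C * F0) ∧
        (∀ x, u 0 x = 0) ∧ ∀ t ∈ Icc 0 T, ∀ x, Lop heatOp u ut t x = f t x := by
  set m : ℝ := (finrank ℝ E : ℝ) with hm
  have hm0 : 0 ≤ m := by positivity
  have h1α : 0 < 1 - α := by linarith
  have hc1 := cH1_nonneg (E := E)
  have hc2 := cH2_nonneg (E := E) α
  have hc3 := cH3_nonneg (E := E) α
  set c1 : ℝ := 2 * cH1 E * Tm ^ (1 / 2 : ℝ) with hc1def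
  set c2 : ℝ := 2 / α * cH2 E α * Tm ^ (α / 2) with hc2def
  set ch : ℝ := 4 / α * cH2 E α + 2 / (1 - α) * cH3 E α with hchdef
  have hc10 : 0 ≤ c1 := by positivity
  have hc20 : 0 ≤ c2 := by positivity
  have hch0 : 0 ≤ ch := by positivity
  refine ⟨1 + Tm + c1 + (1 + m) * (c2 + ch), by positivity, ?_⟩
  intro T f F0 hT hTT hf
  have h0T : (0 : ℝ) ∈ Icc 0 T := ⟨le_rfl, hT.le⟩
  have hF0 : 0 ≤ F0 := (norm_nonneg _).trans (hf.sup 0 h0T (0 : E) (mem_univ _))
  set f' : ℝ → E → ℝ := fun t => f (max 0 (min t T)) with hf'def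
  have hf' : YB α univ univ f' F0 := hf.clamp hT.le
  have hfeq : ∀ t ∈ Icc 0 T, f' t = f t := by
    intro t ht
    simp only [hf'def]
    rw [min_eq_left ht.2, max_eq_right ht.1]
  have hD1f : ∀ t, 0 ≤ t → fderiv ℝ (pot f' t) = pot1 f' t := fun t ht =>
    funext fun x => (pot_hasFDerivAt hf' ht x).fderiv
  have hD1 : ∀ t, 0 ≤ t → ∀ x, D1 (pot f') t x = pot1 f' t x := fun t ht x => by
    simp only [D1]; rw [hD1f t ht]
  have hD2 : ∀ t, 0 ≤ t → ∀ x, D2 (pot f') t x = pot2 f' t x := fun t ht x => by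
    simp only [D2]; rw [hD1f t ht]; exact (pot1_hasFDerivAt hα0 hf' ht x).fderiv
  have hsubs : Icc (0 : ℝ) T ×ˢ (univ : Set E) ⊆ Ici 0 ×ˢ univ :=
    prod_mono Icc_subset_Ici_self subset_rfl
  have hcont2 := (pot2_continuousOn hα0 hf').mono hsubs
  have hfc : Continuous (fun q : ℝ × E => f' q.1 q.2) := by
    have := hf'.cont
    rwa [univ_prod_univ, continuousOn_univ] at this
  have hrp1 : ∀ t ∈ Icc 0 T, t ^ (1 / 2 : ℝ) ≤ Tm ^ (1 / 2 : ℝ) := fun t ht =>
    Real.rpow_le_rpow ht.1 (ht.2.trans hTT) (by norm_num)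
  have hrp2 : ∀ t ∈ Icc 0 T, t ^ (α / 2) ≤ Tm ^ (α / 2) := fun t ht =>
    Real.rpow_le_rpow ht.1 (ht.2.trans hTT) (by positivity)
  have hp2 : ∀ t ∈ Icc 0 T, ∀ x, ‖pot2 f' t x‖ ≤ c2 * F0 := by
    intro t ht x
    refine (pot2_le hα0 hf' ht.1 x).trans ?_
    have : 2 / α * cH2 E α * t ^ (α / 2) ≤ c2 :=
      mul_le_mul_of_nonneg_left (hrp2 t ht) (by positivity)
    exact mul_le_mul_of_nonneg_right this hF0
  have hmF : 0 ≤ m * (c2 * F0) := by positivity
  have hmH : 0 ≤ m * (ch * F0) := by positivity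
  have hTF : 0 ≤ Tm * F0 := by positivity
  have hc1F : 0 ≤ c1 * F0 := by positivity
  have hc2F : 0 ≤ c2 * F0 := by positivity
  have hchF : 0 ≤ ch * F0 := by positivity
  refine ⟨pot f', fun t x => f' t x + trB (pot2 f' t x), ?_, ?_, pot_zero f', ?_⟩
  · refine ⟨?_, ?_, ?_, ?_, ?_, ?_⟩
    · intro t ht
      refine (contDiff_two_of_hasFDerivAt (fun x => pot_hasFDerivAt hf' ht.1 x)
        (fun x => pot1_hasFDerivAt hα0 hf' ht.1 x) ?_).contDiffOn
      have h1 : ContinuousOn (fun x : E => pot2 f' t x) univ :=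
        (pot2_continuousOn hα0 hf').comp (f := fun x : E => ((t, x) : ℝ × E))
          (by fun_prop) (fun x _ => ⟨ht.1, mem_univ _⟩)
      exact continuousOn_univ.mp h1
    · intro t ht x _
      exact (pot_hasDerivWithinAt hα0 hf' ht.1 x).mono Icc_subset_Ici_self
    · exact (pot_continuousOn hf').mono hsubs
    · refine ((pot1_continuousOn hf').mono hsubs).congr ?_
      intro q hq
      exact hD1 q.1 hq.1.1 q.2
    · refine hcont2.congr ?_
      intro q hq
      exact hD2 q.1 hq.1.1 q.2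
    · exact hfc.continuousOn.add (trB.continuous.comp_continuousOn hcont2)
  · refine ⟨?_, ?_, ?_, ?_, ?_, ?_⟩
    · intro t ht x _
      rw [Real.norm_eq_abs]
      refine (pot_le hf' ht.1 x).trans ?_
      have : t * F0 ≤ Tm * F0 := mul_le_mul_of_nonneg_right (ht.2.trans hTT) hF0
      nlinarith
    · intro t ht x _
      rw [hD1 t ht.1 x]
      refine (pot1_le hf' ht.1 x).trans ?_
      have h1 : 2 * cH1 E * t ^ (1 / 2 : ℝ) ≤ c1 :=
        mul_le_mul_of_nonneg_left (hrp1 t ht) (by positivity)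
      have := mul_le_mul_of_nonneg_right h1 hF0
      nlinarith
    · intro t ht x _
      rw [hD2 t ht.1 x]
      refine (hp2 t ht x).trans ?_
      nlinarith
    · intro t ht x _
      have h1 : ‖f' t x‖ ≤ F0 := hf'.sup t (mem_univ _) x (mem_univ _)
      have h2 : ‖trB (pot2 f' t x)‖ ≤ m * (c2 * F0) :=
        (trB.le_opNorm _).trans (mul_le_mul norm_trB_le (hp2 t ht x) (norm_nonneg _) hm0)
      refine (norm_add_le _ _).trans ?_
      nlinarith
    · intro t ht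
      have e : D2 (pot f') t = pot2 f' t := funext (hD2 t ht.1)
      rw [e]
      refine (pot2_hol hα0 hα1 hf' ht.1).mono ?_
      nlinarith
    · intro t ht
      have h1 := (hf'.hol t (mem_univ _)).add ((pot2_hol hα0 hα1 hf' ht.1).clm_comp trB)
      refine h1.mono ?_
      have : ‖(trB : Bil E →L[ℝ] ℝ)‖ * (ch * F0) ≤ m * (ch * F0) :=
        mul_le_mul_of_nonneg_right norm_trB_le hchF
      nlinarith
  · intro t ht x
    rw [heatOp, Lop_constOp, hD2 t ht.1 x, hfeq t ht]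
    ring

/-- solvability of the heat equation in `X` with zero initial data. -/
theorem heat_solve {α Tm : ℝ} (hα0 : 0 < α) (hα1 : α < 1) (hTm : 0 < Tm) :
    ∃ C : ℝ, 0 ≤ C ∧ ∀ (T : ℝ) (f : ℝ → E → ℝ) (F0 : ℝ), 0 < T → T ≤ Tm →
      YB α (Icc 0 T) univ f F0 →
      ∃ u ut : ℝ → E → ℝ, C21 (Icc 0 T) univ u ut ∧ XB α (Icc 0 T) univ u ut (C * F0) ∧
        (∀ x, u 0 x = 0) ∧ ∀ t ∈ Icc 0 T, ∀ x, Lop heatOp u ut t x = f t x := by
  let _ : MeasurableSpace E := borel E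
  have : BorelSpace E := ⟨rfl⟩
  exact heat_solve_aux hα0 hα1 hTm

/-- a priori estimate for the heat equation (zero initial data). -/
theorem heat_apriori {α Tm : ℝ} (hα0 : 0 < α) (hα1 : α < 1) (hTm : 0 < Tm) :
    ∃ C : ℝ, 0 ≤ C ∧ ∀ (T : ℝ) (u ut : ℝ → E → ℝ) (K F0 : ℝ), 0 < T → T ≤ Tm →
      C21 (Icc 0 T) univ u ut → XB α (Icc 0 T) univ u ut K → (∀ x, u 0 x = 0) →
      YB α (Icc 0 T) univ (Lop heatOp u ut) F0 → XB α (Icc 0 T) univ u ut (C * F0) := by
  obtain ⟨C, hC, H⟩ := heat_solve (E := E) hα0 hα1 hTm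
  refine ⟨C, hC, ?_⟩
  intro T u ut K F0 hT hTT hu hX hu0 hf
  obtain ⟨v, vt, hv, hXv, hv0, hLv⟩ := H T _ F0 hT hTT hf
  have hB : Bdd (heatOp : Op E) (finrank ℝ E) (Icc 0 T) univ :=
    (heatOp_adm (α := α) (γ := 1) (Icc 0 T) univ).bdd zero_le_one
  have huv := strip_unique hB hu hv
    ⟨K, fun t ht x => by simpa using hX.b0 t ht x (mem_univ _)⟩
    ⟨_, fun t ht x => by simpa using hXv.b0 t ht x (mem_univ _)⟩
    (fun t ht x => (hLv t ht x).symm) (fun x => by rw [hu0 x, hv0 x])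
  have hdt := strip_unique_dt hT hu hv (fun t ht x _ => huv t ht x)
  exact hXv.congr isOpen_univ (fun t ht x _ => huv t ht x) hdt

end Claimed.Agent.R316.B8
end

/- ===== packed: Claimed.Agent.R316.B8.Frozen ===== -/
section
/-!
# B8-FROZEN: constant coefficient operators `u_t - 𝔞(D²u)` by a linear change of variables

LEAF (proofs only).  Uses `exists_frame` (`Form.lean`), `heat_solve` (`HeatSolve.lean`), `strip_unique` (`MaxP.lean`), all usable sorried.

Recipes.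
* section `Lin`: `w t y = u t (A y)`.  `fderiv_comp`/`HasFDerivAt.comp` with the linear map `A`:
  `D1 w t y = (D1 u t (A y)) ∘L A`, `D2 w t y = (D2 u t (A y)).bilinearComp A A` (differentiate `y ↦ (Du(Ay)) ∘L A`:
  `(ContinuousLinearMap.compL ℝ E E ℝ).flip A` is a continuous linear map).  Norms: `‖B.bilinearComp A A‖ ≤ ‖B‖ ‖A‖²`,
  `‖A x - A y‖^α ≤ ‖A‖^α ‖x-y‖^α ≤ a ‖x - y‖^α`, `a = max 1 ‖A‖`, `0 < α ≤ 1`.
* `const_solve`: `A` from `exists_frame`, `‖A‖ ≤ √M`, `‖A.symm‖ ≤ 1/√lam`.  Solve the heat equation with right side `f t (A y)`, put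
  `u t x = w t (A.symm x)`.  `D2 u t x` is symmetric (`D2_symm`), `(D2 u t x).bilinearComp A A = D2 w t (A.symm x)`, hence
  `𝔞 (D2 u t x) = trB (D2 w t (A.symm x))`.  `C = (max 1 (1/√lam))³ C_heat (max 1 √M)`.
* `const_apriori`: uniqueness as in `heat_apriori` (`constOp_adm … .bdd`).
-/

set_option autoImplicit false
set_option maxSynthPendingDepth 3
set_option linter.unusedSectionVars false

open scoped Topology ContDiff
open Set Filter Metric Module

namespace Claimed.Agent.R316.B8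

section Lin

variable {E : Type*} [NormedAddCommGroup E] [NormedSpace ℝ E]
variable {I : Set ℝ} {u ut : ℝ → E → ℝ} {α K : ℝ}

theorem D1_comp_lin (A : E →L[ℝ] E) {t : ℝ} (hu : ContDiff ℝ 2 (u t)) (y : E) :
    D1 (fun t y => u t (A y)) t y = (D1 u t (A y)) ∘L A := by
  have h1 : DifferentiableAt ℝ (u t) (A y) := (hu.differentiable (by norm_num)) _
  exact (h1.hasFDerivAt.comp y A.hasFDerivAt).fderiv

theorem D2_comp_lin (A : E →L[ℝ] E) {t : ℝ} (hu : ContDiff ℝ 2 (u t)) (y : E) :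
    D2 (fun t y => u t (A y)) t y = (D2 u t (A y)).bilinearComp A A := by
  have h0 : fderiv ℝ (fun y => u t (A y)) = fun y => (fderiv ℝ (u t) (A y)) ∘L A := by
    funext z
    exact D1_comp_lin A hu z
  have h2 : DifferentiableAt ℝ (fderiv ℝ (u t)) (A y) :=
    ((hu.fderiv_right (m := 1) (by norm_num)).differentiable (by norm_num)) _
  have h3 : HasFDerivAt (fun z => fderiv ℝ (u t) (A z)) ((fderiv ℝ (fderiv ℝ (u t)) (A y)) ∘L A) y :=
    h2.hasFDerivAt.comp y A.hasFDerivAt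
  have h4 := ((ContinuousLinearMap.compL ℝ E E ℝ).flip A).hasFDerivAt.comp y h3
  unfold D2
  simp only []
  rw [h0]
  have h5 : (fun y => (fderiv ℝ (u t) (A y)) ∘L A) =
      (⇑((ContinuousLinearMap.compL ℝ E E ℝ).flip A) ∘ fun z => fderiv ℝ (u t) (A z)) := by
    funext z; simp
  rw [h5, h4.fderiv]
  ext v w
  simp

theorem bilinearComp_eq_clm (A : E →L[ℝ] E) (B : Bil E) :
    B.bilinearComp A A = ((ContinuousLinearMap.compL ℝ E E ℝ).flip A) ∘L (B ∘L A) := by
  ext v w; simp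

theorem norm_bilinearComp_le (A : E →L[ℝ] E) (B : Bil E) :
    ‖B.bilinearComp A A‖ ≤ ‖A‖ ^ 2 * ‖B‖ := by
  refine ContinuousLinearMap.opNorm_le_bound _ (by positivity) fun v => ?_
  refine ContinuousLinearMap.opNorm_le_bound _ (by positivity) fun w => ?_
  simp only [ContinuousLinearMap.bilinearComp_apply]
  calc ‖B (A v) (A w)‖ ≤ ‖B‖ * ‖A v‖ * ‖A w‖ := B.le_opNorm₂ _ _
    _ ≤ ‖B‖ * (‖A‖ * ‖v‖) * (‖A‖ * ‖w‖) := by
        gcongr
        · exact A.le_opNorm v
        · exact A.le_opNorm w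
    _ = ‖A‖ ^ 2 * ‖B‖ * ‖v‖ * ‖w‖ := by ring

theorem lin_prod_cont (A : E →L[ℝ] E) : Continuous (fun q : ℝ × E => (q.1, A q.2)) :=
  continuous_fst.prodMk (A.continuous.comp continuous_snd)

theorem lin_prod_maps (A : E →L[ℝ] E) :
    MapsTo (fun q : ℝ × E => (q.1, A q.2)) (I ×ˢ (univ : Set E)) (I ×ˢ (univ : Set E)) :=
  fun q hq => ⟨hq.1, mem_univ _⟩

theorem C21.comp_lin (A : E →L[ℝ] E) (hu : C21 I univ u ut) :
    C21 I univ (fun t y => u t (A y)) (fun t y => ut t (A y)) := by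
  have hc := (lin_prod_cont A).continuousOn (s := I ×ˢ (univ : Set E))
  have hm := lin_prod_maps (I := I) A
  refine ⟨fun t ht => ?_, fun t ht x _ => hu.dt t ht (A x) (mem_univ _), hu.cont0.comp hc hm, ?_, ?_,
    hu.contt.comp hc hm⟩
  · exact contDiffOn_univ.mpr ((contDiffOn_univ.mp (hu.c2 t ht)).comp A.contDiff)
  · have h1 := hu.cont1.comp hc hm
    have h2 : ContinuousOn (fun q : ℝ × E => (D1 u q.1 (A q.2)) ∘L A) (I ×ˢ (univ : Set E)) :=
      ((ContinuousLinearMap.compL ℝ E E ℝ).flip A).continuous.comp_continuousOn h1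
    refine h2.congr fun q hq => ?_
    exact D1_comp_lin A (contDiffOn_univ.mp (hu.c2 q.1 hq.1)) q.2
  · have h1 := hu.cont2.comp hc hm
    have h2 : ContinuousOn (fun q : ℝ × E => (D2 u q.1 (A q.2)).bilinearComp A A)
        (I ×ˢ (univ : Set E)) := by
      have h3 : ContinuousOn (fun q : ℝ × E => (D2 u q.1 (A q.2)) ∘L A) (I ×ˢ (univ : Set E)) :=
        ((ContinuousLinearMap.compL ℝ E E (E →L[ℝ] ℝ)).flip A).continuous.comp_continuousOn h1
      have h4 := ((ContinuousLinearMap.compL ℝ E (E →L[ℝ] ℝ) (E →L[ℝ] ℝ))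
        ((ContinuousLinearMap.compL ℝ E E ℝ).flip A)).continuous.comp_continuousOn h3
      refine h4.congr fun q _ => ?_
      rw [bilinearComp_eq_clm]; rfl
    refine h2.congr fun q hq => ?_
    exact D2_comp_lin A (contDiffOn_univ.mp (hu.c2 q.1 hq.1)) q.2

theorem lin_rpow_le (A : E →L[ℝ] E) (hα0 : 0 < α) (hα1 : α ≤ 1) (x y : E) :
    ‖A x - A y‖ ^ α ≤ max 1 ‖A‖ * ‖x - y‖ ^ α := by
  have h1 : ‖A x - A y‖ ≤ max 1 ‖A‖ * ‖x - y‖ := by
    rw [← map_sub]
    exact (A.le_opNorm _).trans (mul_le_mul_of_nonneg_right (le_max_right _ _) (norm_nonneg _))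
  have ha : (1 : ℝ) ≤ max 1 ‖A‖ := le_max_left _ _
  calc ‖A x - A y‖ ^ α ≤ (max 1 ‖A‖ * ‖x - y‖) ^ α :=
        Real.rpow_le_rpow (norm_nonneg _) h1 hα0.le
    _ = (max 1 ‖A‖) ^ α * ‖x - y‖ ^ α := Real.mul_rpow (by positivity) (norm_nonneg _)
    _ ≤ (max 1 ‖A‖) ^ (1 : ℝ) * ‖x - y‖ ^ α := by
        gcongr
    _ = max 1 ‖A‖ * ‖x - y‖ ^ α := by rw [Real.rpow_one]

theorem XB.comp_lin (A : E →L[ℝ] E) (hα0 : 0 < α) (hα1 : α ≤ 1) (hu : C21 I univ u ut)
    (h : XB α I univ u ut K) :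
    XB α I univ (fun t y => u t (A y)) (fun t y => ut t (A y)) ((max 1 ‖A‖) ^ 3 * K) := by
  set a := max 1 ‖A‖ with ha
  have ha1 : (1 : ℝ) ≤ a := le_max_left _ _
  have hAa : ‖A‖ ≤ a := le_max_right _ _
  have ha0 : 0 ≤ a := zero_le_one.trans ha1
  have hpow1 : (1 : ℝ) ≤ a ^ 3 := one_le_pow₀ ha1
  have hpowa : a ≤ a ^ 3 := by nlinarith [mul_nonneg ha0 ha0]
  have hpow2 : a ^ 2 ≤ a ^ 3 := by nlinarith [mul_nonneg ha0 ha0]
  have hA2 : ‖A‖ ^ 2 ≤ a ^ 2 := pow_le_pow_left₀ (norm_nonneg _) hAa 2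
  refine ⟨fun t ht x _ => ?_, fun t ht x _ => ?_, fun t ht x _ => ?_, fun t ht x _ => ?_,
    fun t ht x _ y _ => ?_, fun t ht x _ y _ => ?_⟩
  · have h1 := h.b0 t ht (A x) (mem_univ _)
    have hK : 0 ≤ K := (norm_nonneg _).trans h1
    nlinarith
  · have h1 := h.b1 t ht (A x) (mem_univ _)
    have hK : 0 ≤ K := (norm_nonneg _).trans h1
    rw [D1_comp_lin A (contDiffOn_univ.mp (hu.c2 t ht))]
    calc ‖(D1 u t (A x)) ∘L A‖ ≤ ‖D1 u t (A x)‖ * ‖A‖ := ContinuousLinearMap.opNorm_comp_le _ _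
      _ ≤ K * a := by gcongr
      _ ≤ a ^ 3 * K := by nlinarith
  · have h1 := h.b2 t ht (A x) (mem_univ _)
    have hK : 0 ≤ K := (norm_nonneg _).trans h1
    rw [D2_comp_lin A (contDiffOn_univ.mp (hu.c2 t ht))]
    calc ‖(D2 u t (A x)).bilinearComp A A‖ ≤ ‖A‖ ^ 2 * ‖D2 u t (A x)‖ := norm_bilinearComp_le _ _
      _ ≤ a ^ 2 * K := by gcongr
      _ ≤ a ^ 3 * K := by gcongr
  · have h1 := h.bt t ht (A x) (mem_univ _)
    have hK : 0 ≤ K := (norm_nonneg _).trans h1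
    nlinarith
  · have h0 := h.b2 t ht (A x) (mem_univ _)
    have hK : 0 ≤ K := (norm_nonneg _).trans h0
    have h1 := h.h2 t ht (A x) (mem_univ _) (A y) (mem_univ _)
    rw [D2_comp_lin A (contDiffOn_univ.mp (hu.c2 t ht)), D2_comp_lin A (contDiffOn_univ.mp (hu.c2 t ht))]
    have h2 : (D2 u t (A x)).bilinearComp A A - (D2 u t (A y)).bilinearComp A A
        = (D2 u t (A x) - D2 u t (A y)).bilinearComp A A := by
      ext v w; simp
    rw [h2]
    calc ‖(D2 u t (A x) - D2 u t (A y)).bilinearComp A A‖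
        ≤ ‖A‖ ^ 2 * ‖D2 u t (A x) - D2 u t (A y)‖ := norm_bilinearComp_le _ _
      _ ≤ a ^ 2 * (K * (a * ‖x - y‖ ^ α)) := by
          gcongr
          exact h1.trans (mul_le_mul_of_nonneg_left (lin_rpow_le A hα0 hα1 x y) hK)
      _ = a ^ 3 * K * ‖x - y‖ ^ α := by ring
  · have h0 := h.bt t ht (A x) (mem_univ _)
    have hK : 0 ≤ K := (norm_nonneg _).trans h0
    have h1 := h.ht t ht (A x) (mem_univ _) (A y) (mem_univ _)
    have hr : 0 ≤ ‖x - y‖ ^ α := Real.rpow_nonneg (norm_nonneg _) _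
    calc ‖ut t (A x) - ut t (A y)‖ ≤ K * (a * ‖x - y‖ ^ α) :=
          h1.trans (mul_le_mul_of_nonneg_left (lin_rpow_le A hα0 hα1 x y) hK)
      _ = a * (K * ‖x - y‖ ^ α) := by ring
      _ ≤ a ^ 3 * (K * ‖x - y‖ ^ α) := by gcongr
      _ = a ^ 3 * K * ‖x - y‖ ^ α := by ring

theorem YB.comp_lin {f : ℝ → E → ℝ} (A : E →L[ℝ] E) (hα0 : 0 < α) (hα1 : α ≤ 1)
    (h : YB α I univ f K) : YB α I univ (fun t y => f t (A y)) (max 1 ‖A‖ * K) := by
  have hc := (lin_prod_cont A).continuousOn (s := I ×ˢ (univ : Set E))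
  have hm := lin_prod_maps (I := I) A
  have ha1 : (1 : ℝ) ≤ max 1 ‖A‖ := le_max_left _ _
  refine ⟨h.cont.comp hc hm, fun t ht x _ => ?_, fun t ht x _ y _ => ?_⟩
  · have h1 := h.sup t ht (A x) (mem_univ _)
    have hK : 0 ≤ K := (norm_nonneg _).trans h1
    nlinarith
  · have h0 := h.sup t ht (A x) (mem_univ _)
    have hK : 0 ≤ K := (norm_nonneg _).trans h0
    have h1 := h.hol t ht (A x) (mem_univ _) (A y) (mem_univ _)
    calc ‖f t (A x) - f t (A y)‖ ≤ K * (max 1 ‖A‖ * ‖x - y‖ ^ α) :=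
          h1.trans (mul_le_mul_of_nonneg_left (lin_rpow_le A hα0 hα1 x y) hK)
      _ = max 1 ‖A‖ * K * ‖x - y‖ ^ α := by ring

end Lin

variable {E : Type*} [NormedAddCommGroup E] [InnerProductSpace ℝ E] [FiniteDimensional ℝ E]

/-- solvability for constant coefficient operators, zero initial data. -/
theorem const_solve {α lam M Tm : ℝ} (hα0 : 0 < α) (hα1 : α < 1) (hlam : 0 < lam) (hTm : 0 < Tm) :
    ∃ C : ℝ, 0 ≤ C ∧ ∀ (𝔞 : Bil E →L[ℝ] ℝ) (T : ℝ) (f : ℝ → E → ℝ) (F0 : ℝ),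
      (∀ ξ : E →L[ℝ] ℝ, lam * ‖ξ‖ ^ 2 ≤ 𝔞 (sqB ξ)) → ‖𝔞‖ ≤ M → 0 < T → T ≤ Tm →
      YB α (Icc 0 T) univ f F0 →
      ∃ u ut : ℝ → E → ℝ, C21 (Icc 0 T) univ u ut ∧ XB α (Icc 0 T) univ u ut (C * F0) ∧
        (∀ x, u 0 x = 0) ∧ ∀ t ∈ Icc 0 T, ∀ x, Lop (constOp 𝔞) u ut t x = f t x := by
  obtain ⟨Ch, hCh, H⟩ := heat_solve (E := E) hα0 hα1 hTm
  set a : ℝ := max 1 (Real.sqrt M) with ha
  set b : ℝ := max 1 (1 / Real.sqrt lam) with hb
  have ha0 : 0 ≤ a := zero_le_one.trans (le_max_left _ _)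
  have hb0 : 0 ≤ b := zero_le_one.trans (le_max_left _ _)
  refine ⟨b ^ 3 * (Ch * a), by positivity, ?_⟩
  intro 𝔞 T f F0 hell hM hT hTT hf
  have h0T : (0 : ℝ) ∈ Icc 0 T := ⟨le_rfl, hT.le⟩
  have hF0 : 0 ≤ F0 := (norm_nonneg _).trans (hf.sup 0 h0T (0 : E) (mem_univ _))
  obtain ⟨A, hA1, hA2, hA3⟩ := exists_frame 𝔞 hlam hell hM
  have hsl : 0 < Real.sqrt lam := Real.sqrt_pos.mpr hlam
  have hnA : ‖(A : E →L[ℝ] E)‖ ≤ Real.sqrt M :=
    ContinuousLinearMap.opNorm_le_bound _ (Real.sqrt_nonneg _) hA2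
  have hnAs : ‖(A.symm : E →L[ℝ] E)‖ ≤ 1 / Real.sqrt lam := by
    refine ContinuousLinearMap.opNorm_le_bound _ (by positivity) ?_
    intro x
    have := hA3 (A.symm x)
    rw [ContinuousLinearEquiv.apply_symm_apply] at this
    rw [ContinuousLinearEquiv.coe_coe, div_mul_eq_mul_div, one_mul, le_div_iff₀ hsl]
    linarith
  have hf' : YB α (Icc 0 T) univ (fun t y => f t ((A : E →L[ℝ] E) y)) (a * F0) :=
    (hf.comp_lin (A : E →L[ℝ] E) hα0 hα1.le).mono
      (mul_le_mul_of_nonneg_right (max_le_max le_rfl hnA) hF0)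
  obtain ⟨w, wt, hw, hXw, hw0, hLw⟩ := H T _ (a * F0) hT hTT hf'
  have hu := hw.comp_lin (A.symm : E →L[ℝ] E)
  refine ⟨_, _, hu, ?_, fun x => hw0 _, ?_⟩
  · refine (hXw.comp_lin (A.symm : E →L[ℝ] E) hα0 hα1.le hw).mono ?_
    have h1 : (max 1 ‖(A.symm : E →L[ℝ] E)‖) ^ 3 ≤ b ^ 3 :=
      pow_le_pow_left₀ (zero_le_one.trans (le_max_left _ _)) (max_le_max le_rfl hnAs) 3
    calc (max 1 ‖(A.symm : E →L[ℝ] E)‖) ^ 3 * (Ch * (a * F0)) ≤ b ^ 3 * (Ch * (a * F0)) :=
          mul_le_mul_of_nonneg_right h1 (by positivity)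
      _ = b ^ 3 * (Ch * a) * F0 := by ring
  · intro t ht x
    have hsym := D2_symm (u := fun t y => w t ((A.symm : E →L[ℝ] E) y)) (t := t) isOpen_univ
      (mem_univ x) (hu.c2 t ht)
    have hD2 := D2_comp_lin (u := w) (A.symm : E →L[ℝ] E) (contDiffOn_univ.mp (hw.c2 t ht)) x
    have hcomp : (D2 (fun t y => w t ((A.symm : E →L[ℝ] E) y)) t x).bilinearComp
        (A : E →L[ℝ] E) (A : E →L[ℝ] E) = D2 w t (A.symm x) := by
      rw [hD2]
      ext v v'
      simp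
    have h1 := hLw t ht (A.symm x)
    rw [heatOp, Lop_constOp] at h1
    rw [Lop_constOp, hA1 _ hsym, hcomp]
    simpa using h1

/-- a priori estimate for constant coefficient operators, zero initial data. -/
theorem const_apriori {α lam M Tm : ℝ} (hα0 : 0 < α) (hα1 : α < 1) (hlam : 0 < lam) (hTm : 0 < Tm) :
    ∃ C : ℝ, 0 ≤ C ∧ ∀ (𝔞 : Bil E →L[ℝ] ℝ) (T : ℝ) (u ut : ℝ → E → ℝ) (K F0 : ℝ),
      (∀ ξ : E →L[ℝ] ℝ, lam * ‖ξ‖ ^ 2 ≤ 𝔞 (sqB ξ)) → ‖𝔞‖ ≤ M → 0 < T → T ≤ Tm →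
      C21 (Icc 0 T) univ u ut → XB α (Icc 0 T) univ u ut K → (∀ x, u 0 x = 0) →
      YB α (Icc 0 T) univ (Lop (constOp 𝔞) u ut) F0 → XB α (Icc 0 T) univ u ut (C * F0) := by
  obtain ⟨C, hC, H⟩ := const_solve (E := E) (M := M) hα0 hα1 hlam hTm
  refine ⟨C, hC, ?_⟩
  intro 𝔞 T u ut K F0 hell hM hT hTT hu hX hu0 hf
  obtain ⟨v, vt, hv, hXv, hv0, hLv⟩ := H 𝔞 T _ F0 hell hM hT hTT hf
  have hB : Bdd (constOp 𝔞) M (Icc 0 T) univ :=
    (constOp_adm 𝔞 (α := α) (γ := 1) (Icc 0 T) univ hell hM).bdd hlam.le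
  have huv := strip_unique hB hu hv
    ⟨K, fun t ht x => by simpa using hX.b0 t ht x (mem_univ _)⟩
    ⟨_, fun t ht x => by simpa using hXv.b0 t ht x (mem_univ _)⟩
    (fun t ht x => (hLv t ht x).symm) (fun x => by rw [hu0 x, hv0 x])
  have hdt := strip_unique_dt hT hu hv (fun t ht x _ => huv t ht x)
  exact hXv.congr isOpen_univ (fun t ht x _ => huv t ht x) hdt

end Claimed.Agent.R316.B8
end
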