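/- Packed by merge_tool.py (helper293): 6 modules of Claimed.Agent.R316 in one file, same declarations.
   Old modules, in this order: B14.Four1B, B14.Four1, B14.Four2A, B14.Four2, B14.HalfSobA, B14.HalfSobB -/
import Claimed.Agent.R316.Pack013

/- ===== packed: Claimed.Agent.R316.B14.Four1B ===== -/
section
/-!
# B14, leaf F1b: the characters `ech k` and the algebra of Fourier coefficients `fc`
-/

set_option autoImplicit false
open scoped ContDiff ComplexOrder ComplexConjugate Matrix Real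
open MeasureTheory

namespace Claimed.Agent.R316.B14

section ech

theorem ech_zero (θ : ℝ) : ech 0 θ = 1 := by
  simp [ech]

theorem ech_at_zero (k : ℤ) : ech k 0 = 1 := by
  simp [ech]

theorem ech_add (j k : ℤ) (θ : ℝ) : ech (j + k) θ = ech j θ * ech k θ := by
  unfold ech
  rw [← Complex.exp_add]
  congr 1
  push_cast
  ring

theorem ech_neg (k : ℤ) (θ : ℝ) : ech (-k) θ = conj (ech k θ) := by
  unfold ech
  rw [← Complex.exp_conj]
  congr 1
  simp only [map_mul, Complex.conj_I, Complex.conj_ofReal, map_intCast]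
  push_cast
  ring

theorem ech_sub (j k : ℤ) (θ : ℝ) : ech (j - k) θ = ech j θ * conj (ech k θ) := by
  rw [sub_eq_add_neg, ech_add, ech_neg]

theorem norm_ech (k : ℤ) (θ : ℝ) : ‖ech k θ‖ = 1 := by
  unfold ech
  have : ((k : ℂ) * (θ : ℂ) * Complex.I) = (((k : ℝ) * θ : ℝ) : ℂ) * Complex.I := by
    push_cast; ring
  rw [this, Complex.norm_exp_ofReal_mul_I]

theorem ech_ne_zero (k : ℤ) (θ : ℝ) : ech k θ ≠ 0 := Complex.exp_ne_zero _

theorem ech_mul_conj (k : ℤ) (θ : ℝ) : ech k θ * conj (ech k θ) = 1 := by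
  rw [Complex.mul_conj, Complex.normSq_eq_norm_sq, norm_ech]
  simp

theorem ech_neg_mul (k : ℤ) (θ : ℝ) : ech (-k) θ * ech k θ = 1 := by
  rw [ech_neg, mul_comm, ech_mul_conj]

theorem ech_add_arg (k : ℤ) (θ τ : ℝ) : ech k (θ + τ) = ech k θ * ech k τ := by
  unfold ech
  rw [← Complex.exp_add]
  congr 1
  push_cast
  ring

theorem ech_neg_arg (k : ℤ) (θ : ℝ) : ech k (-θ) = ech (-k) θ := by
  unfold ech
  congr 1
  push_cast
  ring

theorem ech_periodic (k : ℤ) : Function.Periodic (ech k) (2 * π) := by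
  intro θ
  rw [ech_add_arg]
  have : ech k (2 * π) = 1 := by
    unfold ech
    rw [Complex.exp_eq_one_iff]
    exact ⟨k, by push_cast; ring⟩
  rw [this, mul_one]

theorem ech_one (θ : ℝ) : ech 1 θ = circleMap 0 1 θ := by
  simp [ech, circleMap]

theorem ech_natCast (n : ℕ) (θ : ℝ) : ech (n : ℤ) θ = circleMap 0 1 θ ^ n := by
  rw [← ech_one]
  unfold ech
  rw [← Complex.exp_nat_mul]
  congr 1
  push_cast
  ring

theorem ech_eq_zpow (k : ℤ) (θ : ℝ) : ech k θ = circleMap 0 1 θ ^ k := by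
  rw [← ech_one]
  unfold ech
  rw [← Complex.exp_int_mul]
  congr 1
  push_cast
  ring

theorem contDiff_ech (k : ℤ) : ContDiff ℝ ∞ (ech k) := by
  unfold ech
  exact ((contDiff_const.mul Complex.ofRealCLM.contDiff).mul contDiff_const).cexp

theorem continuous_ech (k : ℤ) : Continuous (ech k) := (contDiff_ech k).continuous

theorem hasDerivAt_ech (k : ℤ) (θ : ℝ) :
    HasDerivAt (ech k) ((k : ℂ) * Complex.I * ech k θ) θ := by
  unfold ech
  have h1 : HasDerivAt (fun t : ℝ => (k : ℂ) * (t : ℂ) * Complex.I) ((k : ℂ) * 1 * Complex.I) θ :=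
    ((Complex.ofRealCLM.hasDerivAt (x := θ)).const_mul (k : ℂ)).mul_const Complex.I
  have h2 := h1.cexp
  convert h2 using 1
  ring

theorem deriv_ech (k : ℤ) : deriv (ech k) = fun θ => (k : ℂ) * Complex.I * ech k θ :=
  funext fun θ => (hasDerivAt_ech k θ).deriv

theorem pavg_ech (k : ℤ) : pavg (ech k) = if k = 0 then 1 else 0 := by
  split_ifs with h
  · subst h
    have : ech 0 = fun _ => (1 : ℂ) := funext ech_zero
    rw [this, pavg_const]
  · have hk : (k : ℂ) * Complex.I ≠ 0 := mul_ne_zero (by exact_mod_cast h) Complex.I_ne_zero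
    have h1 := pavg_deriv (ech_periodic k) ((contDiff_ech k).of_le (by exact_mod_cast le_top))
    rw [deriv_ech, pavg_const_mul] at h1
    exact (mul_eq_zero.1 h1).resolve_left hk

end ech

section fc

variable {a b : ℝ → ℂ}

theorem fc_eq_fourierCoeffOn (a : ℝ → ℂ) (k : ℤ) :
    fc a k = fourierCoeffOn Real.two_pi_pos a k := by
  rw [fourierCoeffOn_eq_integral]
  unfold fc pavg
  rw [sub_zero, one_div]
  congr 1
  refine intervalIntegral.integral_congr fun θ _ => ?_
  simp only [fourier_coe_apply, smul_eq_mul, ech]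
  congr 2
  have : (π : ℂ) ≠ 0 := by exact_mod_cast Real.pi_ne_zero
  push_cast
  field_simp

theorem fc_zero_index (a : ℝ → ℂ) : fc a 0 = pavg a := by
  unfold fc
  simp [ech_zero]

theorem fc_congr (h : ∀ θ ∈ Set.Icc (0 : ℝ) (2 * π), a θ = b θ) (k : ℤ) : fc a k = fc b k := by
  unfold fc
  exact pavg_congr fun θ hθ => by rw [h θ hθ]

theorem fc_add (ha : Continuous a) (hb : Continuous b) (k : ℤ) :
    fc (fun θ => a θ + b θ) k = fc a k + fc b k := by
  unfold fc
  rw [← pavg_add (a := fun θ => ech (-k) θ * a θ) (b := fun θ => ech (-k) θ * b θ)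
    ((continuous_ech _).mul ha) ((continuous_ech _).mul hb)]
  simp only [mul_add]

theorem fc_sub (ha : Continuous a) (hb : Continuous b) (k : ℤ) :
    fc (fun θ => a θ - b θ) k = fc a k - fc b k := by
  unfold fc
  rw [← pavg_sub (a := fun θ => ech (-k) θ * a θ) (b := fun θ => ech (-k) θ * b θ)
    ((continuous_ech _).mul ha) ((continuous_ech _).mul hb)]
  simp only [mul_sub]

theorem fc_neg (a : ℝ → ℂ) (k : ℤ) : fc (fun θ => - a θ) k = - fc a k := by
  unfold fc
  rw [← pavg_neg]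
  simp only [mul_neg]

theorem fc_const_mul (c : ℂ) (a : ℝ → ℂ) (k : ℤ) : fc (fun θ => c * a θ) k = c * fc a k := by
  unfold fc
  rw [← pavg_const_mul]
  congr 1
  funext θ
  ring

theorem fc_mul_const (c : ℂ) (a : ℝ → ℂ) (k : ℤ) : fc (fun θ => a θ * c) k = fc a k * c := by
  unfold fc
  rw [← pavg_mul_const]
  congr 1
  funext θ
  ring

theorem fc_sum {α : Type} (s : Finset α) (f : α → ℝ → ℂ) (hf : ∀ i ∈ s, Continuous (f i))
    (k : ℤ) : fc (fun θ => ∑ i ∈ s, f i θ) k = ∑ i ∈ s, fc (f i) k := by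
  unfold fc
  rw [← pavg_sum s (fun i θ => ech (-k) θ * f i θ) fun i hi => (continuous_ech _).mul (hf i hi)]
  simp only [Finset.mul_sum]

theorem fc_const (c : ℂ) (k : ℤ) : fc (fun _ => c) k = if k = 0 then c else 0 := by
  unfold fc
  rw [pavg_mul_const, pavg_ech]
  simp only [neg_eq_zero]
  split_ifs <;> simp

theorem fc_ech (j k : ℤ) : fc (ech j) k = if k = j then 1 else 0 := by
  unfold fc
  have : (fun θ => ech (-k) θ * ech j θ) = ech (-k + j) := by
    funext θ; rw [ech_add]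
  rw [this, pavg_ech]
  have h2 : (-k + j = 0) ↔ k = j := by constructor <;> intro h <;> omega
  simp only [h2]

theorem fc_ech_mul (j : ℤ) (a : ℝ → ℂ) (k : ℤ) : fc (fun θ => ech j θ * a θ) k = fc a (k - j) := by
  unfold fc
  congr 1
  funext θ
  rw [← mul_assoc, ← ech_add]
  congr 2
  ring

theorem fc_conj (a : ℝ → ℂ) (k : ℤ) : fc (fun θ => conj (a θ)) k = conj (fc a (-k)) := by
  unfold fc
  rw [← pavg_conj]
  congr 1
  funext θ
  rw [map_mul, ← ech_neg, neg_neg]

theorem fc_ofReal_neg (u : ℝ → ℝ) (k : ℤ) :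
    fc (fun θ => ((u θ : ℝ) : ℂ)) (-k) = conj (fc (fun θ => ((u θ : ℝ) : ℂ)) k) := by
  have h := fc_conj (fun θ => ((u θ : ℝ) : ℂ)) (-k)
  simp only [Complex.conj_ofReal, neg_neg] at h
  exact h

theorem fc_shift (ha : Function.Periodic a (2 * π)) (τ : ℝ) (k : ℤ) :
    fc (fun θ => a (θ + τ)) k = ech k τ * fc a k := by
  unfold fc
  have hp : Function.Periodic (fun θ => ech (-k) θ * a θ) (2 * π) := (ech_periodic _).mul ha
  rw [← pavg_shift hp τ, ← pavg_const_mul]
  congr 1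
  funext θ
  rw [ech_add_arg, ← mul_assoc, ← mul_assoc]
  congr 1
  rw [mul_comm (ech k τ), mul_assoc, mul_comm (ech k τ), ech_neg_mul, mul_one]

theorem fc_comp_neg (ha : Function.Periodic a (2 * π)) (k : ℤ) :
    fc (fun θ => a (-θ)) k = fc a (-k) := by
  unfold fc
  have hp : Function.Periodic (fun θ => ech (- -k) θ * a θ) (2 * π) := (ech_periodic _).mul ha
  rw [← pavg_comp_neg hp]
  congr 1
  funext θ
  rw [ech_neg_arg, neg_neg]

theorem norm_fc_le {C : ℝ} (h : ∀ θ, ‖a θ‖ ≤ C) (k : ℤ) : ‖fc a k‖ ≤ C := by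
  unfold fc
  refine norm_pavg_le fun θ => ?_
  rw [norm_mul, norm_ech, one_mul]
  exact h θ

theorem fc_deriv (hp : Function.Periodic a (2 * π)) (ha : ContDiff ℝ 1 a) (k : ℤ) :
    fc (deriv a) k = (k : ℂ) * Complex.I * fc a k := by
  unfold fc
  rw [pavg_mul_deriv (ech_periodic _) ((contDiff_ech _).of_le (by exact_mod_cast le_top)) hp ha,
    deriv_ech, ← pavg_neg, ← pavg_const_mul]
  congr 1
  funext θ
  push_cast
  ring

end fc

end Claimed.Agent.R316.B14
end

/- ===== packed: Claimed.Agent.R316.B14.Four1 ===== -/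
section
/-!
# B14, leaf F1c: Parseval, convolution, uniqueness, inversion for summable coefficients

Parseval is Mathlib's `hasSum_sq_fourierCoeffOn` (with `a = 0`, `b = 2π`) through `fc_eq_fourierCoeffOn`.
-/

set_option autoImplicit false
open scoped ContDiff ComplexOrder ComplexConjugate Matrix Real
open MeasureTheory

namespace Claimed.Agent.R316.B14

section parseval

variable {a b : ℝ → ℂ}

/-- **Parseval**. -/
theorem hasSum_sq_fc (ha : Continuous a) :
    HasSum (fun k : ℤ => ‖fc a k‖ ^ 2) (pavg fun θ => ‖a θ‖ ^ 2) := by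
  have hL2 : MemLp a 2 (volume.restrict (Set.Ioc (0 : ℝ) (2 * π))) := by
    obtain ⟨C, hC⟩ := isCompact_Icc.exists_bound_of_continuousOn (s := Set.Icc (0 : ℝ) (2 * π))
      ha.continuousOn
    refine MemLp.of_bound ha.aestronglyMeasurable C ?_
    refine ae_restrict_of_forall_mem measurableSet_Ioc fun x hx => hC x ⟨hx.1.le, hx.2⟩
  have h := hasSum_sq_fourierCoeffOn Real.two_pi_pos hL2
  simp only [← fc_eq_fourierCoeffOn, sub_zero] at h
  exact h

/-- termwise averaging of a normally convergent series. -/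
theorem hasSum_pavg_of_summable_norm {α : Type} [Countable α] {F : α → ℝ → ℂ} {u : α → ℝ}
    (hF : ∀ n, Continuous (F n)) (hu : Summable u) (hFu : ∀ n t, ‖F n t‖ ≤ u n) :
    HasSum (fun n => pavg (F n)) (pavg fun t => ∑' n, F n t) := by
  unfold pavg
  refine HasSum.const_smul _ ?_
  refine intervalIntegral.hasSum_integral_of_dominated_convergence (fun n _ => u n)
    (fun n => (hF n).aestronglyMeasurable) (fun n => Filter.Eventually.of_forall fun t _ => hFu n t)
    (Filter.Eventually.of_forall fun t _ => hu) intervalIntegrable_const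
    (Filter.Eventually.of_forall fun t _ => ?_)
  exact (Summable.of_norm_bounded hu fun n => hFu n t).hasSum

theorem polarization_aux (x y : ℂ) :
    x * conj y = (1 / 4 : ℂ) * ((((‖x + y‖ ^ 2 : ℝ) : ℂ) - ((‖x - y‖ ^ 2 : ℝ) : ℂ)) +
      Complex.I * (((‖x + Complex.I * y‖ ^ 2 : ℝ) : ℂ) - ((‖x - Complex.I * y‖ ^ 2 : ℝ) : ℂ))) := by
  simp only [Complex.sq_norm, Complex.normSq_apply]
  apply Complex.ext <;> simp <;> ring

/-- polarised Parseval. -/
theorem hasSum_fc_mul_conj (ha : Continuous a) (hb : Continuous b) :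
    HasSum (fun k : ℤ => fc a k * conj (fc b k)) (pavg fun θ => a θ * conj (b θ)) := by
  have key : ∀ c : ℂ, HasSum (fun k : ℤ => ((‖fc a k + c * fc b k‖ ^ 2 : ℝ) : ℂ))
      (pavg fun θ => ((‖a θ + c * b θ‖ ^ 2 : ℝ) : ℂ)) := by
    intro c
    have h := hasSum_sq_fc (a := fun θ => a θ + c * b θ) (ha.add (continuous_const.mul hb))
    have h2 : ∀ k, fc (fun θ => a θ + c * b θ) k = fc a k + c * fc b k := fun k => by
      rw [fc_add (b := fun θ => c * b θ) ha (continuous_const.mul hb), fc_const_mul]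
    simp only [h2] at h
    rw [pavg_ofReal]
    exact Complex.hasSum_ofReal.2 h
  have h1 := key 1
  have h2 := key (-1)
  have h3 := key Complex.I
  have h4 := key (-Complex.I)
  have hs := ((h1.sub h2).add ((h3.sub h4).mul_left Complex.I)).mul_left (1 / 4 : ℂ)
  have cn : ∀ c : ℂ, Continuous fun θ => ((‖a θ + c * b θ‖ ^ 2 : ℝ) : ℂ) := fun c =>
    Complex.continuous_ofReal.comp ((continuous_norm.comp (ha.add (continuous_const.mul hb))).pow 2)
  have e1 : (fun k : ℤ => fc a k * conj (fc b k)) = fun i : ℤ => (1 / 4 : ℂ) *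
      ((((‖fc a i + 1 * fc b i‖ ^ 2 : ℝ) : ℂ) - ((‖fc a i + -1 * fc b i‖ ^ 2 : ℝ) : ℂ)) +
        Complex.I * (((‖fc a i + Complex.I * fc b i‖ ^ 2 : ℝ) : ℂ) -
          ((‖fc a i + -Complex.I * fc b i‖ ^ 2 : ℝ) : ℂ))) := by
    funext k
    rw [polarization_aux]
    simp only [one_mul, neg_mul, sub_eq_add_neg]
  have e2 : (pavg fun θ => a θ * conj (b θ)) = (1 / 4 : ℂ) *
      (((pavg fun θ => ((‖a θ + 1 * b θ‖ ^ 2 : ℝ) : ℂ)) - pavg fun θ => ((‖a θ + -1 * b θ‖ ^ 2 : ℝ) : ℂ)) +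
        Complex.I * ((pavg fun θ => ((‖a θ + Complex.I * b θ‖ ^ 2 : ℝ) : ℂ)) -
          pavg fun θ => ((‖a θ + -Complex.I * b θ‖ ^ 2 : ℝ) : ℂ))) := by
    have c12 : Continuous fun θ => ((‖a θ + 1 * b θ‖ ^ 2 : ℝ) : ℂ) - ((‖a θ + -1 * b θ‖ ^ 2 : ℝ) : ℂ) :=
      (cn 1).sub (cn (-1))
    have c34 : Continuous fun θ => Complex.I * (((‖a θ + Complex.I * b θ‖ ^ 2 : ℝ) : ℂ) -
        ((‖a θ + -Complex.I * b θ‖ ^ 2 : ℝ) : ℂ)) :=
      continuous_const.mul ((cn Complex.I).sub (cn (-Complex.I)))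
    rw [← pavg_sub (cn 1) (cn (-1)), ← pavg_sub (cn Complex.I) (cn (-Complex.I)), ← pavg_const_mul,
      ← pavg_add c12 c34, ← pavg_const_mul]
    congr 1
    funext θ
    rw [polarization_aux]
    simp only [one_mul, neg_mul, sub_eq_add_neg]
  rw [e1, e2]
  exact hs

/-- bilinear Parseval. -/
theorem hasSum_fc_mul_fc_neg (ha : Continuous a) (hb : Continuous b) :
    HasSum (fun k : ℤ => fc a k * fc b (-k)) (pavg fun θ => a θ * b θ) := by
  have h := hasSum_fc_mul_conj (b := fun θ => conj (b θ)) ha (Complex.continuous_conj.comp hb)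
  simp only [fc_conj, Complex.conj_conj] at h
  exact h

/-- Fourier coefficients of a product. -/
theorem hasSum_fc_mul (ha : Continuous a) (hb : Continuous b) (n : ℤ) :
    HasSum (fun k : ℤ => fc a (n - k) * fc b k) (fc (fun θ => a θ * b θ) n) := by
  have h := hasSum_fc_mul_fc_neg (a := fun θ => ech (-n) θ * a θ) ((continuous_ech _).mul ha) hb
  simp only [fc_ech_mul] at h
  have h2 := (Equiv.neg ℤ).hasSum_iff.2 h
  have h3 : (fun θ => ech (-n) θ * a θ * b θ) = fun θ => ech (-n) θ * (a θ * b θ) := by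
    funext θ; ring
  rw [h3] at h2
  have e1 : (fun k : ℤ => fc a (n - k) * fc b k) =
      (fun k : ℤ => fc a (k - -n) * fc b (-k)) ∘ ⇑(Equiv.neg ℤ) := by
    funext k
    simp only [Function.comp, Equiv.neg_apply, neg_neg]
    congr 2
    ring
  rw [e1]
  exact h2

/-- uniqueness. -/
theorem eq_of_fc_eq (ha : Continuous a) (hpa : Function.Periodic a (2 * π)) (hb : Continuous b)
    (hpb : Function.Periodic b (2 * π)) (h : ∀ k, fc a k = fc b k) : a = b := by
  have h1 := hasSum_sq_fc (a := fun θ => a θ - b θ) (ha.sub hb)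
  have h2 : ∀ k, fc (fun θ => a θ - b θ) k = 0 := fun k => by rw [fc_sub ha hb, h k, sub_self]
  simp only [h2, norm_zero, ne_eq, OfNat.ofNat_ne_zero, not_false_eq_true, zero_pow] at h1
  have h3 := h1.unique hasSum_zero
  funext θ
  have h4 := eq_zero_of_pavg_eq_zero (a := fun θ => ‖a θ - b θ‖ ^ 2)
    ((continuous_norm.comp (ha.sub hb)).pow 2)
    (fun t => by simp only [hpa t, hpb t]) (fun t => sq_nonneg _) h3 θ
  have h5 : ‖a θ - b θ‖ = 0 := by simpa using h4
  exact sub_eq_zero.1 (norm_eq_zero.1 h5)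

/-- a continuous periodic function all of whose nonzero coefficients vanish is constant. -/
theorem eq_const_of_fc_eq_zero (ha : Continuous a) (hpa : Function.Periodic a (2 * π))
    (h : ∀ k, k ≠ 0 → fc a k = 0) (θ : ℝ) : a θ = pavg a := by
  have h1 : a = fun _ => pavg a := by
    refine eq_of_fc_eq ha hpa continuous_const (fun _ => rfl) fun k => ?_
    rw [fc_const]
    split_ifs with hk
    · rw [hk, fc_zero_index]
    · exact h k hk
  exact congrFun h1 θ

/-- trigonometric series with summable coefficients. -/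
theorem continuous_synth {c : ℤ → ℂ} (hc : Summable fun k => ‖c k‖) : Continuous (synth c) := by
  unfold synth
  refine continuous_tsum (fun k => continuous_const.mul (continuous_ech k)) hc fun k θ => ?_
  rw [norm_mul, norm_ech, mul_one]

theorem synth_periodic (c : ℤ → ℂ) : Function.Periodic (synth c) (2 * π) := by
  intro θ
  unfold synth
  simp only [ech_periodic _ θ]

theorem hasSum_synth {c : ℤ → ℂ} (hc : Summable fun k => ‖c k‖) (θ : ℝ) :
    HasSum (fun k => c k * ech k θ) (synth c θ) := by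
  refine (Summable.of_norm_bounded hc fun k => ?_).hasSum
  rw [norm_mul, norm_ech, mul_one]

theorem fc_synth {c : ℤ → ℂ} (hc : Summable fun k => ‖c k‖) (k : ℤ) : fc (synth c) k = c k := by
  have h := hasSum_pavg_of_summable_norm (F := fun j θ => ech (-k) θ * (c j * ech j θ))
    (fun j => (continuous_ech _).mul (continuous_const.mul (continuous_ech j))) hc
    (fun j θ => by rw [norm_mul, norm_mul, norm_ech, norm_ech, one_mul, mul_one])
  have h1 : (fun θ => ∑' j, ech (-k) θ * (c j * ech j θ)) = fun θ => ech (-k) θ * synth c θ := by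
    funext θ
    rw [tsum_mul_left]; rfl
  rw [h1] at h
  have h2 : ∀ j, pavg (fun θ => ech (-k) θ * (c j * ech j θ)) = if j = k then c k else 0 := by
    intro j
    have : pavg (fun θ => ech (-k) θ * (c j * ech j θ)) = fc (fun θ => c j * ech j θ) k := rfl
    rw [this, fc_const_mul, fc_ech]
    by_cases hjk : j = k
    · subst hjk; simp
    · rw [if_neg hjk, if_neg (Ne.symm hjk), mul_zero]
  simp only [h2] at h
  exact h.unique (hasSum_ite_eq k (c k))

/-- Fourier inversion for absolutely summable coefficients. -/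
theorem hasSum_of_summable_fc (ha : Continuous a) (hp : Function.Periodic a (2 * π))
    (hs : Summable fun k => ‖fc a k‖) (θ : ℝ) : HasSum (fun k => fc a k * ech k θ) (a θ) := by
  have h : a = synth (fc a) :=
    eq_of_fc_eq ha hp (continuous_synth hs) (synth_periodic _) fun k => (fc_synth hs k).symm
  have h2 := hasSum_synth hs θ
  rwa [← h] at h2

end parseval

end Claimed.Agent.R316.B14
end

/- ===== packed: Claimed.Agent.R316.B14.Four2A ===== -/
section
/-!
# B14, leaf F2a: closure properties of the classes `CLip` (periodic Lipschitz), `CSm` (periodic smooth)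
-/

set_option autoImplicit false
open scoped ContDiff ComplexOrder ComplexConjugate Matrix Real
open MeasureTheory

namespace Claimed.Agent.R316.B14

/-- a continuous periodic function is bounded. -/
theorem exists_bound_of_periodic {E : Type} [NormedAddCommGroup E] {a : ℝ → E} (ha : Continuous a)
    (hp : Function.Periodic a (2 * π)) : ∃ C : ℝ, 0 ≤ C ∧ ∀ θ, ‖a θ‖ ≤ C := by
  obtain ⟨C, hC⟩ := isCompact_Icc.exists_bound_of_continuousOn (s := Set.Icc (0 : ℝ) (2 * π))
    ha.continuousOn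
  refine ⟨max C 0, le_max_right _ _, fun θ => ?_⟩
  obtain ⟨y, hy, hya⟩ := hp.exists_mem_Ico₀ two_pi_pos' θ
  rw [hya]
  exact (hC y ⟨hy.1, hy.2.le⟩).trans (le_max_left _ _)

section CLip

variable {a b : ℝ → ℂ}

theorem CLip.continuous (ha : CLip a) : Continuous a := by
  obtain ⟨K, hK⟩ := ha.lip
  exact hK.continuous

theorem CLip.bounded (ha : CLip a) : ∃ C : ℝ, 0 ≤ C ∧ ∀ θ, ‖a θ‖ ≤ C :=
  exists_bound_of_periodic ha.continuous ha.per

/-- a convenient constructor. -/
theorem CLip.mk' (hp : Function.Periodic a (2 * π)) {K : ℝ} (h : ∀ s t, ‖a s - a t‖ ≤ K * |s - t|) :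
    CLip a := by
  refine ⟨hp, ⟨Real.toNNReal K, LipschitzWith.of_dist_le_mul fun s t => ?_⟩⟩
  rw [dist_eq_norm, Real.dist_eq]
  refine (h s t).trans ?_
  gcongr
  exact Real.le_coe_toNNReal K

theorem CLip.exists_lip (ha : CLip a) : ∃ K : ℝ, 0 ≤ K ∧ ∀ s t, ‖a s - a t‖ ≤ K * |s - t| := by
  obtain ⟨K, hK⟩ := ha.lip
  refine ⟨K, K.2, fun s t => ?_⟩
  have := hK.dist_le_mul s t
  rwa [dist_eq_norm, Real.dist_eq] at this

theorem CLip.const (c : ℂ) : CLip fun _ => c :=
  CLip.mk' (fun _ => rfl) (K := 0) fun s t => by simp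

theorem CLip.add (ha : CLip a) (hb : CLip b) : CLip fun θ => a θ + b θ := by
  obtain ⟨K, _, hK⟩ := ha.exists_lip
  obtain ⟨K', _, hK'⟩ := hb.exists_lip
  refine CLip.mk' (ha.per.add hb.per) (K := K + K') fun s t => ?_
  calc ‖a s + b s - (a t + b t)‖ = ‖(a s - a t) + (b s - b t)‖ := by congr 1; ring
    _ ≤ ‖a s - a t‖ + ‖b s - b t‖ := norm_add_le _ _
    _ ≤ K * |s - t| + K' * |s - t| := add_le_add (hK s t) (hK' s t)
    _ = (K + K') * |s - t| := by ring

theorem CLip.neg (ha : CLip a) : CLip fun θ => - a θ := by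
  obtain ⟨K, _, hK⟩ := ha.exists_lip
  refine CLip.mk' (fun θ => by simp only [ha.per θ]) (K := K) fun s t => ?_
  have : - a s - - a t = -(a s - a t) := by ring
  rw [this, norm_neg]
  exact hK s t

theorem CLip.sub (ha : CLip a) (hb : CLip b) : CLip fun θ => a θ - b θ := by
  simpa only [sub_eq_add_neg] using ha.add hb.neg

theorem CLip.mul (ha : CLip a) (hb : CLip b) : CLip fun θ => a θ * b θ := by
  obtain ⟨K, _, hK⟩ := ha.exists_lip
  obtain ⟨K', _, hK'⟩ := hb.exists_lip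
  obtain ⟨A, hA0, hA⟩ := ha.bounded
  obtain ⟨B, hB0, hB⟩ := hb.bounded
  refine CLip.mk' (ha.per.mul hb.per) (K := A * K' + K * B) fun s t => ?_
  calc ‖a s * b s - a t * b t‖ = ‖a s * (b s - b t) + (a s - a t) * b t‖ := by congr 1; ring
    _ ≤ ‖a s‖ * ‖b s - b t‖ + ‖a s - a t‖ * ‖b t‖ := by
        refine (norm_add_le _ _).trans ?_
        rw [norm_mul, norm_mul]
    _ ≤ A * (K' * |s - t|) + (K * |s - t|) * B := by
        gcongr
        · exact hA s
        · exact hK' s t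
        · exact hK s t
        · exact hB t
    _ = (A * K' + K * B) * |s - t| := by ring

theorem CLip.const_mul (c : ℂ) (ha : CLip a) : CLip fun θ => c * a θ := (CLip.const c).mul ha

theorem CLip.conj (ha : CLip a) : CLip fun θ => conj (a θ) := by
  obtain ⟨K, _, hK⟩ := ha.exists_lip
  refine CLip.mk' (fun θ => by simp only [ha.per θ]) (K := K) fun s t => ?_
  rw [← map_sub, Complex.norm_conj]
  exact hK s t

theorem CLip.sum {α : Type} (s : Finset α) {f : α → ℝ → ℂ} (hf : ∀ i ∈ s, CLip (f i)) :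
    CLip fun θ => ∑ i ∈ s, f i θ := by
  classical
  induction s using Finset.induction_on with
  | empty => simpa using CLip.const 0
  | insert i s hi ih =>
    simp only [Finset.sum_insert hi]
    exact (hf i (Finset.mem_insert_self i s)).add
      (ih fun j hj => hf j (Finset.mem_insert_of_mem hj))

theorem CLip.shift (ha : CLip a) (τ : ℝ) : CLip fun θ => a (θ + τ) := by
  obtain ⟨K, _, hK⟩ := ha.exists_lip
  refine CLip.mk' (fun θ => ?_) (K := K) fun s t => ?_
  · have : θ + 2 * π + τ = θ + τ + 2 * π := by ring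
    simp only [this, ha.per (θ + τ)]
  · have := hK (s + τ) (t + τ)
    rwa [add_sub_add_right_eq_sub] at this

theorem CLip.re (ha : CLip a) : CLip fun θ => (((a θ).re : ℝ) : ℂ) := by
  obtain ⟨K, _, hK⟩ := ha.exists_lip
  refine CLip.mk' (fun θ => by simp only [ha.per θ]) (K := K) fun s t => ?_
  rw [← Complex.ofReal_sub, ← Complex.sub_re, Complex.norm_real]
  exact (Complex.abs_re_le_norm _).trans (hK s t)

theorem CLip.im (ha : CLip a) : CLip fun θ => (((a θ).im : ℝ) : ℂ) := by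
  obtain ⟨K, _, hK⟩ := ha.exists_lip
  refine CLip.mk' (fun θ => by simp only [ha.per θ]) (K := K) fun s t => ?_
  rw [← Complex.ofReal_sub, ← Complex.sub_im, Complex.norm_real]
  exact (Complex.abs_im_le_norm _).trans (hK s t)

theorem CLip.norm (ha : CLip a) : CLip fun θ => ((‖a θ‖ : ℝ) : ℂ) := by
  obtain ⟨K, _, hK⟩ := ha.exists_lip
  refine CLip.mk' (fun θ => by simp only [ha.per θ]) (K := K) fun s t => ?_
  rw [← Complex.ofReal_sub, Complex.norm_real]
  exact (abs_norm_sub_norm_le _ _).trans (hK s t)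

/-- domination: a periodic function whose increments are dominated by those of `CLip` functions. -/
theorem CLip.of_dist_le {ι : Type} [Fintype ι] {f : ι → ℝ → ℂ} (hf : ∀ i, CLip (f i))
    (hp : Function.Periodic b (2 * π)) {A : ι → ℝ}
    (h : ∀ s t, ‖b s - b t‖ ≤ ∑ i, A i * ‖f i s - f i t‖) : CLip b := by
  choose K hK0 hK using fun i => (hf i).exists_lip
  refine CLip.mk' hp (K := ∑ i, |A i| * K i) fun s t => ?_
  refine (h s t).trans ?_
  rw [Finset.sum_mul]
  refine Finset.sum_le_sum fun i _ => ?_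
  calc A i * ‖f i s - f i t‖ ≤ |A i| * ‖f i s - f i t‖ := by
        gcongr; exact le_abs_self _
    _ ≤ |A i| * (K i * |s - t|) := by gcongr; exact hK i s t
    _ = |A i| * K i * |s - t| := by ring

end CLip

section CSm

variable {a b : ℝ → ℂ}

theorem CSm.continuous (ha : CSm a) : Continuous a := ha.smooth.continuous

theorem CSm.derivative (ha : CSm a) : CSm (deriv a) := by
  refine ⟨fun θ => ?_, ?_⟩
  · have h : (fun t => a (t + 2 * π)) = a := funext ha.per
    have h2 : deriv (fun t => a (t + 2 * π)) θ = deriv a (θ + 2 * π) := deriv_comp_add_const _ _ _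
    rw [← h2, h]
  · exact (contDiff_infty_iff_deriv.1 ha.smooth).2

theorem CSm.cLip (ha : CSm a) : CLip a := by
  obtain ⟨C, hC0, hC⟩ := exists_bound_of_periodic ha.derivative.continuous ha.derivative.per
  refine ⟨ha.per, ⟨⟨C, hC0⟩, ?_⟩⟩
  exact lipschitzWith_of_nnnorm_deriv_le (ha.smooth.differentiable (by simp)) fun x => hC x

theorem CSm.bounded (ha : CSm a) : ∃ C : ℝ, 0 ≤ C ∧ ∀ θ, ‖a θ‖ ≤ C := ha.cLip.bounded

theorem CSm.const (c : ℂ) : CSm fun _ => c := ⟨fun _ => rfl, contDiff_const⟩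

theorem cSm_ech (k : ℤ) : CSm (ech k) := ⟨ech_periodic k, contDiff_ech k⟩

theorem CSm.add (ha : CSm a) (hb : CSm b) : CSm fun θ => a θ + b θ :=
  ⟨ha.per.add hb.per, ha.smooth.add hb.smooth⟩

theorem CSm.sub (ha : CSm a) (hb : CSm b) : CSm fun θ => a θ - b θ :=
  ⟨ha.per.sub hb.per, ha.smooth.sub hb.smooth⟩

theorem CSm.neg (ha : CSm a) : CSm fun θ => - a θ :=
  ⟨fun θ => by simp only [ha.per θ], ha.smooth.neg⟩

theorem CSm.mul (ha : CSm a) (hb : CSm b) : CSm fun θ => a θ * b θ :=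
  ⟨ha.per.mul hb.per, ha.smooth.mul hb.smooth⟩

theorem CSm.const_mul (c : ℂ) (ha : CSm a) : CSm fun θ => c * a θ := (CSm.const c).mul ha

theorem CSm.conj (ha : CSm a) : CSm fun θ => conj (a θ) :=
  ⟨fun θ => by simp only [ha.per θ], Complex.conjCLE.contDiff.comp ha.smooth⟩

theorem CSm.sum {α : Type} (s : Finset α) {f : α → ℝ → ℂ} (hf : ∀ i ∈ s, CSm (f i)) :
    CSm fun θ => ∑ i ∈ s, f i θ :=
  ⟨fun θ => Finset.sum_congr rfl fun i hi => (hf i hi).per θ,
    ContDiff.sum fun i hi => (hf i hi).smooth⟩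

theorem CSm.shift (ha : CSm a) (τ : ℝ) : CSm fun θ => a (θ + τ) := by
  refine ⟨fun θ => ?_, ha.smooth.comp (contDiff_id.add contDiff_const)⟩
  have : θ + 2 * π + τ = θ + τ + 2 * π := by ring
  simp only [this, ha.per (θ + τ)]

theorem CSm.comp_neg (ha : CSm a) : CSm fun θ => a (-θ) := by
  refine ⟨fun θ => ?_, ha.smooth.comp contDiff_neg⟩
  have : -(θ + 2 * π) = -θ - 2 * π := by ring
  simp only [this, ha.per.sub_eq (-θ)]

theorem CSm.re (ha : CSm a) : CSm fun θ => (((a θ).re : ℝ) : ℂ) :=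
  ⟨fun θ => by simp only [ha.per θ],
    Complex.ofRealCLM.contDiff.comp (Complex.reCLM.contDiff.comp ha.smooth)⟩

theorem CSm.im (ha : CSm a) : CSm fun θ => (((a θ).im : ℝ) : ℂ) :=
  ⟨fun θ => by simp only [ha.per θ],
    Complex.ofRealCLM.contDiff.comp (Complex.imCLM.contDiff.comp ha.smooth)⟩

theorem CSm.normSq (ha : CSm a) : CSm fun θ => ((‖a θ‖ ^ 2 : ℝ) : ℂ) := by
  have h : (fun θ => ((‖a θ‖ ^ 2 : ℝ) : ℂ)) = fun θ => a θ * conj (a θ) := by
    funext θ
    rw [Complex.mul_conj, Complex.normSq_eq_norm_sq]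
  rw [h]
  exact ha.mul ha.conj

theorem CSm.inv (ha : CSm a) (h0 : ∀ θ, a θ ≠ 0) : CSm fun θ => (a θ)⁻¹ :=
  ⟨fun θ => by simp only [ha.per θ], ha.smooth.inv h0⟩

theorem CSm.cexp (ha : CSm a) : CSm fun θ => Complex.exp (a θ) :=
  ⟨fun θ => by simp only [ha.per θ], ha.smooth.cexp⟩

/-- real functions. -/
theorem cSm_ofReal_iff {u : ℝ → ℝ} :
    CSm (fun θ => ((u θ : ℝ) : ℂ)) ↔ Function.Periodic u (2 * π) ∧ ContDiff ℝ ∞ u := by
  constructor
  · intro h
    refine ⟨fun θ => ?_, ?_⟩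
    · have := h.per θ
      exact_mod_cast this
    · have := Complex.reCLM.contDiff.comp h.smooth
      exact this
  · rintro ⟨h1, h2⟩
    exact ⟨fun θ => by simp only [h1 θ], Complex.ofRealCLM.contDiff.comp h2⟩

/-- composition of a real smooth periodic function with a smooth function on an open interval-like
set. -/
theorem CSm.comp_real {u : ℝ → ℝ} (hu : CSm fun θ => ((u θ : ℝ) : ℂ)) {Ψ : ℝ → ℝ} {U : Set ℝ}
    (_hU : IsOpen U) (hΨ : ContDiffOn ℝ ∞ Ψ U) (hr : ∀ θ, u θ ∈ U) :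
    CSm fun θ => ((Ψ (u θ) : ℝ) : ℂ) := by
  obtain ⟨h1, h2⟩ := cSm_ofReal_iff.1 hu
  refine cSm_ofReal_iff.2 ⟨fun θ => by simp only [h1 θ], ?_⟩
  exact hΨ.comp_contDiff h2 hr

/-- composition of a vector of smooth periodic functions with a smooth function. -/
theorem CSm.comp {ι : Type} [Fintype ι] {f : ℝ → ι → ℂ} (hf : ∀ i, CSm fun θ => f θ i)
    {Ψ : (ι → ℂ) → ℂ} {U : Set (ι → ℂ)} (_hU : IsOpen U) (hΨ : ContDiffOn ℝ ∞ Ψ U)
    (hr : ∀ θ, f θ ∈ U) : CSm fun θ => Ψ (f θ) := by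
  refine ⟨fun θ => ?_, ?_⟩
  · have : f (θ + 2 * π) = f θ := funext fun i => (hf i).per θ
    simp only [this]
  · exact hΨ.comp_contDiff (contDiff_pi.2 fun i => (hf i).smooth) hr

/-- restriction to the circle of a function which is smooth near the circle. -/
theorem CSm.bd_of_contDiffOn {F : ℂ → ℂ} {U : Set ℂ} (_hU : IsOpen U)
    (hS : Metric.sphere (0 : ℂ) 1 ⊆ U) (hF : ContDiffOn ℝ ∞ F U) : CSm (bd F) := by
  refine ⟨bd_periodic F, ?_⟩
  refine hF.comp_contDiff (contDiff_circleMap 0 1) fun θ => hS ?_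
  exact circleMap_mem_sphere 0 zero_le_one θ

end CSm

end Claimed.Agent.R316.B14
end

/- ===== packed: Claimed.Agent.R316.B14.Four2 ===== -/
section
/-!
# B14, leaf F2b: smooth `⟺` rapidly decreasing Fourier coefficients
-/

set_option autoImplicit false
open scoped ContDiff ComplexOrder ComplexConjugate Matrix Real
open MeasureTheory

namespace Claimed.Agent.R316.B14

section decay

variable {a : ℝ → ℂ} {c : ℤ → ℂ}

theorem RapidZ.summable_pow (hc : RapidZ c) (N : ℕ) :
    Summable fun k : ℤ => |(k : ℝ)| ^ N * ‖c k‖ := by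
  obtain ⟨C, hC⟩ := hc (N + 2)
  obtain ⟨C', hC'⟩ := hc N
  have hs : Summable fun k : ℤ => C * (1 / (k : ℝ) ^ 2) + if k = 0 then C' else 0 :=
    ((Real.summable_one_div_int_pow.2 (by norm_num)).mul_left C).add (hasSum_ite_eq 0 C').summable
  refine Summable.of_nonneg_of_le (fun k => by positivity) (fun k => ?_) hs
  by_cases hk : k = 0
  · subst hk
    simpa using hC' 0
  · rw [if_neg hk, add_zero]
    have hk' : (0 : ℝ) < (k : ℝ) ^ 2 := by
      have : (k : ℝ) ≠ 0 := by exact_mod_cast hk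
      positivity
    rw [mul_one_div, le_div_iff₀ hk']
    have := hC k
    rw [pow_add, sq_abs] at this
    linarith

theorem RapidZ.summable_norm (hc : RapidZ c) : Summable fun k : ℤ => ‖c k‖ := by
  simpa using hc.summable_pow 0

theorem RapidZ.add {c' : ℤ → ℂ} (hc : RapidZ c) (hc' : RapidZ c') : RapidZ fun k => c k + c' k := by
  intro N
  obtain ⟨C, hC⟩ := hc N
  obtain ⟨C', hC'⟩ := hc' N
  refine ⟨C + C', fun k => ?_⟩
  calc |(k : ℝ)| ^ N * ‖c k + c' k‖ ≤ |(k : ℝ)| ^ N * (‖c k‖ + ‖c' k‖) := by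
        gcongr; exact norm_add_le _ _
    _ = |(k : ℝ)| ^ N * ‖c k‖ + |(k : ℝ)| ^ N * ‖c' k‖ := by ring
    _ ≤ C + C' := add_le_add (hC k) (hC' k)

theorem RapidZ.const_mul (z : ℂ) (hc : RapidZ c) : RapidZ fun k => z * c k := by
  intro N
  obtain ⟨C, hC⟩ := hc N
  refine ⟨‖z‖ * C, fun k => ?_⟩
  calc |(k : ℝ)| ^ N * ‖z * c k‖ = ‖z‖ * (|(k : ℝ)| ^ N * ‖c k‖) := by rw [norm_mul]; ring
    _ ≤ ‖z‖ * C := by gcongr; exact hC k

/-- domination. -/
theorem RapidZ.of_norm_le {c' : ℤ → ℂ} (hc : RapidZ c) (h : ∀ k, ‖c' k‖ ≤ ‖c k‖) : RapidZ c' := by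
  intro N
  obtain ⟨C, hC⟩ := hc N
  refine ⟨C, fun k => le_trans ?_ (hC k)⟩
  gcongr
  exact h k

theorem RapidZ.mul_pow (hc : RapidZ c) (N : ℕ) : RapidZ fun k => (k : ℂ) ^ N * c k := by
  intro M
  obtain ⟨C, hC⟩ := hc (M + N)
  refine ⟨C, fun k => le_trans (le_of_eq ?_) (hC k)⟩
  rw [norm_mul, norm_pow, Complex.norm_intCast, pow_add]
  ring

theorem RapidZ.comp_neg (hc : RapidZ c) : RapidZ fun k => c (-k) := by
  intro N
  obtain ⟨C, hC⟩ := hc N
  refine ⟨C, fun k => ?_⟩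
  have := hC (-k)
  simpa using this

/-- one sided sequences. -/
theorem rapidN_iff {c : ℕ → ℂ} :
    RapidN c ↔ RapidZ fun k : ℤ => if 0 ≤ k then c k.toNat else 0 := by
  constructor
  · intro h N
    obtain ⟨C, hC⟩ := h N
    refine ⟨max C 0, fun k => ?_⟩
    show |(k : ℝ)| ^ N * ‖(if 0 ≤ k then c k.toNat else 0 : ℂ)‖ ≤ max C 0
    by_cases hk : 0 ≤ k
    · rw [if_pos hk]
      obtain ⟨n, rfl⟩ := Int.eq_ofNat_of_zero_le hk
      have := hC n
      simp only [Int.cast_natCast, Nat.abs_cast, Int.toNat_natCast]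
      exact this.trans (le_max_left _ _)
    · rw [if_neg hk]
      simp
  · intro h N
    obtain ⟨C, hC⟩ := h N
    refine ⟨C, fun n => ?_⟩
    have := hC (n : ℤ)
    simpa using this

theorem RapidZ.rapidN (hc : RapidZ c) : RapidN fun n : ℕ => c n := by
  intro N
  obtain ⟨C, hC⟩ := hc N
  refine ⟨C, fun n => ?_⟩
  have := hC (n : ℤ)
  simpa using this

theorem RapidN.summable_pow {c : ℕ → ℂ} (hc : RapidN c) (N : ℕ) :
    Summable fun n : ℕ => (n : ℝ) ^ N * ‖c n‖ := by
  have h := (rapidN_iff.1 hc).summable_pow N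
  have h2 := h.comp_injective (i := fun n : ℕ => (n : ℤ)) Nat.cast_injective
  simpa [Function.comp_def] using h2

theorem RapidN.summable_norm {c : ℕ → ℂ} (hc : RapidN c) : Summable fun n : ℕ => ‖c n‖ := by
  simpa using hc.summable_pow 0

theorem CSm.iterate_deriv (ha : CSm a) (N : ℕ) : CSm (deriv^[N] a) := by
  induction N with
  | zero => exact ha
  | succ n ih =>
    rw [Function.iterate_succ_apply']
    exact ih.derivative

theorem CSm.fc_iterate_deriv (ha : CSm a) (N : ℕ) (k : ℤ) :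
    fc (deriv^[N] a) k = ((k : ℂ) * Complex.I) ^ N * fc a k := by
  induction N with
  | zero => simp
  | succ n ih =>
    rw [Function.iterate_succ_apply', fc_deriv (ha.iterate_deriv n).per
      ((ha.iterate_deriv n).smooth.of_le (by exact_mod_cast le_top)), ih, pow_succ]
    ring

/-- **smooth ⟹ rapidly decreasing coefficients**. -/
theorem CSm.rapid (ha : CSm a) : RapidZ (fc a) := by
  intro N
  obtain ⟨C, _, hC⟩ := (ha.iterate_deriv N).bounded
  refine ⟨C, fun k => ?_⟩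
  have h := norm_fc_le hC k
  rw [ha.fc_iterate_deriv, norm_mul, norm_pow, norm_mul, Complex.norm_I, mul_one,
    Complex.norm_intCast] at h
  exact h

/-- **Fourier inversion** for smooth functions. -/
theorem CSm.hasSum (ha : CSm a) (θ : ℝ) : HasSum (fun k => fc a k * ech k θ) (a θ) :=
  hasSum_of_summable_fc ha.continuous ha.per ha.rapid.summable_norm θ

theorem CSm.eq_synth (ha : CSm a) : a = synth (fc a) :=
  funext fun θ => ((ha.hasSum θ).tsum_eq).symm

theorem RapidZ.mul_I (hc : RapidZ c) : RapidZ fun k => (k : ℂ) * Complex.I * c k := by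
  have h := (hc.mul_pow 1).const_mul Complex.I
  refine h.of_norm_le fun k => le_of_eq ?_
  congr 1
  ring

theorem RapidZ.hasDerivAt_synth (hc : RapidZ c) (θ : ℝ) :
    HasDerivAt (synth c) (synth (fun k => (k : ℂ) * Complex.I * c k) θ) θ := by
  unfold synth
  refine hasDerivAt_tsum (u := fun k : ℤ => |(k : ℝ)| ^ 1 * ‖c k‖) (hc.summable_pow 1)
    (g := fun k t => c k * ech k t) (g' := fun k t => (k : ℂ) * Complex.I * c k * ech k t)
    (fun k t => ?_) (fun k t => ?_) (y₀ := 0) ?_ θ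
  · have := (hasDerivAt_ech k t).const_mul (c k)
    have e : (k : ℂ) * Complex.I * c k * ech k t = c k * ((k : ℂ) * Complex.I * ech k t) := by ring
    rw [e]
    exact this
  · rw [norm_mul, norm_mul, norm_mul, norm_ech, Complex.norm_I, Complex.norm_intCast]
    simp
  · exact (hasSum_synth hc.summable_norm 0).summable

theorem RapidZ.deriv_synth (hc : RapidZ c) :
    deriv (synth c) = synth fun k => (k : ℂ) * Complex.I * c k :=
  funext fun θ => (hc.hasDerivAt_synth θ).deriv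

theorem RapidZ.contDiff_synth_nat (n : ℕ) : ∀ {c : ℤ → ℂ}, RapidZ c → ContDiff ℝ n (synth c) := by
  induction n with
  | zero =>
    intro c hc
    exact contDiff_zero.2 (continuous_synth hc.summable_norm)
  | succ n ih =>
    intro c hc
    have : ((n + 1 : ℕ) : WithTop ℕ∞) = (n : WithTop ℕ∞) + 1 := by push_cast; rfl
    rw [this, contDiff_succ_iff_deriv]
    refine ⟨fun θ => (hc.hasDerivAt_synth θ).differentiableAt, fun h => ?_, ?_⟩
    · exact absurd h (by exact_mod_cast WithTop.coe_ne_top)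
    · rw [hc.deriv_synth]
      exact ih hc.mul_I

/-- **rapidly decreasing coefficients ⟹ smooth**. -/
theorem RapidZ.cSm_synth (hc : RapidZ c) : CSm (synth c) :=
  ⟨synth_periodic c, contDiff_infty.2 fun n => RapidZ.contDiff_synth_nat n hc⟩

theorem RapidZ.fc_synth_eq (hc : RapidZ c) (k : ℤ) : fc (synth c) k = c k :=
  fc_synth hc.summable_norm k

/-- a continuous periodic function with rapidly decreasing coefficients is smooth. -/
theorem CSm.of_rapid (ha : Continuous a) (hp : Function.Periodic a (2 * π)) (hc : RapidZ (fc a)) :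
    CSm a := by
  have h : a = synth (fc a) :=
    eq_of_fc_eq ha hp (continuous_synth hc.summable_norm) (synth_periodic _)
      fun k => (fc_synth hc.summable_norm k).symm
  rw [h]
  exact hc.cSm_synth

end decay

end Claimed.Agent.R316.B14
end

/- ===== packed: Claimed.Agent.R316.B14.HalfSobA ===== -/
section
/-!
# B14, leaf D1: the kernel `|e^{iθ}-1|²` and the difference quotient functional `dq`
(an `L²` norm on admissible two point functions: monotone, subadditive, homogeneous)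
-/

set_option autoImplicit false
open scoped ContDiff ComplexOrder ComplexConjugate Matrix Real
open MeasureTheory

namespace Claimed.Agent.R316.B14

open Claimed.Agent.R316

section kernel

theorem ech_one_eq (θ : ℝ) : ech 1 θ = ⟨Real.cos θ, Real.sin θ⟩ := by
  have h : ech 1 θ = Complex.exp ((θ : ℂ) * Complex.I) := by simp [ech]
  rw [h]
  apply Complex.ext
  · simp [Complex.exp_ofReal_mul_I_re]
  · simp [Complex.exp_ofReal_mul_I_im]

theorem dqK_eq (θ : ℝ) : dqK θ = 2 - 2 * Real.cos θ := by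
  unfold dqK
  rw [ech_one_eq, Complex.sq_norm, Complex.normSq_apply]
  simp only [Complex.sub_re, Complex.one_re, Complex.sub_im, Complex.one_im, sub_zero]
  nlinarith [Real.sin_sq_add_cos_sq θ]

theorem dqK_eq_sin (θ : ℝ) : dqK θ = 4 * Real.sin (θ / 2) ^ 2 := by
  rw [dqK_eq, Real.sin_sq_eq_half_sub]
  have : 2 * (θ / 2) = θ := by ring
  rw [this]
  ring

theorem dqK_nonneg (θ : ℝ) : 0 ≤ dqK θ := sq_nonneg _

theorem dqK_neg (θ : ℝ) : dqK (-θ) = dqK θ := by
  rw [dqK_eq, dqK_eq, Real.cos_neg]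

theorem dqK_periodic : Function.Periodic dqK (2 * π) := by
  intro θ
  rw [dqK_eq, dqK_eq, Real.cos_add_two_pi]

theorem continuous_dqK : Continuous dqK := by
  unfold dqK
  exact (continuous_norm.comp ((continuous_ech 1).sub continuous_const)).pow 2

theorem dqK_lower {θ : ℝ} (h0 : 0 ≤ θ) (h1 : θ ≤ 2 * π) :
    4 / π ^ 2 * min θ (2 * π - θ) ^ 2 ≤ dqK θ := by
  have hpi := Real.pi_pos
  have key : ∀ x : ℝ, 0 ≤ x → x ≤ π → 4 / π ^ 2 * x ^ 2 ≤ 4 * Real.sin (x / 2) ^ 2 := by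
    intro x hx0 hx1
    have h := Real.mul_le_sin (x := x / 2) (by linarith) (by linarith)
    have h2 : 0 ≤ 2 / π * (x / 2) := by positivity
    have h3 : (2 / π * (x / 2)) ^ 2 ≤ Real.sin (x / 2) ^ 2 := by gcongr
    calc 4 / π ^ 2 * x ^ 2 = 4 * (2 / π * (x / 2)) ^ 2 := by field_simp
      _ ≤ 4 * Real.sin (x / 2) ^ 2 := by linarith
  rw [dqK_eq_sin]
  rcases le_total θ π with h | h
  · rw [min_eq_left (by linarith)]
    exact key θ h0 h
  · rw [min_eq_right (by linarith)]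
    have h2 := key (2 * π - θ) (by linarith) (by linarith)
    have h3 : Real.sin ((2 * π - θ) / 2) = Real.sin (θ / 2) := by
      have : (2 * π - θ) / 2 = π - θ / 2 := by ring
      rw [this, Real.sin_pi_sub]
    rwa [h3] at h2

theorem dqK_pos {θ : ℝ} (h0 : 0 < θ) (h1 : θ < 2 * π) : 0 < dqK θ := by
  have h := dqK_lower h0.le h1.le
  have h2 : 0 < min θ (2 * π - θ) := lt_min h0 (by linarith)
  have hpi := Real.pi_pos
  have h3 : 0 < 4 / π ^ 2 * min θ (2 * π - θ) ^ 2 := by positivity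
  linarith

/-- the average only sees the open interval. -/
theorem pavg_congr_Ioo {E : Type} [NormedAddCommGroup E] [NormedSpace ℝ E] {a b : ℝ → E}
    (h : ∀ θ ∈ Set.Ioo (0 : ℝ) (2 * π), a θ = b θ) : pavg a = pavg b := by
  unfold pavg
  congr 1
  rw [intervalIntegral.integral_of_le two_pi_pos'.le, intervalIntegral.integral_of_le two_pi_pos'.le,
    integral_Ioc_eq_integral_Ioo, integral_Ioc_eq_integral_Ioo]
  exact setIntegral_congr_fun measurableSet_Ioo h

theorem pavg_normSq_geom (n : ℕ) :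
    pavg (fun θ => ‖∑ j ∈ Finset.range n, ech (j : ℤ) θ‖ ^ 2) = n := by
  have h : (fun θ => ((‖∑ j ∈ Finset.range n, ech (j : ℤ) θ‖ ^ 2 : ℝ) : ℂ)) =
      fun θ => ∑ j ∈ Finset.range n, ∑ l ∈ Finset.range n, ech ((j : ℤ) - l) θ := by
    funext θ
    rw [← Complex.normSq_eq_norm_sq, ← Complex.mul_conj, map_sum, Finset.sum_mul_sum]
    simp only [ech_sub]
  have h2 : pavg (fun θ => ((‖∑ j ∈ Finset.range n, ech (j : ℤ) θ‖ ^ 2 : ℝ) : ℂ)) = (n : ℂ) := by
    rw [h, pavg_sum _ _ fun j _ => continuous_finsetSum _ fun l _ => continuous_ech _]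
    have h3 : ∀ j ∈ Finset.range n,
        pavg (fun θ => ∑ l ∈ Finset.range n, ech ((j : ℤ) - l) θ) = 1 := by
      intro j hj
      rw [pavg_sum _ _ fun l _ => continuous_ech _]
      simp only [pavg_ech, sub_eq_zero, Nat.cast_inj]
      rw [Finset.sum_ite_eq]
      simp [hj]
    rw [Finset.sum_congr rfl h3]
    simp
  rw [pavg_ofReal] at h2
  exact_mod_cast h2

theorem normSq_ech_sub_one (k : ℤ) (θ : ℝ) :
    ‖ech k θ - 1‖ ^ 2 = dqK θ * ‖∑ j ∈ Finset.range k.natAbs, ech (j : ℤ) θ‖ ^ 2 := by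
  have hn : ∀ n : ℕ, ‖ech (n : ℤ) θ - 1‖ ^ 2 =
      dqK θ * ‖∑ j ∈ Finset.range n, ech (j : ℤ) θ‖ ^ 2 := by
    intro n
    have h := mul_geom_sum (ech 1 θ) n
    have h2 : ∀ j : ℕ, ech 1 θ ^ j = ech (j : ℤ) θ := fun j => by
      rw [ech_natCast, ech_one]
    simp only [h2] at h
    rw [← h, norm_mul, mul_pow]
    rfl
  rcases Int.natAbs_eq k with hk | hk
  · rw [← hn, ← hk]
  · rw [← hn]
    have : ech k θ - 1 = conj (ech (k.natAbs : ℤ) θ - 1) := by
      rw [map_sub, map_one, ← ech_neg, ← hk]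
    rw [this, Complex.norm_conj]

/-- the Fejér kernel integral. -/
theorem pavg_ech_sub_one_div_dqK (k : ℤ) :
    pavg (fun θ => ‖ech k θ - 1‖ ^ 2 / dqK θ) = |(k : ℝ)| := by
  have h : pavg (fun θ => ‖ech k θ - 1‖ ^ 2 / dqK θ) =
      pavg fun θ => ‖∑ j ∈ Finset.range k.natAbs, ech (j : ℤ) θ‖ ^ 2 := by
    refine pavg_congr_Ioo fun θ hθ => ?_
    rw [normSq_ech_sub_one, mul_div_assoc, mul_comm, div_mul_cancel₀]
    exact (dqK_pos hθ.1 hθ.2).ne'
  rw [h, pavg_normSq_geom, Nat.cast_natAbs]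
  simp

end kernel

section dq

variable {g g' : ℝ → ℝ → ℝ}

/-- quotients by the kernel of continuous functions dominated by the kernel are integrable. -/
theorem intervalIntegrable_div_dqK {φ : ℝ → ℝ} (hφ : Continuous φ) {C : ℝ}
    (hb : ∀ θ ∈ Set.Icc (0 : ℝ) (2 * π), |φ θ| ≤ C * dqK θ) :
    IntervalIntegrable (fun θ => φ θ / dqK θ) volume 0 (2 * π) := by
  rw [intervalIntegrable_iff, Set.uIoc_of_le two_pi_pos'.le]
  refine Measure.integrableOn_of_bounded (M := C) measure_Ioc_lt_top.ne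
    (hφ.measurable.div continuous_dqK.measurable).aestronglyMeasurable ?_
  refine ae_restrict_of_forall_mem measurableSet_Ioc fun θ hθ => ?_
  have h := hb θ ⟨hθ.1.le, hθ.2⟩
  rw [Real.norm_eq_abs, abs_div, abs_of_nonneg (dqK_nonneg θ)]
  rcases (dqK_nonneg θ).eq_or_lt with h0 | h0
  · rw [← h0, div_zero]
    rw [← h0, mul_zero] at h
    by_contra hC
    have hθ' : θ = 2 * π := by
      by_contra hne
      exact absurd h0 (dqK_pos hθ.1 (lt_of_le_of_ne hθ.2 hne)).ne
    -- `C` may be negative only if the kernel vanishes identically, which it does not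
    have h3 := hb π ⟨Real.pi_pos.le, by linarith [Real.pi_pos]⟩
    have h4 : 0 < dqK π := dqK_pos Real.pi_pos (by linarith [Real.pi_pos])
    have h5 : 0 ≤ C * dqK π := (abs_nonneg _).trans h3
    exact hC (nonneg_of_mul_nonneg_left h5 h4)
  · rwa [div_le_iff₀ h0]

theorem continuous_pavg_param {F : ℝ → ℝ → ℝ} (hF : Continuous fun p : ℝ × ℝ => F p.1 p.2) :
    Continuous fun θ => pavg fun t => F θ t := by
  unfold pavg
  exact (intervalIntegral.continuous_parametric_intervalIntegral_of_continuous' (μ := volume)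
    (f := F) hF 0 (2 * π)).const_smul ((2 * π)⁻¹ : ℝ)

theorem DQAdm.cont_shift (hg : DQAdm g) : Continuous fun p : ℝ × ℝ => g (p.2 + p.1) p.2 :=
  hg.cont.comp ((continuous_snd.add continuous_fst).prodMk continuous_snd)

theorem DQAdm.bound (hg : DQAdm g) :
    ∃ C : ℝ, 0 ≤ C ∧ ∀ θ ∈ Set.Icc (0 : ℝ) (2 * π), ∀ t, g (t + θ) t ^ 2 ≤ C * dqK θ := by
  obtain ⟨K, hK⟩ := hg.lip
  have hpi := Real.pi_pos
  refine ⟨|K| ^ 2 * (π ^ 2 / 4), by positivity, fun θ hθ t => ?_⟩
  have h1 : g (t + θ) t ≤ |K| * θ := by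
    have := hK (t + θ) t
    rw [add_sub_cancel_left, abs_of_nonneg hθ.1] at this
    exact this.trans (mul_le_mul_of_nonneg_right (le_abs_self K) hθ.1)
  have h2 : g (t + θ) t ≤ |K| * (2 * π - θ) := by
    have h3 := hK (t + θ - 2 * π) t
    have h4 := hg.per₁ (t + θ - 2 * π) t
    rw [sub_add_cancel] at h4
    rw [← h4] at h3
    have h5 : |t + θ - 2 * π - t| = 2 * π - θ := by
      have : t + θ - 2 * π - t = -(2 * π - θ) := by ring
      rw [this, abs_neg, abs_of_nonneg (by linarith [hθ.2])]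
    rw [h5] at h3
    exact h3.trans (mul_le_mul_of_nonneg_right (le_abs_self K) (by linarith [hθ.2]))
  have h3 : g (t + θ) t ≤ |K| * min θ (2 * π - θ) := by
    rcases le_total θ (2 * π - θ) with h | h
    · rwa [min_eq_left h]
    · rwa [min_eq_right h]
  have h4 : g (t + θ) t ^ 2 ≤ (|K| * min θ (2 * π - θ)) ^ 2 := by
    have := hg.nonneg (t + θ) t
    gcongr
  have h5 := dqK_lower hθ.1 hθ.2
  calc g (t + θ) t ^ 2 ≤ (|K| * min θ (2 * π - θ)) ^ 2 := h4
    _ = |K| ^ 2 * (π ^ 2 / 4) * (4 / π ^ 2 * min θ (2 * π - θ) ^ 2) := by field_simp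
    _ ≤ |K| ^ 2 * (π ^ 2 / 4) * dqK θ := by gcongr

theorem DQAdm.continuous_inner (hg : DQAdm g) :
    Continuous fun θ => pavg fun t => g (t + θ) t ^ 2 :=
  continuous_pavg_param (F := fun θ t => g (t + θ) t ^ 2) (hg.cont_shift.pow 2)

/-- the mixed inner average. -/
theorem DQAdm.continuous_inner_mul (hg : DQAdm g) (hg' : DQAdm g') :
    Continuous fun θ => pavg fun t => g (t + θ) t * g' (t + θ) t :=
  continuous_pavg_param (F := fun θ t => g (t + θ) t * g' (t + θ) t)
    (hg.cont_shift.mul hg'.cont_shift)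

theorem DQAdm.cont_t (hg : DQAdm g) (θ : ℝ) : Continuous fun t => g (t + θ) t :=
  hg.cont_shift.comp (continuous_const.prodMk continuous_id)

theorem DQAdm.inner_mul_bound (hg : DQAdm g) (hg' : DQAdm g') :
    ∃ C : ℝ, ∀ θ ∈ Set.Icc (0 : ℝ) (2 * π),
      |pavg fun t => g (t + θ) t * g' (t + θ) t| ≤ C * dqK θ := by
  obtain ⟨C, _, hC⟩ := hg.bound
  obtain ⟨C', _, hC'⟩ := hg'.bound
  refine ⟨(C + C') / 2, fun θ hθ => ?_⟩
  have h := norm_pavg_le (a := fun t => g (t + θ) t * g' (t + θ) t) (C := (C + C') / 2 * dqK θ)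
    fun t => ?_
  · simpa using h
  · rw [Real.norm_eq_abs, abs_mul]
    have h1 := hC θ hθ t
    have h2 := hC' θ hθ t
    nlinarith [sq_nonneg (|g (t + θ) t| - |g' (t + θ) t|), sq_abs (g (t + θ) t),
      sq_abs (g' (t + θ) t)]

theorem DQAdm.intervalIntegrable_mul (hg : DQAdm g) (hg' : DQAdm g') :
    IntervalIntegrable (fun θ => pavg (fun t => g (t + θ) t * g' (t + θ) t) / dqK θ) volume 0
      (2 * π) := by
  obtain ⟨C, hC⟩ := hg.inner_mul_bound hg'
  exact intervalIntegrable_div_dqK (hg.continuous_inner_mul hg') hC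

theorem DQAdm.intervalIntegrable (hg : DQAdm g) :
    IntervalIntegrable (fun θ => pavg (fun t => g (t + θ) t ^ 2) / dqK θ) volume 0 (2 * π) := by
  have h := hg.intervalIntegrable_mul hg
  simpa only [← sq] using h

theorem DQAdm.add (hg : DQAdm g) (hg' : DQAdm g') : DQAdm fun s t => g s t + g' s t := by
  obtain ⟨K, hK⟩ := hg.lip
  obtain ⟨K', hK'⟩ := hg'.lip
  refine ⟨hg.cont.add hg'.cont, fun s t => add_nonneg (hg.nonneg s t) (hg'.nonneg s t),
    fun s t => by rw [hg.per₁, hg'.per₁], fun s t => by rw [hg.per₂, hg'.per₂],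
    ⟨K + K', fun s t => ?_⟩⟩
  rw [add_mul]
  exact add_le_add (hK s t) (hK' s t)

theorem DQAdm.const_mul {c : ℝ} (hc : 0 ≤ c) (hg : DQAdm g) : DQAdm fun s t => c * g s t := by
  obtain ⟨K, hK⟩ := hg.lip
  refine ⟨continuous_const.mul hg.cont, fun s t => mul_nonneg hc (hg.nonneg s t),
    fun s t => by rw [hg.per₁], fun s t => by rw [hg.per₂], ⟨c * K, fun s t => ?_⟩⟩
  rw [mul_assoc]
  exact mul_le_mul_of_nonneg_left (hK s t) hc

theorem dqAdm_zero : DQAdm fun _ _ => (0 : ℝ) :=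
  ⟨continuous_const, fun _ _ => le_rfl, fun _ _ => rfl, fun _ _ => rfl, ⟨0, fun _ _ => by simp⟩⟩

theorem DQAdm.sum {α : Type} (s : Finset α) {f : α → ℝ → ℝ → ℝ} (hf : ∀ i ∈ s, DQAdm (f i)) :
    DQAdm fun x t => ∑ i ∈ s, f i x t := by
  classical
  induction s using Finset.induction_on with
  | empty => simpa using dqAdm_zero
  | insert i s hi ih =>
    simp only [Finset.sum_insert hi]
    exact (hf i (Finset.mem_insert_self i s)).add
      (ih fun j hj => hf j (Finset.mem_insert_of_mem hj))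

theorem DQAdm.sqrt_sum_sq {α : Type} (s : Finset α) {f : α → ℝ → ℝ → ℝ}
    (hf : ∀ i ∈ s, DQAdm (f i)) : DQAdm fun x t => Real.sqrt (∑ i ∈ s, f i x t ^ 2) := by
  obtain ⟨K, hK⟩ := (DQAdm.sum s hf).lip
  refine ⟨Real.continuous_sqrt.comp (continuous_finsetSum _ fun i hi => (hf i hi).cont.pow 2),
    fun _ _ => Real.sqrt_nonneg _, fun x t => ?_, fun x t => ?_, ⟨K, fun x t => ?_⟩⟩
  · congr 1
    exact Finset.sum_congr rfl fun i hi => by rw [(hf i hi).per₁]
  · congr 1
    exact Finset.sum_congr rfl fun i hi => by rw [(hf i hi).per₂]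
  · refine le_trans ?_ (hK x t)
    have h0 : 0 ≤ ∑ i ∈ s, f i x t := Finset.sum_nonneg fun i hi => (hf i hi).nonneg x t
    rw [Real.sqrt_le_left h0]
    exact Finset.sum_sq_le_sq_sum_of_nonneg fun i hi => (hf i hi).nonneg x t

theorem CLip.dqAdm {a : ℝ → ℂ} (ha : CLip a) : DQAdm fun s t => ‖a s - a t‖ := by
  obtain ⟨K, _, hK⟩ := ha.exists_lip
  exact ⟨continuous_norm.comp ((ha.continuous.comp continuous_fst).sub
    (ha.continuous.comp continuous_snd)), fun s t => norm_nonneg _, fun s t => by rw [ha.per],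
    fun s t => by rw [ha.per], ⟨K, hK⟩⟩

theorem dqAdm_dist2 {ι : Type} [Fintype ι] {a : ℝ → ι → ℂ} (ha : ∀ i, CLip fun θ => a θ i) :
    DQAdm (dist2 a) :=
  DQAdm.sqrt_sum_sq Finset.univ (f := fun i s t => ‖a s i - a t i‖) fun i _ => (ha i).dqAdm

theorem distF_eq {ι κ : Type} [Fintype ι] [Fintype κ] (A : ℝ → Matrix ι κ ℂ) :
    distF A = fun s t => Real.sqrt (∑ p : ι × κ, ‖A s p.1 p.2 - A t p.1 p.2‖ ^ 2) := by
  funext s t
  unfold distF frobSq
  rw [Fintype.sum_prod_type]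
  rfl

theorem dqAdm_distF {ι κ : Type} [Fintype ι] [Fintype κ] {A : ℝ → Matrix ι κ ℂ}
    (hA : ∀ i j, CLip fun θ => A θ i j) : DQAdm (distF A) := by
  rw [distF_eq]
  exact DQAdm.sqrt_sum_sq Finset.univ (f := fun (p : ι × κ) s t => ‖A s p.1 p.2 - A t p.1 p.2‖)
    fun p _ => (hA p.1 p.2).dqAdm

theorem dqsq_nonneg (g : ℝ → ℝ → ℝ) : 0 ≤ dqsq g :=
  pavg_nonneg fun θ => div_nonneg (pavg_nonneg fun _ => sq_nonneg _) (dqK_nonneg θ)

theorem dq_nonneg (g : ℝ → ℝ → ℝ) : 0 ≤ dq g := Real.sqrt_nonneg _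

theorem dq_sq (g : ℝ → ℝ → ℝ) : dq g ^ 2 = dqsq g := Real.sq_sqrt (dqsq_nonneg g)

/-- comparison of the inner averages suffices. -/
theorem dqsq_le_of_pavg_le (hg : DQAdm g) (hg' : DQAdm g') {c : ℝ}
    (h : ∀ θ, pavg (fun t => g (t + θ) t ^ 2) ≤ c * pavg fun t => g' (t + θ) t ^ 2) :
    dqsq g ≤ c * dqsq g' := by
  unfold dqsq
  rw [← pavg_const_mul_real]
  refine pavg_mono' hg.intervalIntegrable (hg'.intervalIntegrable.const_mul c) fun θ _ => ?_
  rw [← mul_div_assoc]
  exact div_le_div_of_nonneg_right (h θ) (dqK_nonneg θ)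

theorem dqsq_mono (hg : DQAdm g) (hg' : DQAdm g') (h : ∀ s t, g s t ≤ g' s t) :
    dqsq g ≤ dqsq g' := by
  have h1 := dqsq_le_of_pavg_le hg hg' (c := 1) fun θ => ?_
  · rwa [one_mul] at h1
  · rw [one_mul]
    refine pavg_mono ((hg.cont_t θ).pow 2) ((hg'.cont_t θ).pow 2) fun t => ?_
    have := hg.nonneg (t + θ) t
    have := h (t + θ) t
    gcongr

theorem dq_mono (hg : DQAdm g) (hg' : DQAdm g') (h : ∀ s t, g s t ≤ g' s t) : dq g ≤ dq g' :=
  Real.sqrt_le_sqrt (dqsq_mono hg hg' h)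

/-- the bilinear form behind `dqsq`. -/
noncomputable def dqB (g g' : ℝ → ℝ → ℝ) : ℝ :=
  pavg fun θ => pavg (fun t => g (t + θ) t * g' (t + θ) t) / dqK θ

theorem dqsq_lin (hg : DQAdm g) (hg' : DQAdm g') (x : ℝ) :
    dqsq (fun s t => x * g s t + g' s t) = x * x * dqsq g + 2 * x * dqB g g' + dqsq g' := by
  unfold dqsq dqB
  have h1 : ∀ θ, pavg (fun t => (x * g (t + θ) t + g' (t + θ) t) ^ 2) =
      x * x * pavg (fun t => g (t + θ) t ^ 2) + 2 * x * pavg (fun t => g (t + θ) t * g' (t + θ) t)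
        + pavg fun t => g' (t + θ) t ^ 2 := by
    intro θ
    have c1 : Continuous fun t => g (t + θ) t ^ 2 := (hg.cont_t θ).pow 2
    have c2 : Continuous fun t => g (t + θ) t * g' (t + θ) t := (hg.cont_t θ).mul (hg'.cont_t θ)
    have c3 : Continuous fun t => g' (t + θ) t ^ 2 := (hg'.cont_t θ).pow 2
    have c4 : Continuous fun t => x * x * g (t + θ) t ^ 2 := continuous_const.mul c1
    have c5 : Continuous fun t => 2 * x * (g (t + θ) t * g' (t + θ) t) := continuous_const.mul c2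
    have c6 : Continuous fun t => x * x * g (t + θ) t ^ 2 + 2 * x * (g (t + θ) t * g' (t + θ) t) :=
      c4.add c5
    rw [← pavg_const_mul_real, ← pavg_const_mul_real, ← pavg_add c4 c5, ← pavg_add c6 c3]
    congr 1
    funext t
    ring
  simp only [h1, add_div, mul_div_assoc]
  have i1 := (hg.intervalIntegrable.const_mul (x * x))
  have i2 := ((hg.intervalIntegrable_mul hg').const_mul (2 * x))
  have i3 := hg'.intervalIntegrable
  rw [pavg_add' (i1.add i2) i3, pavg_add' i1 i2, pavg_const_mul_real, pavg_const_mul_real]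

theorem dqB_sq_le (hg : DQAdm g) (hg' : DQAdm g') : dqB g g' ^ 2 ≤ dqsq g * dqsq g' := by
  have hq : ∀ x : ℝ, 0 ≤ dqsq g * (x * x) + 2 * dqB g g' * x + dqsq g' := by
    intro x
    have h := dqsq_nonneg fun s t => x * g s t + g' s t
    rw [dqsq_lin hg hg'] at h
    linarith
  have hd := discrim_le_zero hq
  rw [discrim] at hd
  nlinarith [hd]

/-- Minkowski. -/
theorem dq_add_le (hg : DQAdm g) (hg' : DQAdm g') :
    dq (fun s t => g s t + g' s t) ≤ dq g + dq g' := by
  have h := dqsq_lin hg hg' 1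
  simp only [one_mul, mul_one] at h
  have h2 : dqB g g' ≤ dq g * dq g' := by
    refine abs_le_of_sq_le_sq' ?_ (mul_nonneg (dq_nonneg _) (dq_nonneg _)) |>.2
    rw [mul_pow, dq_sq, dq_sq]
    exact dqB_sq_le hg hg'
  unfold dq at *
  rw [h]
  refine Real.sqrt_le_iff.2 ⟨add_nonneg (Real.sqrt_nonneg _) (Real.sqrt_nonneg _), ?_⟩
  have e1 := Real.sq_sqrt (dqsq_nonneg g)
  have e2 := Real.sq_sqrt (dqsq_nonneg g')
  nlinarith [h2]

theorem dq_const_mul {c : ℝ} (hc : 0 ≤ c) (g : ℝ → ℝ → ℝ) :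
    dq (fun s t => c * g s t) = c * dq g := by
  unfold dq dqsq
  simp only [mul_pow, pavg_const_mul_real, mul_div_assoc]
  rw [Real.sqrt_mul (sq_nonneg c), Real.sqrt_sq hc]

theorem dq_zero : dq (fun _ _ => (0 : ℝ)) = 0 := by
  have := dq_const_mul (le_refl (0 : ℝ)) fun _ _ => (0 : ℝ)
  simpa using this

theorem dq_sum_le {α : Type} (s : Finset α) {f : α → ℝ → ℝ → ℝ} (hf : ∀ i ∈ s, DQAdm (f i)) :
    dq (fun x t => ∑ i ∈ s, f i x t) ≤ ∑ i ∈ s, dq (f i) := by
  classical
  induction s using Finset.induction_on with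
  | empty => simp [dq_zero]
  | insert i s hi ih =>
    simp only [Finset.sum_insert hi]
    have h1 := hf i (Finset.mem_insert_self i s)
    have h2 : ∀ j ∈ s, DQAdm (f j) := fun j hj => hf j (Finset.mem_insert_of_mem hj)
    exact (dq_add_le h1 (DQAdm.sum s h2)).trans (by gcongr; exact ih h2)

theorem dqsq_sqrt_sum_sq {α : Type} (s : Finset α) {f : α → ℝ → ℝ → ℝ}
    (hf : ∀ i ∈ s, DQAdm (f i)) :
    dqsq (fun x t => Real.sqrt (∑ i ∈ s, f i x t ^ 2)) = ∑ i ∈ s, dqsq (f i) := by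
  unfold dqsq
  have h1 : ∀ θ, pavg (fun t => Real.sqrt (∑ i ∈ s, f i (t + θ) t ^ 2) ^ 2) =
      ∑ i ∈ s, pavg fun t => f i (t + θ) t ^ 2 := by
    intro θ
    rw [← pavg_sum s (fun i t => f i (t + θ) t ^ 2) fun i hi => ((hf i hi).cont_t θ).pow 2]
    congr 1
    funext t
    exact Real.sq_sqrt (Finset.sum_nonneg fun i _ => sq_nonneg _)
  simp only [h1, Finset.sum_div]
  exact pavg_sum' s _ fun i hi => (hf i hi).intervalIntegrable

end dq

end Claimed.Agent.R316.B14
end

/- ===== packed: Claimed.Agent.R316.B14.HalfSobB ===== -/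
section
/-!
# B14, leaf D2: the difference quotient formula `∑ |k| |a_k|² = dqsq` for Lipschitz functions
(eq. (disc:half-sobolev))
-/

set_option autoImplicit false
open scoped ContDiff ComplexOrder ComplexConjugate Matrix Real
open MeasureTheory

namespace Claimed.Agent.R316.B14

open Claimed.Agent.R316

section formula

variable {a b : ℝ → ℂ}

theorem hsq_nonneg (a : ℝ → ℂ) : 0 ≤ hsq a :=
  tsum_nonneg fun _ => mul_nonneg (abs_nonneg _) (sq_nonneg _)

theorem hD_nonneg (a : ℝ → ℂ) : 0 ≤ hD a := Real.sqrt_nonneg _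

theorem hD_sq (a : ℝ → ℂ) : hD a ^ 2 = hsq a := Real.sq_sqrt (hsq_nonneg a)

theorem hsqV_nonneg {ι : Type} [Fintype ι] (a : ℝ → ι → ℂ) : 0 ≤ hsqV a :=
  Finset.sum_nonneg fun _ _ => hsq_nonneg _

theorem hsqM_nonneg {ι κ : Type} [Fintype ι] [Fintype κ] (A : ℝ → Matrix ι κ ℂ) : 0 ≤ hsqM A :=
  Finset.sum_nonneg fun _ _ => Finset.sum_nonneg fun _ _ => hsq_nonneg _

theorem hDV_sq {ι : Type} [Fintype ι] (a : ℝ → ι → ℂ) : hDV a ^ 2 = hsqV a :=
  Real.sq_sqrt (hsqV_nonneg a)

theorem hDM_sq {ι κ : Type} [Fintype ι] [Fintype κ] (A : ℝ → Matrix ι κ ℂ) : hDM A ^ 2 = hsqM A :=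
  Real.sq_sqrt (hsqM_nonneg A)

/-- Parseval for increments. -/
theorem hasSum_increment (ha : Continuous a) (hp : Function.Periodic a (2 * π)) (θ : ℝ) :
    HasSum (fun k : ℤ => ‖ech k θ - 1‖ ^ 2 * ‖fc a k‖ ^ 2) (pavg fun t => ‖a (t + θ) - a t‖ ^ 2) := by
  have hc : Continuous fun t => a (t + θ) := ha.comp (continuous_id.add continuous_const)
  have h := hasSum_sq_fc (a := fun t => a (t + θ) - a t) (hc.sub ha)
  have h2 : ∀ k, fc (fun t => a (t + θ) - a t) k = (ech k θ - 1) * fc a k := fun k => by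
    rw [fc_sub hc ha, fc_shift hp]
    ring
  simpa only [h2, norm_mul, mul_pow] using h

/-- the formula, as a `HasSum`. -/
theorem CLip.hasSum_hsq (ha : CLip a) :
    HasSum (fun k : ℤ => |(k : ℝ)| * ‖fc a k‖ ^ 2) (dqsq fun s t => ‖a s - a t‖) := by
  have hadm := ha.dqAdm
  have hsum : ∀ θ, HasSum (fun k : ℤ => ‖ech k θ - 1‖ ^ 2 / dqK θ * ‖fc a k‖ ^ 2)
      (pavg (fun t => ‖a (t + θ) - a t‖ ^ 2) / dqK θ) := by
    intro θ
    have h := (hasSum_increment ha.continuous ha.per θ).div_const (dqK θ)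
    have e : (fun k : ℤ => ‖ech k θ - 1‖ ^ 2 / dqK θ * ‖fc a k‖ ^ 2) =
        fun k : ℤ => ‖ech k θ - 1‖ ^ 2 * ‖fc a k‖ ^ 2 / dqK θ := by
      funext k; ring
    rw [e]
    exact h
  have key := intervalIntegral.hasSum_integral_of_dominated_convergence (μ := volume) (a := 0)
    (b := 2 * π) (F := fun (k : ℤ) θ => ‖ech k θ - 1‖ ^ 2 / dqK θ * ‖fc a k‖ ^ 2)
    (f := fun θ => pavg (fun t => ‖a (t + θ) - a t‖ ^ 2) / dqK θ)
    (fun (k : ℤ) θ => ‖ech k θ - 1‖ ^ 2 / dqK θ * ‖fc a k‖ ^ 2) (fun k => ?_) (fun k => ?_) ?_ ?_ ?_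
  · have h2 := key.const_smul ((2 * π)⁻¹ : ℝ)
    have h3 : ∀ k : ℤ, ((2 * π)⁻¹ : ℝ) • ∫ θ in (0 : ℝ)..(2 * π),
        ‖ech k θ - 1‖ ^ 2 / dqK θ * ‖fc a k‖ ^ 2 = |(k : ℝ)| * ‖fc a k‖ ^ 2 := by
      intro k
      rw [intervalIntegral.integral_mul_const, ← pavg_ech_sub_one_div_dqK k]
      unfold pavg
      rw [smul_eq_mul, smul_eq_mul, mul_assoc]
    simp only [h3] at h2
    exact h2
  · exact ((((continuous_norm.comp ((continuous_ech k).sub continuous_const)).pow 2).measurable.div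
      continuous_dqK.measurable).mul_const _).aestronglyMeasurable
  · refine Filter.Eventually.of_forall fun θ _ => ?_
    rw [Real.norm_eq_abs, abs_of_nonneg]
    exact mul_nonneg (div_nonneg (sq_nonneg _) (dqK_nonneg θ)) (sq_nonneg _)
  · exact Filter.Eventually.of_forall fun θ _ => (hsum θ).summable
  · have h4 : (fun θ => ∑' k : ℤ, ‖ech k θ - 1‖ ^ 2 / dqK θ * ‖fc a k‖ ^ 2) =
        fun θ => pavg (fun t => ‖a (t + θ) - a t‖ ^ 2) / dqK θ := funext fun θ => (hsum θ).tsum_eq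
    rw [h4]
    exact hadm.intervalIntegrable
  · exact Filter.Eventually.of_forall fun θ _ => hsum θ

/-- finiteness of `D(a)` for Lipschitz functions. -/
theorem CLip.summable_hsq (ha : CLip a) : Summable fun k : ℤ => |(k : ℝ)| * ‖fc a k‖ ^ 2 :=
  ha.hasSum_hsq.summable

/-- **the difference quotient formula** (disc:half-sobolev). -/
theorem hsq_eq_dqsq (ha : CLip a) : hsq a = dqsq fun s t => ‖a s - a t‖ :=
  ha.hasSum_hsq.tsum_eq

theorem hD_eq_dq (ha : CLip a) : hD a = dq fun s t => ‖a s - a t‖ := by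
  rw [hD, dq, hsq_eq_dqsq ha]

theorem hsqV_eq_dqsq {ι : Type} [Fintype ι] {a : ℝ → ι → ℂ} (ha : ∀ i, CLip fun θ => a θ i) :
    hsqV a = dqsq (dist2 a) := by
  have h := dqsq_sqrt_sum_sq Finset.univ (f := fun i s t => ‖a s i - a t i‖) fun i _ => (ha i).dqAdm
  unfold hsqV
  simp only [fun i => hsq_eq_dqsq (ha i)]
  exact h.symm

theorem hDV_eq_dq {ι : Type} [Fintype ι] {a : ℝ → ι → ℂ} (ha : ∀ i, CLip fun θ => a θ i) :
    hDV a = dq (dist2 a) := by
  rw [hDV, dq, hsqV_eq_dqsq ha]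

theorem hsqM_eq_dqsq {ι κ : Type} [Fintype ι] [Fintype κ] {A : ℝ → Matrix ι κ ℂ}
    (hA : ∀ i j, CLip fun θ => A θ i j) : hsqM A = dqsq (distF A) := by
  have h := dqsq_sqrt_sum_sq Finset.univ
    (f := fun (p : ι × κ) s t => ‖A s p.1 p.2 - A t p.1 p.2‖) fun p _ => (hA p.1 p.2).dqAdm
  rw [distF_eq, h, Fintype.sum_prod_type]
  unfold hsqM
  simp only [fun i j => hsq_eq_dqsq (hA i j)]

theorem hDM_eq_dq {ι κ : Type} [Fintype ι] [Fintype κ] {A : ℝ → Matrix ι κ ℂ}
    (hA : ∀ i j, CLip fun θ => A θ i j) : hDM A = dq (distF A) := by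
  rw [hDM, dq, hsqM_eq_dqsq hA]

/-- comparison through the averaged increments (used for Wiener-Masani). -/
theorem hsqM_le_of_pavg_le {ι κ ι' κ' : Type} [Fintype ι] [Fintype κ] [Fintype ι'] [Fintype κ']
    {A : ℝ → Matrix ι κ ℂ} {B : ℝ → Matrix ι' κ' ℂ} (hA : ∀ i j, CLip fun θ => A θ i j)
    (hB : ∀ i j, CLip fun θ => B θ i j) {c : ℝ}
    (h : ∀ θ, pavg (fun t => frobSq (A (t + θ) - A t)) ≤ c * pavg fun t => frobSq (B (t + θ) - B t)) :
    hsqM A ≤ c * hsqM B := by
  classical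
  rw [hsqM_eq_dqsq hA, hsqM_eq_dqsq hB]
  refine dqsq_le_of_pavg_le (dqAdm_distF hA) (dqAdm_distF hB) fun θ => ?_
  have e1 : ∀ t, distF A (t + θ) t ^ 2 = frobSq (A (t + θ) - A t) := fun t =>
    Real.sq_sqrt (frobSq_nonneg _)
  have e2 : ∀ t, distF B (t + θ) t ^ 2 = frobSq (B (t + θ) - B t) := fun t =>
    Real.sq_sqrt (frobSq_nonneg _)
  simp only [e1, e2]
  exact h θ

end formula

end Claimed.Agent.R316.B14
end
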