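/- Packed by merge_tool.py (helper293): 5 modules of Claimed.Agent.R316 in one file, same declarations.
   Old modules, in this order: S6.Support, S6.Equality, S6.LocalMain, S6.GDefs, S6.GDual -/
import Claimed.Agent.R316.S7.H1.Griff
import Claimed.Agent.R316.Pack019
import Claimed.Agent.R316.Pack013
import Claimed.Agent.R316.Pack004
import Claimed.Agent.R316.Pack016

/- ===== packed: Claimed.Agent.R316.S6.Support ===== -/
section
/-!
# S6-6 … S6-9: the smooth support function `g_θ` and its Levi form (NO Levi form of a matrix function is computed)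

The claimers own their sections: replace the `sorry`s IN PLACE, keep the statements (prefix of auxiliary lemmas `s6g_`; problems: msg helper126).
`levG g Q Z = ¼ (D²g(Q)(Z,Z) + D²g(Q)(iZ,iZ))`, `Z` a spatial complex direction.

## S6-6 (~450 lines): calculus of `levG`, smoothness
`levG_add`, `levG_const_mul`, … : `fderiv` of `fderiv` of sums (`ContDiffAt.fderiv_right`, `fderiv_add`).  `levG_nonneg_of_isLocalMin`: `exp2_of_contDiffAt` + `Exp2.hess_nonneg` (B13/Exp2.lean).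
`levG_line`: chain rule for the affine map `ζ ↦ Q + spt 0 (ζ • Z)`, `ℂ → SpT κ` (real linear part `L ζ = spt 0 (ζ • Z)`): `D²F(0)(a,a) = D²g(Q)(L a, L a)`.
Smoothness: the entries of `tMat α Q.snd` are continuous real-linear in `Q`; `det` is a polynomial in the entries (`Matrix.det_apply`, `ContDiff.sum`, `ContDiff.prod`), `Complex.re`, `‖·‖² = normSq` are smooth, `Real.log` is smooth off `0` (`ContDiffAt.log`).

## S6-7 (~350 lines): `levG_base`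
`G Q' = lam Q'.fst (tBase Q'.snd)`; only spatial derivatives at fixed time enter: `D²G(Q)(spt 0 Z, spt 0 Z) = D²(lam Q.fst)(x)(tBase Z, tBase Z)`; then `qf_levi` of CW-2 (`R316/CW/Levi.lean`).

## S6-8 (~450 lines): `levG_logdet_hol`, `levG_logdet_nonneg`
* `hol`: `F ζ = log ‖h ζ‖²`, `h ζ = det ((M + ζ Z') Nᴴ)` is a polynomial in `ζ`, `h 0 ≠ 0`; Mathlib: `AnalyticAt.harmonicAt_log_norm`, `InnerProductSpace.laplacian_eq_iteratedFDeriv_complexPlane` (`Mathlib/Analysis/Complex/Harmonic/Analytic.lean`); `levG_line`.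
* `nonneg`: `N := tMat α Q.snd`.  `G₂ Q' = log det (M' M'ᴴ) - (log ‖det (M' Nᴴ)‖² - log det (N Nᴴ)) ≥ 0` near `Q` by `gram_cs`, `= 0` at `Q' = Q`: local minimum, `levG_nonneg_of_isLocalMin`, `levG_add`, `hol`.

## S6-9 (~500 lines): `levG_logdet_col`, then `gsup_*`
* `col`: along `ζ ↦ Q + spt 0 (ζ • tJoin 0 (Pi.single i V))` only the `i`-th column moves: `tA = A + α_i ((ξ+ζV)(ξ+ζV)ᴴ - ξξᴴ)` (`s6_tA_eq_sum`), so by `gram_column`
  `F ζ = log det A + log ‖1 + α b ζ‖² + log (1 + γ ‖ζ‖² / ‖1 + α b ζ‖²)`, `γ = α (1 - α p) c`.  The second term is harmonic, the third is `γ ‖ζ‖² + o(‖ζ‖²)`: use `Exp2.unique` (B13) or `log (1 + y) ≥ y - y²` and `levG_nonneg_of_isLocalMin`-type touching.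
  (`γ ≥ 0`: `α ξ ξᴴ ≤ A` gives `α p ≤ 1`; not needed for the identity.)
* `gsup_contDiffOn`, `gsup_fderiv_time`, `gsup_levG_ge`, `gsup_levG_col`: sum of the four terms.
-/

set_option autoImplicit false
set_option linter.unusedSectionVars false
open scoped ContDiff ComplexOrder Topology RealInnerProductSpace

namespace Claimed.Agent.R316.S6

open Claimed.Agent.R316 Claimed.Agent.R316.B13 Matrix

/-! ### S6-6 -/

section aux

variable {E F : Type*} [NormedAddCommGroup E] [NormedSpace ℝ E] [NormedAddCommGroup F]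
  [NormedSpace ℝ F]

theorem s6g_differentiableAt_fderiv {g : E → ℝ} {Q : E} (hg : ContDiffAt ℝ 2 g Q) :
    DifferentiableAt ℝ (fderiv ℝ g) Q :=
  (hg.fderiv_right (m := 1) (by norm_num)).differentiableAt (by norm_num)

theorem s6g_eventually_differentiableAt {g : E → ℝ} {Q : E} (hg : ContDiffAt ℝ 2 g Q) :
    ∀ᶠ q in 𝓝 Q, DifferentiableAt ℝ g q := by
  have h := hg.eventually (by simp)
  filter_upwards [h] with q hq
  exact hq.differentiableAt (by norm_num)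

theorem s6g_D2_add {g g' : E → ℝ} {Q : E} (hg : ContDiffAt ℝ 2 g Q) (hg' : ContDiffAt ℝ 2 g' Q) :
    fderiv ℝ (fderiv ℝ fun q => g q + g' q) Q =
      fderiv ℝ (fderiv ℝ g) Q + fderiv ℝ (fderiv ℝ g') Q := by
  have h : (fderiv ℝ fun q => g q + g' q) =ᶠ[𝓝 Q] fun q => fderiv ℝ g q + fderiv ℝ g' q := by
    filter_upwards [s6g_eventually_differentiableAt hg, s6g_eventually_differentiableAt hg']
      with q hq hq'
    exact fderiv_fun_add hq hq'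
  rw [h.fderiv_eq]
  exact fderiv_fun_add (s6g_differentiableAt_fderiv hg) (s6g_differentiableAt_fderiv hg')

theorem s6g_D2_const_mul (c : ℝ) {g : E → ℝ} {Q : E} (hg : ContDiffAt ℝ 2 g Q) :
    fderiv ℝ (fderiv ℝ fun q => c * g q) Q = c • fderiv ℝ (fderiv ℝ g) Q := by
  have h : (fderiv ℝ fun q => c * g q) =ᶠ[𝓝 Q] fun q => c • fderiv ℝ g q := by
    filter_upwards [s6g_eventually_differentiableAt hg] with q hq
    exact fderiv_const_mul hq c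
  rw [h.fderiv_eq]
  exact fderiv_fun_const_smul (s6g_differentiableAt_fderiv hg) c

theorem s6g_D2_congr {g g' : E → ℝ} {Q : E} (h : g =ᶠ[𝓝 Q] g') :
    fderiv ℝ (fderiv ℝ g) Q = fderiv ℝ (fderiv ℝ g') Q :=
  h.fderiv.fderiv_eq

/-- second derivative of `x ↦ g (Q + L x)` at `0`. -/
theorem s6g_D2_comp_affine {g : F → ℝ} {Q : F} (hg : ContDiffAt ℝ 2 g Q) (L : E →L[ℝ] F)
    (a b : E) :
    fderiv ℝ (fderiv ℝ fun x : E => g (Q + L x)) 0 a b =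
      fderiv ℝ (fderiv ℝ g) Q (L a) (L b) := by
  have hc : Filter.Tendsto (fun x : E => Q + L x) (𝓝 0) (𝓝 Q) := by
    have : Continuous fun x : E => Q + L x := by fun_prop
    simpa using this.tendsto 0
  have hA : ∀ x : E, HasFDerivAt (fun x : E => Q + L x) L x := fun x =>
    L.hasFDerivAt.const_add Q
  have h : (fderiv ℝ fun x : E => g (Q + L x)) =ᶠ[𝓝 0]
      fun x => (fderiv ℝ g (Q + L x)).comp L := by
    filter_upwards [hc.eventually (s6g_eventually_differentiableAt hg)] with x hx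
    exact (hx.hasFDerivAt.comp x (hA x)).fderiv
  rw [h.fderiv_eq]
  have h1 : HasFDerivAt (fun x : E => fderiv ℝ g (Q + L x))
      ((fderiv ℝ (fderiv ℝ g) Q).comp L) 0 := by
    have h2 : HasFDerivAt (fderiv ℝ g) (fderiv ℝ (fderiv ℝ g) Q) (Q + L 0) := by
      simpa using (s6g_differentiableAt_fderiv hg).hasFDerivAt
    exact h2.comp (0 : E) (hA 0)
  have h3 := (((ContinuousLinearMap.compL ℝ E F ℝ).flip L).hasFDerivAt
    (x := fderiv ℝ g (Q + L 0))).comp (0 : E) h1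
  have h4 : (fun x : E => (fderiv ℝ g (Q + L x)).comp L) =
      ((ContinuousLinearMap.compL ℝ E F ℝ).flip L) ∘ fun x : E => fderiv ℝ g (Q + L x) := by
    ext x y
    simp
  rw [h4, h3.fderiv]
  simp

end aux


section levG

variable {κ : Type} [Fintype κ] [DecidableEq κ]

theorem levG_add {g g' : SpT κ → ℝ} {Q : SpT κ} (hg : ContDiffAt ℝ 2 g Q)
    (hg' : ContDiffAt ℝ 2 g' Q) (Z : CE κ) :
    levG (fun q => g q + g' q) Q Z = levG g Q Z + levG g' Q Z := by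
  unfold levG
  rw [s6g_D2_add hg hg']
  simp only [_root_.add_apply]
  ring

theorem levG_const_mul (c : ℝ) {g : SpT κ → ℝ} {Q : SpT κ} (hg : ContDiffAt ℝ 2 g Q) (Z : CE κ) :
    levG (fun q => c * g q) Q Z = c * levG g Q Z := by
  unfold levG
  rw [s6g_D2_const_mul c hg]
  simp only [_root_.smul_apply, smul_eq_mul]
  ring

theorem levG_const (c : ℝ) (Q : SpT κ) (Z : CE κ) : levG (fun _ => c) Q Z = 0 := by
  unfold levG
  have h : (fderiv ℝ fun _ : SpT κ => c) = fun _ => 0 := by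
    ext q : 1
    exact fderiv_const_apply c
  rw [h]
  simp

theorem levG_congr {g g' : SpT κ → ℝ} {Q : SpT κ} (h : g =ᶠ[𝓝 Q] g') (Z : CE κ) :
    levG g Q Z = levG g' Q Z := by
  unfold levG
  rw [s6g_D2_congr h]

theorem levG_nonneg_of_isLocalMin {g : SpT κ → ℝ} {Q : SpT κ} (hg : ContDiffAt ℝ 2 g Q)
    (hm : IsLocalMin g Q) (Z : CE κ) : 0 ≤ levG g Q Z := by
  obtain ⟨p, A, -, hE, -, hA⟩ := exp2_of_contDiffAt hg
  unfold levG
  rw [hA, hA]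
  have h1 := hE.hess_nonneg hm (spt 0 Z)
  have h2 := hE.hess_nonneg hm (spt 0 (Complex.I • Z))
  positivity

/-- the real linear map `ζ ↦ (0, ζ • Z)`. -/
noncomputable def s6g_lineL (Z : CE κ) : ℂ →L[ℝ] SpT κ :=
  ((sptL : (ℝ × CE κ) ≃L[ℝ] SpT κ) : (ℝ × CE κ) →L[ℝ] SpT κ).comp
    ((ContinuousLinearMap.inr ℝ ℝ (CE κ)).comp
      (((ContinuousLinearMap.id ℂ ℂ).smulRight Z).restrictScalars ℝ))

theorem s6g_lineL_apply (Z : CE κ) (ζ : ℂ) : s6g_lineL Z ζ = spt 0 (ζ • Z) := rfl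

/-- restriction to the complex line through `Q` in the direction `Z`. -/
theorem levG_line {g : SpT κ → ℝ} {Q : SpT κ} (hg : ContDiffAt ℝ 2 g Q) (Z : CE κ) :
    levG g Q Z = (1 / 4) *
      (fderiv ℝ (fderiv ℝ fun ζ : ℂ => g (Q + spt 0 (ζ • Z))) 0 1 1 +
        fderiv ℝ (fderiv ℝ fun ζ : ℂ => g (Q + spt 0 (ζ • Z))) 0 Complex.I Complex.I) := by
  have h := s6g_D2_comp_affine hg (s6g_lineL Z)
  simp only [s6g_lineL_apply] at h
  rw [h, h, one_smul]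
  rfl

end levG

variable {ι : Type} [Fintype ι] [DecidableEq ι] {m : ℕ}

theorem s6g_continuous_fst {κ : Type} [Fintype κ] : Continuous fun Q : SpT κ => Q.fst :=
  continuous_fst.comp (sptL (κ := κ)).symm.continuous

theorem s6g_continuous_snd {κ : Type} [Fintype κ] : Continuous fun Q : SpT κ => Q.snd :=
  continuous_snd.comp (sptL (κ := κ)).symm.continuous

theorem tReg_isOpen (α : Fin m → ℝ) {Ω' : Set (ℝ × CE ι)} (hΩ : IsOpen Ω') (P₀ : CE (TI ι m)) :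
    IsOpen (tReg α Ω' P₀) := by
  have h1 : Continuous fun Q : SpT (TI ι m) => (Q.fst, tBase Q.snd) :=
    s6g_continuous_fst.prodMk (s6_continuous_tBase.comp s6g_continuous_snd)
  have h2 : Continuous fun Q : SpT (TI ι m) => (tMat α Q.snd * (tMat α P₀).conjTranspose).det :=
    (((s6_continuous_tMat α).comp s6g_continuous_snd).matrix_mul continuous_const).matrix_det
  exact (hΩ.preimage h1).inter (isOpen_ne.preimage h2)

theorem tReg_posDef {α : Fin m → ℝ} {Ω' : Set (ℝ × CE ι)} {P₀ : CE (TI ι m)} {Q : SpT (TI ι m)}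
    (hQ : Q ∈ tReg α Ω' P₀) : (tA α Q.snd).PosDef :=
  (gram_posDef_of_det_ne hQ.2)

/-- the first coordinate as a continuous linear map. -/
noncomputable def s6g_fstL (κ : Type) [Fintype κ] : SpT κ →L[ℝ] ℝ :=
  (ContinuousLinearMap.fst ℝ ℝ (CE κ)).comp
    ((sptL (κ := κ)).symm : SpT κ →L[ℝ] (ℝ × CE κ))

/-- the second coordinate as a continuous linear map. -/
noncomputable def s6g_sndL (κ : Type) [Fintype κ] : SpT κ →L[ℝ] CE κ :=
  (ContinuousLinearMap.snd ℝ ℝ (CE κ)).comp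
    ((sptL (κ := κ)).symm : SpT κ →L[ℝ] (ℝ × CE κ))

theorem s6g_fstL_apply {κ : Type} [Fintype κ] (Q : SpT κ) : s6g_fstL κ Q = Q.fst := rfl

theorem s6g_sndL_apply {κ : Type} [Fintype κ] (Q : SpT κ) : s6g_sndL κ Q = Q.snd := rfl

theorem s6g_contDiff_coord {κ : Type} [Fintype κ] (a : κ) :
    ContDiff ℝ ∞ fun Q : SpT κ => Q.snd a := by
  have h : (fun Q : SpT κ => Q.snd a) =
      ((EuclideanSpace.proj a : CE κ →L[ℂ] ℂ).restrictScalars ℝ).comp (s6g_sndL κ) := rfl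
  rw [h]
  exact ContinuousLinearMap.contDiff _

theorem s6g_contDiff_tMat (α : Fin m → ℝ) (j : ι) (i : Fin m) :
    ContDiff ℝ ∞ fun Q : SpT (TI ι m) => tMat α Q.snd j i := by
  unfold tMat
  exact contDiff_const.mul (s6g_contDiff_coord _)

theorem contDiffAt_logdet (α : Fin m → ℝ) {Q : SpT (TI ι m)} (hQ : (tA α Q.snd).PosDef) :
    ContDiffAt ℝ ∞ (fun Q' : SpT (TI ι m) => Real.log (tA α Q'.snd).det.re) Q := by
  refine contDiffAt_logDet_of_posDef (H := fun Q' : SpT (TI ι m) => tA α Q'.snd) ?_ hQ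
  intro j k
  unfold tA
  exact contDiffAt_matMul (fun j k => (s6g_contDiff_tMat α j k).contDiffAt)
    (contDiffAt_conjTranspose fun j k => (s6g_contDiff_tMat α j k).contDiffAt) j k

theorem s6g_contDiffAt_det_hol (α : Fin m → ℝ) (N : Matrix ι (Fin m) ℂ) (Q : SpT (TI ι m)) :
    ContDiffAt ℝ ∞ (fun Q' : SpT (TI ι m) => (tMat α Q'.snd * Nᴴ).det) Q := by
  refine contDiffAt_det (H := fun Q' : SpT (TI ι m) => tMat α Q'.snd * Nᴴ) ?_
  intro j k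
  exact contDiffAt_matMul (B := fun _ => Nᴴ) (fun j k => (s6g_contDiff_tMat α j k).contDiffAt)
    (fun j k => contDiffAt_const) j k

theorem contDiffAt_logdet_hol (α : Fin m → ℝ) (N : Matrix ι (Fin m) ℂ) {Q : SpT (TI ι m)}
    (hQ : (tMat α Q.snd * Nᴴ).det ≠ 0) :
    ContDiffAt ℝ ∞ (fun Q' : SpT (TI ι m) => Real.log (‖(tMat α Q'.snd * Nᴴ).det‖ ^ 2)) Q := by
  refine ContDiffAt.log ?_ (by positivity)
  exact (s6g_contDiffAt_det_hol α N Q).norm_sq ℝ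

/-- `tBase` as a continuous real linear map. -/
noncomputable def s6g_tBaseL (ι : Type) [Fintype ι] [DecidableEq ι] (m : ℕ) :
    CE (TI ι m) →L[ℂ] CE ι :=
  LinearMap.toContinuousLinearMap
    { toFun := tBase
      map_add' := s6_tBase_add
      map_smul' := s6_tBase_smul }

theorem s6g_tBaseL_apply (P : CE (TI ι m)) : s6g_tBaseL ι m P = tBase P := rfl

theorem contDiffAt_base {lam : ℝ → CE ι → ℝ} {Q : SpT (TI ι m)}
    (h : ContDiffAt ℝ ∞ (fun q : ℝ × CE ι => lam q.1 q.2) (Q.fst, tBase Q.snd)) :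
    ContDiffAt ℝ ∞ (fun Q' : SpT (TI ι m) => lam Q'.fst (tBase Q'.snd)) Q := by
  have h1 : ContDiff ℝ ∞ fun Q' : SpT (TI ι m) => (Q'.fst, tBase Q'.snd) :=
    (s6g_fstL (TI ι m)).contDiff.prodMk
      ((((s6g_tBaseL ι m).restrictScalars ℝ).comp (s6g_sndL (TI ι m))).contDiff)
  exact h.comp Q h1.contDiffAt

/-! ### S6-7 -/

theorem s6g_tBase_real_smul (s : ℝ) (P : CE (TI ι m)) : tBase (s • P) = s • tBase P :=
  ((s6g_tBaseL ι m).restrictScalars ℝ).map_smul s P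

theorem s6g_base_line {lam : ℝ → CE ι → ℝ} (Q : SpT (TI ι m)) (Z : CE (TI ι m)) :
    (fun s : ℝ => (fun Q' : SpT (TI ι m) => lam Q'.fst (tBase Q'.snd)) (Q + s • spt 0 Z)) =
      fun s : ℝ => lam Q.fst (tBase Q.snd + s • tBase Z) := by
  funext s
  have h1 : (Q + s • spt 0 Z).fst = Q.fst := by
    show Q.fst + s * 0 = Q.fst
    ring
  have h2 : (Q + s • spt 0 Z).snd = Q.snd + s • Z := rfl
  simp only [h1, h2, s6_tBase_add, s6g_tBase_real_smul]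

theorem s6g_contDiffAt_slice {lam : ℝ → CE ι → ℝ} {s : ℝ} {x : CE ι}
    (h : ContDiffAt ℝ ∞ (fun q : ℝ × CE ι => lam q.1 q.2) (s, x)) :
    ContDiffAt ℝ ∞ (lam s) x :=
  h.comp x (contDiffAt_const.prodMk contDiffAt_id)

theorem levG_base {lam : ℝ → CE ι → ℝ} {Q : SpT (TI ι m)}
    (h : ContDiffAt ℝ ∞ (fun q : ℝ × CE ι => lam q.1 q.2) (Q.fst, tBase Q.snd))
    (Z : CE (TI ι m)) :
    levG (fun Q' : SpT (TI ι m) => lam Q'.fst (tBase Q'.snd)) Q Z =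
      qf (levi (lam Q.fst) (tBase Q.snd)) (tBase Z) := by
  have hG : ContDiffAt ℝ 2 (fun Q' : SpT (TI ι m) => lam Q'.fst (tBase Q'.snd)) Q :=
    (contDiffAt_base h).of_le lv_two_le_infty
  have hf : ContDiffAt ℝ 2 (lam Q.fst) (tBase Q.snd) :=
    (s6g_contDiffAt_slice h).of_le lv_two_le_infty
  have h1 := qf_levi_line hf (tBase Z)
  unfold levG
  rw [lv_snd_line hG, lv_snd_line hG, s6g_base_line, s6g_base_line, s6_tBase_smul]
  exact h1.symm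

theorem s6g_hasDerivAt_spt {κ : Type} [Fintype κ] (s : ℝ) (P : CE κ) :
    HasDerivAt (fun s : ℝ => spt s P) (spt 1 0) s :=
  (sptL (κ := κ)).hasFDerivAt.comp_hasDerivAt s
    ((hasDerivAt_id s).prodMk (hasDerivAt_const s P))

theorem fderiv_base_time {lam : ℝ → CE ι → ℝ} {Q : SpT (TI ι m)}
    (h : ContDiffAt ℝ ∞ (fun q : ℝ × CE ι => lam q.1 q.2) (Q.fst, tBase Q.snd)) :
    fderiv ℝ (fun Q' : SpT (TI ι m) => lam Q'.fst (tBase Q'.snd)) Q (spt 1 0) =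
      deriv (fun s => lam s (tBase Q.snd)) Q.fst := by
  have hG : DifferentiableAt ℝ (fun Q' : SpT (TI ι m) => lam Q'.fst (tBase Q'.snd)) Q :=
    (contDiffAt_base h).differentiableAt (by simp)
  have h1 : HasFDerivAt (fun Q' : SpT (TI ι m) => lam Q'.fst (tBase Q'.snd))
      (fderiv ℝ (fun Q' : SpT (TI ι m) => lam Q'.fst (tBase Q'.snd)) Q) (spt Q.fst Q.snd) :=
    hG.hasFDerivAt
  exact (h1.comp_hasDerivAt Q.fst (s6g_hasDerivAt_spt Q.fst Q.snd)).deriv.symm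

/-! ### S6-8 -/

/-- `log ‖h‖²` is harmonic for `h` holomorphic without zero. -/
theorem s6g_harm_log_normSq {h : ℂ → ℂ} (hh : AnalyticAt ℂ h 0) (h0 : h 0 ≠ 0) :
    fderiv ℝ (fderiv ℝ fun ζ : ℂ => Real.log (‖h ζ‖ ^ 2)) 0 1 1 +
      fderiv ℝ (fderiv ℝ fun ζ : ℂ => Real.log (‖h ζ‖ ^ 2)) 0 Complex.I Complex.I = 0 := by
  have H := (hh.harmonicAt_log_norm h0).const_smul (c := (2 : ℝ))
  have e : (fun ζ : ℂ => Real.log (‖h ζ‖ ^ 2)) = (2 : ℝ) • (Real.log ‖h ·‖) := by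
    funext ζ
    simp [Real.log_pow]
  have h1 := H.2.self_of_nhds
  rw [← e, InnerProductSpace.laplacian_eq_iteratedFDeriv_complexPlane] at h1
  simpa [iteratedFDeriv_two_apply] using h1

theorem s6g_differentiable_det_line (α : Fin m → ℝ) (N : Matrix ι (Fin m) ℂ)
    (P Z : CE (TI ι m)) :
    Differentiable ℂ fun ζ : ℂ => (tMat α (P + ζ • Z) * Nᴴ).det := by
  simp only [Matrix.det_apply, Matrix.mul_apply, tMat, PiLp.add_apply, PiLp.smul_apply]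
  fun_prop

theorem levG_logdet_hol (α : Fin m → ℝ) (N : Matrix ι (Fin m) ℂ) {Q : SpT (TI ι m)}
    (hQ : (tMat α Q.snd * Nᴴ).det ≠ 0) (Z : CE (TI ι m)) :
    levG (fun Q' : SpT (TI ι m) => Real.log (‖(tMat α Q'.snd * Nᴴ).det‖ ^ 2)) Q Z = 0 := by
  rw [levG_line ((contDiffAt_logdet_hol α N hQ).of_le lv_two_le_infty)]
  have h := s6g_harm_log_normSq (h := fun ζ : ℂ => (tMat α (Q.snd + ζ • Z) * Nᴴ).det)
    ((s6g_differentiable_det_line α N Q.snd Z).analyticAt 0) (by simpa using hQ)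
  have e : (fun ζ : ℂ => (fun Q' : SpT (TI ι m) => Real.log (‖(tMat α Q'.snd * Nᴴ).det‖ ^ 2))
      (Q + spt 0 (ζ • Z))) = fun ζ : ℂ => Real.log (‖(tMat α (Q.snd + ζ • Z) * Nᴴ).det‖ ^ 2) := rfl
  rw [e, h, mul_zero]

theorem levG_logdet_nonneg (α : Fin m → ℝ) {Q : SpT (TI ι m)} (hQ : (tA α Q.snd).PosDef)
    (Z : CE (TI ι m)) :
    0 ≤ levG (fun Q' : SpT (TI ι m) => Real.log (tA α Q'.snd).det.re) Q Z := by
  set N := tMat α Q.snd with hN
  have hNN : (N * Nᴴ).PosDef := hQ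
  have hdet : (tMat α Q.snd * Nᴴ).det ≠ 0 := det_ne_zero_of_posDef hNN
  have hpos : 0 < (N * Nᴴ).det.re := det_re_pos_of_posDef hNN
  have c1 : ContDiffAt ℝ 2 (fun Q' : SpT (TI ι m) => Real.log (tA α Q'.snd).det.re) Q :=
    (contDiffAt_logdet α hQ).of_le lv_two_le_infty
  have c2 : ContDiffAt ℝ 2
      (fun Q' : SpT (TI ι m) => Real.log (‖(tMat α Q'.snd * Nᴴ).det‖ ^ 2)) Q :=
    (contDiffAt_logdet_hol α N hdet).of_le lv_two_le_infty
  have c3 : ContDiffAt ℝ 2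
      (fun Q' : SpT (TI ι m) => (-1 : ℝ) * Real.log (‖(tMat α Q'.snd * Nᴴ).det‖ ^ 2)) Q :=
    contDiffAt_const.mul c2
  -- the difference has a local minimum at `Q`
  have hmin : IsLocalMin (fun Q' : SpT (TI ι m) => Real.log (tA α Q'.snd).det.re +
      (-1 : ℝ) * Real.log (‖(tMat α Q'.snd * Nᴴ).det‖ ^ 2)) Q := by
    have hcont : ContinuousAt (fun Q' : SpT (TI ι m) => (tMat α Q'.snd * Nᴴ).det) Q :=
      (s6g_contDiffAt_det_hol α N Q).continuousAt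
    filter_upwards [hcont.eventually_ne hdet] with Q' hQ'
    have h1 : ‖(tMat α Q'.snd * Nᴴ).det‖ ^ 2 ≤ (tA α Q'.snd).det.re * (N * Nᴴ).det.re :=
      gram_cs (tMat α Q'.snd) hNN
    have h2 : 0 < ‖(tMat α Q'.snd * Nᴴ).det‖ ^ 2 := by positivity
    have h3 : 0 < (tA α Q'.snd).det.re := det_re_pos_of_posDef (gram_posDef_of_det_ne hQ')
    have h4 := Real.log_le_log h2 h1
    rw [Real.log_mul h3.ne' hpos.ne'] at h4
    have h5 : ‖(tMat α Q.snd * Nᴴ).det‖ ^ 2 = (N * Nᴴ).det.re * (N * Nᴴ).det.re := by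
      rw [← hN, ← ofReal_det_re_of_posDef hNN, Complex.norm_real, Real.norm_eq_abs, sq_abs,
        Complex.ofReal_re]
      ring
    have h6 : Real.log (tA α Q.snd).det.re = Real.log (N * Nᴴ).det.re := rfl
    show Real.log (tA α Q.snd).det.re + (-1 : ℝ) * Real.log (‖(tMat α Q.snd * Nᴴ).det‖ ^ 2) ≤
      Real.log (tA α Q'.snd).det.re + (-1 : ℝ) * Real.log (‖(tMat α Q'.snd * Nᴴ).det‖ ^ 2)
    rw [h5, Real.log_mul hpos.ne' hpos.ne', h6]
    linarith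
  have h := levG_nonneg_of_isLocalMin (c1.add c3) hmin Z
  rw [levG_add c1 c3, levG_const_mul _ c2, levG_logdet_hol α N hdet] at h
  simpa using h

/-! ### S6-9 -/

/-- second derivative at `0` of `s ↦ log (d (1 + k s + l s²))`. -/
theorem s6g_deriv2_log_quad {d : ℝ} (hd : d ≠ 0) (k l : ℝ) :
    deriv (deriv fun s : ℝ => Real.log (d * (1 + k * s + l * s ^ 2))) 0 = 2 * l - k ^ 2 := by
  have hu : ∀ s : ℝ, HasDerivAt (fun s : ℝ => 1 + k * s + l * s ^ 2) (k + 2 * l * s) s := by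
    intro s
    have hA : HasDerivAt (fun s : ℝ => k * s) k s := by
      simpa using (hasDerivAt_id s).const_mul k
    have hB : HasDerivAt (fun s : ℝ => l * s ^ 2) (2 * l * s) s := by
      have h := (hasDerivAt_pow 2 s).const_mul l
      have e : l * (((2 : ℕ) : ℝ) * s ^ (2 - 1)) = 2 * l * s := by
        norm_num
        ring
      rw [e] at h
      exact h
    exact (hA.const_add 1).add hB
  have hc : ContinuousAt (fun s : ℝ => 1 + k * s + l * s ^ 2) 0 := (hu 0).continuousAt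
  have hne : ∀ᶠ s : ℝ in 𝓝 0, (1 + k * s + l * s ^ 2) ≠ 0 :=
    hc.eventually_ne (by norm_num)
  have h1 : (deriv fun s : ℝ => Real.log (d * (1 + k * s + l * s ^ 2))) =ᶠ[𝓝 0]
      fun s => (k + 2 * l * s) / (1 + k * s + l * s ^ 2) := by
    filter_upwards [hne] with s hs
    have h2 := ((hu s).const_mul d).log (mul_ne_zero hd hs)
    rw [h2.deriv]
    field_simp
  rw [h1.deriv_eq]
  have hv : HasDerivAt (fun s : ℝ => k + 2 * l * s) (2 * l) 0 := by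
    have hA : HasDerivAt (fun s : ℝ => 2 * l * s) (2 * l) 0 := by
      simpa using (hasDerivAt_id (0 : ℝ)).const_mul (2 * l)
    exact hA.const_add k
  have h3 : HasDerivAt (fun s : ℝ => (k + 2 * l * s) / (1 + k * s + l * s ^ 2)) _ 0 :=
    hv.div (hu 0) (by norm_num)
  rw [h3.deriv]
  simp
  ring

/-- only the `i`-th column moves. -/
theorem s6g_tA_col (α : Fin m → ℝ) (hα : ∀ i, 0 ≤ α i) (P : CE (TI ι m)) (i : Fin m) (V : CE ι)
    (ζ : ℂ) :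
    tA α (P + ζ • tJoin 0 (Pi.single i V)) = tA α P + ((α i : ℝ) : ℂ) •
      (vecMulVec ((tCol i P : ι → ℂ) + ζ • (V : ι → ℂ))
        (star ((tCol i P : ι → ℂ) + ζ • (V : ι → ℂ))) -
        vecMulVec (tCol i P : ι → ℂ) (star (tCol i P : ι → ℂ))) := by
  rw [← sub_eq_iff_eq_add', s6_tA_eq_sum α hα, s6_tA_eq_sum α hα, ← Finset.sum_sub_distrib]
  rw [Finset.sum_eq_single i]
  · rw [s6_tCol_add, s6_tCol_smul, tCol_tJoin, Pi.single_eq_same, smul_sub]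
    rfl
  · intro j _ hj
    rw [s6_tCol_add, s6_tCol_smul, tCol_tJoin, Pi.single_eq_of_ne hj, smul_zero, add_zero,
      sub_self]
  · intro h
    exact absurd (Finset.mem_univ i) h

theorem s6g_det_col (α : Fin m → ℝ) (hα : ∀ i, 0 ≤ α i) {P : CE (TI ι m)}
    (hP : (tA α P).PosDef) (i : Fin m) (V : CE ι) (ζ : ℂ) :
    (tA α (P + ζ • tJoin 0 (Pi.single i V))).det.re = (tA α P).det.re *
      (‖1 + ((α i : ℝ) : ℂ) * (star (tCol i P : ι → ℂ) ⬝ᵥ (tA α P)⁻¹.mulVec V) * ζ‖ ^ 2 +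
        α i * (1 - α i * qf (tA α P)⁻¹ (tCol i P)) * qf (tA α P)⁻¹ V * ‖ζ‖ ^ 2) := by
  rw [s6g_tA_col α hα, gram_column hP, Complex.re_mul_ofReal]


/-- the column Levi form (an identity). -/
theorem s6g_levG_logdet_col_eq (α : Fin m → ℝ) (hα : ∀ i, 0 ≤ α i) {Q : SpT (TI ι m)}
    (hQ : (tA α Q.snd).PosDef) (i : Fin m) (V : CE ι) :
    levG (fun Q' : SpT (TI ι m) => Real.log (tA α Q'.snd).det.re) Q (tJoin 0 (Pi.single i V)) =
      α i * (1 - α i * qf (tA α Q.snd)⁻¹ (tCol i Q.snd)) * qf (tA α Q.snd)⁻¹ V := by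
  have hg : ContDiffAt ℝ 2 (fun Q' : SpT (TI ι m) => Real.log (tA α Q'.snd).det.re) Q :=
    (contDiffAt_logdet α hQ).of_le lv_two_le_infty
  have hd : (tA α Q.snd).det.re ≠ 0 := det_re_ne_zero_of_posDef hQ
  have hdet := s6g_det_col α hα hQ i V
  generalize α i * (1 - α i * qf (tA α Q.snd)⁻¹ (tCol i Q.snd)) * qf (tA α Q.snd)⁻¹ V = γ at *
  generalize ((α i : ℝ) : ℂ) * (star (tCol i Q.snd : ι → ℂ) ⬝ᵥ (tA α Q.snd)⁻¹.mulVec V) = β at *
  generalize tJoin 0 (Pi.single i V) = Z at *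
  have e1 : (fun s : ℝ => (fun Q' : SpT (TI ι m) => Real.log (tA α Q'.snd).det.re)
      (Q + s • spt 0 Z)) = fun s : ℝ => Real.log ((tA α Q.snd).det.re *
        (1 + (2 * β.re) * s + (β.re ^ 2 + β.im ^ 2 + γ) * s ^ 2)) := by
    funext s
    have h1 : (Q + s • spt 0 Z).snd = Q.snd + ((s : ℝ) : ℂ) • Z := by
      rw [Complex.coe_smul]
      rfl
    show Real.log (tA α (Q + s • spt 0 Z).snd).det.re = _
    rw [h1, hdet, Complex.sq_norm, Complex.sq_norm, Complex.normSq_apply, Complex.normSq_apply]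
    congr 2
    simp
    ring
  have e2 : (fun s : ℝ => (fun Q' : SpT (TI ι m) => Real.log (tA α Q'.snd).det.re)
      (Q + s • spt 0 (Complex.I • Z))) = fun s : ℝ => Real.log ((tA α Q.snd).det.re *
        (1 + (-(2 * β.im)) * s + (β.re ^ 2 + β.im ^ 2 + γ) * s ^ 2)) := by
    funext s
    have h1 : (Q + s • spt 0 (Complex.I • Z)).snd = Q.snd + (((s : ℝ) : ℂ) * Complex.I) • Z := by
      rw [mul_smul, Complex.coe_smul]
      rfl
    show Real.log (tA α (Q + s • spt 0 (Complex.I • Z)).snd).det.re = _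
    rw [h1, hdet, Complex.sq_norm, Complex.sq_norm, Complex.normSq_apply, Complex.normSq_apply]
    congr 2
    simp
    ring
  unfold levG
  rw [lv_snd_line hg, lv_snd_line hg, e1, e2, s6g_deriv2_log_quad hd, s6g_deriv2_log_quad hd]
  ring

theorem levG_logdet_col (α : Fin m → ℝ) (hα : ∀ i, 0 ≤ α i) {Q : SpT (TI ι m)}
    (hQ : (tA α Q.snd).PosDef) (i : Fin m) (V : CE ι) :
    α i * (1 - α i * qf (tA α Q.snd)⁻¹ (tCol i Q.snd)) * qf (tA α Q.snd)⁻¹ V ≤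
      levG (fun Q' : SpT (TI ι m) => Real.log (tA α Q'.snd).det.re) Q
        (tJoin 0 (Pi.single i V)) :=
  (s6g_levG_logdet_col_eq α hα hQ i V).ge


theorem s6g_lam_contDiffAt {lam : ℝ → CE ι → ℝ} {Ω' : Set (ℝ × CE ι)} (hΩ : IsOpen Ω')
    (hlam : ContDiffOn ℝ ∞ (fun q : ℝ × CE ι => lam q.1 q.2) Ω') {α : Fin m → ℝ}
    {P₀ : CE (TI ι m)} {Q : SpT (TI ι m)} (hQ : Q ∈ tReg α Ω' P₀) :
    ContDiffAt ℝ ∞ (fun q : ℝ × CE ι => lam q.1 q.2) (Q.fst, tBase Q.snd) :=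
  hlam.contDiffAt (hΩ.mem_nhds hQ.1)

/-- `g_θ` as a sum of four functions. -/
theorem s6g_gsup_eq (α : Fin m → ℝ) (θ : ℝ) (lam : ℝ → CE ι → ℝ) (P₀ : CE (TI ι m)) :
    gsup α θ lam P₀ = fun Q : SpT (TI ι m) =>
      (lam Q.fst (tBase Q.snd) + (1 - θ) * Real.log (tA α Q.snd).det.re) +
        (θ * Real.log (‖(tMat α Q.snd * (tMat α P₀)ᴴ).det‖ ^ 2) +
          ((Fintype.card ι : ℝ) - θ * Real.log (tA α P₀).det.re)) := by
  funext Q
  unfold gsup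
  ring

theorem s6g_gsup_contDiffAt (α : Fin m → ℝ) (θ : ℝ) {lam : ℝ → CE ι → ℝ} {Ω' : Set (ℝ × CE ι)}
    (hΩ : IsOpen Ω') (hlam : ContDiffOn ℝ ∞ (fun q : ℝ × CE ι => lam q.1 q.2) Ω')
    {P₀ : CE (TI ι m)} {Q : SpT (TI ι m)} (hQ : Q ∈ tReg α Ω' P₀) :
    ContDiffAt ℝ ∞ (gsup α θ lam P₀) Q := by
  rw [s6g_gsup_eq]
  exact ((contDiffAt_base (s6g_lam_contDiffAt hΩ hlam hQ)).add
    (contDiffAt_const.mul (contDiffAt_logdet α (tReg_posDef hQ)))).add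
    ((contDiffAt_const.mul (contDiffAt_logdet_hol α _ hQ.2)).add contDiffAt_const)

theorem gsup_contDiffOn (α : Fin m → ℝ) (θ : ℝ) {lam : ℝ → CE ι → ℝ} {Ω' : Set (ℝ × CE ι)}
    (hΩ : IsOpen Ω') (hlam : ContDiffOn ℝ ∞ (fun q : ℝ × CE ι => lam q.1 q.2) Ω')
    (P₀ : CE (TI ι m)) : ContDiffOn ℝ 2 (gsup α θ lam P₀) (tReg α Ω' P₀) := fun _ hQ =>
  ((s6g_gsup_contDiffAt α θ hΩ hlam hQ).of_le lv_two_le_infty).contDiffWithinAt

theorem gsup_fderiv_time (α : Fin m → ℝ) (θ : ℝ) {lam : ℝ → CE ι → ℝ} {Ω' : Set (ℝ × CE ι)}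
    (hΩ : IsOpen Ω') (hlam : ContDiffOn ℝ ∞ (fun q : ℝ × CE ι => lam q.1 q.2) Ω')
    {P₀ : CE (TI ι m)} {Q : SpT (TI ι m)} (hQ : Q ∈ tReg α Ω' P₀) :
    fderiv ℝ (gsup α θ lam P₀) Q (spt 1 0) = deriv (fun s => lam s (tBase Q.snd)) Q.fst := by
  have hG : DifferentiableAt ℝ (gsup α θ lam P₀) Q :=
    (s6g_gsup_contDiffAt α θ hΩ hlam hQ).differentiableAt (by simp)
  have h1 : HasFDerivAt (gsup α θ lam P₀) (fderiv ℝ (gsup α θ lam P₀) Q) (spt Q.fst Q.snd) :=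
    hG.hasFDerivAt
  have h2 := (h1.comp_hasDerivAt Q.fst (s6g_hasDerivAt_spt Q.fst Q.snd)).deriv
  rw [← h2]
  have e : (gsup α θ lam P₀ ∘ fun s : ℝ => spt s Q.snd) = fun s : ℝ =>
      lam s (tBase Q.snd) + ((1 - θ) * Real.log (tA α Q.snd).det.re +
        (θ * Real.log (‖(tMat α Q.snd * (tMat α P₀)ᴴ).det‖ ^ 2) +
          ((Fintype.card ι : ℝ) - θ * Real.log (tA α P₀).det.re))) := by
    funext s
    simp only [Function.comp_apply, gsup, spt_fst, spt_snd]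
    ring
  rw [e, deriv_add_const]

/-- the Levi form of `g_θ`. -/
theorem s6g_levG_gsup (α : Fin m → ℝ) (θ : ℝ) {lam : ℝ → CE ι → ℝ} {Ω' : Set (ℝ × CE ι)}
    (hΩ : IsOpen Ω') (hlam : ContDiffOn ℝ ∞ (fun q : ℝ × CE ι => lam q.1 q.2) Ω')
    {P₀ : CE (TI ι m)} {Q : SpT (TI ι m)} (hQ : Q ∈ tReg α Ω' P₀) (Z : CE (TI ι m)) :
    levG (gsup α θ lam P₀) Q Z = qf (levi (lam Q.fst) (tBase Q.snd)) (tBase Z) +
      (1 - θ) * levG (fun Q' : SpT (TI ι m) => Real.log (tA α Q'.snd).det.re) Q Z := by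
  have hl := s6g_lam_contDiffAt hΩ hlam hQ
  have c1 := (contDiffAt_base hl).of_le lv_two_le_infty
  have c2 := (contDiffAt_logdet α (tReg_posDef hQ)).of_le lv_two_le_infty
  have c3 := (contDiffAt_logdet_hol α _ hQ.2).of_le lv_two_le_infty
  have c2' : ContDiffAt ℝ 2
      (fun Q' : SpT (TI ι m) => (1 - θ) * Real.log (tA α Q'.snd).det.re) Q :=
    contDiffAt_const.mul c2
  have c3' : ContDiffAt ℝ 2 (fun Q' : SpT (TI ι m) =>
      θ * Real.log (‖(tMat α Q'.snd * (tMat α P₀)ᴴ).det‖ ^ 2)) Q :=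
    contDiffAt_const.mul c3
  have c4 : ContDiffAt ℝ 2 (fun _ : SpT (TI ι m) =>
      ((Fintype.card ι : ℝ) - θ * Real.log (tA α P₀).det.re)) Q := contDiffAt_const
  rw [s6g_gsup_eq, levG_add (c1.add c2') (c3'.add c4), levG_add c1 c2', levG_add c3' c4,
    levG_const_mul _ c2, levG_const_mul _ c3, levG_const, levG_logdet_hol α _ hQ.2, levG_base hl]
  ring

/-- `eq:aggregate-levi`, right hand side. -/
theorem gsup_levG_ge (α : Fin m → ℝ) {θ : ℝ} (h0 : 0 ≤ θ) (h1 : θ ≤ 1) {lam : ℝ → CE ι → ℝ}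
    {Ω' : Set (ℝ × CE ι)} (hΩ : IsOpen Ω')
    (hlam : ContDiffOn ℝ ∞ (fun q : ℝ × CE ι => lam q.1 q.2) Ω') {P₀ : CE (TI ι m)}
    {Q : SpT (TI ι m)} (hQ : Q ∈ tReg α Ω' P₀) (Z : CE (TI ι m)) :
    qf (levi (lam Q.fst) (tBase Q.snd)) (tBase Z) ≤ levG (gsup α θ lam P₀) Q Z := by
  rw [s6g_levG_gsup α θ hΩ hlam hQ]
  have h2 := mul_nonneg (sub_nonneg.2 h1) (levG_logdet_nonneg α (tReg_posDef hQ) Z)
  linarith

/-- `eq:single-column`. -/
theorem gsup_levG_col (α : Fin m → ℝ) (hα : ∀ i, 0 ≤ α i) {θ : ℝ} (h0 : 0 ≤ θ) (h1 : θ ≤ 1)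
    {lam : ℝ → CE ι → ℝ} {Ω' : Set (ℝ × CE ι)} (hΩ : IsOpen Ω')
    (hlam : ContDiffOn ℝ ∞ (fun q : ℝ × CE ι => lam q.1 q.2) Ω') {P₀ : CE (TI ι m)}
    {Q : SpT (TI ι m)} (hQ : Q ∈ tReg α Ω' P₀) (i : Fin m) (V : CE ι) :
    (1 - θ) * (α i * (1 - α i * qf (tA α Q.snd)⁻¹ (tCol i Q.snd)) * qf (tA α Q.snd)⁻¹ V) ≤
      levG (gsup α θ lam P₀) Q (tJoin 0 (Pi.single i V)) := by
  rw [s6g_levG_gsup α θ hΩ hlam hQ, s6g_levG_logdet_col_eq α hα (tReg_posDef hQ), tBase_tJoin]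
  have h2 : qf (levi (lam Q.fst) (tBase Q.snd)) ((0 : CE ι) : ι → ℂ) = 0 := by
    simp [qf]
  rw [h2, zero_add]

end Claimed.Agent.R316.S6
end

/- ===== packed: Claimed.Agent.R316.S6.Equality ===== -/
section
/-!
# S6-10 / S6-11 / S6-12: the product support inequality, its equality set, neighbourhoods of the equality set

The claimers own their sections: replace the `sorry`s IN PLACE, keep the statements (prefix of auxiliary lemmas `s6e_`; problems: msg helper126).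

## S6-10 (~400 lines): `support_ineq`, `gsup_le`, `gsup_eq_self`
`support_ineq` (`eq:product-support`): take an optimiser `B'` of the fibre function at `(s, x)` (`john_exists` with `H.b₀_pos, H.low, H.up`), `Lvol v s x = log det B'` (`IsOpt.logVol_eq`);
`∑ α_i v s (x, ξ_i) ≥ ∑ α_i qf B' ξ_i = tr (B' A)` (`s6_sum_qf`) `≥ n + log det B' + log det A` (`herm_trace_ge`).
`gsup_le`: `gsup = n + lam + log det A - θ η`, `η = log det A + log det A₀ - log ‖det (M M₀ᴴ)‖² ≥ 0` by `gram_cs` (`Real.log_le_log`, `Real.log_mul`), `lam ≤ Lvol`.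
`gsup_eq_self`: at `P₀`: `M₀ M₀ᴴ = A₀ = B⁻¹`, `‖det A₀‖² = (det A₀)²`, `log det B + log det B⁻¹ = 0`.

## S6-11 (~500 lines): `Zmod_*`, `gsup_eq_mem`
`Zmod` is closed (continuity of `tA`, `tMat`, `det`) and bounded (`tr A = ∑ α_i ‖ξ_i‖² = tr B⁻¹`, `α_i > 0`).
`Zmod_qf`: on `Zmod`, `‖det (M M₀ᴴ)‖² = det (M Mᴴ) det (M₀ M₀ᴴ)`, so `M = G M₀` (`gram_cs_eq`), `G B⁻¹ Gᴴ = B⁻¹`, `Gᴴ B G = B` (`gram_unitary`); column `i`: `√α_i ξ_i = G √α_i ξ⁰_i`.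
`gsup_eq_mem`: chain `∑ α_i v ≥ tr (B' A) ≥ n + Lvol + log det A ≥ n + lam + quartic + log det A = gsup + quartic + θ η`; equality forces `quartic = 0`, `η = 0`; then `(s, x) = (s₀, x₀)` and with the GIVEN optimiser `B`:
`∑ α_i v ≥ tr (B A) ≥ n + log det B + log det A`, equality, so `A = B⁻¹` (`herm_trace_eq_iff`).

## S6-12 (~450 lines): `near_Zmod`
Each of the five properties holds on an open set containing the compact `Zmod` (continuity of `(s,x) ↦ ∂_s lam`, of the entries of `levi (lam s) x` (`contDiffOn_levi`-type lemmas with parameter: differentiate the jointly smooth function), of `A ↦ A⁻¹` at invertible matrices, `Zmod_qf`);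
`IsCompact.exists_thickening_subset_open`.  For the matrix inequalities: if `‖E j k‖ ≤ δ'` for all entries then `|qf E X| ≤ n δ' ‖X‖²`; `qf B X ≥ c ‖X‖²`.
-/

set_option autoImplicit false
set_option linter.unusedSectionVars false
open scoped ContDiff ComplexOrder Topology RealInnerProductSpace

namespace Claimed.Agent.R316.S6

open Claimed.Agent.R316 Claimed.Agent.R316.B13 Matrix

variable {ι : Type} [Fintype ι] [DecidableEq ι] {m : ℕ}
variable {Ω Ω' : Set (ℝ × CE ι)} {v : ℝ → CE (ι ⊕ ι) → ℝ} {b₀ b : ℝ → CE ι → Matrix ι ι ℂ}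

/-! ### S6-10 -/

/-- an optimiser exists in every fibre. -/
theorem LocEnv.exists_opt (H : LocEnv Ω v b₀ b) {s : ℝ} {x : CE ι} (h : (s, x) ∈ Ω) :
    ∃ B, IsOpt (fun ξ => v s (cJoin x ξ)) B :=
  john_exists (H.b₀_pos s x h) (fun ξ => H.low s x h ξ) (fun ξ => H.up s x h ξ)

/-- the support inequality for a given optimiser. -/
theorem s6e_support_opt {s : ℝ} {x : CE ι} {B : Matrix ι ι ℂ}
    (hB : IsOpt (fun ξ => v s (cJoin x ξ)) B) {α : Fin m → ℝ}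
    (hα : ∀ i, 0 ≤ α i) {P : CE (TI ι m)} (hP : tBase P = x) :
    (B * tA α P).trace.re ≤ ∑ i, α i * v s (tProj i P) := by
  rw [← s6_sum_qf α hα]
  refine Finset.sum_le_sum fun i _ => mul_le_mul_of_nonneg_left ?_ (hα i)
  rw [tProj_apply, hP]
  exact hB.feas (tCol i P)

/-- `eq:product-support`. -/
theorem support_ineq (H : LocEnv Ω v b₀ b) {s : ℝ} {x : CE ι} (h : (s, x) ∈ Ω) {α : Fin m → ℝ}
    (hα : ∀ i, 0 ≤ α i) {P : CE (TI ι m)} (hP : tBase P = x) (hA : (tA α P).PosDef) :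
    (Fintype.card ι : ℝ) + Lvol v s x + Real.log (tA α P).det.re ≤
      ∑ i, α i * v s (tProj i P) := by
  obtain ⟨B, hB⟩ := H.exists_opt h
  have h1 : Lvol v s x = Real.log B.det.re := hB.logVol_eq
  rw [h1]
  exact (herm_trace_ge hB.posDef hA).trans (s6e_support_opt hB hα hP)

/-- the Grassmannian penalty is nonnegative. -/
theorem s6e_eta_nonneg {α : Fin m → ℝ} {P P₀ : CE (TI ι m)} (hA₀ : (tA α P₀).PosDef)
    (hP : (tMat α P * (tMat α P₀)ᴴ).det ≠ 0) :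
    Real.log (‖(tMat α P * (tMat α P₀)ᴴ).det‖ ^ 2) ≤
      Real.log (tA α P).det.re + Real.log (tA α P₀).det.re := by
  have h1 : ‖(tMat α P * (tMat α P₀)ᴴ).det‖ ^ 2 ≤ (tA α P).det.re * (tA α P₀).det.re :=
    gram_cs (tMat α P) hA₀
  have h2 : 0 < ‖(tMat α P * (tMat α P₀)ᴴ).det‖ ^ 2 := by positivity
  have h3 : 0 < (tA α P).det.re := det_re_pos_of_posDef (gram_posDef_of_det_ne hP)
  have h4 : 0 < (tA α P₀).det.re := det_re_pos_of_posDef hA₀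
  have h5 := Real.log_le_log h2 h1
  rwa [Real.log_mul h3.ne' h4.ne'] at h5

theorem s6e_onST_piST (i : Fin m) (Q : SpT (TI ι m)) :
    onST v (piST i Q) = v Q.fst (tProj i Q.snd) := rfl

theorem gsup_le (H : LocEnv Ω v b₀ b) (hΩ' : Ω' ⊆ Ω) {lam : ℝ → CE ι → ℝ}
    (hlam : ∀ q ∈ Ω', lam q.1 q.2 ≤ Lvol v q.1 q.2) {α : Fin m → ℝ} (hα : ∀ i, 0 ≤ α i) {θ : ℝ}
    (h0 : 0 ≤ θ) {P₀ : CE (TI ι m)} (hA₀ : (tA α P₀).PosDef) {Q : SpT (TI ι m)}
    (hQ : Q ∈ tReg α Ω' P₀) : gsup α θ lam P₀ Q ≤ ∑ i, α i * onST v (piST i Q) := by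
  have h1 := support_ineq H (hΩ' hQ.1) hα rfl (tReg_posDef hQ)
  have h2 := hlam _ hQ.1
  have h3 := mul_le_mul_of_nonneg_left (s6e_eta_nonneg hA₀ hQ.2) h0
  simp only [s6e_onST_piST]
  unfold gsup
  simp only at h2
  nlinarith

theorem s6e_log_det_inv {B : Matrix ι ι ℂ} (hB : B.PosDef) :
    Real.log (B⁻¹).det.re = - Real.log B.det.re := by
  have h := herm_log_ratio hB hB.inv
  rw [div_self (det_re_ne_zero_of_posDef hB.inv), Real.log_one] at h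
  linarith

theorem s6e_norm_det_sq {A : Matrix ι ι ℂ} (hA : A.PosDef) : ‖A.det‖ = A.det.re := by
  rw [← ofReal_det_re_of_posDef hA, Complex.norm_real, Real.norm_eq_abs, Complex.ofReal_re,
    abs_of_pos (det_re_pos_of_posDef hA)]

theorem gsup_eq_self {lam : ℝ → CE ι → ℝ} {s₀ : ℝ} {x₀ : CE ι} {B : Matrix ι ι ℂ}
    (hB : IsOpt (fun ξ => v s₀ (cJoin x₀ ξ)) B) (hlam : lam s₀ x₀ = Lvol v s₀ x₀)
    {α : Fin m → ℝ} (θ : ℝ) {P₀ : CE (TI ι m)} (hP₀ : tBase P₀ = x₀) (hA₀ : tA α P₀ = B⁻¹)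
    (hc : ∀ i, v s₀ (cJoin x₀ (tCol i P₀)) = 1) (hsum : ∑ i, α i = Fintype.card ι) :
    ∑ i, α i * onST v (piST i (spt s₀ P₀)) = gsup α θ lam P₀ (spt s₀ P₀) := by
  have h1 : Lvol v s₀ x₀ = Real.log B.det.re := hB.logVol_eq
  have h2 : ∀ i, onST v (piST i (spt s₀ P₀)) = 1 := fun i => by
    rw [s6e_onST_piST, spt_fst, spt_snd, tProj_apply, hP₀, hc]
  have h3 : tMat α P₀ * (tMat α P₀)ᴴ = B⁻¹ := hA₀
  simp only [h2, mul_one, hsum]
  unfold gsup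
  rw [spt_fst, spt_snd, hP₀, hlam, h1, h3, hA₀, s6e_norm_det_sq hB.posDef.inv, Real.log_pow,
    s6e_log_det_inv hB.posDef]
  push_cast
  ring

/-! ### S6-11 -/

/-- the model equality set (a compact subset of the `B⁻¹`-unitary orbit of the contact tuple). -/
def Zmod (α : Fin m → ℝ) (s₀ : ℝ) (x₀ : CE ι) (B : Matrix ι ι ℂ) (P₀ : CE (TI ι m)) :
    Set (SpT (TI ι m)) :=
  {Q | Q.fst = s₀ ∧ tBase Q.snd = x₀ ∧ tA α Q.snd = B⁻¹ ∧
    ‖(tMat α Q.snd * (tMat α P₀)ᴴ).det‖ = (B⁻¹).det.re}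

theorem s6e_qf_one (ξ : CE ι) : qf (1 : Matrix ι ι ℂ) ξ = ‖ξ‖ ^ 2 := by
  rw [EuclideanSpace.norm_sq_eq]
  unfold qf
  rw [Matrix.one_mulVec, dotProduct, Complex.re_sum]
  refine Finset.sum_congr rfl fun j _ => ?_
  rw [Pi.star_apply, Complex.star_def, ← Complex.normSq_eq_conj_mul_self, Complex.ofReal_re,
    Complex.normSq_eq_norm_sq]

theorem s6e_Zmod_isClosed (α : Fin m → ℝ) (s₀ : ℝ) (x₀ : CE ι)
    (B : Matrix ι ι ℂ) (P₀ : CE (TI ι m)) : IsClosed (Zmod α s₀ x₀ B P₀) := by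
  have h1 : IsClosed {Q : SpT (TI ι m) | Q.fst = s₀} :=
    isClosed_eq s6g_continuous_fst continuous_const
  have h2 : IsClosed {Q : SpT (TI ι m) | tBase Q.snd = x₀} :=
    isClosed_eq (s6_continuous_tBase.comp s6g_continuous_snd) continuous_const
  have h3 : IsClosed {Q : SpT (TI ι m) | tA α Q.snd = B⁻¹} :=
    isClosed_eq ((s6_continuous_tA α).comp s6g_continuous_snd) continuous_const
  have h4 : IsClosed {Q : SpT (TI ι m) |
      ‖(tMat α Q.snd * (tMat α P₀)ᴴ).det‖ = (B⁻¹).det.re} :=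
    isClosed_eq ((((s6_continuous_tMat α).comp s6g_continuous_snd).matrix_mul
      continuous_const).matrix_det.norm) continuous_const
  exact h1.inter (h2.inter (h3.inter h4))

theorem Zmod_isCompact {α : Fin m → ℝ} (hα : ∀ i, 0 < α i) (s₀ : ℝ) (x₀ : CE ι)
    (B : Matrix ι ι ℂ) (P₀ : CE (TI ι m)) : IsCompact (Zmod α s₀ x₀ B P₀) := by
  refine Metric.isCompact_of_isClosed_isBounded (s6e_Zmod_isClosed α s₀ x₀ B P₀) ?_
  rw [isBounded_iff_forall_norm_le]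
  refine ⟨1 + (s₀ ^ 2 + (‖x₀‖ ^ 2 + ∑ i, (B⁻¹).trace.re / α i)), ?_⟩
  rintro Q ⟨h1, h2, h3, -⟩
  have e1 : ‖Q‖ ^ 2 = Q.fst ^ 2 + ‖Q.snd‖ ^ 2 := s6_norm_spt_sq Q.fst Q.snd
  have e2 : ‖Q.snd‖ ^ 2 = ‖tBase Q.snd‖ ^ 2 + ∑ i, ‖tCol i Q.snd‖ ^ 2 := by
    rw [← s6_norm_tJoin_sq, tJoin_eta]
  have e3 := s6_sum_qf α (fun i => (hα i).le) 1 Q.snd
  rw [Matrix.one_mul, h3] at e3
  simp only [s6e_qf_one] at e3
  have e4 : ∀ i, ‖tCol i Q.snd‖ ^ 2 ≤ (B⁻¹).trace.re / α i := fun i => by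
    rw [le_div_iff₀ (hα i), ← e3, mul_comm]
    exact Finset.single_le_sum (f := fun i => α i * ‖tCol i Q.snd‖ ^ 2)
      (fun j _ => mul_nonneg (hα j).le (sq_nonneg _)) (Finset.mem_univ i)
  have e5 := Finset.sum_le_sum fun i (_ : i ∈ Finset.univ) => e4 i
  rw [h1, e2, h2] at e1
  nlinarith [sq_nonneg (‖Q‖ - 1)]

theorem Zmod_subset_tReg {α : Fin m → ℝ} {s₀ : ℝ} {x₀ : CE ι} {B : Matrix ι ι ℂ} (hB : B.PosDef)
    (h₀ : (s₀, x₀) ∈ Ω') (P₀ : CE (TI ι m)) : Zmod α s₀ x₀ B P₀ ⊆ tReg α Ω' P₀ := by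
  rintro Q ⟨h1, h2, -, h4⟩
  refine ⟨by rw [h1, h2]; exact h₀, fun h => ?_⟩
  rw [h, norm_zero] at h4
  exact (det_re_pos_of_posDef hB.inv).ne h4

theorem Zmod_self {α : Fin m → ℝ} (s₀ : ℝ) {x₀ : CE ι} {B : Matrix ι ι ℂ} (hB : B.PosDef)
    {P₀ : CE (TI ι m)} (hP₀ : tBase P₀ = x₀) (hA₀ : tA α P₀ = B⁻¹) :
    spt s₀ P₀ ∈ Zmod α s₀ x₀ B P₀ := by
  refine ⟨rfl, hP₀, hA₀, ?_⟩
  have h3 : tMat α P₀ * (tMat α P₀)ᴴ = B⁻¹ := hA₀
  rw [spt_snd, h3, s6e_norm_det_sq hB.inv]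

theorem s6e_tMat_col (α : Fin m → ℝ) (P : CE (TI ι m)) (i : Fin m) :
    (fun j => tMat α P j i) = ((Real.sqrt (α i) : ℝ) : ℂ) • (tCol i P : ι → ℂ) := rfl

theorem Zmod_qf {α : Fin m → ℝ} (hα : ∀ i, 0 < α i) {s₀ : ℝ} {x₀ : CE ι} {B : Matrix ι ι ℂ}
    (hB : B.PosDef) {P₀ : CE (TI ι m)} (hA₀ : tA α P₀ = B⁻¹) {Q : SpT (TI ι m)}
    (hQ : Q ∈ Zmod α s₀ x₀ B P₀) (i : Fin m) :
    qf B (tCol i Q.snd) = qf B (tCol i P₀) := by
  obtain ⟨-, -, h3, h4⟩ := hQ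
  have hM : tMat α Q.snd * (tMat α Q.snd)ᴴ = B⁻¹ := h3
  have hN : tMat α P₀ * (tMat α P₀)ᴴ = B⁻¹ := hA₀
  obtain ⟨G, hG⟩ := gram_cs_eq (M := tMat α Q.snd) (N := tMat α P₀) (by rw [hM]; exact hB.inv)
    (by rw [hN]; exact hB.inv) (by rw [h4, hM, hN]; ring)
  have hGB : G * B⁻¹ * Gᴴ = B⁻¹ := by
    calc G * B⁻¹ * Gᴴ = (G * tMat α P₀) * (G * tMat α P₀)ᴴ := by
          rw [← hN, Matrix.conjTranspose_mul]
          simp only [Matrix.mul_assoc]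
      _ = B⁻¹ := by rw [← hG, hM]
  have hU := gram_unitary hB hGB
  have hs : ((Real.sqrt (α i) : ℝ) : ℂ) ≠ 0 :=
    Complex.ofReal_ne_zero.2 (Real.sqrt_pos.2 (hα i)).ne'
  have hcol : (tCol i Q.snd : ι → ℂ) = G.mulVec (tCol i P₀ : ι → ℂ) := by
    have h5 : (fun j => tMat α Q.snd j i) = G.mulVec fun j => tMat α P₀ j i := by
      rw [hG]
      rfl
    rw [s6e_tMat_col, s6e_tMat_col, Matrix.mulVec_smul] at h5
    exact smul_right_injective _ hs h5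
  rw [hcol, ← lv_qf_conjTranspose_mul_mul, hU]


theorem gsup_eq_mem (H : LocEnv Ω v b₀ b) (hΩ' : Ω' ⊆ Ω) {lam : ℝ → CE ι → ℝ} {s₀ : ℝ}
    {x₀ : CE ι}
    (hstrict : ∀ q ∈ Ω', lam q.1 q.2 + ((q.1 - s₀) ^ 2 + ‖q.2 - x₀‖ ^ 2) ^ 2 ≤ Lvol v q.1 q.2)
    {B : Matrix ι ι ℂ} (hB : IsOpt (fun ξ => v s₀ (cJoin x₀ ξ)) B) {α : Fin m → ℝ}
    (hα : ∀ i, 0 < α i) {θ : ℝ} (hθ : 0 < θ) {P₀ : CE (TI ι m)} (hA₀ : tA α P₀ = B⁻¹)
    {Q : SpT (TI ι m)} (hQ : Q ∈ tReg α Ω' P₀)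
    (heq : ∑ i, α i * onST v (piST i Q) = gsup α θ lam P₀ Q) : Q ∈ Zmod α s₀ x₀ B P₀ := by
  have hα' : ∀ i, 0 ≤ α i := fun i => (hα i).le
  have hA : (tA α Q.snd).PosDef := tReg_posDef hQ
  have hA₀' : (tA α P₀).PosDef := by rw [hA₀]; exact hB.posDef.inv
  have h1 := support_ineq H (hΩ' hQ.1) hα' rfl hA
  have h2 := hstrict _ hQ.1
  have h3 := s6e_eta_nonneg hA₀' hQ.2
  simp only [s6e_onST_piST] at heq
  simp only at h2
  rw [heq] at h1
  unfold gsup at h1 heq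
  set L := Real.log (tA α Q.snd).det.re with hL
  set L₀ := Real.log (tA α P₀).det.re with hL₀
  set h := Real.log (‖(tMat α Q.snd * (tMat α P₀)ᴴ).det‖ ^ 2) with hh
  set q2 := (Q.fst - s₀) ^ 2 + ‖tBase Q.snd - x₀‖ ^ 2 with hq2
  have hq2' : 0 ≤ q2 := by positivity
  have h4 : q2 ^ 2 + θ * (L + L₀ - h) ≤ 0 := by nlinarith
  have h5 : 0 ≤ θ * (L + L₀ - h) := mul_nonneg hθ.le (by linarith)
  have h6 : q2 ^ 2 = 0 := le_antisymm (by linarith) (sq_nonneg _)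
  have h7 : θ * (L + L₀ - h) = 0 := le_antisymm (by nlinarith) h5
  have h8 : L + L₀ - h = 0 := (mul_eq_zero.1 h7).resolve_left hθ.ne'
  have h9 : q2 = 0 := by simpa using h6
  have hs : Q.fst = s₀ := by
    have : (Q.fst - s₀) ^ 2 = 0 := le_antisymm (by nlinarith [sq_nonneg ‖tBase Q.snd - x₀‖])
      (sq_nonneg _)
    have := pow_eq_zero_iff (two_ne_zero) |>.1 this
    linarith
  have hx : tBase Q.snd = x₀ := by
    have : ‖tBase Q.snd - x₀‖ ^ 2 = 0 := le_antisymm (by nlinarith [sq_nonneg (Q.fst - s₀)])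
      (sq_nonneg _)
    have := pow_eq_zero_iff (two_ne_zero) |>.1 this
    exact sub_eq_zero.1 (norm_eq_zero.1 this)
  have hLv : Lvol v s₀ x₀ = Real.log B.det.re := hB.logVol_eq
  have h10 := s6e_support_opt hB hα' hx
  have h11 := herm_trace_ge hB.posDef hA
  rw [hs, hx] at h2 heq
  rw [heq] at h10
  rw [hLv, h6] at h2
  have h12 : (B * tA α Q.snd).trace.re =
      (Fintype.card ι : ℝ) + Real.log B.det.re + Real.log (tA α Q.snd).det.re := by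
    refine le_antisymm ?_ h11
    rw [← hL]
    nlinarith
  have hAB : tA α Q.snd = B⁻¹ := (herm_trace_eq_iff hB.posDef hA).1 h12
  refine ⟨hs, hx, hAB, ?_⟩
  have hpos : 0 < (B⁻¹).det.re := det_re_pos_of_posDef hB.posDef.inv
  have h13 : h = Real.log ((B⁻¹).det.re ^ 2) := by
    rw [Real.log_pow]
    have e1 : L = Real.log (B⁻¹).det.re := by rw [hL, hAB]
    have e2 : L₀ = Real.log (B⁻¹).det.re := by rw [hL₀, hA₀]
    push_cast
    linarith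
  have h14 : ‖(tMat α Q.snd * (tMat α P₀)ᴴ).det‖ ^ 2 = (B⁻¹).det.re ^ 2 :=
    Real.log_injOn_pos (Set.mem_Ioi.2 (by have := hQ.2; positivity))
      (Set.mem_Ioi.2 (by positivity)) h13
  exact (pow_left_inj₀ (norm_nonneg _) hpos.le two_ne_zero).1 h14

/-! ### S6-12 -/

theorem s6e_three_le_infty : (3 : WithTop ℕ∞) ≤ ((⊤ : ℕ∞) : WithTop ℕ∞) := by
  have : ((3 : ℕ∞) : WithTop ℕ∞) ≤ ((⊤ : ℕ∞) : WithTop ℕ∞) := by exact_mod_cast le_top
  exact this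

theorem s6e_continuousAt_fderiv {E : Type*} [NormedAddCommGroup E] [NormedSpace ℝ E] {g : E → ℝ}
    {Q : E} (hg : ContDiffAt ℝ ∞ g Q) : ContinuousAt (fderiv ℝ g) Q :=
  ((hg.of_le lv_two_le_infty).fderiv_right (m := 1) (by norm_num)).continuousAt

theorem s6e_continuousAt_fderiv2 {E : Type*} [NormedAddCommGroup E] [NormedSpace ℝ E] {g : E → ℝ}
    {Q : E} (hg : ContDiffAt ℝ ∞ g Q) : ContinuousAt (fderiv ℝ (fderiv ℝ g)) Q :=
  (((hg.of_le s6e_three_le_infty).fderiv_right (m := 2) (by norm_num)).fderiv_right (m := 1)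
    (by norm_num)).continuousAt

theorem s6e_eventually_fderiv2_close {E : Type*} [NormedAddCommGroup E] [NormedSpace ℝ E]
    {g : E → ℝ} {Q₀ : E} (hg : ContDiffAt ℝ ∞ g Q₀) {δ : ℝ} (hδ : 0 < δ) :
    ∀ᶠ Q in 𝓝 Q₀, ‖fderiv ℝ (fderiv ℝ g) Q - fderiv ℝ (fderiv ℝ g) Q₀‖ < δ := by
  have c2 : Filter.Tendsto (fderiv ℝ (fderiv ℝ g)) (𝓝 Q₀) (𝓝 (fderiv ℝ (fderiv ℝ g) Q₀)) :=
    s6e_continuousAt_fderiv2 hg
  have h0 := (tendsto_iff_norm_sub_tendsto_zero (f := fderiv ℝ (fderiv ℝ g)) (a := 𝓝 Q₀)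
    (b := fderiv ℝ (fderiv ℝ g) Q₀)).1 c2
  exact h0.eventually (gt_mem_nhds hδ)

theorem s6e_norm_spt_zero {κ : Type} [Fintype κ] (Z : CE κ) : ‖spt 0 Z‖ = ‖Z‖ := by
  have h := s6_norm_spt_sq 0 Z
  have h' : ‖spt 0 Z‖ ^ 2 = ‖Z‖ ^ 2 := by rw [h]; ring
  exact (pow_left_inj₀ (norm_nonneg _) (norm_nonneg _) two_ne_zero).1 h'

/-- `levG` depends continuously on the second derivative. -/
theorem s6e_levG_sub_le {κ : Type} [Fintype κ] (g : SpT κ → ℝ) (Q Q₀ : SpT κ) (Z : CE κ) :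
    levG g Q₀ Z - ‖fderiv ℝ (fderiv ℝ g) Q - fderiv ℝ (fderiv ℝ g) Q₀‖ * ‖Z‖ ^ 2 ≤ levG g Q Z := by
  set D := fderiv ℝ (fderiv ℝ g) Q - fderiv ℝ (fderiv ℝ g) Q₀ with hD
  have h1 : ∀ a : SpT κ, fderiv ℝ (fderiv ℝ g) Q₀ a a - ‖D‖ * ‖a‖ ^ 2 ≤
      fderiv ℝ (fderiv ℝ g) Q a a := fun a => by
    have h2 := D.le_opNorm₂ a a
    have h3 : D a a = fderiv ℝ (fderiv ℝ g) Q a a - fderiv ℝ (fderiv ℝ g) Q₀ a a := by
      rw [hD]
      simp only [_root_.sub_apply]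
    rw [h3, Real.norm_eq_abs] at h2
    have h4 := (abs_le.1 h2).1
    nlinarith
  have h5 := h1 (spt 0 Z)
  have h6 := h1 (spt 0 (Complex.I • Z))
  rw [s6e_norm_spt_zero] at h5 h6
  rw [s6_norm_I_smul] at h6
  have h7 : 0 ≤ ‖D‖ * ‖Z‖ ^ 2 := by positivity
  unfold levG
  linarith

theorem s6e_continuous_qf :
    Continuous fun q : Matrix ι ι ℂ × (ι → ℂ) => qf q.1 q.2 := by
  unfold qf
  refine Complex.continuous_re.comp ?_
  exact Continuous.dotProduct (continuous_star.comp continuous_snd)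
    (Continuous.matrix_mulVec continuous_fst continuous_snd)

theorem s6e_continuousAt_tA_inv (α : Fin m → ℝ) {Q : SpT (TI ι m)} (hQ : (tA α Q.snd).PosDef) :
    ContinuousAt (fun Q' : SpT (TI ι m) => (tA α Q'.snd)⁻¹) Q := by
  refine continuousAt_pi.2 fun j => continuousAt_pi.2 fun k => ?_
  refine (contDiffAt_matInv (N := ∞) (H := fun Q' : SpT (TI ι m) => tA α Q'.snd) ?_
    (det_ne_zero_of_posDef hQ) j k).continuousAt
  intro j k
  unfold tA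
  exact contDiffAt_matMul (fun j k => (s6g_contDiff_tMat α j k).contDiffAt)
    (contDiffAt_conjTranspose fun j k => (s6g_contDiff_tMat α j k).contDiffAt) j k

theorem s6e_tA_isHermitian (α : Fin m → ℝ) (P : CE (TI ι m)) : (tA α P).IsHermitian :=
  (gram_posSemidef (tMat α P)).isHermitian


theorem near_Zmod {lam : ℝ → CE ι → ℝ} (hΩ : IsOpen Ω')
    (hlam : ContDiffOn ℝ ∞ (fun q : ℝ × CE ι => lam q.1 q.2) Ω') {s₀ : ℝ} {x₀ : CE ι}
    (h₀ : (s₀, x₀) ∈ Ω') {B : Matrix ι ι ℂ} (hB : B.PosDef) {α : Fin m → ℝ} (hα : ∀ i, 0 < α i)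
    {P₀ : CE (TI ι m)} (hA₀ : tA α P₀ = B⁻¹) (hq : ∀ i, qf B (tCol i P₀) = 1) {δ : ℝ}
    (hδ : 0 < δ) :
    ∃ ε > 0, ∀ Q ∈ Metric.thickening ε (Zmod α s₀ x₀ B P₀), Q ∈ tReg α Ω' P₀ ∧
      |deriv (fun s => lam s (tBase Q.snd)) Q.fst - deriv (fun s => lam s x₀) s₀| < δ ∧
      (∀ X : CE ι, qf (levi (lam s₀) x₀) X - δ * ‖X‖ ^ 2 ≤
        qf (levi (lam Q.fst) (tBase Q.snd)) X) ∧
      ((tA α Q.snd)⁻¹ - ((1 - δ : ℝ) : ℂ) • B).PosSemidef ∧
      ∀ i, α i * qf (tA α Q.snd)⁻¹ (tCol i Q.snd) ≤ α i + δ := by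
  set Pr : SpT (TI ι m) → Prop := fun Q => Q ∈ tReg α Ω' P₀ ∧
      |deriv (fun s => lam s (tBase Q.snd)) Q.fst - deriv (fun s => lam s x₀) s₀| < δ ∧
      (∀ X : CE ι, qf (levi (lam s₀) x₀) X - δ * ‖X‖ ^ 2 ≤
        qf (levi (lam Q.fst) (tBase Q.snd)) X) ∧
      ((tA α Q.snd)⁻¹ - ((1 - δ : ℝ) : ℂ) • B).PosSemidef ∧
      ∀ i, α i * qf (tA α Q.snd)⁻¹ (tCol i Q.snd) ≤ α i + δ with hPr
  have key : ∀ Q₀ ∈ Zmod α s₀ x₀ B P₀, ∀ᶠ Q in 𝓝 Q₀, Pr Q := by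
    intro Q₀ hQ₀
    have hreg₀ : Q₀ ∈ tReg α Ω' P₀ := Zmod_subset_tReg hB h₀ P₀ hQ₀
    have hreg : ∀ᶠ Q in 𝓝 Q₀, Q ∈ tReg α Ω' P₀ := (tReg_isOpen α hΩ P₀).mem_nhds hreg₀
    have hqf := Zmod_qf hα hB hA₀ hQ₀
    obtain ⟨hs, hx, hA, -⟩ := hQ₀
    have hAinv : (tA α Q₀.snd)⁻¹ = B := by rw [hA, herm_inv_inv hB]
    have hApos : (tA α Q₀.snd).PosDef := tReg_posDef hreg₀
    have hl₀ := s6g_lam_contDiffAt hΩ hlam hreg₀
    have hG₀ := contDiffAt_base hl₀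
    -- (2)
    have c1 := s6e_continuousAt_fderiv hG₀
    have e2 : ∀ᶠ Q in 𝓝 Q₀,
        |deriv (fun s => lam s (tBase Q.snd)) Q.fst - deriv (fun s => lam s x₀) s₀| < δ := by
      have c1' : ContinuousAt (fun Q : SpT (TI ι m) =>
          fderiv ℝ (fun Q' : SpT (TI ι m) => lam Q'.fst (tBase Q'.snd)) Q (spt 1 0)) Q₀ :=
        c1.clm_apply continuousAt_const
      have h1 := Metric.continuousAt_iff'.1 c1' δ hδ
      filter_upwards [h1, hreg] with Q hQ hQr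
      rw [fderiv_base_time (s6g_lam_contDiffAt hΩ hlam hQr), fderiv_base_time hl₀, hs, hx,
        Real.dist_eq] at hQ
      exact hQ
    -- (3)
    have e3 : ∀ᶠ Q in 𝓝 Q₀, ∀ X : CE ι, qf (levi (lam s₀) x₀) X - δ * ‖X‖ ^ 2 ≤
        qf (levi (lam Q.fst) (tBase Q.snd)) X := by
      have h1 := s6e_eventually_fderiv2_close hG₀ hδ
      filter_upwards [h1, hreg] with Q hQ hQr X
      have h2 := s6e_levG_sub_le (fun Q' : SpT (TI ι m) => lam Q'.fst (tBase Q'.snd)) Q Q₀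
        (tJoin X 0)
      rw [levG_base (s6g_lam_contDiffAt hΩ hlam hQr), levG_base hl₀, hs, hx, tBase_tJoin,
        s6_norm_tJoin_sq] at h2
      simp only [Pi.zero_apply, norm_zero, ne_eq, OfNat.ofNat_ne_zero, not_false_eq_true, zero_pow,
        Finset.sum_const_zero, add_zero] at h2
      have h3 : ‖fderiv ℝ (fderiv ℝ fun Q' : SpT (TI ι m) => lam Q'.fst (tBase Q'.snd)) Q -
          fderiv ℝ (fderiv ℝ fun Q' : SpT (TI ι m) => lam Q'.fst (tBase Q'.snd)) Q₀‖ * ‖X‖ ^ 2 ≤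
          δ * ‖X‖ ^ 2 := mul_le_mul_of_nonneg_right hQ.le (sq_nonneg _)
      linarith
    -- (4)
    have c3 := s6e_continuousAt_tA_inv α hApos
    have e4 : ∀ᶠ Q in 𝓝 Q₀, ((tA α Q.snd)⁻¹ - ((1 - δ : ℝ) : ℂ) • B).PosSemidef := by
      have h1 : ∀ᶠ Q in 𝓝 Q₀, ((tA α Q.snd)⁻¹ - ((1 - δ : ℝ) : ℂ) • B).PosDef := by
        refine eventually_posDef
          (H := fun Q : SpT (TI ι m) => (tA α Q.snd)⁻¹ - ((1 - δ : ℝ) : ℂ) • B) ?_ ?_ ?_
        · intro j k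
          have h2 : ContinuousAt (fun Q : SpT (TI ι m) => (tA α Q.snd)⁻¹ j k) Q₀ :=
            (continuousAt_pi.1 ((continuousAt_pi.1 c3) j)) k
          exact h2.sub continuousAt_const
        · exact Filter.Eventually.of_forall fun Q =>
            (s6e_tA_isHermitian α Q.snd).inv.sub (john_isHermitian_smul hB.isHermitian _)
        · show ((tA α Q₀.snd)⁻¹ - ((1 - δ : ℝ) : ℂ) • B).PosDef
          have h3 : (tA α Q₀.snd)⁻¹ - ((1 - δ : ℝ) : ℂ) • B = ((δ : ℝ) : ℂ) • B := by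
            rw [hAinv]
            push_cast
            rw [sub_smul, one_smul]
            abel
          rw [h3]
          exact hB.smul (by exact_mod_cast hδ)
      exact h1.mono fun Q hQ => hQ.posSemidef
    -- (5)
    have e5 : ∀ᶠ Q in 𝓝 Q₀, ∀ i, α i * qf (tA α Q.snd)⁻¹ (tCol i Q.snd) ≤ α i + δ := by
      rw [Filter.eventually_all]
      intro i
      have h1 : ContinuousAt (fun Q : SpT (TI ι m) =>
          α i * qf (tA α Q.snd)⁻¹ (tCol i Q.snd)) Q₀ := by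
        have h2 : ContinuousAt (fun Q : SpT (TI ι m) => ((tCol i Q.snd : CE ι) : ι → ℂ)) Q₀ := by
          have h3 : Continuous fun ξ : CE ι => (ξ : ι → ℂ) := by fun_prop
          exact (h3.comp ((s6_continuous_tCol i).comp s6g_continuous_snd)).continuousAt
        have h4 := s6e_continuous_qf.continuousAt.comp (c3.prodMk h2)
        exact continuousAt_const.mul h4
      have h5 : α i * qf (tA α Q₀.snd)⁻¹ (tCol i Q₀.snd) < α i + δ := by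
        rw [hAinv, hqf, hq]
        linarith
      exact (h1.eventually (gt_mem_nhds h5)).mono fun Q hQ => le_of_lt hQ
    filter_upwards [hreg, e2, e3, e4, e5] with Q a1 a2 a3 a4 a5
    exact ⟨a1, a2, a3, a4, a5⟩
  have hsub : Zmod α s₀ x₀ B P₀ ⊆ interior {Q | Pr Q} := fun Q₀ hQ₀ =>
    mem_interior_iff_mem_nhds.2 (key Q₀ hQ₀)
  obtain ⟨ε, hε, hsub'⟩ := (Zmod_isCompact hα s₀ x₀ B P₀).exists_thickening_subset_open
    isOpen_interior hsub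
  refine ⟨ε, hε, fun Q hQ => ?_⟩
  have h : Q ∈ {Q | Pr Q} := interior_subset (hsub' hQ)
  exact h

end Claimed.Agent.R316.S6
end

/- ===== packed: Claimed.Agent.R316.S6.LocalMain ===== -/
section
/-!
# S6-13 / S6-14: Proposition 6.2 (ellipsoid comparison) in a chart

The claimers own their sections: replace the `sorry`s IN PLACE, keep the statements (prefix of auxiliary lemmas `s6m_`; problems: msg helper126).  ALL statements of `S6/` and `B13/` may be used.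

## S6-13 (~800 lines): `loc_approx_strict` (assembly; strong prover wanted)
`n = card ι ≥ 1`.  Put `δ₁ = δ / (n + 6)`, `θ = η = δ₁`.
1. `john_contacts` for `w = v s₀ (cJoin x₀ ·)` (lsc from `H.lsc`, homogeneity `H.hom`): `m`, `ξ⁰`, `α`, `0 < α_i < δ₁`, `w ξ⁰_i = 1 = qf B ξ⁰_i`, `∑ α_i ξ⁰ ξ⁰ᴴ = B⁻¹`, `∑ α_i = n` (so `m ≥ 1`: `Nonempty (Fin m)`).  `P₀ = tJoin x₀ ξ⁰`, `tA α P₀ = B⁻¹` (`s6_tA_eq_sum`).
2. `U = tReg α Ω' P₀` (open), `Z₁ = Zmod α s₀ x₀ B P₀` (compact, `⊆ U`).  `ε₁` from `near_Zmod` with `δ₁`.  `r ≤ ε₁` with `cthickening r Z₁ ⊆ U` (`IsCompact.exists_cthickening_subset_open`).  `O = thickening r Z₁`: open, bounded, `closure O ⊆ cthickening r Z₁ ⊆ U`.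
3. `K_F`: the compact `S = ⋃ i, piST i '' closure O` lies in the open set `{q | (q.fst, cBase q.snd) ∈ Ω'}`; `K_F = cthickening r' S` inside it.  On `K_F`: `onST v` is lsc (`H.lsc` through `sptL`), `≥ 0` (`H.low`, `herm_qf_nonneg`), bounded above (`H.up`, `H.b_cont`, compactness).
4. `contact_package` with `π = piST`, `g = gsup α θ lam P₀`, `Z = {Q ∈ closure O | ∑ α_i v = g}` (`gsup_le`, `gsup_eq_self`, `gsup_eq_mem`, `Zmod ⊆ O`), `ε = δ₁`: `Q ∈ O`, `‖p‖ < δ₁`, `z_i`, `P_i`, `A_i`.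
5. second order condition with `h = spt 0 Z` and `h = spt 0 (I • Z)`: `levG g Q Z ≤ ∑ α_i levQ (A_i) (tProj i Z)`.
6. `Z = tJoin 0 (Pi.single i V)`, `gsup_levG_col`, `near_Zmod`: `qf (c₁ B) V ≤ levQ (A_i) (cJoin 0 V)`, `c₁ = (1 - δ₁)² (1 - 2 δ₁)`.
7. `jet_disc` with `C₀ = c₁ B`, `δ₁`: `K_i`.  `K = ∑ α_i K_i`.
8. for `X` take the `V_i` of `jet_disc`, `Z = tJoin X V`: `qf K X + n δ₁ ‖X‖² ≥ ∑ α_i levQ (A_i) (cJoin X V_i) ≥ levG g Q Z ≥ qf (levi lam(Q)) X ≥ qf (levi lam(s₀,x₀)) X - δ₁ ‖X‖²` (`gsup_levG_ge`, `near_Zmod`).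
9. first order condition with `h = spt 1 0`: `∑ α_i ⟪P_i, spt 1 0⟫ = ∂_s lam (Q) + ⟪p, spt 1 0⟫ ≤ ∂_s lam (s₀,x₀) + 2 δ₁` (`gsup_fderiv_time`); `c₁ tr (Bᵀ K) ≤ (1 + δ₁)(∂_s lam + 2 δ₁)`; `c₁ / (1 + δ₁) ≥ 1 - 5 δ₁`.

## S6-14 (~450 lines): `loc_approx`, `loc_ellipsoid`
`loc_approx`: apply `loc_approx_strict` to `lam' s x = lam s x - ((s - s₀)² + ‖x - x₀‖²)²` on an open `Ω' ⊆ Ω` on which `lam ≤ Lvol`; the quartic term has vanishing `∂_s` and Levi matrix at the centre.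
`loc_ellipsoid`: `B` optimiser, `τ = det B / det b = exp (-(log det b - Lvol))`, `B ≥ τ b` (`IsOpt.le_upper`, `herm_smul_le`); for every `δ`:
`∂_s lam + δ ≥ (1-δ) tr (Bᵀ K) ≥ (1-δ) τ tr (bᵀ K) ≥ (1-δ) τ (tr (bᵀ levi lam) - δ tr b)` (`herm_trace_mul_mono`, `herm_trace_mul_mono_right`, `herm_posSemidef_of_qf`, `levi_isHermitian` of CW-2); let `δ → 0` (`le_of_forall_pos_le_add` or `ge_of_tendsto`).
-/

set_option autoImplicit false
set_option linter.unusedSectionVars false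
open scoped ContDiff ComplexOrder Topology RealInnerProductSpace

namespace Claimed.Agent.R316.S6

open Claimed.Agent.R316 Claimed.Agent.R316.B13 Matrix

variable {ι : Type} [Fintype ι] [DecidableEq ι]
variable {Ω Ω' : Set (ℝ × CE ι)} {v : ℝ → CE (ι ⊕ ι) → ℝ} {b₀ b : ℝ → CE ι → Matrix ι ι ℂ}

/-! ### S6-13 -/

section core

variable {m : ℕ}

theorem s6m_piST_spt (i : Fin m) (s : ℝ) (Z : CE (TI ι m)) :
    piST i (spt s Z) = spt s (tProj i Z) := rfl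

theorem s6m_levQ_zero {κ : Type} [Fintype κ] (A : SpT κ →L[ℝ] SpT κ) : levQ A 0 = 0 := by
  have h : spt 0 (0 : CE κ) = 0 := rfl
  unfold levQ
  rw [smul_zero, h, map_zero, inner_zero_left]
  ring

/-- step 5: the second order condition in complex directions. -/
theorem s6m_levG_le {g : SpT (TI ι m) → ℝ} {Q : SpT (TI ι m)} {α : Fin m → ℝ}
    {A : Fin m → SpT (ι ⊕ ι) →L[ℝ] SpT (ι ⊕ ι)}
    (h2nd : ∀ h, fderiv ℝ (fderiv ℝ g) Q h h ≤ ∑ i, α i * ⟪A i (piST i h), piST i h⟫)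
    (Z : CE (TI ι m)) : levG g Q Z ≤ ∑ i, α i * levQ (A i) (tProj i Z) := by
  have h1 := h2nd (spt 0 Z)
  have h2 := h2nd (spt 0 (Complex.I • Z))
  simp only [s6m_piST_spt, map_smul] at h1 h2
  have e : ∑ i, α i * levQ (A i) (tProj i Z) = (1 / 4) *
      (∑ i, α i * ⟪A i (spt 0 (tProj i Z)), spt 0 (tProj i Z)⟫ +
        ∑ i, α i * ⟪A i (spt 0 (Complex.I • tProj i Z)), spt 0 (Complex.I • tProj i Z)⟫) := by
    rw [← Finset.sum_add_distrib, Finset.mul_sum]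
    refine Finset.sum_congr rfl fun i _ => ?_
    unfold levQ
    ring
  rw [e]
  unfold levG
  linarith

theorem s6m_tProj_tJoin (i : Fin m) (X : CE ι) (V : Fin m → CE ι) :
    tProj i (tJoin X V) = cJoin X (V i) := by
  rw [tProj_apply, tBase_tJoin, tCol_tJoin]

theorem s6m_cJoin_zero : cJoin (0 : CE ι) 0 = 0 := by
  ext a
  cases a <;> simp [cJoin]

/-- step 6: the vertical bound. -/
theorem s6m_vert (hΩo : IsOpen Ω') {lam : ℝ → CE ι → ℝ}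
    (hlam : ContDiffOn ℝ ∞ (fun q : ℝ × CE ι => lam q.1 q.2) Ω') {B : Matrix ι ι ℂ}
    (hB : B.PosDef) {δ₁ : ℝ} (hδ₁ : 0 < δ₁) (hδ₁' : δ₁ < 1 / 7) {α : Fin m → ℝ}
    (hα : ∀ i, 0 < α i ∧ α i < δ₁) {P₀ : CE (TI ι m)} {Q : SpT (TI ι m)}
    (hQ : Q ∈ tReg α Ω' P₀)
    (N4 : ((tA α Q.snd)⁻¹ - ((1 - δ₁ : ℝ) : ℂ) • B).PosSemidef)
    (N5 : ∀ i, α i * qf (tA α Q.snd)⁻¹ (tCol i Q.snd) ≤ α i + δ₁)
    {A : Fin m → SpT (ι ⊕ ι) →L[ℝ] SpT (ι ⊕ ι)}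
    (h2nd : ∀ h, fderiv ℝ (fderiv ℝ (gsup α δ₁ lam P₀)) Q h h ≤
      ∑ i, α i * ⟪A i (piST i h), piST i h⟫) (i : Fin m) (V : CE ι) :
    qf ((((1 - δ₁) ^ 2 * (1 - 2 * δ₁) : ℝ) : ℂ) • B) V ≤ levQ (A i) (cJoin 0 V) := by
  have h1 := s6m_levG_le h2nd (tJoin 0 (Pi.single i V))
  have e : ∑ j, α j * levQ (A j) (tProj j (tJoin 0 (Pi.single i V))) =
      α i * levQ (A i) (cJoin 0 V) := by
    rw [Finset.sum_eq_single i]
    · rw [s6m_tProj_tJoin, Pi.single_eq_same]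
    · intro j _ hj
      rw [s6m_tProj_tJoin, Pi.single_eq_of_ne hj, s6m_cJoin_zero, s6m_levQ_zero, mul_zero]
    · intro h
      exact absurd (Finset.mem_univ i) h
  rw [e] at h1
  have h2 := gsup_levG_col α (fun i => (hα i).1.le) hδ₁.le (by linarith) hΩo hlam hQ i V
  have h3 := herm_qf_nonneg N4 V
  rw [john_qf_sub, john_qf_smul] at h3
  have h4 := herm_qf_nonneg hB.posSemidef V
  have h5 := N5 i
  obtain ⟨ha, ha'⟩ := hα i
  rw [john_qf_smul]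
  generalize qf (tA α Q.snd)⁻¹ (tCol i Q.snd) = t at *
  generalize qf (tA α Q.snd)⁻¹ V = u at *
  generalize qf B V = w at *
  generalize levQ (A i) (cJoin 0 V) = l at *
  generalize α i = a at *
  have h6 : a * ((1 - δ₁) * ((1 - a * t) * u)) ≤ a * l := by nlinarith
  have h7 : (1 - δ₁) * ((1 - a * t) * u) ≤ l := le_of_mul_le_mul_left h6 ha
  have h8 : (1 - 2 * δ₁) * ((1 - δ₁) * w) ≤ (1 - a * t) * u :=
    mul_le_mul (by linarith) (by linarith) (mul_nonneg (by linarith) h4) (by linarith)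
  have h9 : (1 - δ₁) * ((1 - 2 * δ₁) * ((1 - δ₁) * w)) ≤ (1 - δ₁) * ((1 - a * t) * u) :=
    mul_le_mul_of_nonneg_left h8 (by linarith)
  nlinarith

theorem s6m_qf_sum (α : Fin m → ℝ) (K : Fin m → Matrix ι ι ℂ) (X : ι → ℂ) :
    qf (∑ i, ((α i : ℝ) : ℂ) • K i) X = ∑ i, α i * qf (K i) X := by
  simp only [← john_qf_smul]
  unfold qf
  rw [Matrix.sum_mulVec, dotProduct_sum, Complex.re_sum]

theorem s6m_trace_sum (B : Matrix ι ι ℂ) (α : Fin m → ℝ) (K : Fin m → Matrix ι ι ℂ) :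
    (Bᵀ * ∑ i, ((α i : ℝ) : ℂ) • K i).trace.re = ∑ i, α i * (Bᵀ * K i).trace.re := by
  rw [Matrix.mul_sum, Matrix.trace_sum, Complex.re_sum]
  refine Finset.sum_congr rfl fun i _ => ?_
  rw [Matrix.mul_smul, Matrix.trace_smul, smul_eq_mul, Complex.re_ofReal_mul]

theorem s6m_norm_spt_one {κ : Type} [Fintype κ] : ‖spt 1 (0 : CE κ)‖ = 1 := by
  have h := s6_norm_spt_sq 1 (0 : CE κ)
  have h' : ‖spt 1 (0 : CE κ)‖ ^ 2 = 1 ^ 2 := by rw [h]; simp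
  exact (pow_left_inj₀ (norm_nonneg _) zero_le_one two_ne_zero).1 h'

/-- steps 5-9: the algebraic part of the assembly. -/
theorem s6m_core (H : LocEnv Ω v b₀ b) (hΩo : IsOpen Ω') {lam : ℝ → CE ι → ℝ}
    (hlam : ContDiffOn ℝ ∞ (fun q : ℝ × CE ι => lam q.1 q.2) Ω') {s₀ : ℝ} {x₀ : CE ι}
    {B : Matrix ι ι ℂ} (hB : B.PosDef) {δ₁ : ℝ} (hδ₁ : 0 < δ₁) (hδ₁' : δ₁ < 1 / 7)
    {α : Fin m → ℝ} (hα : ∀ i, 0 < α i ∧ α i < δ₁) (hsum : ∑ i, α i = Fintype.card ι)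
    {P₀ : CE (TI ι m)} {Q : SpT (TI ι m)} (hQ : Q ∈ tReg α Ω' P₀)
    (N2 : |deriv (fun s => lam s (tBase Q.snd)) Q.fst - deriv (fun s => lam s x₀) s₀| < δ₁)
    (N3 : ∀ X : CE ι, qf (levi (lam s₀) x₀) X - δ₁ * ‖X‖ ^ 2 ≤
      qf (levi (lam Q.fst) (tBase Q.snd)) X)
    (N4 : ((tA α Q.snd)⁻¹ - ((1 - δ₁ : ℝ) : ℂ) • B).PosSemidef)
    (N5 : ∀ i, α i * qf (tA α Q.snd)⁻¹ (tCol i Q.snd) ≤ α i + δ₁)
    {p : SpT (TI ι m)} (hp : ‖p‖ < δ₁) {z P : Fin m → SpT (ι ⊕ ι)}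
    {A : Fin m → SpT (ι ⊕ ι) →L[ℝ] SpT (ι ⊕ ι)}
    (hz : ∀ i, ((z i).fst, cBase (z i).snd) ∈ Ω)
    (htest : ∀ i, ∀ ε' > 0, ∀ᶠ h in 𝓝 (0 : SpT (ι ⊕ ι)),
      onST v (z i) + ⟪P i, h⟫ + (1 / 2) * ⟪A i h, h⟫ - ε' * ‖h‖ ^ 2 ≤ onST v (z i + h))
    (h1st : ∀ h, ∑ i, α i * ⟪P i, piST i h⟫ = fderiv ℝ (gsup α δ₁ lam P₀) Q h + ⟪p, h⟫)
    (h2nd : ∀ h, fderiv ℝ (fderiv ℝ (gsup α δ₁ lam P₀)) Q h h ≤
      ∑ i, α i * ⟪A i (piST i h), piST i h⟫) :
    ∃ K : Matrix ι ι ℂ, K.PosSemidef ∧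
      (∀ X : CE ι, qf (levi (lam s₀) x₀) X - ((Fintype.card ι : ℝ) + 1) * δ₁ * ‖X‖ ^ 2 ≤ qf K X) ∧
      (1 - 5 * δ₁) * (Bᵀ * K).trace.re ≤ deriv (fun s => lam s x₀) s₀ + 2 * δ₁ := by
  have hc₁ : 0 < (1 - δ₁) ^ 2 * (1 - 2 * δ₁) := by
    have h1 : 0 < 1 - δ₁ := by linarith
    have h2 : 0 < 1 - 2 * δ₁ := by linarith
    positivity
  have hC₀ : ((((1 - δ₁) ^ 2 * (1 - 2 * δ₁) : ℝ) : ℂ) • B).PosDef :=
    hB.smul (by exact_mod_cast hc₁)
  have hj := fun i => jet_disc H (hz i) (htest i) hC₀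
    (s6m_vert hΩo hlam hB hδ₁ hδ₁' hα hQ N4 N5 h2nd i) hδ₁
  choose K hKpsd hKX hKtr using hj
  have hKsum : (∑ i, ((α i : ℝ) : ℂ) • K i).PosSemidef :=
    Matrix.posSemidef_sum _ fun i _ => (hKpsd i).smul (by exact_mod_cast (hα i).1.le)
  refine ⟨∑ i, ((α i : ℝ) : ℂ) • K i, hKsum, fun X => ?_, ?_⟩
  · choose V hV using fun i => hKX i X
    have h1 := s6m_levG_le h2nd (tJoin X V)
    have h2 := gsup_levG_ge α hδ₁.le (by linarith) hΩo hlam hQ (tJoin X V)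
    have h3 := N3 X
    rw [tBase_tJoin] at h2
    simp only [s6m_tProj_tJoin] at h1
    have h4 : ∑ i, α i * levQ (A i) (cJoin X (V i)) ≤
        ∑ i, α i * (qf (K i) X + δ₁ * ‖X‖ ^ 2) :=
      Finset.sum_le_sum fun i _ => mul_le_mul_of_nonneg_left (hV i) (hα i).1.le
    have h5 : ∑ i, α i * (qf (K i) X + δ₁ * ‖X‖ ^ 2) =
        ∑ i, α i * qf (K i) X + (Fintype.card ι : ℝ) * (δ₁ * ‖X‖ ^ 2) := by
      rw [← hsum, Finset.sum_mul, ← Finset.sum_add_distrib]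
      exact Finset.sum_congr rfl fun i _ => by ring
    rw [s6m_qf_sum]
    linarith
  · have hT : 0 ≤ (Bᵀ * ∑ i, ((α i : ℝ) : ℂ) • K i).trace.re :=
      herm_trace_mul_nonneg hB.posSemidef hKsum
    have h1 := h1st (spt 1 0)
    simp only [s6m_piST_spt, map_zero] at h1
    rw [gsup_fderiv_time α δ₁ hΩo hlam hQ] at h1
    have h2 : ⟪p, spt 1 0⟫ ≤ ‖p‖ := by
      have := real_inner_le_norm p (spt 1 0)
      rwa [s6m_norm_spt_one, mul_one] at this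
    have h3 := (abs_lt.1 N2).2
    have h4 : ∀ i, α i * ((1 - δ₁) ^ 2 * (1 - 2 * δ₁) * (Bᵀ * K i).trace.re) ≤
        α i * ((1 + δ₁) * ⟪P i, spt 1 0⟫) := fun i => by
      refine mul_le_mul_of_nonneg_left ?_ (hα i).1.le
      have h5 := hKtr i
      rwa [Matrix.transpose_smul, Matrix.smul_mul, Matrix.trace_smul, smul_eq_mul,
        Complex.re_ofReal_mul] at h5
    have h6 := Finset.sum_le_sum fun i (_ : i ∈ Finset.univ) => h4 i
    have e1 : ∑ i, α i * ((1 - δ₁) ^ 2 * (1 - 2 * δ₁) * (Bᵀ * K i).trace.re) =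
        (1 - δ₁) ^ 2 * (1 - 2 * δ₁) * (Bᵀ * ∑ i, ((α i : ℝ) : ℂ) • K i).trace.re := by
      rw [s6m_trace_sum, Finset.mul_sum]
      exact Finset.sum_congr rfl fun i _ => by ring
    have e2 : ∑ i, α i * ((1 + δ₁) * ⟪P i, spt 1 0⟫) =
        (1 + δ₁) * ∑ i, α i * ⟪P i, spt 1 0⟫ := by
      rw [Finset.mul_sum]
      exact Finset.sum_congr rfl fun i _ => by ring
    rw [e1, e2, h1] at h6
    generalize (Bᵀ * ∑ i, ((α i : ℝ) : ℂ) • K i).trace.re = T at *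
    generalize deriv (fun s => lam s (tBase Q.snd)) Q.fst = D' at *
    generalize deriv (fun s => lam s x₀) s₀ = D at *
    generalize ⟪p, spt 1 0⟫ = e at *
    have h7 : (1 + δ₁) * (D' + e) ≤ (1 + δ₁) * (D + 2 * δ₁) :=
      mul_le_mul_of_nonneg_left (by linarith) (by linarith)
    have h8 : (1 - 5 * δ₁) * (1 + δ₁) ≤ (1 - δ₁) ^ 2 * (1 - 2 * δ₁) := by
      nlinarith [mul_nonneg (sq_nonneg δ₁) (by linarith : (0:ℝ) ≤ 5 - δ₁)]
    have h9 : (1 - 5 * δ₁) * (1 + δ₁) * T ≤ (1 - δ₁) ^ 2 * (1 - 2 * δ₁) * T :=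
      mul_le_mul_of_nonneg_right h8 hT
    have h10 : (1 + δ₁) * ((1 - 5 * δ₁) * T) ≤ (1 + δ₁) * (D + 2 * δ₁) := by nlinarith
    exact le_of_mul_le_mul_left h10 (by linarith)

end core

section setup

theorem s6m_lsc_fibre (H : LocEnv Ω v b₀ b) {s₀ : ℝ} {x₀ : CE ι} (h₀ : (s₀, x₀) ∈ Ω) :
    LowerSemicontinuous fun ξ => v s₀ (cJoin x₀ ξ) := by
  intro ξ
  have h1 := H.lsc s₀ (cJoin x₀ ξ) (by rw [cBase_cJoin]; exact h₀)
  have hc : Continuous fun ξ : CE ι => ((s₀, cJoin x₀ ξ) : ℝ × CE (ι ⊕ ι)) :=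
    continuous_const.prodMk (s6_continuous_cJoin.comp (continuous_const.prodMk continuous_id))
  exact LowerSemicontinuousAt.comp (g := fun ξ : CE ι => ((s₀, cJoin x₀ ξ) : ℝ × CE (ι ⊕ ι)))
    h1 hc.continuousAt

theorem s6m_onST_lsc (H : LocEnv Ω v b₀ b) {K : Set (SpT (ι ⊕ ι))}
    (hK : ∀ q ∈ K, (q.fst, cBase q.snd) ∈ Ω) : LowerSemicontinuousOn (onST v) K := by
  intro q hq
  have h1 := H.lsc q.fst q.snd (hK q hq)
  have hc : Continuous fun q : SpT (ι ⊕ ι) => ((q.fst, q.snd) : ℝ × CE (ι ⊕ ι)) :=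
    s6g_continuous_fst.prodMk s6g_continuous_snd
  have h2 : LowerSemicontinuousAt (onST v) q :=
    LowerSemicontinuousAt.comp (g := fun q : SpT (ι ⊕ ι) => ((q.fst, q.snd) : ℝ × CE (ι ⊕ ι)))
      h1 hc.continuousAt
  exact h2.lowerSemicontinuousWithinAt K

theorem s6m_onST_nonneg (H : LocEnv Ω v b₀ b) {q : SpT (ι ⊕ ι)}
    (hq : (q.fst, cBase q.snd) ∈ Ω) : 0 ≤ onST v q := by
  have h1 := H.low q.fst (cBase q.snd) hq (cFibE q.snd)
  rw [cJoin_eta] at h1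
  exact (herm_qf_nonneg (H.b₀_pos _ _ hq).posSemidef _).trans h1

theorem s6m_continuous_base :
    Continuous fun q : SpT (ι ⊕ ι) => ((q.fst, cBase q.snd) : ℝ × CE ι) :=
  s6g_continuous_fst.prodMk (s6_continuous_cBase.comp s6g_continuous_snd)

theorem s6m_continuousOn_qf {X : Type*} [TopologicalSpace X] {K : Set X} {M : X → Matrix ι ι ℂ}
    {w : X → ι → ℂ} (hM : ContinuousOn M K) (hw : ContinuousOn w K) :
    ContinuousOn (fun x => qf (M x) (w x)) K := by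
  have h := s6e_continuous_qf.comp_continuousOn (hM.prodMk hw)
  exact h

theorem s6m_onST_bdd (H : LocEnv Ω v b₀ b) {K : Set (SpT (ι ⊕ ι))} (hKc : IsCompact K)
    (hK : ∀ q ∈ K, (q.fst, cBase q.snd) ∈ Ω) : ∃ M : ℝ, ∀ q ∈ K, onST v q ≤ M := by
  have h1 : ContinuousOn (fun q : SpT (ι ⊕ ι) => b q.fst (cBase q.snd)) K :=
    ContinuousOn.comp (g := fun q : ℝ × CE ι => b q.1 q.2)
      (f := fun q : SpT (ι ⊕ ι) => ((q.fst, cBase q.snd) : ℝ × CE ι)) H.b_cont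
      s6m_continuous_base.continuousOn hK
  have h2 : Continuous fun q : SpT (ι ⊕ ι) => ((cFibE q.snd : CE ι) : ι → ℂ) := by
    have h3 : Continuous fun p : CE (ι ⊕ ι) => ((cFibE p : CE ι) : ι → ℂ) := by
      refine continuous_pi fun j => ?_
      show Continuous fun p : CE (ι ⊕ ι) => p (Sum.inr j)
      fun_prop
    exact h3.comp s6g_continuous_snd
  have hc : ContinuousOn
      (fun q : SpT (ι ⊕ ι) => qf (b q.fst (cBase q.snd)) (cFibE q.snd)) K :=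
    s6m_continuousOn_qf h1 h2.continuousOn
  obtain ⟨M, hM⟩ := hKc.bddAbove_image hc
  refine ⟨M, fun q hq => ?_⟩
  have h4 := H.up q.fst (cBase q.snd) (hK q hq) (cFibE q.snd)
  rw [cJoin_eta] at h4
  exact h4.trans (hM ⟨q, hq, rfl⟩)

theorem s6m_cBase_piST {m : ℕ} (i : Fin m) (Q : SpT (TI ι m)) :
    ((piST i Q).fst, cBase (piST i Q).snd) = (Q.fst, tBase Q.snd) := by
  rw [piST_apply, spt_fst, spt_snd, tProj_apply, cBase_cJoin]

end setup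

theorem loc_approx_strict [Nonempty ι] (H : LocEnv Ω v b₀ b) (hΩo : IsOpen Ω') (hΩ' : Ω' ⊆ Ω)
    {lam : ℝ → CE ι → ℝ} (hlam : ContDiffOn ℝ ∞ (fun q : ℝ × CE ι => lam q.1 q.2) Ω') {s₀ : ℝ}
    {x₀ : CE ι} (h₀ : (s₀, x₀) ∈ Ω') (heq : lam s₀ x₀ = Lvol v s₀ x₀)
    (hstrict : ∀ q ∈ Ω', lam q.1 q.2 + ((q.1 - s₀) ^ 2 + ‖q.2 - x₀‖ ^ 2) ^ 2 ≤ Lvol v q.1 q.2)
    {B : Matrix ι ι ℂ} (hB : IsOpt (fun ξ => v s₀ (cJoin x₀ ξ)) B) {δ : ℝ} (hδ : 0 < δ)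
    (hδ1 : δ < 1) :
    ∃ K : Matrix ι ι ℂ, K.PosSemidef ∧
      (∀ X : CE ι, qf (levi (lam s₀) x₀) X - δ * ‖X‖ ^ 2 ≤ qf K X) ∧
      (1 - δ) * (Bᵀ * K).trace.re ≤ deriv (fun s => lam s x₀) s₀ + δ := by
  have hn : (1 : ℝ) ≤ (Fintype.card ι : ℝ) := by exact_mod_cast Fintype.card_pos
  set n : ℝ := (Fintype.card ι : ℝ) with hn'
  set δ₁ : ℝ := δ / (n + 6) with hδ₁def
  have hn6 : 0 < n + 6 := by linarith
  have hδ₁ : 0 < δ₁ := div_pos hδ hn6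
  have hδ₁mul : δ₁ * (n + 6) = δ := div_mul_cancel₀ δ hn6.ne'
  have hδ₁' : δ₁ < 1 / 7 := by nlinarith
  -- step 1
  obtain ⟨m, ξ, α, hα, hξ, hres, hsum⟩ := john_contacts (s6m_lsc_fibre H (hΩ' h₀))
    (H.hom s₀ x₀ (hΩ' h₀)) hB hδ₁
  have hα0 : ∀ i, 0 < α i := fun i => (hα i).1
  have hα0' : ∀ i, 0 ≤ α i := fun i => (hα i).1.le
  have : Nonempty (Fin m) := by
    by_contra hne
    rw [not_nonempty_iff] at hne
    rw [Finset.univ_eq_empty, Finset.sum_empty] at hsum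
    linarith
  set P₀ : CE (TI ι m) := tJoin x₀ ξ with hP₀
  have hP₀b : tBase P₀ = x₀ := tBase_tJoin x₀ ξ
  have hP₀c : ∀ i, tCol i P₀ = ξ i := fun i => tCol_tJoin x₀ ξ i
  have hA₀ : tA α P₀ = B⁻¹ := by
    rw [s6_tA_eq_sum α hα0', ← hres]
    simp only [hP₀c]
  have hA₀pos : (tA α P₀).PosDef := by rw [hA₀]; exact hB.posDef.inv
  -- step 2
  have hUo : IsOpen (tReg α Ω' P₀) := tReg_isOpen α hΩo P₀
  have hZc : IsCompact (Zmod α s₀ x₀ B P₀) := Zmod_isCompact hα0 s₀ x₀ B P₀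
  have hZU : Zmod α s₀ x₀ B P₀ ⊆ tReg α Ω' P₀ := Zmod_subset_tReg hB.posDef h₀ P₀
  obtain ⟨ε₁, hε₁, hnear⟩ := near_Zmod hΩo hlam h₀ hB.posDef hα0 hA₀
    (fun i => by rw [hP₀c]; exact (hξ i).2) hδ₁
  obtain ⟨r₂, hr₂, hr₂U⟩ := hZc.exists_cthickening_subset_open hUo hZU
  set r : ℝ := min ε₁ r₂ with hr
  have hr0 : 0 < r := lt_min hε₁ hr₂
  set O : Set (SpT (TI ι m)) := Metric.thickening r (Zmod α s₀ x₀ B P₀) with hO
  have hOo : IsOpen O := Metric.isOpen_thickening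
  have hOb : Bornology.IsBounded O := hZc.isBounded.thickening
  have hOU : closure O ⊆ tReg α Ω' P₀ :=
    (Metric.closure_thickening_subset_cthickening r _).trans
      ((Metric.cthickening_mono (min_le_right _ _) _).trans hr₂U)
  have hZO : Zmod α s₀ x₀ B P₀ ⊆ O := Metric.self_subset_thickening hr0 _
  have hcl : IsCompact (closure O) := hOb.isCompact_closure
  -- step 3
  have hWo : IsOpen {q : SpT (ι ⊕ ι) | (q.fst, cBase q.snd) ∈ Ω'} :=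
    hΩo.preimage s6m_continuous_base
  have hSc : IsCompact (⋃ i : Fin m, piST i '' closure O) :=
    isCompact_iUnion fun i => hcl.image (piST i).continuous
  have hSW : (⋃ i : Fin m, piST i '' closure O) ⊆
      {q : SpT (ι ⊕ ι) | (q.fst, cBase q.snd) ∈ Ω'} := by
    refine Set.iUnion_subset fun i => ?_
    rintro _ ⟨Q, hQ, rfl⟩
    show ((piST i Q).fst, cBase (piST i Q).snd) ∈ Ω'
    rw [s6m_cBase_piST]
    exact (hOU hQ).1
  obtain ⟨KF, hKFc, hSKF, hKFW⟩ := exists_compact_between hSc hWo hSW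
  have hKFΩ : ∀ q ∈ KF, (q.fst, cBase q.snd) ∈ Ω := fun q hq => hΩ' (hKFW hq)
  obtain ⟨Mv, hMv⟩ := s6m_onST_bdd H hKFc hKFΩ
  -- step 4
  have hlam' : ∀ q ∈ Ω', lam q.1 q.2 ≤ Lvol v q.1 q.2 := fun q hq => by
    have h1 := hstrict q hq
    have h2 : 0 ≤ ((q.1 - s₀) ^ 2 + ‖q.2 - x₀‖ ^ 2) ^ 2 := sq_nonneg _
    linarith
  have a1 : LowerSemicontinuousOn (onST v) KF := s6m_onST_lsc H hKFΩ
  have a2 : ∀ z ∈ KF, 0 ≤ onST v z := fun z hz => s6m_onST_nonneg H (hKFΩ z hz)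
  have a3 : ContDiffOn ℝ 2 (gsup α δ₁ lam P₀) (tReg α Ω' P₀) := gsup_contDiffOn α δ₁ hΩo hlam P₀
  have a4 : ∀ i : Fin m, ∀ Q ∈ closure O, piST i Q ∈ interior KF :=
    fun i Q hQ => hSKF (Set.mem_iUnion.2 ⟨i, Q, hQ, rfl⟩)
  have a5 : ∀ Q ∈ closure O, gsup α δ₁ lam P₀ Q ≤ ∑ i, α i * onST v (piST i Q) :=
    fun Q hQ => gsup_le H hΩ' hlam' hα0' hδ₁.le hA₀pos (hOU hQ)
  have a6 : ({Q | Q ∈ closure O ∧ ∑ i, α i * onST v (piST i Q) = gsup α δ₁ lam P₀ Q} :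
      Set (SpT (TI ι m))).Nonempty :=
    ⟨spt s₀ P₀, subset_closure (hZO (Zmod_self s₀ hB.posDef hP₀b hA₀)),
      gsup_eq_self hB heq δ₁ hP₀b hA₀ (fun i => by rw [hP₀c]; exact (hξ i).1) hsum⟩
  have a7 : ({Q | Q ∈ closure O ∧ ∑ i, α i * onST v (piST i Q) = gsup α δ₁ lam P₀ Q} :
      Set (SpT (TI ι m))) ⊆ O :=
    fun Q hQ => hZO (gsup_eq_mem H hΩ' hstrict hB hα0 hδ₁ hA₀ (hOU hQ.1) hQ.2)
  have pk := contact_package (E := SpT (TI ι m)) (F := SpT (ι ⊕ ι)) (ι := Fin m)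
    (fun i : Fin m => piST i) (fun i => s6_piST_surjective i) α hα0 hKFc (v := onST v)
      a1 a2 hMv (g := gsup α δ₁ lam P₀) hOo hOb hUo hOU a3 a4 a5 rfl a6 a7 hδ₁
  obtain ⟨Q, hQO, -, p, hp, z, P, A, hz, -, htest, -, h1st, h2nd⟩ := pk
  obtain ⟨N1, N2, N3, N4, N5⟩ := hnear Q (Metric.thickening_mono (min_le_left _ _) _ hQO)
  have hz' : ∀ i, ((z i).fst, cBase (z i).snd) ∈ Ω := fun i => hKFΩ _ (interior_subset (hz i).1)
  obtain ⟨K, hK, hKX, hKtr⟩ := s6m_core H hΩo hlam hB.posDef hδ₁ hδ₁' hα hsum N1 N2 N3 N4 N5 hp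
    hz' htest h1st h2nd
  refine ⟨K, hK, fun X => ?_, ?_⟩
  · have h1 := hKX X
    have h2 : (n + 1) * δ₁ * ‖X‖ ^ 2 ≤ δ * ‖X‖ ^ 2 :=
      mul_le_mul_of_nonneg_right (by nlinarith) (sq_nonneg _)
    linarith
  · have hT : 0 ≤ (Bᵀ * K).trace.re := herm_trace_mul_nonneg hB.posDef.posSemidef hK
    have h1 : (1 - δ) * (Bᵀ * K).trace.re ≤ (1 - 5 * δ₁) * (Bᵀ * K).trace.re :=
      mul_le_mul_of_nonneg_right (by nlinarith) hT
    have h2 : 2 * δ₁ ≤ δ := by nlinarith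
    linarith

/-! ### S6-14 -/

theorem s6m_contDiff_quartic (s₀ : ℝ) (x₀ : CE ι) :
    ContDiff ℝ ∞ fun q : ℝ × CE ι => ((q.1 - s₀) ^ 2 + ‖q.2 - x₀‖ ^ 2) ^ 2 :=
  (((contDiff_fst.sub contDiff_const).pow 2).add
    ((contDiff_snd.sub contDiff_const).norm_sq ℝ)).pow 2

/-- the quartic penalty has vanishing Levi matrix at the centre. -/
theorem s6m_levi_quartic (c : ℝ) (x₀ : CE ι) (hc : c = 0) :
    levi (fun x : CE ι => (c + ‖x - x₀‖ ^ 2) ^ 2) x₀ = 0 := by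
  have hu : ContDiffAt ℝ 2 (fun x : CE ι => c + ‖x - x₀‖ ^ 2) x₀ :=
    (contDiff_const.add ((contDiff_id.sub contDiff_const).norm_sq ℝ)).contDiffAt
  have hmin : IsLocalMin (fun x : CE ι => c + ‖x - x₀‖ ^ 2) x₀ :=
    Filter.Eventually.of_forall fun x => by
      simp only [sub_self, norm_zero]
      nlinarith [sq_nonneg ‖x - x₀‖]
  ext j k
  rw [levi_sq hu, grad10_eq_zero_of_isLocalMin hmin, hc]
  simp

theorem s6m_deriv_quartic (s₀ c : ℝ) (hc : c = 0) :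
    HasDerivAt (fun s : ℝ => ((s - s₀) ^ 2 + c) ^ 2) 0 s₀ := by
  subst hc
  have h1 : HasDerivAt (fun s : ℝ => s - s₀) 1 s₀ := (hasDerivAt_id s₀).sub_const s₀
  have h2 : HasDerivAt (fun s : ℝ => (s - s₀) ^ 4) (((4 : ℕ) : ℝ) * (s₀ - s₀) ^ (4 - 1) * 1) s₀ :=
    h1.fun_pow 4
  have e : (fun s : ℝ => ((s - s₀) ^ 2 + 0) ^ 2) = fun s : ℝ => (s - s₀) ^ 4 := by
    funext s
    ring
  rw [e]
  simpa using h2

theorem loc_approx [Nonempty ι] (H : LocEnv Ω v b₀ b) {lam : ℝ → CE ι → ℝ}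
    (hlam : ContDiffOn ℝ ∞ (fun q : ℝ × CE ι => lam q.1 q.2) Ω) {s₀ : ℝ} {x₀ : CE ι}
    (h₀ : (s₀, x₀) ∈ Ω) (heq : lam s₀ x₀ = Lvol v s₀ x₀)
    (hle : ∀ᶠ q : ℝ × CE ι in 𝓝 (s₀, x₀), lam q.1 q.2 ≤ Lvol v q.1 q.2)
    {B : Matrix ι ι ℂ} (hB : IsOpt (fun ξ => v s₀ (cJoin x₀ ξ)) B) {δ : ℝ} (hδ : 0 < δ)
    (hδ1 : δ < 1) :
    ∃ K : Matrix ι ι ℂ, K.PosSemidef ∧
      (∀ X : CE ι, qf (levi (lam s₀) x₀) X - δ * ‖X‖ ^ 2 ≤ qf K X) ∧
      (1 - δ) * (Bᵀ * K).trace.re ≤ deriv (fun s => lam s x₀) s₀ + δ := by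
  obtain ⟨t, ht, hto, h₀t⟩ := eventually_nhds_iff.1 hle
  have hΩ'o : IsOpen (t ∩ Ω) := hto.inter H.isOpen
  have hl₀ : ContDiffAt ℝ ∞ (fun q : ℝ × CE ι => lam q.1 q.2) (s₀, x₀) :=
    hlam.contDiffAt (H.isOpen.mem_nhds h₀)
  have h := loc_approx_strict (Ω' := t ∩ Ω) H hΩ'o Set.inter_subset_right
    (lam := fun s x => lam s x - ((s - s₀) ^ 2 + ‖x - x₀‖ ^ 2) ^ 2)
    ((hlam.mono Set.inter_subset_right).sub (s6m_contDiff_quartic s₀ x₀).contDiffOn)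
    ⟨h₀t, h₀⟩ (by simp [heq]) (fun q hq => by
      have := ht q hq.1
      simpa using this) hB hδ hδ1
  obtain ⟨K, hK, hKX, hKtr⟩ := h
  have e1 : levi (fun x => lam s₀ x - ((s₀ - s₀) ^ 2 + ‖x - x₀‖ ^ 2) ^ 2) x₀ =
      levi (lam s₀) x₀ := by
    have hf : ContDiffAt ℝ 2 (lam s₀) x₀ := (s6g_contDiffAt_slice hl₀).of_le lv_two_le_infty
    have hg : ContDiffAt ℝ 2 (fun x : CE ι => ((s₀ - s₀) ^ 2 + ‖x - x₀‖ ^ 2) ^ 2) x₀ :=
      ((contDiff_const.add ((contDiff_id.sub contDiff_const).norm_sq ℝ)).pow 2).contDiffAt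
    rw [levi_sub hf hg, s6m_levi_quartic _ x₀ (by simp), sub_zero]
  have e2 : deriv (fun s => lam s x₀ - ((s - s₀) ^ 2 + ‖x₀ - x₀‖ ^ 2) ^ 2) s₀ =
      deriv (fun s => lam s x₀) s₀ := by
    have hd : DifferentiableAt ℝ (fun s => lam s x₀) s₀ := by
      have h1 : ContDiffAt ℝ ∞ (fun s : ℝ => lam s x₀) s₀ :=
        hl₀.comp s₀ (contDiffAt_id.prodMk contDiffAt_const)
      exact h1.differentiableAt (by simp)
    have h2 := hd.hasDerivAt.sub (s6m_deriv_quartic s₀ (‖x₀ - x₀‖ ^ 2) (by simp))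
    rw [sub_zero] at h2
    exact h2.deriv
  rw [e1] at hKX
  rw [e2] at hKtr
  exact ⟨K, hK, hKX, hKtr⟩


/-- the scalar limit `δ → 0`. -/
theorem s6m_limit {D τ t c : ℝ}
    (h : ∀ δ : ℝ, 0 < δ → δ < 1 → (1 - δ) * (τ * (t - δ * c)) ≤ D + δ) : τ * t ≤ D := by
  have hc : Continuous fun δ : ℝ => (1 - δ) * (τ * (t - δ * c)) - δ := by fun_prop
  have h0 := (hc.tendsto 0).mono_left (nhdsWithin_le_nhds (s := Set.Ioi (0 : ℝ)))
  have h1 : ∀ᶠ δ : ℝ in 𝓝[>] 0, (1 - δ) * (τ * (t - δ * c)) - δ ≤ D := by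
    filter_upwards [Ioo_mem_nhdsGT (zero_lt_one' ℝ)] with δ hδ
    have := h δ hδ.1 hδ.2
    linarith
  have h2 := le_of_tendsto h0 h1
  simpa using h2

/-- **Proposition 6.2** (`prop:ellipsoid-comparison`) in a cotangent chart. -/
theorem loc_ellipsoid [Nonempty ι] (H : LocEnv Ω v b₀ b) {lam : ℝ → CE ι → ℝ}
    (hlam : ContDiffOn ℝ ∞ (fun q : ℝ × CE ι => lam q.1 q.2) Ω) {s₀ : ℝ} {x₀ : CE ι}
    (h₀ : (s₀, x₀) ∈ Ω) (heq : lam s₀ x₀ = Lvol v s₀ x₀)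
    (hle : ∀ᶠ q : ℝ × CE ι in 𝓝 (s₀, x₀), lam q.1 q.2 ≤ Lvol v q.1 q.2) :
    Real.exp (-(Real.log (b s₀ x₀).det.re - Lvol v s₀ x₀)) *
        ((b s₀ x₀)ᵀ * levi (lam s₀) x₀).trace.re ≤ deriv (fun s => lam s x₀) s₀ := by
  obtain ⟨B, hB⟩ := H.exists_opt h₀
  have hLv : Lvol v s₀ x₀ = Real.log B.det.re := hB.logVol_eq
  have hbB : (b s₀ x₀ - B).PosSemidef := hB.le_upper (H.b_herm s₀ x₀ h₀) (H.up s₀ x₀ h₀)
  have hbpos : (b s₀ x₀).PosDef := by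
    have h1 := hB.posDef.add_posSemidef hbB
    rwa [add_sub_cancel] at h1
  have hdB : 0 < B.det.re := herm_det_re_pos hB.posDef
  have hdb : 0 < (b s₀ x₀).det.re := herm_det_re_pos hbpos
  have hτ : Real.exp (-(Real.log (b s₀ x₀).det.re - Lvol v s₀ x₀)) =
      B.det.re / (b s₀ x₀).det.re := by
    rw [hLv, neg_sub, Real.exp_sub, Real.exp_log hdB, Real.exp_log hdb]
  have hτb := herm_smul_le hB.posDef hbB
  rw [hτ]
  set τ : ℝ := B.det.re / (b s₀ x₀).det.re with hτdef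
  have hτ0 : 0 ≤ τ := (div_pos hdB hdb).le
  have hl₀ : ContDiffAt ℝ ∞ (fun q : ℝ × CE ι => lam q.1 q.2) (s₀, x₀) :=
    hlam.contDiffAt (H.isOpen.mem_nhds h₀)
  have hLherm : (levi (lam s₀) x₀).IsHermitian :=
    levi_isHermitian ((s6g_contDiffAt_slice hl₀).of_le lv_two_le_infty)
  refine s6m_limit (c := (b s₀ x₀).trace.re) fun δ hδ hδ1 => ?_
  obtain ⟨K, hK, hKX, hKtr⟩ := loc_approx H hlam h₀ heq hle hB hδ hδ1
  have h1 : ((((τ : ℝ) : ℂ) • b s₀ x₀)ᵀ * K).trace.re ≤ (Bᵀ * K).trace.re :=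
    herm_trace_mul_mono hτb hK
  rw [Matrix.transpose_smul, Matrix.smul_mul, Matrix.trace_smul, smul_eq_mul,
    Complex.re_ofReal_mul] at h1
  have h2 : (K - (levi (lam s₀) x₀ - ((δ : ℝ) : ℂ) • 1)).PosSemidef := by
    refine herm_posSemidef_of_qf (hK.isHermitian.sub
      (hLherm.sub (john_isHermitian_smul Matrix.isHermitian_one δ))) fun X => ?_
    have h3 := hKX (WithLp.toLp 2 X)
    have h4 : qf (1 : Matrix ι ι ℂ) X = ‖(WithLp.toLp 2 X : CE ι)‖ ^ 2 :=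
      s6e_qf_one (WithLp.toLp 2 X)
    rw [john_qf_sub, john_qf_sub, john_qf_smul, h4]
    have h5 : qf (levi (lam s₀) x₀) X - δ * ‖(WithLp.toLp 2 X : CE ι)‖ ^ 2 ≤ qf K X := h3
    linarith
  have h6 := herm_trace_mul_mono_right hbpos.posSemidef h2
  rw [Matrix.mul_sub, Matrix.trace_sub, Matrix.mul_smul, Matrix.trace_smul, Matrix.mul_one,
    Matrix.trace_transpose, Complex.sub_re, smul_eq_mul, Complex.re_ofReal_mul] at h6
  have h7 : τ * (((b s₀ x₀)ᵀ * levi (lam s₀) x₀).trace.re - δ * (b s₀ x₀).trace.re) ≤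
      (Bᵀ * K).trace.re := (mul_le_mul_of_nonneg_left h6 hτ0).trans h1
  exact (mul_le_mul_of_nonneg_left h7 (by linarith)).trans hKtr

end Claimed.Agent.R316.S6
end

/- ===== packed: Claimed.Agent.R316.S6.GDefs ===== -/
section
/-!
# Row 316, Section 6, GLOBAL LAYER: definitions (section captain helper126)

From `loc_ellipsoid` (Proposition 6.2 in a chart) to `StJointPositivity` (Theorem 6.3).  Files (one leaf = one file):

* `GDefs`  : `bmat` (cometric), `vloc` (envelope in a cotangent chart), `F0c`, `F0` (the scalar gap `F₀ = log det b_t - 𝓛`).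
* `GTrans` : S6-G1  chosen parametrisations, transitions, change of cotangent charts, the dual norm in ANY chart.
* `GDual`  : S6-G2  Levi form of the dual norm = square + bisectional curvature (also needed by Proposition 7.1).
* `GDisc`  : S6-G3  discs in `Y`: fibre scaling, `N(·,0)` is subharmonic along discs, affine discs in a chart.
* `GEnv`   : S6-G4  lower semicontinuous regularisation; sandwich `N(y,0) ≤ v ≤ v^raw ≤ N(y,s)`; homogeneity.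
* `GLoc`   : S6-G5  the flow in a chart (joint smoothness, `h_0 = g`, `∂_t log det`), `LocEnv` of a chart.
* `GInv`   : S6-G6  `F0c` is invariant; bounds `0 ≤ F₀ ≤ ρ`; upper semicontinuity on `[0,T'] × M`.
* `GVisc`  : S6-G7  `F₀` is a viscosity subsolution (`ViscSubNL`).
* `GMain`  : S6-G8  `F₀ = 0`, `v = v^raw = N`, sub-mean value inequality, `joint_positivity`.

The horizon `T` is fixed in `vloc`, `F0c`, `F0`; times are `0 < t < T`.
-/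

set_option autoImplicit false
open scoped ContDiff ComplexOrder Topology

namespace Claimed.Agent.R316.S6

open Claimed.Agent.R316 Claimed.Agent.R316.B13 Matrix

section defs

variable {V : Type} [NormedAddCommGroup V] [InnerProductSpace ℝ V] [FiniteDimensional ℝ V]
variable {ι : Type} [Fintype ι] [DecidableEq ι]

/-- the cometric `b = (H⁻¹)ᵀ` of a metric family: `|ζ|² = ζᴴ b ζ`. -/
noncomputable def bmat (h : HFam V ι) (Φ : CE ι → V) (z : CE ι) : Matrix ι ι ℂ := ((h Φ z)⁻¹)ᵀ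

/-- the dual norm in the cotangent chart over `Φ`. -/
noncomputable def nloc (h : HFam V ι) (Φ : CE ι → V) (p : CE (ι ⊕ ι)) : ℝ :=
  qf (bmat h Φ (cBase p)) (cFib p)

/-- fibre scaling on the ambient space of `Y`. -/
noncomputable def fscale (c : ℂ) (y : CotAmb V) : CotAmb V := (y.1, c • y.2)

end defs

section flow

variable {V : Type} [NormedAddCommGroup V] [InnerProductSpace ℝ V] [FiniteDimensional ℝ V]
variable [MeasurableSpace V] [BorelSpace V]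
variable {n : ℕ} {𝓜 : CMfd V (Fin n)} {g : HFam V (Fin n)} {o : V}

/-- the envelope in the cotangent chart over `Φ`. -/
noncomputable def vloc (D : FlowData 𝓜 g o) (𝒴 : CMfd (CotAmb V) (Fin n ⊕ Fin n)) (T : ℝ)
    (Φ : CE (Fin n) → V) (s : ℝ) (p : CE (Fin n ⊕ Fin n)) : ℝ :=
  D.venv 𝒴 T (cotParam Φ p) s

/-- the scalar gap `F₀ = log det b_t - 𝓛` in a chart. -/
noncomputable def F0c (D : FlowData 𝓜 g o) (𝒴 : CMfd (CotAmb V) (Fin n ⊕ Fin n)) (T t : ℝ)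
    (Φ : CE (Fin n) → V) (z : CE (Fin n)) : ℝ :=
  Real.log (bmat (D.h t) Φ z).det.re - Lvol (vloc D 𝒴 T Φ) t z

open Classical in
/-- the scalar gap on `[0, T) × M`, extended by zero at `t = 0`. -/
noncomputable def F0 (D : FlowData 𝓜 g o) (𝒴 : CMfd (CotAmb V) (Fin n ⊕ Fin n)) (T t : ℝ)
    (x : V) : ℝ :=
  if 0 < t then 𝓜.scal (F0c D 𝒴 T t) x else 0

end flow

end Claimed.Agent.R316.S6
end

/- ===== packed: Claimed.Agent.R316.S6.GDual ===== -/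
section
/-!
# S6-G2: the Levi form of the dual norm on the cotangent bundle

DONE (helper126): special case `κ = ι` of `R316/S7/H1/Griff.lean` (leaf L-S7-1a-1): `nloc h Φ = dnorm (h Φ)`, `bisec h Φ z u X = qf (griffM (h Φ) z X) u`.
-/

set_option autoImplicit false
set_option linter.unusedSectionVars false
open scoped ContDiff ComplexOrder Topology

namespace Claimed.Agent.R316.S6

open Claimed.Agent.R316 Claimed.Agent.R316.B13 Matrix

variable {V : Type} [NormedAddCommGroup V] [InnerProductSpace ℝ V] [FiniteDimensional ℝ V]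
variable {ι : Type} [Fintype ι] [DecidableEq ι]
variable {h : HFam V ι} {Φ : CE ι → V} {U : Set (CE ι)}

theorem s6g_nloc_eq (h : HFam V ι) (Φ : CE ι → V) : nloc h Φ = dnorm (h Φ) := rfl

theorem s6g_contDiffOn_nloc (hU : IsOpen U) (hs : ∀ j k, ContDiffOn ℝ ∞ (fun z => h Φ z j k) U)
    (hpos : ∀ z ∈ U, (h Φ z).PosDef) : ContDiffOn ℝ ∞ (nloc h Φ) (cotDom U) :=
  contDiffOn_dnorm hU hs hpos

/-- **Levi form of the dual norm = square + bisectional curvature.** -/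
theorem s6g_qf_levi_nloc (hU : IsOpen U) (hs : ∀ j k, ContDiffOn ℝ ∞ (fun z => h Φ z j k) U)
    (hpos : ∀ z ∈ U, (h Φ z).PosDef) {p : CE (ι ⊕ ι)} (hp : p ∈ cotDom U) (X : CE ι) :
    ∃ Γ : CE ι, ∀ W : CE ι,
      qf (levi (nloc h Φ) p) (cJoin X W) =
        qf (bmat h Φ (cBase p)) (W - Γ) +
          bisec h Φ (cBase p) ((h Φ (cBase p))⁻¹ *ᵥ star (cFib p)) X := by
  obtain ⟨Γ, hΓ⟩ := qf_levi_dnorm hU hs hpos (p := p) hp X
  refine ⟨Γ, fun W => ?_⟩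
  rw [bisec_eq_griffM]
  exact hΓ W

/-- the squared norm on the total space of a Griffiths nonpositive bundle is plurisubharmonic. -/
theorem s6g_levi_nloc_posSemidef (hU : IsOpen U)
    (hs : ∀ j k, ContDiffOn ℝ ∞ (fun z => h Φ z j k) U) (hpos : ∀ z ∈ U, (h Φ z).PosDef)
    (hb : ∀ z ∈ U, ∀ v w : ι → ℂ, 0 ≤ bisec h Φ z v w) {p : CE (ι ⊕ ι)} (hp : p ∈ cotDom U) :
    (levi (nloc h Φ) p).PosSemidef := by
  refine levi_dnorm_posSemidef hU hs hpos (p := p) hp fun X => ?_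
  have hp' : dBase p ∈ U := hp
  rw [posSemidef_iff_qf (griffM_isHermitian hU hs hpos hp' X)]
  intro v
  rw [← bisec_eq_griffM]
  exact hb _ hp' v X

end Claimed.Agent.R316.S6
end
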