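/- Packed by merge_tool.py (helper293): 2 modules of Claimed.Agent.R316 in one file, same declarations.
   Old modules, in this order: S7.Trans.Clock, S7.Trans.Even -/
import Claimed.Agent.R316.S7.H1.FlowChart
import Claimed.Agent.R316.Pack016_2
import Claimed.Agent.R316.Pack024

/- ===== packed: Claimed.Agent.R316.S7.Trans.Clock ===== -/
section
/-!
# Row 316, BP-S7-7a, leaf L-S7-7a-6: the volume clock as a reparametrisation of time; the chart family at `o`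

Sub-captain: helper248.  DONE (nothing left open here; uses statements of `S7/H1/FlowChart.lean`).
(helper11, BP-S7-4: import this file if you need the same facts.)

`D.clk t = D.rho t o = - D.P t o`, `D.tOf s = Function.invFunOn D.clk (Ici 0) s`, `D.hs s = D.h (D.tOf s)`.

RECIPES.
* `tr7_clk_zero`: a chart `(Φ, U)` at `o` (`𝓜.cover`), `fc_P_chart` at `t = 0`, `fc_h_zero`.
* `tr7_clk_continuousOn`: `fc_dt_rho` (`HasDerivWithinAt.continuousWithinAt`).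
* `tr7_tOf_spec`: `s ∈ D.clk '' Ici 0` by the intermediate value theorem on `[0, T]`, `s ≤ D.clk T` (`CF.clk_tendsto`, `intermediate_value_Icc`);
  `Function.invFunOn_mem`, `Function.invFunOn_eq`.
* `tr7_tOf_strictMonoOn`: `CF.clk_strictMono.lt_iff_lt` at `tOf s`, `tOf u`.
* `tr7_tOf_ge`: `S = max 0 (D.clk (max t₀ 0))`.
* `tr7_log_det_hs`: `fc_P_chart` and `D.clk (D.tOf s) = s`.
-/

set_option autoImplicit false
set_option linter.unusedSectionVars false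
open scoped ContDiff ComplexOrder Topology Matrix
open Filter

namespace Claimed.Agent.R316

variable {V : Type} [NormedAddCommGroup V] [NormedSpace ℝ V] [MeasurableSpace V] [BorelSpace V]
variable {n : ℕ} {𝓜 : CMfd V (Fin n)} {g : HFam V (Fin n)} {o : V}
variable (D : FlowData 𝓜 g o)

theorem tr7_clk_zero (hg : IsMetric 𝓜 g) (ho : o ∈ 𝓜.carrier) : D.clk 0 = 0 := by
  obtain ⟨Φ, U, hΦ, z, hz, hzo⟩ := 𝓜.cover o ho
  have h := fc_P_chart D hg hΦ le_rfl hz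
  rw [fc_h_zero D hΦ hz, sub_self, hzo] at h
  simp [FlowData.clk, FlowData.rho, h]

theorem tr7_clk_continuousOn (ho : o ∈ 𝓜.carrier) : ContinuousOn D.clk (Set.Ici 0) := by
  intro t ht
  exact (fc_dt_rho D ho ht).continuousWithinAt

theorem tr7_tOf_spec (hg : IsMetric 𝓜 g) (ho : o ∈ 𝓜.carrier) (CF : D.ClockFacts) {s : ℝ}
    (hs : 0 ≤ s) : 0 ≤ D.tOf s ∧ D.clk (D.tOf s) = s := by
  have hmem : s ∈ D.clk '' Set.Ici 0 := by
    obtain ⟨T, hT, hT0⟩ := ((tendsto_atTop.1 CF.clk_tendsto s).and (eventually_ge_atTop 0)).exists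
    have hsub : Set.Icc (0 : ℝ) T ⊆ Set.Ici 0 := fun x hx => hx.1
    have := intermediate_value_Icc hT0 ((tr7_clk_continuousOn D ho).mono hsub)
    rw [tr7_clk_zero D hg ho] at this
    obtain ⟨t, ht, hts⟩ := this ⟨hs, hT⟩
    exact ⟨t, hsub ht, hts⟩
  exact ⟨Function.invFunOn_mem hmem, Function.invFunOn_eq hmem⟩

theorem tr7_tOf_strictMonoOn (hg : IsMetric 𝓜 g) (ho : o ∈ 𝓜.carrier) (CF : D.ClockFacts) :
    StrictMonoOn D.tOf (Set.Ici 0) := by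
  intro s hs u hu hsu
  obtain ⟨h1, h2⟩ := tr7_tOf_spec D hg ho CF hs
  obtain ⟨h3, h4⟩ := tr7_tOf_spec D hg ho CF hu
  rw [← CF.clk_strictMono.lt_iff_lt h1 h3, h2, h4]
  exact hsu

theorem tr7_tOf_pos (hg : IsMetric 𝓜 g) (ho : o ∈ 𝓜.carrier) (CF : D.ClockFacts) {s : ℝ}
    (hs : 0 < s) : 0 < D.tOf s := by
  obtain ⟨h1, h2⟩ := tr7_tOf_spec D hg ho CF hs.le
  rcases h1.eq_or_lt with h | h
  · rw [← h, tr7_clk_zero D hg ho] at h2
    exact absurd h2 hs.ne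
  · exact h

theorem tr7_tOf_ge (hg : IsMetric 𝓜 g) (ho : o ∈ 𝓜.carrier) (CF : D.ClockFacts) (t₀ : ℝ) :
    ∃ S : ℝ, ∀ s : ℝ, S ≤ s → t₀ ≤ D.tOf s := by
  refine ⟨max 0 (D.clk (max t₀ 0)), fun s hs => ?_⟩
  obtain ⟨h1, h2⟩ := tr7_tOf_spec D hg ho CF ((le_max_left _ _).trans hs)
  by_contra hlt
  rw [not_le] at hlt
  have h3 : D.tOf s < max t₀ 0 := hlt.trans_le (le_max_left _ _)
  have h4 := CF.clk_strictMono h1 (le_max_right t₀ 0 : (0:ℝ) ≤ max t₀ 0) h3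
  rw [h2] at h4
  exact absurd ((le_max_right _ _).trans hs) (not_le.2 h4)

theorem tr7_hs_metric (hg : IsMetric 𝓜 g) (ho : o ∈ 𝓜.carrier) (CF : D.ClockFacts) {s : ℝ}
    (hs : 0 ≤ s) : IsMetric 𝓜 (D.hs s) :=
  fc_metric D (tr7_tOf_spec D hg ho CF hs).1

theorem tr7_hs_mono (hg : IsMetric 𝓜 g) (ho : o ∈ 𝓜.carrier) (CF : D.ClockFacts) (H : D.Harnack)
    {s u : ℝ} (hs : 0 ≤ s) (hsu : s ≤ u) : leF 𝓜 (D.hs u) (D.hs s) :=
  H.mono _ _ (tr7_tOf_spec D hg ho CF hs).1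
    ((tr7_tOf_strictMonoOn D hg ho CF).monotoneOn hs (hs.trans hsu) hsu)

/-- `det h_{t(s)}(o) = e^{-s} det g(o)`, in any parametrisation. -/
theorem tr7_log_det_hs (hg : IsMetric 𝓜 g) (ho : o ∈ 𝓜.carrier) (CF : D.ClockFacts) {s : ℝ}
    (hs : 0 ≤ s) {Φ : CE (Fin n) → V} {U : Set (CE (Fin n))} (hΦ : 𝓜.IsHol Φ U) {z : CE (Fin n)}
    (hz : z ∈ U) (hzo : Φ z = o) :
    Real.log (D.hs s Φ z).det.re = - s + Real.log (g Φ z).det.re := by
  obtain ⟨h1, h2⟩ := tr7_tOf_spec D hg ho CF hs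
  have h := fc_P_chart D hg hΦ h1 hz
  rw [hzo] at h
  have h3 : D.P (D.tOf s) o = - s := by
    have : - D.P (D.tOf s) o = s := h2
    linarith
  show Real.log (D.h (D.tOf s) Φ z).det.re = _
  linarith

/-- the chart family of Lemma 7.2 at `o`, indexed by the volume clock. -/
structure Tr7Charts (D : FlowData 𝓜 g o) where
  r0 : ℝ
  c : ℝ
  C : ℝ
  s0 : ℝ
  r0_pos : 0 < r0
  c_pos : 0 < c
  s0_ge : 1 ≤ s0
  Φ : ℝ → CE (Fin n) → V
  Φ_loc : ∀ s : ℝ, s0 ≤ s → IsLocBihol 𝓜 (Φ s) (Metric.ball 0 r0)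
  Φ_zero : ∀ s : ℝ, s0 ≤ s → Φ s 0 = o
  /-- unitary centre derivative -/
  Φ_unit : ∀ s : ℝ, s0 ≤ s → D.hs s (Φ s) 0 = 1
  /-- (7.15) -/
  Φ_low : ∀ s : ℝ, s0 ≤ s → ∀ w ∈ Metric.ball (0 : CE (Fin n)) r0, leM (cI c) (D.hs s (Φ s) w)
  Φ_up : ∀ s : ℝ, s0 ≤ s → ∀ w ∈ Metric.ball (0 : CE (Fin n)) r0, leM (D.hs s (Φ s) w) (cI C)

/-- Lemma 7.2 at `o`, in the clock; the first clock may be prescribed as late as one wishes. -/
theorem tr7_charts (hg : IsMetric 𝓜 g) (ho : o ∈ 𝓜.carrier) (LC : D.LocalCharts)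
    (CF : D.ClockFacts) (S : ℝ) : ∃ Q : Tr7Charts D, S ≤ Q.s0 := by
  obtain ⟨r, c, C, tK, _, hr, hc, hch⟩ := LC {o} isCompact_singleton (by simpa using ho)
  obtain ⟨S1, hS1⟩ := tr7_tOf_ge D hg ho CF tK
  choose! Φ hΦ using fun t (ht : tK ≤ t) => hch t ht o rfl
  refine ⟨{ r0 := r, c := c, C := C, s0 := max 1 (max S S1), r0_pos := hr, c_pos := hc,
            s0_ge := le_max_left _ _, Φ := fun s => Φ (D.tOf s), Φ_loc := ?_, Φ_zero := ?_,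
            Φ_unit := ?_, Φ_low := ?_, Φ_up := ?_ }, (le_max_left _ _).trans (le_max_right _ _)⟩
  all_goals
    intro s hs
    have h1 : tK ≤ D.tOf s := hS1 s (((le_max_right _ _).trans (le_max_right _ _)).trans hs)
  · exact (hΦ _ h1).1
  · exact (hΦ _ h1).2.1
  · exact (hΦ _ h1).2.2.1
  · exact fun w hw => ((hΦ _ h1).2.2.2.1 w hw).1
  · exact fun w hw => ((hΦ _ h1).2.2.2.1 w hw).2

end Claimed.Agent.R316
end

/- ===== packed: Claimed.Agent.R316.S7.Trans.Even ===== -/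
section
/-!
# Row 316, BP-S7-7a, leaf L-S7-7a-8: small coordinate balls of `M` are evenly covered by the late charts `Φ_s`

Sub-captain: helper248.  DONE (nothing left open here).  Uses `Local.lean`, `Lift.lean`, `Clock.lean`, `CM/*`, `CW/MatAlg.lean`.

`Tr7EvenA 𝓜 Φ r0 δ G`: every `e` with `|e| + δ < r0` and `Φ e ∈ G` lies on a continuous section `σ` of `Φ | ball 0 r0` over `𝓜.carrier ∩ G`, with `|σ - e| ≤ δ`.

RECIPES.
* `tr7_form_upper_bound`: the entries `z ↦ A Ψ z j k` are continuous on `U` (`IsHForm.smooth`), so bounded on the compact `K₀` by `b`; `C = card² b` (or `∑ j k` of the bounds):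
  `qf (A Ψ z) v ≤ ∑ |v j| |A j k| |v k| ≤ C |v|²`; `posSemidef_iff_qf` / `posSemidef_sub_iff_qf` with `IsHForm.herm`, `qf_smul`, `qf_one`.
* `tr7_evenA_of_bounds`: `δ = √(C/c) (2ρ) ≥ 0`, so `e ∈ ball 0 r0`, `Φ e ∈ 𝓜.carrier ∩ G = Ψ '' ball 0 ρ`: `Φ e = Ψ z₁`.  `tr7_lift` with `A = ball 0 ρ`, `d = 2ρ`, `w₁ = e` gives `F`.
  `σ = F ∘ Function.invFunOn Ψ (ball 0 ρ)`: continuous on `Ψ '' ball 0 ρ` (`IsParam.cont_inv`, `IsParam.invFunOn_mem`), `Φ (σ y) = Ψ (Ψ⁻¹ y) = y` (`IsParam.rightInv`), `σ (Φ e) = F z₁ = e` (`IsParam.leftInv`).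
* `tr7_even_nhds`: `CMfd.exists_centred_in` (`O = univ`): `Ψ` on `ball 0 (2r)`, `Ψ 0 = x`.  `K = Ψ '' closedBall 0 r` compact in the carrier.  `CF.decay K`: `cK, s₁`.  `tr7_form_upper_bound` for `g` on `closedBall 0 r`: `Cg ≥ 0`.
  `IsParam.exists_isOpen_image`: `Ψ '' ball 0 r = 𝓜.carrier ∩ G`.  For `s ≥ max s₁ Q.s0` and `z ∈ ball 0 r`: `D.hs s Ψ z ≤ e^{-cK s} g Ψ z ≤ Cg e^{-cK s}` (unfold `leFOn`, `smulF`; `loewner_smul`, `loewner_trans`).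
  `tr7_evenA_of_bounds` with `H = D.hs s` (`tr7_hs_metric`), `c = Q.c`, `C = Cg e^{-cK s}`, `ρ = r`, chart `𝓜.isHol_mono`.  `√(Cg e^{-cK s} / c) (2r) = (2 r √(Cg/c)) e^{-(cK/2) s}` (`Real.sqrt_mul`, `Real.exp_half`/`Real.sqrt_eq_iff`).
-/

set_option autoImplicit false
set_option linter.unusedSectionVars false
open scoped ContDiff ComplexOrder Topology Matrix
open Filter

namespace Claimed.Agent.R316

section static

variable {V : Type} [NormedAddCommGroup V] [NormedSpace ℝ V]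
variable {ι : Type} [Fintype ι]

/-- ambient form of `Tr7Even` for an immersed chart on `ball 0 r0`. -/
def Tr7EvenA (𝓜 : CMfd V ι) (Φ : CE ι → V) (r0 δ : ℝ) (G : Set V) : Prop :=
  ∀ e : CE ι, ‖e‖ + δ < r0 → Φ e ∈ G →
    ∃ σ : V → CE ι, Tr7Lift Φ (Metric.ball 0 r0) id (𝓜.carrier ∩ G) σ ∧ σ (Φ e) = e ∧
      ∀ y ∈ 𝓜.carrier ∩ G, ‖σ y - e‖ ≤ δ

theorem Tr7EvenA.mono_delta {𝓜 : CMfd V ι} {Φ : CE ι → V} {r0 δ δ' : ℝ} {G : Set V}
    (h : Tr7EvenA 𝓜 Φ r0 δ G) (hδ : δ ≤ δ') : Tr7EvenA 𝓜 Φ r0 δ' G := by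
  intro e he hG
  obtain ⟨σ, h1, h2, h3⟩ := h e (by linarith) hG
  exact ⟨σ, h1, h2, fun y hy => (h3 y hy).trans hδ⟩

variable [DecidableEq ι]
variable {𝓜 : CMfd V ι} {Φ Ψ : CE ι → V}

theorem tr7_qf_le (A : Matrix ι ι ℂ) (v : ι → ℂ) :
    qf A v ≤ (∑ j, ∑ k, ‖A j k‖) * ∑ i, ‖v i‖ ^ 2 := by
  set S := ∑ i, ‖v i‖ ^ 2 with hSdef
  have hS1 : ∀ j, ‖v j‖ ^ 2 ≤ S := fun j =>
    Finset.single_le_sum (f := fun i => ‖v i‖ ^ 2) (fun i _ => sq_nonneg _) (Finset.mem_univ j)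
  have hS : ∀ j k, ‖v j‖ * ‖v k‖ ≤ S := by
    intro j k
    nlinarith [sq_nonneg (‖v j‖ - ‖v k‖), hS1 j, hS1 k]
  rw [qf_eq_sum]
  calc (∑ j, ∑ k, (starRingEnd ℂ) (v j) * A j k * v k).re
      ≤ ‖∑ j, ∑ k, (starRingEnd ℂ) (v j) * A j k * v k‖ := Complex.re_le_norm _
    _ ≤ ∑ j, ∑ k, ‖A j k‖ * S := by
        refine (norm_sum_le _ _).trans (Finset.sum_le_sum fun j _ =>
          (norm_sum_le _ _).trans (Finset.sum_le_sum fun k _ => ?_))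
        rw [norm_mul, norm_mul, Complex.norm_conj]
        have := mul_le_mul_of_nonneg_left (hS j k) (norm_nonneg (A j k))
        nlinarith
    _ = _ := by simp_rw [← Finset.sum_mul]

/-- a Hermitian form is bounded above on compact subsets of a parametrisation. -/
theorem tr7_form_upper_bound {A : HFam V ι} (hA : IsHForm 𝓜 A) {U K₀ : Set (CE ι)}
    (hΨ : 𝓜.IsHol Ψ U) (hK : IsCompact K₀) (hKU : K₀ ⊆ U) :
    ∃ C : ℝ, 0 ≤ C ∧ ∀ z ∈ K₀, leM (A Ψ z) (cI C) := by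
  have hb : ∀ j k, ∃ b : ℝ, ∀ z ∈ K₀, ‖A Ψ z j k‖ ≤ b := fun j k =>
    hK.exists_bound_of_continuousOn ((hA.smooth hΨ j k).continuousOn.mono hKU)
  choose b hb using hb
  refine ⟨∑ j, ∑ k, |b j k|, Finset.sum_nonneg fun j _ => Finset.sum_nonneg fun k _ => abs_nonneg _,
    fun z hz => ?_⟩
  refine (posSemidef_sub_iff_qf (hA.herm hΨ z (hKU hz))
    (isHermitian_smul_real _ Matrix.isHermitian_one)).2 fun v => ?_
  rw [qf_smul, qf_one]
  refine (tr7_qf_le _ v).trans (mul_le_mul_of_nonneg_right ?_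
    (Finset.sum_nonneg fun i _ => sq_nonneg _))
  exact Finset.sum_le_sum fun j _ => Finset.sum_le_sum fun k _ =>
    (hb j k z hz).trans (le_abs_self _)

/-- a coordinate ball on which `H ≤ C` is evenly covered by an immersed chart with `Φ^* H ≥ c`. -/
theorem tr7_evenA_of_bounds {H : HFam V ι} (hH : IsHForm 𝓜 H) {r0 c C ρ : ℝ}
    (hΦ : IsLocBihol 𝓜 Φ (Metric.ball 0 r0)) (hc : 0 < c)
    (hlow : ∀ w ∈ Metric.ball (0 : CE ι) r0, leM (cI c) (H Φ w)) (hρ : 0 < ρ)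
    (hΨ : 𝓜.IsHol Ψ (Metric.ball 0 ρ)) (hup : ∀ z ∈ Metric.ball (0 : CE ι) ρ, leM (H Ψ z) (cI C))
    {G : Set V} (hG : Ψ '' Metric.ball 0 ρ = 𝓜.carrier ∩ G) :
    Tr7EvenA 𝓜 Φ r0 (Real.sqrt (C / c) * (2 * ρ)) G := by
  intro e he hG'
  have hδ : 0 ≤ Real.sqrt (C / c) * (2 * ρ) := by positivity
  have heB : e ∈ Metric.ball (0 : CE ι) r0 := by rw [mem_ball_zero_iff]; linarith
  have hmem : Φ e ∈ Ψ '' Metric.ball 0 ρ := hG ▸ ⟨tr7_mem_carrier hΦ heB, hG'⟩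
  obtain ⟨z₁, hz₁, hz₁e⟩ := hmem
  have hd : ∀ z ∈ Metric.ball (0 : CE ι) ρ, ‖z - z₁‖ ≤ 2 * ρ := by
    intro z hz
    rw [mem_ball_zero_iff] at hz hz₁
    have := norm_sub_le z z₁
    linarith
  obtain ⟨F, hF, hF1, hF2⟩ := tr7_lift hH hΦ (tr7_locBihol_of_isHol hΨ) (convex_ball 0 ρ) hc hlow
    hup hz₁ hz₁e.symm hd he
  have hp := 𝓜.isParam hΨ
  refine ⟨F ∘ Function.invFunOn Ψ (Metric.ball 0 ρ), ⟨?_, ?_, ?_⟩, ?_, ?_⟩
  · rw [← hG]
    exact hF.cont.comp hp.cont_inv fun y hy => hp.invFunOn_mem hy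
  · intro y hy
    rw [← hG] at hy
    exact hF.maps (hp.invFunOn_mem hy)
  · intro y hy
    rw [← hG] at hy
    show Φ (F (Function.invFunOn Ψ (Metric.ball 0 ρ) y)) = y
    rw [hF.eq _ (hp.invFunOn_mem hy), hp.rightInv hy]
  · show F (Function.invFunOn Ψ (Metric.ball 0 ρ) (Φ e)) = e
    rw [← hz₁e, hp.leftInv hz₁, hF1]
  · intro y hy
    rw [← hG] at hy
    exact (hF2 _ (hp.invFunOn_mem hy)).trans
      (mul_le_mul_of_nonneg_left (hd _ (hp.invFunOn_mem hy)) (Real.sqrt_nonneg _))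

end static

variable {V : Type} [NormedAddCommGroup V] [NormedSpace ℝ V] [MeasurableSpace V] [BorelSpace V]
variable {n : ℕ} {𝓜 : CMfd V (Fin n)} {g : HFam V (Fin n)} {o : V}
variable {D : FlowData 𝓜 g o}

/-- every point of `M` has a neighbourhood which is evenly covered by all late charts, with exponentially small
displacement (metric decay (7.10)). -/
theorem tr7_even_nhds (hg : IsMetric 𝓜 g) (ho : o ∈ 𝓜.carrier) (CF : D.ClockFacts)
    (Q : Tr7Charts D) {x : V} (hx : x ∈ 𝓜.carrier) :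
    ∃ (G : Set V) (Cx ax sx : ℝ), IsOpen G ∧ x ∈ G ∧ 0 ≤ Cx ∧ 0 < ax ∧ Q.s0 ≤ sx ∧
      ∀ s : ℝ, sx ≤ s → Tr7EvenA 𝓜 (Q.Φ s) Q.r0 (Cx * Real.exp (-(ax * s))) G := by
  obtain ⟨Ψ, r, hr, hΨ, hΨ0, _⟩ := 𝓜.exists_centred_in hx (O := Set.univ) Filter.univ_mem
  have hp := 𝓜.isParam hΨ
  have hsub1 : Metric.closedBall (0 : CE (Fin n)) r ⊆ Metric.ball 0 (2 * r) :=
    Metric.closedBall_subset_ball (by linarith)
  have hsub2 : Metric.ball (0 : CE (Fin n)) r ⊆ Metric.ball 0 (2 * r) :=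
    Metric.ball_subset_closedBall.trans hsub1
  have hKc : IsCompact (Ψ '' Metric.closedBall 0 r) :=
    (isCompact_closedBall _ _).image_of_continuousOn (hp.continuousOn.mono hsub1)
  have hKM : Ψ '' Metric.closedBall 0 r ⊆ 𝓜.carrier := by
    rintro _ ⟨z, hz, rfl⟩; exact CMfd.mem_carrier hΨ (hsub1 hz)
  obtain ⟨cK, s₁, hcK, hdec⟩ := CF.decay _ hKc hKM
  obtain ⟨Cg, hCg, hgup⟩ := tr7_form_upper_bound hg.toIsHForm hΨ (isCompact_closedBall 0 r) hsub1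
  obtain ⟨G, hGo, hG⟩ := hp.exists_isOpen_image Metric.isOpen_ball hsub2
  have hxG : x ∈ G := by
    have : x ∈ 𝓜.carrier ∩ G := hG ▸ ⟨0, Metric.mem_ball_self hr, hΨ0⟩
    exact this.2
  refine ⟨G, Real.sqrt (Cg / Q.c) * (2 * r), cK / 2, max s₁ Q.s0, hGo, hxG, by positivity,
    by positivity, le_max_right _ _, fun s hs => ?_⟩
  have hs0 : Q.s0 ≤ s := (le_max_right _ _).trans hs
  have h0s : 0 ≤ s := by linarith [Q.s0_ge]
  have hup : ∀ z ∈ Metric.ball (0 : CE (Fin n)) r,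
      leM (D.hs s Ψ z) (cI (Cg * Real.exp (-(cK * s)))) := by
    intro z hz
    have hz' := Metric.ball_subset_closedBall hz
    have h1 := (hdec s ((le_max_left _ _).trans hs)).2 Ψ _ hΨ z (hsub2 hz) ⟨z, hz', rfl⟩
    have h2 := loewner_smul (Real.exp_pos (-(cK * s))).le (hgup z hz')
    have e2 : ((Real.exp (-(cK * s)) : ℝ) : ℂ) • (cI Cg : Matrix (Fin n) (Fin n) ℂ)
        = cI (Cg * Real.exp (-(cK * s))) := by
      rw [cI, cI, smul_smul, ← Complex.ofReal_mul, mul_comm]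
    rw [e2] at h2
    exact loewner_trans h1 h2
  have hE := tr7_evenA_of_bounds (tr7_hs_metric D hg ho CF h0s).toIsHForm (Q.Φ_loc s hs0) Q.c_pos
    (Q.Φ_low s hs0) hr (𝓜.isHol_mono hΨ Metric.isOpen_ball hsub2) hup hG
  have e3 : Real.sqrt (Cg * Real.exp (-(cK * s)) / Q.c) * (2 * r)
      = Real.sqrt (Cg / Q.c) * (2 * r) * Real.exp (-(cK / 2 * s)) := by
    have : Cg * Real.exp (-(cK * s)) / Q.c = Cg / Q.c * Real.exp (-(cK / 2 * s)) ^ 2 := by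
      rw [← Real.exp_nat_mul]
      have : ((2 : ℕ) : ℝ) * -(cK / 2 * s) = -(cK * s) := by push_cast; ring
      rw [this]; ring
    rw [this, Real.sqrt_mul' _ (sq_nonneg _), Real.sqrt_sq (Real.exp_pos _).le]
    ring
  rwa [e3] at hE

end Claimed.Agent.R316
end
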