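/- Packed by merge_tool.py (helper293): 6 modules of Claimed.Agent.R316 in one file, same declarations.
   Old modules, in this order: S3.Main, S7.Trans.Branch, S7.Trans.Germ, S7.Trans.Exh, S7.Trans.Sys, S7.Trans.Main -/
import Claimed.Agent.R316.S3.Geom
import Claimed.Agent.R316.S3.MaxP
import Claimed.Agent.R316.S3.Eigen
import Claimed.Agent.R316.S3.Exist
import Claimed.Agent.R316.S3.Limit
import Claimed.Agent.R316.S3.Flow
import Claimed.Agent.R316.S3.CutoffD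
import Claimed.Agent.R316.S3.Mass
import Claimed.Agent.R316.S3.LinSolve
import Claimed.Agent.R316.S3.Major
import Claimed.Agent.R316.S3.Compare
import Claimed.Agent.R316.Base.Metric.Api
import Claimed.Agent.R316.S7.Rate.Main
import Claimed.Agent.R316.Pack023_2
import Claimed.Agent.R316.Pack024

/- ===== packed: Claimed.Agent.R316.S3.Main ===== -/
section
/-!
# Row 316, Section 3: assembly (sorry-free glue)

From Proposition 2.1 (`PrelimData`), the volume comparison, the heat facts and the five parabolic interface statements: Theorem 3.1 and Proposition 3.5.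
-/

set_option autoImplicit false
open scoped ContDiff ComplexOrder Topology
open MeasureTheory

namespace Claimed.Agent.R316.S3

variable {V : Type} [NormedAddCommGroup V] [NormedSpace ℝ V] [FiniteDimensional ℝ V]
  [MeasurableSpace V] [BorelSpace V]
variable {n : ℕ} {𝓜 : CMfd V (Fin n)} {g : HFam V (Fin n)} {o : V}

/-- **Theorem 3.1**. -/
theorem thm31 (hR : StCRLocalReg) (hC : StContinuation) (I : InitialData 𝓜 g) (ho : o ∈ 𝓜.carrier)
    (PD : PrelimData 𝓜 g o) : Nonempty (FlowData 𝓜 g o) := by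
  obtain ⟨Fp⟩ := profile_exists
  have h31 := st31 I ho PD Fp
  have h32 := st32 I ho PD Fp h31
  have h33 := st33 I ho PD Fp h31
  have h34 := st34 I PD Fp h31 h33
  have h35 := st35 hC I ho PD Fp h31 h32 h33 h34
  have h36 := st36 I ho PD Fp h31 h32 h33 h34
  have h37 := st37 hR I ho PD Fp h31 h35 h36
  exact flowData_exists I ho PD Fp h31 h32 h33 h34 h36 h37

/-- **Proposition 3.5** for every flow as in Theorem 3.1. -/
theorem prop35 (hL : StLinExist) (hQ : StQuasiExist) (hReg : StLinLocalReg) (I : InitialData 𝓜 g)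
    (ho : o ∈ 𝓜.carrier) (VC : VolComparison 𝓜 g) {P : ℝ → (V → ℝ) → V → ℝ} (HF : HeatFacts 𝓜 g o P)
    (PD : PrelimData 𝓜 g o) (D : FlowData 𝓜 g o) : D.StTails ∧ D.StComparison := by
  obtain ⟨Fp⟩ := profile_exists
  have h31 := st31 I ho PD Fp
  have h31Q := st31Q I ho PD Fp
  have hcut := stCutoff I ho VC HF PD D
  have hML := stMassLin I ho VC PD D hcut
  have hMN := stMassNL I ho VC PD D hcut
  have hLS := stLinSolve hL hReg I ho PD Fp h31 h31Q D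
  exact ⟨stTails hReg I ho PD D hLS hML,
    stComparison I ho PD D (stApproxMajorant hQ I ho PD Fp h31 h31Q D) hMN (stLocalSup I D)⟩

end Claimed.Agent.R316.S3
end

/- ===== packed: Claimed.Agent.R316.S7.Trans.Branch ===== -/
section
/-!
# Row 316, BP-S7-7a, leaf L-S7-7a-9: inverse branches over a compact set (charts.tex l.967-990)

Sub-captain: helper248.  DONE (nothing left open here).

RECIPES.
* `tr7_even_sub`: `E = ↥(ball 0 r0)`, `e0 = ⟨0, _⟩`, `dist e e0 = ‖(e : CE ι)‖` (`Subtype.dist_eq`, `dist_zero_right`).  From the ambient section `σ` put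
  `σ' y = if h : σ y ∈ ball 0 r0 then ⟨σ y, h⟩ else e0`; on `Subtype.val ⁻¹' G` the first case holds (`Tr7Lift.maps`); continuity: `Topology.IsInducing.subtypeVal.continuousOn_iff`
  (or `continuousOn_iff_continuous_restrict` + `Continuous.subtype_mk`), `σ.cont.comp continuous_subtype_val.continuousOn`; `Subtype.ext` for the equations.
* `tr7_secA`: `X = ↥𝓜.carrier` with the instances `SC : SimplyConnectedSpace X` and `𝓜.locPathConnectedSpace_carrier` (`haveI`).  `G' x = Subtype.val ⁻¹' G x`, `K' = Subtype.val ⁻¹' K` (compact: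
  `Topology.IsEmbedding.subtypeVal.isCompact_iff`, image `= K` because `K ⊆ 𝓜.carrier`).  `tr7_sec G' _ ⟨o, ho⟩ K' _` gives `N, T', O'`; `T = T'.image Subtype.val`; `O'` is relatively open: `isOpen_induced_iff` gives
  `O` with `Subtype.val ⁻¹' O = O'`.  For a chart `Φ` apply the conclusion to `E = ↥(ball 0 r0)`, `p = tr7_sub hΦ` (`tr7_sub_isLocalHomeomorph`), `e0 = ⟨0,_⟩`, `R = r0`, `tr7_even_sub`;
  from `σ' : X → E` put `σ y = if h : y ∈ 𝓜.carrier then (σ' ⟨y, h⟩ : CE ι) else 0`.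
-/

set_option autoImplicit false
set_option linter.unusedSectionVars false
open scoped ContDiff ComplexOrder Topology Matrix
open Filter

namespace Claimed.Agent.R316

section static

variable {V : Type} [NormedAddCommGroup V] [NormedSpace ℝ V]
variable {ι : Type} [Fintype ι]
variable {𝓜 : CMfd V ι} {Φ : CE ι → V}

/-- from the ambient form to the subtype form. -/
theorem tr7_even_sub {r0 δ : ℝ} (hr0 : 0 < r0) (hΦ : IsLocBihol 𝓜 Φ (Metric.ball 0 r0)) {G : Set V}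
    (h : Tr7EvenA 𝓜 Φ r0 δ G) :
    Tr7Even (tr7_sub hΦ) ⟨0, Metric.mem_ball_self hr0⟩ r0 δ (Subtype.val ⁻¹' G) := by
  classical
  intro e he hpe
  have hnorm : dist e ⟨0, Metric.mem_ball_self hr0⟩ = ‖(e : CE ι)‖ := by
    rw [Subtype.dist_eq, dist_zero_right]
  obtain ⟨σ, hσ, hσe, hσd⟩ := h e.1 (by rwa [hnorm] at he) hpe
  let σ' : 𝓜.carrier → Metric.ball (0 : CE ι) r0 := fun y =>
    if hy : σ y ∈ Metric.ball (0 : CE ι) r0 then ⟨σ y, hy⟩ else ⟨0, Metric.mem_ball_self hr0⟩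
  have hval : ∀ y : 𝓜.carrier, (y : V) ∈ G → ((σ' y : Metric.ball (0 : CE ι) r0) : CE ι) = σ y := by
    intro y hy
    have : σ y ∈ Metric.ball (0 : CE ι) r0 := hσ.maps ⟨y.2, hy⟩
    show ((if hy : σ y ∈ Metric.ball (0 : CE ι) r0 then (⟨σ y, hy⟩ : Metric.ball (0 : CE ι) r0)
      else ⟨0, Metric.mem_ball_self hr0⟩ : Metric.ball (0 : CE ι) r0) : CE ι) = σ y
    rw [dif_pos this]
  refine ⟨σ', ?_, ?_, ?_, ?_⟩
  · rw [Topology.IsInducing.subtypeVal.continuousOn_iff]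
    have hm : Set.MapsTo (Subtype.val : 𝓜.carrier → V) (Subtype.val ⁻¹' G) (𝓜.carrier ∩ G) :=
      fun y hy => ⟨y.2, hy⟩
    refine (hσ.cont.comp continuous_subtype_val.continuousOn hm).congr ?_
    intro y hy
    exact hval y hy
  · intro y hy
    apply Subtype.ext
    show Φ (σ' y) = y
    rw [hval y hy]
    exact hσ.eq y ⟨y.2, hy⟩
  · apply Subtype.ext
    rw [hval _ hpe]
    exact hσe
  · intro y hy
    rw [Subtype.dist_eq, hval y hy, dist_eq_norm]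
    exact hσd y ⟨y.2, hy⟩

/-- `tr7_sec` for the carrier of a simply connected manifold, in ambient form. -/
theorem tr7_secA (SC : SimplyConnectedSpace 𝓜.carrier) (G : V → Set V)
    (hG : ∀ x ∈ 𝓜.carrier, IsOpen (G x) ∧ x ∈ G x) {o : V} (ho : o ∈ 𝓜.carrier) {K : Set V}
    (hK : IsCompact K) (hKM : K ⊆ 𝓜.carrier) :
    ∃ (N : ℕ) (T : Finset V) (O : Set V), (∀ x ∈ T, x ∈ 𝓜.carrier) ∧ IsOpen O ∧ K ⊆ O ∧ o ∈ O ∧
      ∀ (Φ : CE ι → V) (r0 δ : ℝ), 0 < r0 → IsLocBihol 𝓜 Φ (Metric.ball 0 r0) → Φ 0 = o → 0 ≤ δ →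
        N * δ < r0 → (∀ x ∈ T, Tr7EvenA 𝓜 Φ r0 δ (G x)) →
        ∃ σ : V → CE ι, Tr7Lift Φ (Metric.ball 0 r0) id (𝓜.carrier ∩ O) σ ∧ σ o = 0 ∧
          ∀ y ∈ 𝓜.carrier ∩ O, ‖σ y‖ ≤ N * δ := by
  classical
  have := 𝓜.locPathConnectedSpace_carrier
  let G' : 𝓜.carrier → Set 𝓜.carrier := fun x => Subtype.val ⁻¹' G x
  have hG' : ∀ x, IsOpen (G' x) ∧ x ∈ G' x := fun x =>
    ⟨(hG x x.2).1.preimage continuous_subtype_val, (hG x x.2).2⟩
  have hK' : IsCompact (Subtype.val ⁻¹' K : Set 𝓜.carrier) := by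
    rw [Topology.IsEmbedding.subtypeVal.isCompact_iff, Subtype.image_preimage_coe,
      Set.inter_eq_self_of_subset_right hKM]
    exact hK
  obtain ⟨N, T', O', hO', hKO', hoO', hsec⟩ := tr7_sec G' hG' ⟨o, ho⟩ _ hK'
  obtain ⟨O, hO, hOO'⟩ := isOpen_induced_iff.1 hO'
  have hmemO : ∀ y : 𝓜.carrier, y ∈ O' ↔ (y : V) ∈ O := fun y => by rw [← hOO']; rfl
  refine ⟨N, T'.image Subtype.val, O, ?_, hO, ?_, ?_, ?_⟩
  · intro x hx
    obtain ⟨y, _, rfl⟩ := Finset.mem_image.1 hx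
    exact y.2
  · intro x hx
    exact (hmemO ⟨x, hKM hx⟩).1 (hKO' hx)
  · exact (hmemO ⟨o, ho⟩).1 hoO'
  · intro Φ r0 δ hr0 hΦ hΦ0 hδ hN hE
    obtain ⟨σ', h1, h2, h3, h4⟩ := hsec (Metric.ball (0 : CE ι) r0) (tr7_sub hΦ)
      ⟨0, Metric.mem_ball_self hr0⟩ r0 δ (tr7_sub_isLocalHomeomorph hΦ) (Subtype.ext hΦ0) hδ hN
      (fun x hx => tr7_even_sub hr0 hΦ (hE x (Finset.mem_image_of_mem _ hx)))
    let σ : V → CE ι := fun y => if hy : y ∈ 𝓜.carrier then (σ' ⟨y, hy⟩ : CE ι) else 0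
    have hσ : ∀ y : 𝓜.carrier, σ y = (σ' y : CE ι) := fun y => by simp [σ, y.2]
    have himg : 𝓜.carrier ∩ O = Subtype.val '' O' := by
      rw [← hOO', Subtype.image_preimage_coe]
    refine ⟨σ, ⟨?_, ?_, ?_⟩, ?_, ?_⟩
    · rw [himg, Topology.IsInducing.subtypeVal.continuousOn_image_iff]
      refine (continuous_subtype_val.comp_continuousOn h1).congr fun y _ => hσ y
    · intro y hy
      rw [hσ ⟨y, hy.1⟩]
      exact (σ' ⟨y, hy.1⟩).2
    · intro y hy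
      rw [hσ ⟨y, hy.1⟩]
      exact congrArg Subtype.val (h2 ⟨y, hy.1⟩ ((hmemO _).2 hy.2))
    · rw [hσ ⟨o, ho⟩, h3]
    · intro y hy
      have := h4 ⟨y, hy.1⟩ ((hmemO _).2 hy.2)
      rw [Subtype.dist_eq, dist_zero_right] at this
      rw [hσ ⟨y, hy.1⟩]
      exact this

end static

/-- a positive lower bound for finitely many positive numbers. -/
theorem tr7_exists_pos_le {α : Type} (T : Finset α) (a : α → ℝ) (ha : ∀ x ∈ T, 0 < a x) :
    ∃ b : ℝ, 0 < b ∧ ∀ x ∈ T, b ≤ a x := by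
  classical
  induction T using Finset.induction_on with
  | empty => exact ⟨1, one_pos, by simp⟩
  | insert y T _ ih =>
    obtain ⟨b, hb, hbT⟩ := ih fun x hx => ha x (Finset.mem_insert_of_mem hx)
    refine ⟨min b (a y), lt_min hb (ha y (Finset.mem_insert_self _ _)), fun x hx => ?_⟩
    rcases Finset.mem_insert.1 hx with rfl | hx
    · exact min_le_right _ _
    · exact (min_le_left _ _).trans (hbT x hx)

variable {V : Type} [NormedAddCommGroup V] [NormedSpace ℝ V] [MeasurableSpace V] [BorelSpace V]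
variable {n : ℕ} {𝓜 : CMfd V (Fin n)} {g : HFam V (Fin n)} {o : V}
variable {D : FlowData 𝓜 g o}

/-- **inverse branches over a compact set**, with the local exponent (7.20). -/
theorem tr7_branch (hg : IsMetric 𝓜 g) (ho : o ∈ 𝓜.carrier) (CF : D.ClockFacts)
    (SC : SimplyConn 𝓜) (Q : Tr7Charts D) {K : Set V} (hK : IsCompact K) (hKM : K ⊆ 𝓜.carrier) :
    ∃ (O : Set V) (CK aK sK : ℝ), IsOpen O ∧ K ⊆ O ∧ o ∈ O ∧ 0 < aK ∧ Q.s0 ≤ sK ∧
      ∀ s : ℝ, sK ≤ s → ∃ σ : V → CE (Fin n),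
        Tr7Lift (Q.Φ s) (Metric.ball 0 Q.r0) id (𝓜.carrier ∩ O) σ ∧ σ o = 0 ∧
          ∀ y ∈ 𝓜.carrier ∩ O, ‖σ y‖ ≤ CK * Real.exp (-(aK * s)) := by
  classical
  choose! G Cx ax sx hGo hxG hCx hax hsx hEv using
    fun x (hx : x ∈ 𝓜.carrier) => tr7_even_nhds hg ho CF Q hx
  obtain ⟨N, T, O, hT, hO, hKO, hoO, hsec⟩ :=
    tr7_secA SC G (fun x hx => ⟨hGo x hx, hxG x hx⟩) ho hK hKM
  obtain ⟨a, ha, haT⟩ := tr7_exists_pos_le T ax fun x hx => hax x (hT x hx)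
  set Cm : ℝ := ∑ x ∈ T, Cx x with hCm
  have hCm0 : 0 ≤ Cm := Finset.sum_nonneg fun x hx => hCx x (hT x hx)
  have hCle : ∀ x ∈ T, Cx x ≤ Cm := fun x hx =>
    Finset.single_le_sum (f := Cx) (fun y hy => hCx y (hT y hy)) hx
  obtain ⟨S1, hS1⟩ := (T.image sx).exists_le
  have hS1' : ∀ x ∈ T, sx x ≤ S1 := fun x hx => hS1 _ (Finset.mem_image_of_mem _ hx)
  have hlim : Tendsto (fun s : ℝ => (N : ℝ) * (Cm * Real.exp (-(a * s)))) atTop (𝓝 0) := by
    have h1 : Tendsto (fun s : ℝ => a * s) atTop atTop := tendsto_id.const_mul_atTop ha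
    have h2 := Real.tendsto_exp_neg_atTop_nhds_zero.comp h1
    simpa using (h2.const_mul Cm).const_mul (N : ℝ)
  obtain ⟨S2, hS2⟩ := eventually_atTop.1 (hlim.eventually (gt_mem_nhds Q.r0_pos))
  refine ⟨O, N * Cm, a, max (max S1 S2) Q.s0, hO, hKO, hoO, ha, le_max_right _ _, fun s hs => ?_⟩
  have hs1 : S1 ≤ s := ((le_max_left _ _).trans (le_max_left _ _)).trans hs
  have hs2 : S2 ≤ s := ((le_max_right _ _).trans (le_max_left _ _)).trans hs
  have hs0 : Q.s0 ≤ s := (le_max_right _ _).trans hs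
  have hspos : 0 ≤ s := by linarith [Q.s0_ge]
  obtain ⟨σ, h1, h2, h3⟩ := hsec (Q.Φ s) Q.r0 (Cm * Real.exp (-(a * s))) Q.r0_pos (Q.Φ_loc s hs0)
    (Q.Φ_zero s hs0) (mul_nonneg hCm0 (Real.exp_pos _).le) (hS2 s hs2) (fun x hx => by
      refine (hEv x (hT x hx) s ((hS1' x hx).trans hs1)).mono_delta ?_
      have h4 : Real.exp (-(ax x * s)) ≤ Real.exp (-(a * s)) := by
        apply Real.exp_le_exp.2
        have := mul_le_mul_of_nonneg_right (haT x hx) hspos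
        linarith
      exact mul_le_mul (hCle x hx) h4 (Real.exp_pos _).le hCm0)
  exact ⟨σ, h1, h2, fun y hy => by rw [mul_assoc]; exact h3 y hy⟩

end Claimed.Agent.R316
end

/- ===== packed: Claimed.Agent.R316.S7.Trans.Germ ===== -/
section
/-!
# Row 316, BP-S7-7a, leaf L-S7-7a-7: the transition maps `F_{s,u}` (charts.tex l.937-965)

Sub-captain: helper248.  DONE (nothing left open here).  Uses `Local.lean`, `Lift.lean`, `Clock.lean`, `CW/MatAlg.lean`.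

`F_{s,u}` is THE continuous lift of `Φ_s | ball 0 r1` through `Φ_u` with `F_{s,u} 0 = 0` (`Tr7Trans`).  All the properties follow from `Tr7Lift.*`.

RECIPES.
* `tr7_hs_up`: at `z` choose `U ∋ z` with `𝓜.IsHol (Q.Φ s) U`; `tr7_hs_mono` (a `leF`) at `(Q.Φ s, U, z)`; `loewner_trans` with `Q.Φ_up`.
* `tr7_trans`: `L = √(C/c)`, `r1 = r0 / (2 (L + 1))`; `tr7_lift` with `H = D.hs u`, `A = ball 0 r1` (`convex_ball`, `tr7_locBihol_mono`), `z₁ = w₁ = 0`, `d = r1`.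
* `F_refl`: `id` is a lift of `Φ_s` through `Φ_s`; `Tr7Lift.eqOn` on the preconnected ball (`(convex_ball _ _).isPreconnected`).
* `F_comp`: `F s u` is continuous at `0` with value `0`: there is `ε ≤ r1` with `F s u '' ball 0 ε ⊆ ball 0 r1`.  On `ball 0 ε` both `F s w` and `F u w ∘ F s u` are lifts of `Φ_s` through `Φ_w`
  (`Tr7Lift.comp`, `Tr7Lift.mono`), equal at `0`.
* `F_gram`: `Tr7Lift.pull` with `H = D.hs u` at `z = 0`, `Q.Φ_unit u`, `F_zero`.
* `F_norm`: `‖J v‖² = qf (Jᴴ J) v = qf (D.hs u (Φ s) 0) v ≤ qf (D.hs s (Φ s) 0) v = ‖v‖²` (or `tr7_norm_le_of_pull` with `c = C = 1`); `jac_mulVec`; `ContinuousLinearMap.opNorm_le_bound`.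
* `F_det`: `‖det J‖² = (det (Jᴴ J)).re = det (D.hs u (Φ s) 0)`; `tr7_log_det_hs` at `s` and at `u` in the SAME parametrisation `(Φ s, U ∋ 0)`; `D.hs s (Φ s) 0 = 1`:
  `log det (D.hs u (Φ s) 0) = -(u - s)`; the determinant is positive (`posDef_det_re_pos`), `Real.exp_log`; `Real.exp_half`-type algebra.
-/

set_option autoImplicit false
set_option linter.unusedSectionVars false
open scoped ContDiff ComplexOrder Topology Matrix
open Filter

namespace Claimed.Agent.R316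

variable {V : Type} [NormedAddCommGroup V] [NormedSpace ℝ V] [MeasurableSpace V] [BorelSpace V]
variable {n : ℕ} {𝓜 : CMfd V (Fin n)} {g : HFam V (Fin n)} {o : V}
variable {D : FlowData 𝓜 g o}

/-- `Φ_s^* h_{t(u)} ≤ Φ_s^* h_{t(s)} ≤ C` for `u ≥ s`. -/
theorem tr7_hs_up (hg : IsMetric 𝓜 g) (ho : o ∈ 𝓜.carrier) (CF : D.ClockFacts) (H : D.Harnack)
    (Q : Tr7Charts D) {s u : ℝ} (hs : Q.s0 ≤ s) (hsu : s ≤ u) {z : CE (Fin n)}
    (hz : z ∈ Metric.ball (0 : CE (Fin n)) Q.r0) :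
    leM (D.hs u (Q.Φ s) z) (D.hs s (Q.Φ s) z) ∧ leM (D.hs u (Q.Φ s) z) (cI Q.C) := by
  obtain ⟨U, _, hzU, hU⟩ := (Q.Φ_loc s hs).2 z hz
  have h0 : (0 : ℝ) ≤ s := by linarith [Q.s0_ge]
  have h1 : leM (D.hs u (Q.Φ s) z) (D.hs s (Q.Φ s) z) := tr7_hs_mono D hg ho CF H h0 hsu _ U hU z hzU
  exact ⟨h1, loewner_trans h1 (Q.Φ_up s hs z hz)⟩

/-- the transition maps. -/
structure Tr7Trans (Q : Tr7Charts D) where
  r1 : ℝ
  r1_pos : 0 < r1
  r1_lt : r1 < Q.r0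
  F : ℝ → ℝ → CE (Fin n) → CE (Fin n)
  F_lift : ∀ s u : ℝ, Q.s0 ≤ s → s ≤ u →
    Tr7Lift (Q.Φ u) (Metric.ball 0 Q.r0) (Q.Φ s) (Metric.ball 0 r1) (F s u)
  F_zero : ∀ s u : ℝ, Q.s0 ≤ s → s ≤ u → F s u 0 = 0

theorem tr7_trans (hg : IsMetric 𝓜 g) (ho : o ∈ 𝓜.carrier) (CF : D.ClockFacts) (H : D.Harnack)
    (Q : Tr7Charts D) : Nonempty (Tr7Trans Q) := by
  classical
  set L := Real.sqrt (Q.C / Q.c) with hLdef
  have hL : 0 ≤ L := Real.sqrt_nonneg _
  set r1 := Q.r0 / (2 * (L + 1)) with hr1def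
  have hden : 0 < 2 * (L + 1) := by positivity
  have hr1 : 0 < r1 := div_pos Q.r0_pos hden
  have hr0 := Q.r0_pos
  have hLr : L * r1 < Q.r0 := by
    rw [hr1def, mul_div_assoc', div_lt_iff₀ hden]
    nlinarith
  have hr1lt : r1 < Q.r0 := by
    rw [hr1def, div_lt_iff₀ hden]
    nlinarith
  have key : ∀ s u : ℝ, Q.s0 ≤ s → s ≤ u → ∃ F : CE (Fin n) → CE (Fin n),
      Tr7Lift (Q.Φ u) (Metric.ball 0 Q.r0) (Q.Φ s) (Metric.ball 0 r1) F ∧ F 0 = 0 := by
    intro s u hs hsu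
    have h0u : 0 ≤ u := by linarith [Q.s0_ge]
    obtain ⟨F, hF, hF0, _⟩ := tr7_lift (H := D.hs u) (tr7_hs_metric D hg ho CF h0u).toIsHForm
      (Q.Φ_loc u (hs.trans hsu))
      (tr7_locBihol_mono (Q.Φ_loc s hs) Metric.isOpen_ball (Metric.ball_subset_ball hr1lt.le))
      (convex_ball 0 r1) Q.c_pos (Q.Φ_low u (hs.trans hsu))
      (fun z hz => (tr7_hs_up hg ho CF H Q hs hsu (Metric.ball_subset_ball hr1lt.le hz)).2)
      (z₁ := 0) (w₁ := 0) (Metric.mem_ball_self hr1)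
      (by rw [Q.Φ_zero u (hs.trans hsu), Q.Φ_zero s hs]) (d := r1)
      (fun z hz => by simpa using (mem_ball_zero_iff.1 hz).le) (by simpa using hLr)
    exact ⟨F, hF, hF0⟩
  choose! F hF1 hF2 using key
  exact ⟨⟨r1, hr1, hr1lt, F, hF1, hF2⟩⟩

namespace Tr7Trans

variable {Q : Tr7Charts D} (T : Tr7Trans Q)

theorem Φs_loc {s : ℝ} (hs : Q.s0 ≤ s) : IsLocBihol 𝓜 (Q.Φ s) (Metric.ball 0 T.r1) :=
  tr7_locBihol_mono (Q.Φ_loc s hs) Metric.isOpen_ball (Metric.ball_subset_ball T.r1_lt.le)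

theorem zero_mem : (0 : CE (Fin n)) ∈ Metric.ball (0 : CE (Fin n)) T.r1 :=
  Metric.mem_ball_self T.r1_pos

theorem F_hol {s u : ℝ} (hs : Q.s0 ≤ s) (hsu : s ≤ u) :
    DifferentiableOn ℂ (T.F s u) (Metric.ball 0 T.r1) :=
  (T.F_lift s u hs hsu).differentiableOn (Q.Φ_loc u (hs.trans hsu)) (T.Φs_loc hs)

theorem F_maps {s u : ℝ} (hs : Q.s0 ≤ s) (hsu : s ≤ u) :
    Set.MapsTo (T.F s u) (Metric.ball 0 T.r1) (Metric.ball 0 Q.r0) :=
  (T.F_lift s u hs hsu).maps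

theorem F_bdd {s u : ℝ} (hs : Q.s0 ≤ s) (hsu : s ≤ u) {z : CE (Fin n)}
    (hz : z ∈ Metric.ball (0 : CE (Fin n)) T.r1) : ‖T.F s u z‖ ≤ Q.r0 := by
  have := T.F_maps hs hsu hz
  rw [mem_ball_zero_iff] at this
  exact this.le

theorem Φ_F {s u : ℝ} (hs : Q.s0 ≤ s) (hsu : s ≤ u) {z : CE (Fin n)}
    (hz : z ∈ Metric.ball (0 : CE (Fin n)) T.r1) : Q.Φ u (T.F s u z) = Q.Φ s z :=
  (T.F_lift s u hs hsu).eq z hz

theorem F_nonsing {s u : ℝ} (hs : Q.s0 ≤ s) (hsu : s ≤ u) {z : CE (Fin n)}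
    (hz : z ∈ Metric.ball (0 : CE (Fin n)) T.r1) : (jac (T.F s u) z).det ≠ 0 :=
  (T.F_lift s u hs hsu).det_jac_ne_zero (Q.Φ_loc u (hs.trans hsu)) (T.Φs_loc hs) hz

/-- pull back of Hermitian forms. -/
theorem F_pull {s u : ℝ} (hs : Q.s0 ≤ s) (hsu : s ≤ u) {A : HFam V (Fin n)} (hA : IsHForm 𝓜 A)
    {z : CE (Fin n)} (hz : z ∈ Metric.ball (0 : CE (Fin n)) T.r1) :
    A (Q.Φ s) z = (jac (T.F s u) z)ᴴ * A (Q.Φ u) (T.F s u z) * jac (T.F s u) z :=
  (T.F_lift s u hs hsu).pull (Q.Φ_loc u (hs.trans hsu)) (T.Φs_loc hs) hA hz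

theorem F_refl {s : ℝ} (hs : Q.s0 ≤ s) : Set.EqOn (T.F s s) id (Metric.ball 0 T.r1) := by
  refine (T.F_lift s s hs le_rfl).eqOn (Q.Φ_loc s hs) ⟨continuousOn_id, ?_, fun _ _ => rfl⟩
    (convex_ball _ _).isPreconnected T.zero_mem (T.F_zero s s hs le_rfl)
  exact fun z hz => Metric.ball_subset_ball T.r1_lt.le hz

theorem F_comp {s u w : ℝ} (hs : Q.s0 ≤ s) (hsu : s ≤ u) (huw : u ≤ w) :
    ∀ᶠ z in 𝓝 (0 : CE (Fin n)), T.F s w z = T.F u w (T.F s u z) := by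
  have hsw := hsu.trans huw
  have hu : Q.s0 ≤ u := hs.trans hsu
  have hnhds : Metric.ball (0 : CE (Fin n)) T.r1 ∈ 𝓝 (0 : CE (Fin n)) :=
    Metric.isOpen_ball.mem_nhds T.zero_mem
  have hcont : ContinuousAt (T.F s u) 0 := (T.F_lift s u hs hsu).cont.continuousAt hnhds
  have hev : ∀ᶠ z in 𝓝 (0 : CE (Fin n)), T.F s u z ∈ Metric.ball (0 : CE (Fin n)) T.r1 :=
    hcont (by rw [T.F_zero s u hs hsu]; exact hnhds)
  obtain ⟨ε, hε, hball⟩ := Metric.eventually_nhds_iff_ball.1 (hev.and hnhds)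
  have hsubs : Metric.ball (0 : CE (Fin n)) ε ⊆ Metric.ball 0 T.r1 := fun z hz => (hball z hz).2
  have hmaps : Set.MapsTo (T.F s u) (Metric.ball 0 ε) (Metric.ball 0 T.r1) :=
    fun z hz => (hball z hz).1
  have L1 := (T.F_lift s w hs hsw).mono hsubs
  have L2 : Tr7Lift (Q.Φ w) (Metric.ball 0 Q.r0) (Q.Φ s) (Metric.ball 0 ε) (T.F u w ∘ T.F s u) :=
    ⟨(T.F_lift u w hu huw).cont.comp ((T.F_lift s u hs hsu).cont.mono hsubs) hmaps,
      fun z hz => (T.F_lift u w hu huw).maps (hmaps hz),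
      fun z hz => by
        show Q.Φ w (T.F u w (T.F s u z)) = Q.Φ s z
        rw [T.Φ_F hu huw (hmaps hz), T.Φ_F hs hsu (hsubs hz)]⟩
  have := L1.eqOn (Q.Φ_loc w (hs.trans hsw)) L2 (convex_ball _ _).isPreconnected
    (Metric.mem_ball_self hε) (by
      show T.F s w 0 = T.F u w (T.F s u 0)
      rw [T.F_zero s u hs hsu, T.F_zero s w hs hsw, T.F_zero u w hu huw])
  exact Filter.eventually_of_mem (Metric.ball_mem_nhds 0 hε) this

/-- matrix of `h_{t(u)}(o)` in the coordinates `Φ_s` is `Lᴴ L`, `L = F_{s,u}'(0)`. -/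
theorem F_gram (hg : IsMetric 𝓜 g) (ho : o ∈ 𝓜.carrier) (CF : D.ClockFacts) {s u : ℝ}
    (hs : Q.s0 ≤ s) (hsu : s ≤ u) :
    D.hs u (Q.Φ s) 0 = (jac (T.F s u) 0)ᴴ * jac (T.F s u) 0 := by
  have h0 : (0 : ℝ) ≤ u := by linarith [Q.s0_ge]
  have := T.F_pull hs hsu (tr7_hs_metric D hg ho CF h0).toIsHForm T.zero_mem
  rwa [T.F_zero s u hs hsu, Q.Φ_unit u (hs.trans hsu), Matrix.mul_one] at this

theorem tr7_cI_one : (cI 1 : Matrix (Fin n) (Fin n) ℂ) = 1 := by simp [cI]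

/-- (7.16), first part. -/
theorem F_norm (hg : IsMetric 𝓜 g) (ho : o ∈ 𝓜.carrier) (CF : D.ClockFacts) (H : D.Harnack)
    {s u : ℝ} (hs : Q.s0 ≤ s) (hsu : s ≤ u) : ‖fderiv ℂ (T.F s u) 0‖ ≤ 1 := by
  refine ContinuousLinearMap.opNorm_le_bound _ zero_le_one fun v => ?_
  rw [tr7_fderiv_eq_mulVec]
  have hup : leM (D.hs u (Q.Φ s) 0) (cI 1) := by
    have := (tr7_hs_up hg ho CF H Q hs hsu (Metric.mem_ball_self Q.r0_pos)).1
    rwa [Q.Φ_unit s hs, ← tr7_cI_one] at this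
  have hlow : leM (cI 1) (1 : Matrix (Fin n) (Fin n) ℂ) := by
    rw [tr7_cI_one]; exact loewner_refl _
  have hpull : D.hs u (Q.Φ s) 0 = (jac (T.F s u) 0)ᴴ * 1 * jac (T.F s u) 0 := by
    rw [Matrix.mul_one]; exact T.F_gram hg ho CF hs hsu
  have := tr7_norm_le_of_pull one_pos hpull hlow hup v
  simpa using this

/-- (7.16), second part. -/
theorem F_det (hg : IsMetric 𝓜 g) (ho : o ∈ 𝓜.carrier) (CF : D.ClockFacts) {s u : ℝ}
    (hs : Q.s0 ≤ s) (hsu : s ≤ u) :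
    ‖(jac (T.F s u) 0).det‖ = Real.exp (-((u - s) / 2)) := by
  have h0s : 0 ≤ s := by linarith [Q.s0_ge]
  have h0u : 0 ≤ u := h0s.trans hsu
  obtain ⟨U, _, h0U, hU⟩ := (Q.Φ_loc s hs).2 0 (Metric.mem_ball_self Q.r0_pos)
  have e1 := tr7_log_det_hs D hg ho CF h0s hU h0U (Q.Φ_zero s hs)
  have e2 := tr7_log_det_hs D hg ho CF h0u hU h0U (Q.Φ_zero s hs)
  rw [Q.Φ_unit s hs] at e1
  simp only [Matrix.det_one, Complex.one_re, Real.log_one] at e1
  have hpos : 0 < (D.hs u (Q.Φ s) 0).det.re :=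
    posDef_det_re_pos ((tr7_hs_metric D hg ho CF h0u).posDef hU 0 h0U)
  have e3 : (D.hs u (Q.Φ s) 0).det.re = Real.exp (-(u - s)) := by
    rw [← Real.exp_log hpos, e2]
    congr 1
    linarith
  have e4 : (D.hs u (Q.Φ s) 0).det.re = ‖(jac (T.F s u) 0).det‖ ^ 2 := by
    rw [T.F_gram hg ho CF hs hsu, Matrix.det_mul, Matrix.det_conjTranspose, Complex.star_def,
      ← Complex.normSq_eq_conj_mul_self, Complex.ofReal_re, Complex.normSq_eq_norm_sq]
  have e5 : ‖(jac (T.F s u) 0).det‖ ^ 2 = Real.exp (-((u - s) / 2)) ^ 2 := by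
    rw [← e4, e3, ← Real.exp_nat_mul]
    congr 1
    push_cast
    ring
  exact (pow_left_inj₀ (norm_nonneg _) (Real.exp_pos _).le two_ne_zero).1 e5

end Tr7Trans

/-- (7.10) + (7.15): `Φ_s^* g ≤ C e^{2s}` over a compact set. -/
theorem tr7_g_bound (CF : D.ClockFacts) (Q : Tr7Charts D) {K : Set V} (hK : IsCompact K)
    (hKM : K ⊆ 𝓜.carrier) : ∃ sK : ℝ, ∀ s : ℝ, sK ≤ s →
      ∀ z ∈ Metric.ball (0 : CE (Fin n)) Q.r0, Q.Φ s z ∈ K →
        leM (g (Q.Φ s) z) (cI (Q.C * Real.exp (2 * s))) := by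
  obtain ⟨cK, s₁, _, hdec⟩ := CF.decay K hK hKM
  refine ⟨max s₁ Q.s0, fun s hs z hz hzK => ?_⟩
  have hs0 : Q.s0 ≤ s := (le_max_right _ _).trans hs
  obtain ⟨U, _, hzU, hU⟩ := (Q.Φ_loc s hs0).2 z hz
  have h1 := (hdec s ((le_max_left _ _).trans hs)).1 _ U hU z hzU hzK
  have h2 := loewner_trans h1 (Q.Φ_up s hs0 z hz)
  have h3 := loewner_smul (Real.exp_pos (2 * s)).le h2
  have e1 : ((Real.exp (2 * s) : ℝ) : ℂ) • smulF (fun _ => Real.exp (-(2 * s))) g (Q.Φ s) z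
      = g (Q.Φ s) z := by
    rw [smulF, smul_smul, ← Complex.ofReal_mul, ← Real.exp_add]
    simp
  have e2 : ((Real.exp (2 * s) : ℝ) : ℂ) • (cI Q.C : Matrix (Fin n) (Fin n) ℂ)
      = cI (Q.C * Real.exp (2 * s)) := by
    rw [cI, cI, smul_smul, ← Complex.ofReal_mul, mul_comm]
  rw [e1, e2] at h3
  exact h3

end Claimed.Agent.R316
end

/- ===== packed: Claimed.Agent.R316.S7.Trans.Exh ===== -/
section
/-!
# Row 316, BP-S7-7a: exhaustion, thresholds, coherent inverse branches (charts.tex l.992-1015)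

Sub-captain: helper248.  DONE (nothing left open here).

Exhaustion by the compact sets `hcball o m`; connected cores `hball o m`; at clock `s` use the construction of `tr7_branch` for the greatest `m ≤ s`
whose threshold is `≤ s`.  Two branches over the connected `hball o m` agree by uniqueness of lifts; this gives the local exponent (7.20) and `f_u = F_{s,u} ∘ f_s`.

RECIPE for `tr7_isPreconnected_hball`: `isPreconnected_of_forall x`; for `y ∈ hball x r`: `exists_curve_speed_le` with `L = r` gives a `C¹` curve `γ` from `x` to `y` with `len γ 0 1 < r`;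
for `t ∈ Icc 0 1`: `hdist x (γ t) ≤ len γ 0 t ≤ len γ 0 1` (`hdist_le_len`, `len_add`, `len_nonneg`); so `γ '' Icc 0 1 ⊆ hball x r`, and it is preconnected (`isPreconnected_Icc.image`).
-/

set_option autoImplicit false
set_option linter.unusedSectionVars false
open scoped ContDiff ComplexOrder Topology Matrix
open Filter

namespace Claimed.Agent.R316

section conn

variable {V : Type} [NormedAddCommGroup V] [NormedSpace ℝ V] [FiniteDimensional ℝ V]
variable {ι : Type} [Fintype ι] [DecidableEq ι]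
variable {𝓜 : CMfd V ι} {h : HFam V ι}

/-- open metric balls are connected. -/
theorem tr7_isPreconnected_hball (hm : IsMetric 𝓜 h) (hconn : IsConnected 𝓜.carrier) {x : V}
    (hx : x ∈ 𝓜.carrier) (r : ℝ) : IsPreconnected (hball 𝓜 h x r) := by
  refine isPreconnected_of_forall x fun y hy => ?_
  obtain ⟨γ, hγ, h0, h1, hlen, _⟩ := exists_curve_speed_le hm hconn hx hy.1 hy.2
  refine ⟨γ '' Set.Icc 0 1, ?_, ⟨0, by simp, h0⟩, ⟨1, by simp, h1⟩,
    isPreconnected_Icc.image _ hγ.1.continuous.continuousOn⟩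
  rintro _ ⟨t, ht, rfl⟩
  refine ⟨hγ.2 t, ?_⟩
  have e1 := hdist_le_len hm hγ ht.1
  have e2 := len_add hm.toIsHForm hγ 0 t 1
  have e3 := len_nonneg 𝓜 h γ ht.2
  rw [h0] at e1
  linarith

end conn

variable {V : Type} [NormedAddCommGroup V] [NormedSpace ℝ V] [MeasurableSpace V] [BorelSpace V]
variable {n : ℕ} {𝓜 : CMfd V (Fin n)} {g : HFam V (Fin n)} {o : V}
variable {D : FlowData 𝓜 g o}

/-- the coherent inverse branches. -/
structure Tr7Branches (Q : Tr7Charts D) where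
  S0 : ℝ
  S0_ge : Q.s0 ≤ S0
  Dom : ℝ → Set V
  Dom_open : ∀ s : ℝ, IsOpen (Dom s)
  Dom_exh : ∀ K : Set V, IsCompact K → K ⊆ 𝓜.carrier → ∃ sK : ℝ, ∀ s : ℝ, sK ≤ s → K ⊆ Dom s
  f : ℝ → V → CE (Fin n)
  f_lift : ∀ s : ℝ, S0 ≤ s → Tr7Lift (Q.Φ s) (Metric.ball 0 Q.r0) id (𝓜.carrier ∩ Dom s) (f s)
  o_mem : ∀ s : ℝ, S0 ≤ s → o ∈ Dom s
  f_o : ∀ s : ℝ, S0 ≤ s → f s o = 0
  /-- (7.20) the local exponent -/
  f_loc : ∀ K : Set V, IsCompact K → K ⊆ 𝓜.carrier → ∃ CK aK sK : ℝ, 0 < aK ∧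
    ∀ s : ℝ, sK ≤ s → ∀ x ∈ K, ‖f s x‖ ≤ CK * Real.exp (-(aK * s))

variable [FiniteDimensional ℝ V]

theorem tr7_branches (I : InitialData 𝓜 g) (ho : o ∈ 𝓜.carrier) (CF : D.ClockFacts)
    (SC : SimplyConn 𝓜) (Q : Tr7Charts D) : Nonempty (Tr7Branches Q) := by
  classical
  have hg : IsMetric 𝓜 g := I.kahler.toIsMetric
  choose O CK aK sK hO hKO hoO haK hsK hσ using fun m : ℕ =>
    tr7_branch hg ho CF SC Q (I.proper o ho (m : ℝ)) (hcball_subset_carrier 𝓜 g o m)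
  choose! σ hσ1 hσ2 hσ3 using hσ
  set mOf : ℝ → ℕ := fun s => Nat.findGreatest (fun m => sK m ≤ s) ⌊s⌋₊ with hmOf
  have hspec : ∀ s, sK 0 ≤ s → sK (mOf s) ≤ s := fun s hs =>
    Nat.findGreatest_spec (P := fun m => sK m ≤ s) (Nat.zero_le _) hs
  have hle : ∀ (m : ℕ) (s : ℝ), sK m ≤ s → (m : ℝ) ≤ s → m ≤ mOf s := fun m s h1 h2 =>
    Nat.le_findGreatest (Nat.le_floor h2) h1
  -- every compact set lies in some `hball o m`, `m ≥ 1`
  have hcov : ∀ K : Set V, IsCompact K → K ⊆ 𝓜.carrier → ∃ m : ℕ, 0 < m ∧ K ⊆ hball 𝓜 g o m := by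
    intro K hK hKM
    obtain ⟨R, hR, hKR⟩ := exists_hcball_of_isCompact hg I.conn ho hK hKM
    exact ⟨⌈R⌉₊, Nat.ceil_pos.2 hR, hKR.trans (hball_mono 𝓜 g o (Nat.le_ceil R))⟩
  have hsub : ∀ (m : ℕ) (s : ℝ), sK m ≤ s → (m : ℝ) ≤ s → hcball 𝓜 g o m ⊆ O (mOf s) :=
    fun m s h1 h2 => (hcball_mono 𝓜 g o (by exact_mod_cast hle m s h1 h2)).trans (hKO _)
  refine ⟨{ S0 := sK 0, S0_ge := hsK 0, Dom := fun s => O (mOf s), Dom_open := fun s => hO _,
            Dom_exh := ?_, f := fun s => σ (mOf s) s, f_lift := fun s hs => hσ1 _ s (hspec s hs),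
            o_mem := fun s _ => hoO _, f_o := fun s hs => hσ2 _ s (hspec s hs), f_loc := ?_ }⟩
  · intro K hK hKM
    obtain ⟨m, _, hKm⟩ := hcov K hK hKM
    exact ⟨max (sK m) m, fun s hs => (hKm.trans (hball_subset_hcball 𝓜 g o m)).trans
      (hsub m s ((le_max_left _ _).trans hs) ((le_max_right _ _).trans hs))⟩
  · intro K hK hKM
    obtain ⟨m, hm, hKm⟩ := hcov K hK hKM
    refine ⟨CK m, aK m, max (max (sK m) m) (sK 0), haK m, fun s hs x hx => ?_⟩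
    have h1 : sK m ≤ s := ((le_max_left _ _).trans (le_max_left _ _)).trans hs
    have h2 : (m : ℝ) ≤ s := ((le_max_right _ _).trans (le_max_left _ _)).trans hs
    have h3 : sK 0 ≤ s := (le_max_right _ _).trans hs
    have hs0 : Q.s0 ≤ s := (hsK 0).trans h3
    have hB1 : hball 𝓜 g o m ⊆ 𝓜.carrier ∩ O (mOf s) := fun y hy =>
      ⟨hy.1, hsub m s h1 h2 (hball_subset_hcball 𝓜 g o m hy)⟩
    have hB2 : hball 𝓜 g o m ⊆ 𝓜.carrier ∩ O m := fun y hy =>
      ⟨hy.1, hKO m (hball_subset_hcball 𝓜 g o m hy)⟩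
    have heq : Set.EqOn (σ (mOf s) s) (σ m s) (hball 𝓜 g o m) :=
      ((hσ1 _ s (hspec s h3)).mono hB1).eqOn (Q.Φ_loc s hs0) ((hσ1 m s h1).mono hB2)
        (tr7_isPreconnected_hball hg I.conn ho _) (mem_hball_self ho (by exact_mod_cast hm))
        ((hσ2 _ s (hspec s h3)).trans (hσ2 m s h1).symm)
    show ‖σ (mOf s) s x‖ ≤ _
    rw [heq (hKm hx)]
    exact hσ3 m s h1 x (hB2 (hKm hx))

/-- `f_u = F_{s,u} ∘ f_s` on compact sets, eventually. -/
theorem tr7_coh (I : InitialData 𝓜 g) (ho : o ∈ 𝓜.carrier) {Q : Tr7Charts D} (T : Tr7Trans Q)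
    (Br : Tr7Branches Q) {K : Set V} (hK : IsCompact K) (hKM : K ⊆ 𝓜.carrier) :
    ∃ sK : ℝ, ∀ s u : ℝ, sK ≤ s → s ≤ u → ∀ x ∈ K,
      Br.f s x ∈ Metric.ball (0 : CE (Fin n)) T.r1 ∧ Br.f u x = T.F s u (Br.f s x) := by
  have hg : IsMetric 𝓜 g := I.kahler.toIsMetric
  obtain ⟨R, hR, hKR⟩ := exists_hcball_of_isCompact hg I.conn ho hK hKM
  have hc : IsCompact (hcball 𝓜 g o R) := I.proper o ho R
  have hcM := hcball_subset_carrier 𝓜 g o R
  obtain ⟨s1, hs1⟩ := Br.Dom_exh _ hc hcM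
  obtain ⟨CK, aK, s2, haK, hs2⟩ := Br.f_loc _ hc hcM
  have hlim : Tendsto (fun s : ℝ => CK * Real.exp (-(aK * s))) atTop (𝓝 0) := by
    have h1 : Tendsto (fun s : ℝ => aK * s) atTop atTop := tendsto_id.const_mul_atTop haK
    simpa using (Real.tendsto_exp_neg_atTop_nhds_zero.comp h1).const_mul CK
  obtain ⟨s3, hs3⟩ := eventually_atTop.1 (hlim.eventually (gt_mem_nhds T.r1_pos))
  refine ⟨max (max s1 s2) (max s3 Br.S0), fun s u hs hsu => ?_⟩
  have h1 : s1 ≤ s := ((le_max_left _ _).trans (le_max_left _ _)).trans hs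
  have h2 : s2 ≤ s := ((le_max_right _ _).trans (le_max_left _ _)).trans hs
  have h3 : s3 ≤ s := ((le_max_left _ _).trans (le_max_right _ _)).trans hs
  have h4 : Br.S0 ≤ s := ((le_max_right _ _).trans (le_max_right _ _)).trans hs
  have hs0 : Q.s0 ≤ s := Br.S0_ge.trans h4
  have hBs : hball 𝓜 g o R ⊆ 𝓜.carrier ∩ Br.Dom s := fun y hy =>
    ⟨hy.1, hs1 s h1 (hball_subset_hcball 𝓜 g o R hy)⟩
  have hBu : hball 𝓜 g o R ⊆ 𝓜.carrier ∩ Br.Dom u := fun y hy =>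
    ⟨hy.1, hs1 u (h1.trans hsu) (hball_subset_hcball 𝓜 g o R hy)⟩
  have hsmall : Set.MapsTo (Br.f s) (hball 𝓜 g o R) (Metric.ball 0 T.r1) := fun y hy => by
    rw [mem_ball_zero_iff]
    exact (hs2 s h2 y (hball_subset_hcball 𝓜 g o R hy)).trans_lt (hs3 s h3)
  have hLs := (Br.f_lift s h4).mono hBs
  have hcomp : Tr7Lift (Q.Φ u) (Metric.ball 0 Q.r0) id (hball 𝓜 g o R) (T.F s u ∘ Br.f s) :=
    ⟨(T.F_lift s u hs0 hsu).cont.comp hLs.cont hsmall,
      fun y hy => (T.F_lift s u hs0 hsu).maps (hsmall hy),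
      fun y hy => by
        show Q.Φ u (T.F s u (Br.f s y)) = y
        rw [T.Φ_F hs0 hsu (hsmall hy)]
        exact hLs.eq y hy⟩
  have heq : Set.EqOn (Br.f u) (T.F s u ∘ Br.f s) (hball 𝓜 g o R) :=
    ((Br.f_lift u (h4.trans hsu)).mono hBu).eqOn (Q.Φ_loc u (hs0.trans hsu)) hcomp
      (tr7_isPreconnected_hball hg I.conn ho _) (mem_hball_self ho hR) (by
        show Br.f u o = T.F s u (Br.f s o)
        rw [Br.f_o u (h4.trans hsu), Br.f_o s h4, T.F_zero s u hs0 hsu])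
  exact fun x hx => ⟨hsmall (hKR hx), heq (hKR hx)⟩

end Claimed.Agent.R316
end

/- ===== packed: Claimed.Agent.R316.S7.Trans.Sys ===== -/
section
/-!
# Row 316, BP-S7-7a: OUTPUT of the package = `Tr7Sys D` (charts `Φ_s`, transitions `F_{s,u}`, coherent inverse branches `f_s`)

Sub-captain: helper248 (glue file, no `sorry` of its own).  This is the INPUT of BP-S7-7b (`S7/Rate/*`, helper126; glue `Tr7Sys.toPre` in `S7/Trans/Main.lean`).

`X : Tr7Sys D` consists of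
* `X.Q : Tr7Charts D` (`Clock.lean`): `r0, c, C, s0`, `Φ s`, `Φ_loc`, `Φ_zero`, `Φ_unit : D.hs s (Φ s) 0 = 1`, `Φ_low`, `Φ_up` (7.15);
* `X.T : Tr7Trans X.Q` (`Germ.lean`): `r1`, `F s u`, `F_lift` (continuous lift of `Φ_s | ball 0 r1` through `Φ_u`), `F_zero`; derived: `F_hol, F_maps, F_bdd, Φ_F, F_nonsing, F_pull, F_refl, F_comp, F_gram, F_norm, F_det`;
* `X.Br : Tr7Branches X.Q` (`Exh.lean`): first clock `S0 ≥ s0`, `Dom`, `f`, `f_lift`, `o_mem`, `f_o`, `Dom_exh`, `f_loc` (7.20); derived: `tr7_coh`, `Tr7Sys.f_hol`;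
* `tr7_g_bound` (`Germ.lean`).
General tools: `Tr7Lift.eqOn` (uniqueness of lifts on preconnected sets), `Tr7Lift.differentiableOn`, `Tr7Lift.pull`, `Tr7Lift.holTo`, `tr7_lift` (`Local.lean`, `Lift.lean`).
-/

set_option autoImplicit false
set_option linter.unusedSectionVars false
open scoped ContDiff ComplexOrder Topology Matrix
open Filter

namespace Claimed.Agent.R316

variable {V : Type} [NormedAddCommGroup V] [NormedSpace ℝ V] [MeasurableSpace V] [BorelSpace V]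
variable {n : ℕ} {𝓜 : CMfd V (Fin n)} {g : HFam V (Fin n)} {o : V}

/-- charts, transitions and inverse branches. -/
structure Tr7Sys (D : FlowData 𝓜 g o) where
  Q : Tr7Charts D
  T : Tr7Trans Q
  Br : Tr7Branches Q

variable {D : FlowData 𝓜 g o}

/-- the first clock of the system. -/
def Tr7Sys.s0 (X : Tr7Sys D) : ℝ := X.Br.S0

theorem Tr7Sys.s0_ge (X : Tr7Sys D) : X.Q.s0 ≤ X.s0 := X.Br.S0_ge

theorem Tr7Sys.one_le_s0 (X : Tr7Sys D) : 1 ≤ X.s0 := X.Q.s0_ge.trans X.s0_ge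

theorem Tr7Sys.f_hol (X : Tr7Sys D) {s : ℝ} (hs : X.s0 ≤ s) : 𝓜.HolTo (X.Br.Dom s) (X.Br.f s) :=
  (X.Br.f_lift s hs).holTo (X.Q.Φ_loc s (X.s0_ge.trans hs)) (X.Br.Dom_open s)

/-- **BP-S7-7a**: the system exists, with first clock as late as one wishes. -/
theorem tr7_sys [FiniteDimensional ℝ V] (I : InitialData 𝓜 g) (ho : o ∈ 𝓜.carrier) (H : D.Harnack)
    (LC : D.LocalCharts) (CF : D.ClockFacts) (SC : SimplyConn 𝓜) (S : ℝ) :
    ∃ X : Tr7Sys D, S ≤ X.s0 := by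
  have hg : IsMetric 𝓜 g := I.kahler.toIsMetric
  obtain ⟨Q, hQ⟩ := tr7_charts D hg ho LC CF S
  obtain ⟨T⟩ := tr7_trans hg ho CF H Q
  obtain ⟨Br⟩ := tr7_branches I ho CF SC Q
  exact ⟨⟨Q, T, Br⟩, hQ.trans Br.S0_ge⟩

end Claimed.Agent.R316
end

/- ===== packed: Claimed.Agent.R316.S7.Trans.Main ===== -/
section
/-!
# Row 316: Proposition 7.7 (`St77`) assembled from BP-S7-7a (`S7/Trans/Sys.lean`, helper248) and BP-S7-7b (`S7/Rate/Main.lean`, helper126)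

Glue file, no `sorry` of its own.  `Tr7Sys.toPre` repackages the output `X : Tr7Sys D` of BP-S7-7a as the input `PreCharts D` (`S7/Rate/Clock.lean`) of BP-S7-7b; `r7_main` (through `st77_of_pre`) does the rest.
(The former interface file `S7/Trans/B.lean` is superseded by `S7/Rate/*`: `tr7b_tau = r7tau`, `tr7b_Lam = r7Lam`, `tr7b_f_small = r7_common`, `tr7b_inner = r7_inner_bound`, `tr7b_F_jets = InnerSys.jets`, `tr7b_F_small = InnerSys.small`, `tr7b_rate_order = r7_rate_order`.)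
-/

set_option autoImplicit false
set_option linter.unusedSectionVars false
open scoped ContDiff ComplexOrder Topology Matrix
open Filter

namespace Claimed.Agent.R316

variable {V : Type} [NormedAddCommGroup V] [NormedSpace ℝ V] [MeasurableSpace V] [BorelSpace V]
variable [FiniteDimensional ℝ V]
variable {n : ℕ} {𝓜 : CMfd V (Fin n)} {g : HFam V (Fin n)} {o : V}
variable {D : FlowData 𝓜 g o}

/-- the output of BP-S7-7a in the shape of the input of BP-S7-7b. -/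
noncomputable def Tr7Sys.toPre (I : InitialData 𝓜 g) (ho : o ∈ 𝓜.carrier) (H : D.Harnack)
    (CF : D.ClockFacts) (X : Tr7Sys D) : PreCharts D :=
  have hg : IsMetric 𝓜 g := I.kahler.toIsMetric
  have hQ : ∀ {s : ℝ}, X.s0 ≤ s → X.Q.s0 ≤ s := fun hs => X.s0_ge.trans hs
  { r0 := X.Q.r0
    r1 := X.T.r1
    Bst := X.Q.r0
    s0 := X.s0
    C0 := X.Q.C
    r1_pos := X.T.r1_pos
    r1_lt := X.T.r1_lt
    s0_ge := X.one_le_s0
    Φ := X.Q.Φ
    Φ_loc := fun s hs => X.Q.Φ_loc s (hQ hs)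
    Φ_zero := fun s hs => X.Q.Φ_zero s (hQ hs)
    Φ_unit := fun s hs => X.Q.Φ_unit s (hQ hs)
    F := X.T.F
    F_hol := fun s u hs hsu => X.T.F_hol (hQ hs) hsu
    F_bdd := fun s u hs hsu z hz => X.T.F_bdd (hQ hs) hsu hz
    F_zero := fun s u hs hsu => X.T.F_zero s u (hQ hs) hsu
    F_nonsing := fun s u hs hsu z hz => X.T.F_nonsing (hQ hs) hsu hz
    F_refl := fun s hs => X.T.F_refl (hQ hs)
    F_comp := fun s u w hs hsu huw => X.T.F_comp (hQ hs) hsu huw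
    F_norm := fun s u hs hsu => X.T.F_norm hg ho CF H (hQ hs) hsu
    F_det := fun s u hs hsu => X.T.F_det hg ho CF (hQ hs) hsu
    F_maps := fun s u hs hsu => X.T.F_maps (hQ hs) hsu
    Φ_F := fun s u hs hsu z hz => X.T.Φ_F (hQ hs) hsu hz
    g_bound := fun K hK hKM => tr7_g_bound CF X.Q hK hKM
    Dom := X.Br.Dom
    Dom_open := X.Br.Dom_open
    Dom_exh := X.Br.Dom_exh
    f := X.Br.f
    f_hol := fun s hs => X.f_hol hs
    f_maps := fun s hs x hx => (X.Br.f_lift s hs).maps hx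
    Φ_f := fun s hs x hx => (X.Br.f_lift s hs).eq x hx
    o_mem := X.Br.o_mem
    f_o := X.Br.f_o
    f_coh := fun K hK hKM => tr7_coh I ho X.T X.Br hK hKM
    f_local := X.Br.f_loc }

/-- **Proposition 7.7**. -/
theorem st77 (D : FlowData 𝓜 g o) : St77 D :=
  st77_of_pre fun I ho H LC CF SC =>
    let ⟨X, _⟩ := tr7_sys I ho H LC CF SC 0
    ⟨X.toPre I ho H CF⟩

end Claimed.Agent.R316
end
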