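/- Packed by merge_tool.py (helper293): 2 modules of Claimed.Agent.R316 in one file, same declarations.
   Old modules, in this order: S9.Deg, S9.Asm -/
import Claimed.Agent.R316.S9.Hom
import Claimed.Agent.R316.S9.Shear
import Claimed.Agent.R316.Pack028

/- ===== packed: Claimed.Agent.R316.S9.Deg ===== -/
section
/-!
# Row 316, Section 9, package DEG: how the models act on componentwise degree bounds
-/

set_option autoImplicit false
open MvPolynomial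

namespace Claimed.Agent.R316.S9

variable {n : ℕ}

/-- real valued version of `totalDegree_bind₁_le_of`. -/
theorem totalDegree_bind₁_le_real (Q : PMap n) (f : MP n) (B : ℝ) (hB : 0 ≤ B)
    (h : ∀ m ∈ f.support, ∑ l, (m l : ℝ) * ((Q l).totalDegree : ℝ) ≤ B) :
    ((bind₁ Q f).totalDegree : ℝ) ≤ B := by
  have h1 : (bind₁ Q f).totalDegree ≤ ⌊B⌋₊ := by
    apply totalDegree_bind₁_le_of
    intro m hm
    apply Nat.le_floor
    have := h m hm
    push_cast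
    exact this
  exact le_trans (by exact_mod_cast h1) (Nat.floor_le hB)

/-- DEG-1: allowed nonlinear terms preserve componentwise degree bounds. -/
theorem deg_step_tri {d : ℕ} (w : Fin n → ℝ) (hw : ∀ i, 0 ≤ w i) (D : Fin n → ℂ) (γ : PMap n)
    (hγ : SuppIn d (Allowed w) γ) (P : PMap n) (hP : ∀ i, ((P i).totalDegree : ℝ) ≤ w i) (i : Fin n) :
    ((comp (triMap D γ) P i).totalDegree : ℝ) ≤ w i := by
  have h1 : comp (triMap D γ) P i = C (D i) * P i + bind₁ P (γ i) := by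
    simp [comp, triMap]
  rw [h1]
  have h2 : ((C (D i) * P i).totalDegree : ℝ) ≤ w i := by
    refine le_trans ?_ (hP i)
    have := totalDegree_mul (C (D i)) (P i)
    rw [totalDegree_C, zero_add] at this
    exact_mod_cast this
  have h3 : ((bind₁ P (γ i)).totalDegree : ℝ) ≤ w i := by
    apply totalDegree_bind₁_le_real _ _ _ (hw i)
    intro m hm
    have hA := (hγ i m (mem_support_iff.mp hm)).2.2
    refine le_trans (Finset.sum_le_sum fun l _ => ?_) hA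
    exact mul_le_mul_of_nonneg_left (hP l) (Nat.cast_nonneg _)
  have h4 := totalDegree_add (C (D i) * P i) (bind₁ P (γ i))
  calc (((C (D i) * P i + bind₁ P (γ i)).totalDegree : ℕ) : ℝ)
      ≤ ((max (C (D i) * P i).totalDegree (bind₁ P (γ i)).totalDegree : ℕ) : ℝ) := by exact_mod_cast h4
    _ = max ((C (D i) * P i).totalDegree : ℝ) ((bind₁ P (γ i)).totalDegree : ℝ) := by push_cast; rfl
    _ ≤ w i := max_le h2 h3

/-- DEG-2: an aligned jump transports the degree bounds from the old to the new weights. -/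
theorem deg_step_lin (wo wn : Fin n → ℝ) (hwn : ∀ i, 0 ≤ wn i) (J : Mat n)
    (hJ : ∀ i l, wn i < wo l → J i l = 0) (Y : PMap n) (hY : ∀ l, ((Y l).totalDegree : ℝ) ≤ wo l)
    (i : Fin n) : ((comp (ofMat J) Y i).totalDegree : ℝ) ≤ wn i := by
  rw [comp_ofMat_apply]
  have h1 : (∑ l, C (J i l) * Y l).totalDegree ≤ ⌊wn i⌋₊ := by
    apply totalDegree_finsetSum_le
    intro l _
    by_cases hl : J i l = 0
    · simp [hl]
    · have h2 : wo l ≤ wn i := by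
        by_contra hc
        exact hl (hJ i l (not_le.mp hc))
      have h3 := totalDegree_mul (C (J i l)) (Y l)
      rw [totalDegree_C, zero_add] at h3
      refine h3.trans (Nat.le_floor ((hY l).trans h2))
  exact le_trans (by exact_mod_cast h1) (Nat.floor_le (hwn i))

/-- DEG-3 -/
theorem pdeg_ofMat_comp_le (J : Mat n) (Y : PMap n) : pdeg (comp (ofMat J) Y) ≤ pdeg Y := by
  refine (pdeg_comp_le _ _).trans ?_
  calc pdeg (ofMat J) * pdeg Y ≤ 1 * pdeg Y := Nat.mul_le_mul_right _ (pdeg_ofMat_le J)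
    _ = pdeg Y := one_mul _

end Claimed.Agent.R316.S9
end

/- ===== packed: Claimed.Agent.R316.S9.Asm ===== -/
section
/-!
# Row 316, Section 9, package ASM: abstract assembly of the polynomial models

`AsmData n d` collects, along a grid, everything that is known BEFORE the homological equations are
solved: the transition jets `F k`, the volume coordinates `A k`, `Ai k` (package VOL), and the linear
changes (packages RATES, ALIGN), the latter only through the algebraic relations they satisfy: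

* `Lam k`  : primary linear change at the grid point `k` (`= L_k^- W_k^H` if `k` is regular, `1` otherwise);
* `Lame k` : adjusted end coordinates of step `k` (`= L_k^+ V_k^H`);
* `J k`    : jump `Lam (k+1) = J k * Lame k`;
* `Lame k * F_k'(0) * (Lam k)⁻¹ = diag (D k)` on regular steps.

Construction (`asm_main`):
* `Fh k = J_d (Lame k ∘ A (k+1) ∘ F k ∘ Ai k ∘ Lami k)`; `hom_main` gives `h k`, `γ k`;
* `H k = J_d (h k ∘ Lam k ∘ A k)`;
* regular `k`: `G k = J k ∘ (D k z + γ k)`, inverse by `tri_inverse`;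
* other `k`  : `G k` = realization (`shear_main`) of `J_d (h (k+1) ∘ Lam (k+1) ∘ A (k+1) ∘ F k ∘ Ai k)`.
-/

set_option autoImplicit false
open MvPolynomial

namespace Claimed.Agent.R316.S9

/-- data for the abstract assembly. -/
structure AsmData (n d : ℕ) where
  /-- regular steps -/
  reg : ℕ → Prop
  /-- transition jets -/
  F : ℕ → PMap n
  /-- volume coordinates at the grid points -/
  A : ℕ → PMap n
  /-- their inverse jets -/
  Ai : ℕ → PMap n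
  /-- diagonal of the step derivative -/
  D : ℕ → Fin n → ℂ
  /-- weights -/
  w : ℕ → Fin n → ℝ
  /-- primary linear change -/
  Lam : ℕ → Mat n
  /-- its inverse -/
  Lami : ℕ → Mat n
  /-- end coordinates of the step -/
  Lame : ℕ → Mat n
  /-- jump -/
  J : ℕ → Mat n
  /-- its inverse -/
  Ji : ℕ → Mat n
  /-- inverse of the linear part of `F k` -/
  Finv : ℕ → Mat n
  /-- step length -/
  Δ : ℕ → ℝ
  /-- subexponential envelope -/
  x : ℕ → ℝ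
  /-- polynomial envelope -/
  y : ℕ → ℝ
  /-- contraction factor of the forbidden monomials -/
  κ : ℕ → ℝ
  /-- ratio bound -/
  ρ : ℝ
  fixF : ∀ k, Fix0 (F k)
  degF : ∀ k, pdeg (F k) ≤ d
  fixA : ∀ k, Fix0 (A k)
  fixAi : ∀ k, Fix0 (Ai k)
  degA : ∀ k, pdeg (A k) ≤ d
  degAi : ∀ k, pdeg (Ai k) ≤ d
  linA : ∀ k, plin (A k) = 1
  linAi : ∀ k, plin (Ai k) = 1
  AiA : ∀ k, JEq d (comp (Ai k) (A k)) pid
  vol : ∀ k, ptr (d - 1) (jdet (comp (A (k + 1)) (comp (F k) (Ai k)))) = C (plin (F k)).det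
  Lami_Lam : ∀ k, Lami k * Lam k = 1
  Lam_one : ∀ k, ¬ reg k → Lam k = 1 ∧ Lami k = 1
  J_Lame : ∀ k, reg k → J k * Lame k = Lam (k + 1)
  J_Ji : ∀ k, J k * Ji k = 1
  diag : ∀ k, reg k → Lame k * plin (F k) * Lami k = Matrix.diagonal (D k)
  pat : ∀ k, reg k → reg (k + 1) → ∀ i l, w (k + 1) i < w k l → J k i l = 0
  Finv_F : ∀ k, Finv k * plin (F k) = 1
  hw : ∀ k, reg k → ∀ i, 0 < w k i
  D_ne : ∀ k, reg k → ∀ i, D k i ≠ 0
  D_le : ∀ k, reg k → ∀ i, ‖D k i‖ ≤ 1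
  Dinv_le : ∀ k, reg k → ∀ i, ‖(D k i)⁻¹‖ ≤ x k
  gap : ∀ k, reg k → ∀ i β, 2 ≤ β.degree → β.degree ≤ d → ¬ Allowed (w k) i β →
    ‖(D k i)⁻¹‖ * ∏ l, ‖D k l‖ ^ β l ≤ κ k
  hκ : ∀ k, 0 ≤ κ k
  hρ : 1 ≤ ρ
  hΔ : ∀ k, 0 ≤ Δ k
  hy : ∀ k, 2 ≤ y k
  hyn : ∀ k, (n : ℝ) ≤ y k
  x_mono : ∀ k, reg k → reg (k + 1) → x k ≤ x (k + 1)
  x_ratio : ∀ k, reg k → reg (k + 1) → x (k + 1) ≤ ρ * x k
  x_next : ∀ k, x (k + 1) ≤ x k ^ 2
  bF : ∀ k, nrm (F k) ≤ y k
  bA : ∀ k, nrm (A k) ≤ y k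
  bAi : ∀ k, nrm (Ai k) ≤ y k
  bA' : ∀ k, nrm (A (k + 1)) ≤ y k
  bLam : ∀ k, mnorm (Lam k) ≤ y k
  bLami : ∀ k, mnorm (Lami k) ≤ y k
  bLam' : ∀ k, mnorm (Lam (k + 1)) ≤ y k
  bLami' : ∀ k, mnorm (Lami (k + 1)) ≤ y k
  bLame : ∀ k, mnorm (Lame k) ≤ y k
  bJ : ∀ k, mnorm (J k) ≤ y k
  bJi : ∀ k, mnorm (Ji k) ≤ y k
  bFinv : ∀ k, mnorm (Finv k) ≤ y k * Real.exp (Δ k / 2)


variable {n d : ℕ}

/-! ### small lemmas on triangular maps and supports -/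

theorem SuppIn.fix0 {S : Fin n → (Fin n →₀ ℕ) → Prop} {γ : PMap n} (h : SuppIn d S γ) : Fix0 γ := by
  intro i
  by_contra hc
  have := (h i 0 hc).1
  simp at this

theorem SuppIn.pdeg_le {S : Fin n → (Fin n →₀ ℕ) → Prop} {γ : PMap n} (h : SuppIn d S γ) :
    pdeg γ ≤ d := by
  rw [pdeg_le_iff]
  intro i
  rw [totalDegree, Finset.sup_le_iff]
  intro m hm
  exact (h i m (mem_support_iff.mp hm)).2.1

theorem fix0_triMap {D : Fin n → ℂ} {γ : PMap n} (hγ : Fix0 γ) : Fix0 (triMap D γ) := by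
  intro i
  simp only [triMap, coeff_add, coeff_C_mul, coeff_zero_X, mul_zero, zero_add]
  exact hγ i

theorem pdeg_triMap_le {D : Fin n → ℂ} {γ : PMap n} (hγ : pdeg γ ≤ d) (hd : 1 ≤ d) :
    pdeg (triMap D γ) ≤ d := by
  rw [pdeg_le_iff] at hγ ⊢
  intro i
  refine (totalDegree_add _ _).trans (max_le ?_ (hγ i))
  refine (totalDegree_mul _ _).trans ?_
  simpa using hd

theorem nrm_triMap_le (D : Fin n → ℂ) (γ : PMap n) : nrm (triMap D γ) ≤ ∑ i, ‖D i‖ + nrm γ := by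
  rw [nrm, nrm, ← Finset.sum_add_distrib]
  refine Finset.sum_le_sum fun i _ => ?_
  refine (n1_add_le _ _).trans ?_
  rw [n1_C_mul, n1_X, mul_one]

namespace AsmData

variable (X : AsmData n d)

/-- the transition of a regular step in the primary coordinates. -/
noncomputable def Fh (k : ℕ) : PMap n :=
  ptrunc d (comp (ofMat (X.Lame k)) (comp (X.A (k + 1)) (comp (X.F k) (comp (X.Ai k) (ofMat (X.Lami k))))))

theorem y_one (k : ℕ) : 1 ≤ X.y k := by linarith [X.hy k]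

theorem Ji_J (k : ℕ) : X.Ji k * X.J k = 1 := mul_eq_one_comm.mp (X.J_Ji k)

theorem Lam_Lami (k : ℕ) : X.Lam k * X.Lami k = 1 := mul_eq_one_comm.mp (X.Lami_Lam k)

theorem F_Finv (k : ℕ) : plin (X.F k) * X.Finv k = 1 := mul_eq_one_comm.mp (X.Finv_F k)

theorem fix0_Fh (k : ℕ) : Fix0 (X.Fh k) :=
  ((fix0_ofMat _).comp ((X.fixA _).comp ((X.fixF k).comp ((X.fixAi k).comp (fix0_ofMat _))))).ptrunc d

theorem plin_Fh (hd : 1 ≤ d) (k : ℕ) : plin (X.Fh k) = X.Lame k * plin (X.F k) * X.Lami k := by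
  rw [Fh, plin_ptrunc hd,
    plin_comp _ ((X.fixA _).comp ((X.fixF k).comp ((X.fixAi k).comp (fix0_ofMat _)))),
    plin_comp _ ((X.fixF k).comp ((X.fixAi k).comp (fix0_ofMat _))),
    plin_comp _ ((X.fixAi k).comp (fix0_ofMat _)), plin_comp _ (fix0_ofMat _),
    plin_ofMat, plin_ofMat, X.linA, X.linAi, Matrix.one_mul, Matrix.one_mul, Matrix.mul_assoc]

theorem vol_Fh (hd : 1 ≤ d) {k : ℕ} (hk : X.reg k) :
    ptr (d - 1) (jdet (X.Fh k)) = C (∏ i, X.D k i) := by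
  have h1 := vol_regular hd (Le := X.Lame k) (Li := X.Lami k) (X.vol k)
  have h2 : X.Fh k = ptrunc d (comp (ofMat (X.Lame k))
      (comp (comp (X.A (k + 1)) (comp (X.F k) (X.Ai k))) (ofMat (X.Lami k)))) := by
    simp only [Fh, comp_assoc]
  rw [h2, h1, ← Matrix.det_mul, ← Matrix.det_mul, X.diag k hk, Matrix.det_diagonal]

/-- exponent of the bound of `Fh` in terms of `y`. -/
def e1 (d : ℕ) : ℕ := 1 + (1 + (1 + (1 + 1 * d) * d) * d) * 1

theorem nrm_Fh_le (k : ℕ) : nrm (X.Fh k) ≤ X.y k ^ e1 d := by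
  have hy := X.y_one k
  refine (nrm_ptrunc_le _ _).trans ?_
  have h1 : nrm (comp (X.Ai k) (ofMat (X.Lami k))) ≤ X.y k ^ (1 + 1 * d) :=
    nrm_comp_le_pow hy (by rw [pow_one]; exact X.bAi k) (nrm_ofMat_le_pow (X.bLami k)) (X.degAi k)
  have h2 : nrm (comp (X.F k) (comp (X.Ai k) (ofMat (X.Lami k)))) ≤ X.y k ^ (1 + (1 + 1 * d) * d) :=
    nrm_comp_le_pow hy (by rw [pow_one]; exact X.bF k) h1 (X.degF k)
  have h3 : nrm (comp (X.A (k + 1)) (comp (X.F k) (comp (X.Ai k) (ofMat (X.Lami k)))))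
      ≤ X.y k ^ (1 + (1 + (1 + 1 * d) * d) * d) :=
    nrm_comp_le_pow hy (by rw [pow_one]; exact X.bA' k) h2 (X.degA (k + 1))
  exact nrm_comp_le_pow hy (nrm_ofMat_le_pow (X.bLame k)) h3 (pdeg_ofMat_le _)

/-- the homological data. -/
noncomputable def toHomData (hd : 1 ≤ d) (hx : ∀ k, X.y k ^ e1 d ≤ X.x k) : HomData n d where
  reg := X.reg
  Fh := X.Fh
  D := X.D
  J := X.J
  Ji := X.Ji
  w := X.w
  x := X.x
  y := X.y
  κ := X.κ
  ρ := X.ρ
  hρ := X.hρ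
  hκ := fun k _ => X.hκ k
  hw := X.hw
  fix0 := fun k _ => X.fix0_Fh k
  deg := fun k _ => pdeg_ptrunc_le d _
  lin := fun k hk => by rw [X.plin_Fh hd k, X.diag k hk]
  vol := fun k hk => X.vol_Fh hd hk
  D_ne := X.D_ne
  D_le := X.D_le
  Dinv_le := X.Dinv_le
  JJi := X.J_Ji
  JiJ := X.Ji_J
  J_le := fun k _ => X.bJ k
  Ji_le := fun k _ => X.bJi k
  hy := fun k _ => X.hy k
  Fh_le := fun k _ => (X.nrm_Fh_le k).trans (hx k)
  x_mono := X.x_mono
  x_ratio := X.x_ratio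
  gap := X.gap

end AsmData


/-- the conclusion of `tri_inverse`. -/
def TriProp (n d Dt ct : ℕ) : Prop := ∀ (w : Fin n → ℝ) (D : Fin n → ℂ) (γ : PMap n),
    (∀ i, D i ≠ 0) → TriSupp w γ → Fix0 γ → pdeg γ ≤ d →
    ∃ gi : PMap n, Fix0 gi ∧ comp (triMap D γ) gi = pid ∧ comp gi (triMap D γ) = pid ∧
      pdeg gi ≤ Dt ∧ nrm gi ≤ (2 + nrm γ + ∑ i, ‖(D i)⁻¹‖) ^ ct

/-- the conclusion of `shear_main`. -/
def ShearProp (n d Ds cs : ℕ) : Prop := ∀ (P : PMap n) (B : Mat n), Fix0 P →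
    pdeg P ≤ d → B * plin P = 1 → ptr (d - 1) (jdet P) = C (plin P).det →
    ∃ G Gi : PMap n, Fix0 G ∧ Fix0 Gi ∧ comp G Gi = pid ∧ comp Gi G = pid ∧
      ptrunc d G = P ∧ pdeg G ≤ Ds ∧ pdeg Gi ≤ Ds ∧ nrm G + nrm Gi ≤ (2 + nrm P + mnorm B) ^ cs

namespace AsmData

variable (X : AsmData n d)

/-- the total coordinate change at the grid point `k`. -/
noncomputable def Hmap (h : ℕ → PMap n) (k : ℕ) : PMap n :=
  ptrunc d (comp (h k) (comp (ofMat (X.Lam k)) (X.A k)))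

theorem fix0_Hmap {h : ℕ → PMap n} {k : ℕ} (hh : Fix0 (h k)) : Fix0 (X.Hmap h k) :=
  (hh.comp ((fix0_ofMat _).comp (X.fixA k))).ptrunc d

theorem plin_Hmap (hd : 1 ≤ d) {h : ℕ → PMap n} {k : ℕ} (hl : plin (h k) = 1) :
    plin (X.Hmap h k) = X.Lam k := by
  rw [Hmap, plin_ptrunc hd, plin_comp _ ((fix0_ofMat _).comp (X.fixA k)), plin_comp _ (X.fixA k),
    plin_ofMat, X.linA, hl, Matrix.one_mul, Matrix.mul_one]

theorem nrm_Hmap_le {h : ℕ → PMap n} {k a : ℕ} (hyx : X.y k ≤ X.x k) (hdeg : pdeg (h k) ≤ d)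
    (hn : nrm (h k) ≤ X.x k ^ a) : nrm (X.Hmap h k) ≤ X.x k ^ (a + (1 + 1 * 1) * d) := by
  have hx : 1 ≤ X.x k := (X.y_one k).trans hyx
  refine (nrm_ptrunc_le _ _).trans ?_
  have h1 : nrm (comp (ofMat (X.Lam k)) (X.A k)) ≤ X.x k ^ (1 + 1 * 1) :=
    nrm_comp_le_pow hx (nrm_ofMat_le_pow ((X.bLam k).trans hyx))
      (by rw [pow_one]; exact (X.bA k).trans hyx) (pdeg_ofMat_le _)
  exact nrm_comp_le_pow hx hn h1 hdeg

/-- the linear part of the inverse model. -/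
theorem mnorm_plin_Gi_le (hd : 1 ≤ d) {h : ℕ → PMap n} {k : ℕ} (hh : Fix0 (h k))
    (hl : plin (h k) = 1) (hl' : plin (h (k + 1)) = 1) {G Gi : PMap n} (hG : Fix0 G)
    (hconj : JEq d (comp (X.Hmap h (k + 1)) (X.F k)) (comp G (X.Hmap h k)))
    (hGiG : comp Gi G = pid) :
    mnorm (plin Gi) ≤ X.y k ^ 3 * Real.exp (X.Δ k / 2) := by
  have h1 : X.Lam (k + 1) * plin (X.F k) = plin G * X.Lam k := by
    have := hconj.plin hd
    rwa [plin_comp _ (X.fixF k), plin_comp _ (X.fix0_Hmap hh), X.plin_Hmap hd hl,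
      X.plin_Hmap hd hl'] at this
  have h2 : plin Gi * plin G = 1 := by
    rw [← plin_comp _ hG, hGiG, plin_pid]
  have h3 : plin Gi = X.Lam k * X.Finv k * X.Lami (k + 1) := by
    calc plin Gi = plin Gi * ((X.Lam (k + 1) * plin (X.F k)) * (X.Finv k * X.Lami (k + 1))) := by
          rw [Matrix.mul_assoc (X.Lam (k + 1)), ← Matrix.mul_assoc (plin (X.F k)), X.F_Finv,
            Matrix.one_mul, X.Lam_Lami, Matrix.mul_one]
      _ = (plin Gi * plin G) * X.Lam k * (X.Finv k * X.Lami (k + 1)) := by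
          rw [h1]; simp only [Matrix.mul_assoc]
      _ = X.Lam k * X.Finv k * X.Lami (k + 1) := by
          rw [h2, Matrix.one_mul, Matrix.mul_assoc]
  rw [h3]
  have hy0 : 0 ≤ X.y k := by linarith [X.hy k]
  calc mnorm (X.Lam k * X.Finv k * X.Lami (k + 1))
      ≤ mnorm (X.Lam k) * mnorm (X.Finv k) * mnorm (X.Lami (k + 1)) :=
        (mnorm_mul_le _ _).trans (mul_le_mul_of_nonneg_right (mnorm_mul_le _ _) (mnorm_nonneg _))
    _ ≤ X.y k * (X.y k * Real.exp (X.Δ k / 2)) * X.y k := by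
        apply mul_le_mul (mul_le_mul (X.bLam k) (X.bFinv k) (mnorm_nonneg _) hy0) (X.bLami' k)
          (mnorm_nonneg _)
        positivity
    _ = X.y k ^ 3 * Real.exp (X.Δ k / 2) := by ring

/-- the model of a regular step. -/
theorem step_regular (hd : 2 ≤ d) {Dt ct : ℕ} (htri : TriProp n d Dt ct) {ah : ℕ} {k : ℕ}
    (hk : X.reg k) (h : ℕ → PMap n) (γ : PMap n) (hyx : X.y k ≤ X.x k)
    (hγ : SuppIn d (Allowed (X.w k)) γ) (hγn : nrm γ ≤ X.x k ^ ah)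
    (hrel : JEq d (comp (triMap (X.D k) γ) (h k))
      (comp (ofMat (X.Ji k)) (comp (h (k + 1)) (comp (ofMat (X.J k)) (X.Fh k))))) :
    ∃ G Gi : PMap n, Fix0 G ∧ Fix0 Gi ∧
      JEq d (comp (X.Hmap h (k + 1)) (X.F k)) (comp G (X.Hmap h k)) ∧
      comp G Gi = pid ∧ comp Gi G = pid ∧ pdeg G ≤ d ∧ pdeg Gi ≤ Dt ∧
      nrm G + nrm Gi ≤ X.x k ^ ((1 + (ah + 2 + 1) * 1) + ((ah + 2 + 2) * ct + 1 * Dt) + 1) ∧
      (X.reg (k + 1) → ∀ P : PMap n, (∀ i, ((P i).totalDegree : ℝ) ≤ X.w k i) →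
        ∀ i, ((comp G P i).totalDegree : ℝ) ≤ X.w (k + 1) i) ∧
      (∀ (P : PMap n) (B : ℝ), (∀ i, ((P i).totalDegree : ℝ) ≤ X.w k i) →
        (∀ i, X.w k i ≤ B) → ∀ i, ((comp G P i).totalDegree : ℝ) ≤ B) := by
  have hx2 : 2 ≤ X.x k := (X.hy k).trans hyx
  have hx1 : 1 ≤ X.x k := by linarith
  have hγ0 : Fix0 γ := hγ.fix0
  have hγd : pdeg γ ≤ d := hγ.pdeg_le
  have hts : TriSupp (X.w k) γ :=
    triSupp_of_allowed _ (X.hw k hk) γ fun i m hm => ⟨(hγ i m hm).1, (hγ i m hm).2.2⟩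
  obtain ⟨gi, hgi0, hggi, hgig, hgid, hgin⟩ := htri (X.w k) (X.D k) γ (X.D_ne k hk) hts hγ0 hγd
  have hg0 : Fix0 (triMap (X.D k) γ) := fix0_triMap hγ0
  refine ⟨comp (ofMat (X.J k)) (triMap (X.D k) γ), comp gi (ofMat (X.Ji k)),
    (fix0_ofMat _).comp hg0, hgi0.comp (fix0_ofMat _), ?_, ?_, ?_, ?_, ?_, ?_, ?_, ?_⟩
  · exact conj_regular (X.fixF k) (X.fixA k) (X.AiA k) (X.Lami_Lam k) (X.J_Lame k hk) (X.J_Ji k) rfl
      hrel
  · rw [comp_assoc, ← comp_assoc (triMap (X.D k) γ), hggi, pid_comp, ofMat_mul, X.J_Ji, ofMat_one]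
  · rw [comp_assoc, ofMat_comp_cancel (X.Ji_J k), hgig]
  · exact (pdeg_ofMat_comp_le _ _).trans (pdeg_triMap_le hγd (by omega))
  · refine (pdeg_comp_le _ _).trans ?_
    calc pdeg gi * pdeg (ofMat (X.Ji k)) ≤ Dt * 1 := Nat.mul_le_mul hgid (pdeg_ofMat_le _)
      _ = Dt := mul_one _
  · -- norms
    have hnx : (n : ℝ) ≤ X.x k := (X.hyn k).trans hyx
    have hsumD : ∑ i, ‖X.D k i‖ ≤ X.x k ^ (ah + 2) := by
      calc ∑ i, ‖X.D k i‖ ≤ ∑ _i : Fin n, (1 : ℝ) := Finset.sum_le_sum fun i _ => X.D_le k hk i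
        _ = n := by simp
        _ ≤ X.x k ^ 1 := by rw [pow_one]; exact hnx
        _ ≤ X.x k ^ (ah + 2) := pow_le_pow_right₀ hx1 (by omega)
    have hγn' : nrm γ ≤ X.x k ^ (ah + 2) := le_pow_of_le_pow hx1 hγn (by omega)
    have hg : nrm (triMap (X.D k) γ) ≤ X.x k ^ (ah + 2 + 1) :=
      (nrm_triMap_le _ _).trans (add_le_pow_succ hx2 hsumD hγn')
    have hG : nrm (comp (ofMat (X.J k)) (triMap (X.D k) γ)) ≤ X.x k ^ (1 + (ah + 2 + 1) * 1) :=
      nrm_comp_le_pow hx1 (nrm_ofMat_le_pow ((X.bJ k).trans hyx)) hg (pdeg_ofMat_le _)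
    have hsumDi : ∑ i, ‖(X.D k i)⁻¹‖ ≤ X.x k ^ (ah + 2 + 1) := by
      calc ∑ i, ‖(X.D k i)⁻¹‖ ≤ ∑ _i : Fin n, X.x k := Finset.sum_le_sum fun i _ => X.Dinv_le k hk i
        _ = n * X.x k := by simp
        _ ≤ X.x k * X.x k := mul_le_mul_of_nonneg_right hnx (by linarith)
        _ = X.x k ^ 2 := by ring
        _ ≤ X.x k ^ (ah + 2 + 1) := pow_le_pow_right₀ hx1 (by omega)
    have h2 : (2 : ℝ) ≤ X.x k ^ (ah + 2) := by
      calc (2 : ℝ) ≤ X.x k ^ 1 := by rw [pow_one]; exact hx2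
        _ ≤ X.x k ^ (ah + 2) := pow_le_pow_right₀ hx1 (by omega)
    have hbase : 2 + nrm γ + ∑ i, ‖(X.D k i)⁻¹‖ ≤ X.x k ^ (ah + 2 + 2) :=
      add_le_pow_succ hx2 (add_le_pow_succ hx2 h2 hγn') hsumDi
    have hgi : nrm gi ≤ X.x k ^ ((ah + 2 + 2) * ct) := by
      refine hgin.trans ?_
      rw [pow_mul]
      refine pow_le_pow_left₀ ?_ hbase _
      have := nrm_nonneg γ
      have : 0 ≤ ∑ i, ‖(X.D k i)⁻¹‖ := Finset.sum_nonneg fun _ _ => norm_nonneg _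
      positivity
    have hGi : nrm (comp gi (ofMat (X.Ji k))) ≤ X.x k ^ ((ah + 2 + 2) * ct + 1 * Dt) :=
      nrm_comp_le_pow hx1 hgi (nrm_ofMat_le_pow ((X.bJi k).trans hyx)) hgid
    exact add_le_pow_succ hx2 (le_pow_of_le_pow hx1 hG (Nat.le_add_right _ _))
      (le_pow_of_le_pow hx1 hGi (Nat.le_add_left _ _))
  · intro hk' P hP i
    rw [comp_assoc]
    exact deg_step_lin (X.w k) (X.w (k + 1)) (fun i => (X.hw (k + 1) hk' i).le) (X.J k)
      (X.pat k hk hk') _ (deg_step_tri (X.w k) (fun i => (X.hw k hk i).le) (X.D k) γ hγ P hP) i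
  · intro P B hP hB i
    rw [comp_assoc]
    exact deg_step_lin (X.w k) (fun _ => B) (fun _ => (X.hw k hk i).le.trans (hB i)) (X.J k)
      (fun i l hl => absurd (hB l) (not_le.mpr hl)) _
      (deg_step_tri (X.w k) (fun i => (X.hw k hk i).le) (X.D k) γ hγ P hP) i

end AsmData


namespace AsmData

variable (X : AsmData n d)

/-- the model of a step which is not regular. -/
theorem step_bad (hd : 2 ≤ d) {Ds cs : ℕ} (hsh : ShearProp n d Ds cs) {a' : ℕ} {k : ℕ}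
    (hk : ¬ X.reg k) (h : ℕ → PMap n) (hyx : X.y k ≤ X.x k) (hhk : h k = pid)
    (hh' : Fix0 (h (k + 1))) (hl' : plin (h (k + 1)) = 1) (hdeg' : pdeg (h (k + 1)) ≤ d)
    (hvol' : ptr (d - 1) (jdet (h (k + 1))) = 1) (hn' : nrm (h (k + 1)) ≤ X.x k ^ a') :
    ∃ G Gi : PMap n, Fix0 G ∧ Fix0 Gi ∧
      JEq d (comp (X.Hmap h (k + 1)) (X.F k)) (comp G (X.Hmap h k)) ∧
      comp G Gi = pid ∧ comp Gi G = pid ∧ pdeg G ≤ Ds ∧ pdeg Gi ≤ Ds ∧
      nrm G + nrm Gi ≤ X.x k ^ ((a' + (1 + (1 + (1 + 1 * d) * d) * 1) * d + 2) * cs)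
        * Real.exp (cs * (X.Δ k / 2)) := by
  have hx2 : 2 ≤ X.x k := (X.hy k).trans hyx
  have hx1 : 1 ≤ X.x k := by linarith
  have hx0 : 0 ≤ X.x k := by linarith
  have hd1 : 1 ≤ d := by omega
  set Y : PMap n := comp (X.A (k + 1)) (comp (X.F k) (X.Ai k)) with hY
  have hY0 : Fix0 Y := (X.fixA _).comp ((X.fixF k).comp (X.fixAi k))
  set R : PMap n := ptrunc d (comp (h (k + 1)) (comp (ofMat (X.Lam (k + 1))) Y)) with hR
  have hZ0 : Fix0 (comp (ofMat (X.Lam (k + 1))) Y) := (fix0_ofMat _).comp hY0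
  have hR0 : Fix0 R := (hh'.comp hZ0).ptrunc d
  have hRlin : plin R = X.Lam (k + 1) * plin (X.F k) := by
    rw [hR, plin_ptrunc hd1, plin_comp _ hZ0, plin_comp _ hY0, hY,
      plin_comp _ ((X.fixF k).comp (X.fixAi k)), plin_comp _ (X.fixAi k), plin_ofMat, hl', X.linA,
      X.linAi, Matrix.one_mul, Matrix.one_mul, Matrix.mul_one]
  have hB : (X.Finv k * X.Lami (k + 1)) * plin R = 1 := by
    rw [hRlin, Matrix.mul_assoc, ← Matrix.mul_assoc (X.Lami (k + 1)), X.Lami_Lam, Matrix.one_mul,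
      X.Finv_F]
  have hRvol : ptr (d - 1) (jdet R) = C (plin R).det := by
    rw [hRlin, Matrix.det_mul]
    exact vol_bad hd1 hY0 (X.vol k) hvol'
  obtain ⟨G, Gi, hG0, hGi0, hGGi, hGiG, hGR, hGd, hGid, hGn⟩ :=
    hsh R (X.Finv k * X.Lami (k + 1)) hR0 (pdeg_ptrunc_le d _) hB hRvol
  refine ⟨G, Gi, hG0, hGi0, ?_, hGGi, hGiG, hGd, hGid, ?_⟩
  · have h1 : X.Hmap h k = ptrunc d (comp pid (comp (ofMat 1) (X.A k))) := by
      rw [Hmap, hhk, (X.Lam_one k hk).1]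
    rw [h1]
    exact conj_bad (X.fixF k) (X.fixA k) (X.AiA k) hGR
  · refine hGn.trans ?_
    set E : ℕ := a' + (1 + (1 + (1 + 1 * d) * d) * 1) * d with hE
    have hE2 : 2 ≤ E := by
      have : 1 * 2 ≤ (1 + (1 + (1 + 1 * d) * d) * 1) * d :=
        Nat.mul_le_mul (Nat.le_add_right _ _) hd
      omega
    have h1 : nrm (comp (X.F k) (X.Ai k)) ≤ X.x k ^ (1 + 1 * d) :=
      nrm_comp_le_pow hx1 (by rw [pow_one]; exact (X.bF k).trans hyx)
        (by rw [pow_one]; exact (X.bAi k).trans hyx) (X.degF k)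
    have h2 : nrm Y ≤ X.x k ^ (1 + (1 + 1 * d) * d) :=
      nrm_comp_le_pow hx1 (by rw [pow_one]; exact (X.bA' k).trans hyx) h1 (X.degA (k + 1))
    have h3 : nrm (comp (ofMat (X.Lam (k + 1))) Y) ≤ X.x k ^ (1 + (1 + (1 + 1 * d) * d) * 1) :=
      nrm_comp_le_pow hx1 (nrm_ofMat_le_pow ((X.bLam' k).trans hyx)) h2 (pdeg_ofMat_le _)
    have h4 : nrm R ≤ X.x k ^ E :=
      (nrm_ptrunc_le _ _).trans (nrm_comp_le_pow hx1 hn' h3 hdeg')
    set Z : ℝ := Real.exp (X.Δ k / 2) with hZ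
    have hZ1 : 1 ≤ Z := Real.one_le_exp (by have := X.hΔ k; positivity)
    have hy0 : 0 ≤ X.y k := by linarith [X.hy k]
    have hxE : 0 ≤ X.x k ^ E := by positivity
    have h5 : mnorm (X.Finv k * X.Lami (k + 1)) ≤ X.x k ^ E * Z := by
      calc mnorm (X.Finv k * X.Lami (k + 1)) ≤ mnorm (X.Finv k) * mnorm (X.Lami (k + 1)) :=
            mnorm_mul_le _ _
        _ ≤ (X.y k * Z) * X.y k :=
            mul_le_mul (X.bFinv k) (X.bLami' k) (mnorm_nonneg _) (by positivity)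
        _ = X.y k ^ 2 * Z := by ring
        _ ≤ X.x k ^ 2 * Z :=
            mul_le_mul_of_nonneg_right (pow_le_pow_left₀ hy0 hyx 2) (by positivity)
        _ ≤ X.x k ^ E * Z :=
            mul_le_mul_of_nonneg_right (pow_le_pow_right₀ hx1 hE2) (by positivity)
    have h6 : (2 : ℝ) ≤ X.x k ^ E * Z := by
      calc (2 : ℝ) ≤ X.x k ^ 1 := by rw [pow_one]; exact hx2
        _ ≤ X.x k ^ E := pow_le_pow_right₀ hx1 (by omega)
        _ ≤ X.x k ^ E * Z := le_mul_of_one_le_right hxE hZ1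
    have h7 : nrm R ≤ X.x k ^ E * Z := h4.trans (le_mul_of_one_le_right hxE hZ1)
    have h8 : 2 + nrm R + mnorm (X.Finv k * X.Lami (k + 1)) ≤ X.x k ^ (E + 2) * Z := by
      have h9 : 0 ≤ X.x k ^ E * Z := by positivity
      calc 2 + nrm R + mnorm (X.Finv k * X.Lami (k + 1)) ≤ 4 * (X.x k ^ E * Z) := by linarith
        _ ≤ X.x k ^ 2 * (X.x k ^ E * Z) := by
            apply mul_le_mul_of_nonneg_right _ h9
            nlinarith
        _ = X.x k ^ (E + 2) * Z := by ring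
    calc (2 + nrm R + mnorm (X.Finv k * X.Lami (k + 1))) ^ cs ≤ (X.x k ^ (E + 2) * Z) ^ cs := by
          apply pow_le_pow_left₀ _ h8
          have := nrm_nonneg R
          have := mnorm_nonneg (X.Finv k * X.Lami (k + 1))
          positivity
      _ = X.x k ^ ((E + 2) * cs) * Real.exp (cs * (X.Δ k / 2)) := by
          rw [mul_pow, ← pow_mul, hZ, ← Real.exp_nat_mul]

end AsmData

/-- **ASM (main)**: the abstract assembly.  `cs` is the exponent of Lemma 9.2: it only depends on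
`n, d`. -/
theorem asm_main (n d : ℕ) (hd : 2 ≤ d) : ∃ cs c Dd : ℕ, ∀ X : AsmData n d,
    (∀ k, (X.y k * X.ρ) ^ c ≤ X.x k) → (∀ k, X.reg k → X.κ k * (X.y k * X.ρ) ^ c ≤ 1) →
    ∃ H G Gi : ℕ → PMap n, ∀ k,
      Fix0 (H k) ∧ Fix0 (G k) ∧ Fix0 (Gi k) ∧
      ptrunc d (comp (H (k + 1)) (X.F k)) = ptrunc d (comp (G k) (H k)) ∧
      comp (G k) (Gi k) = pid ∧ comp (Gi k) (G k) = pid ∧
      pdeg (H k) ≤ d ∧ pdeg (G k) ≤ Dd ∧ pdeg (Gi k) ≤ Dd ∧
      plin (H k) = X.Lam k ∧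
      nrm (H k) ≤ X.x k ^ c ∧
      nrm (G k) + nrm (Gi k) ≤ X.x k ^ c * Real.exp (cs * (X.Δ k / 2)) ∧
      mnorm (plin (Gi k)) ≤ X.y k ^ 3 * Real.exp (X.Δ k / 2) ∧
      (X.reg k → X.reg (k + 1) → ∀ P : PMap n, (∀ i, ((P i).totalDegree : ℝ) ≤ X.w k i) →
        ∀ i, ((comp (G k) P i).totalDegree : ℝ) ≤ X.w (k + 1) i) ∧
      (X.reg k → ∀ (P : PMap n) (B : ℝ), (∀ i, ((P i).totalDegree : ℝ) ≤ X.w k i) →
        (∀ i, X.w k i ≤ B) → ∀ i, ((comp (G k) P i).totalDegree : ℝ) ≤ B) := by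
  obtain ⟨ah, hhom⟩ := hom_main n d hd
  obtain ⟨Dt, ct, htri⟩ := tri_inverse n d
  obtain ⟨Ds, cs, hsh⟩ := shear_main n d (by omega)
  have htri' : TriProp n d Dt ct := htri
  have hsh' : ShearProp n d Ds cs := hsh
  obtain ⟨eH, heH⟩ : ∃ e, e = (ah + 1) + (1 + 1 * 1) * d := ⟨_, rfl⟩
  obtain ⟨eReg, heReg⟩ : ∃ e, e = (1 + (ah + 2 + 1) * 1) + ((ah + 2 + 2) * ct + 1 * Dt) + 1 :=
    ⟨_, rfl⟩
  obtain ⟨eBad, heBad⟩ :
    ∃ e, e = ((2 * ah + 1) + (1 + (1 + (1 + 1 * d) * d) * 1) * d + 2) * cs := ⟨_, rfl⟩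
  obtain ⟨c, hc⟩ : ∃ c, c = AsmData.e1 d + ah + eH + eReg + eBad + 1 := ⟨_, rfl⟩
  refine ⟨cs, c, max d (max Dt Ds), fun X hsm1 hsm2 => ?_⟩
  have hd1 : 1 ≤ d := by omega
  have hyρ : ∀ k, X.y k ≤ X.y k * X.ρ := fun k =>
    le_mul_of_one_le_right (by linarith [X.hy k]) X.hρ
  have hyρ1 : ∀ k, 1 ≤ X.y k * X.ρ := fun k => (X.y_one k).trans (hyρ k)
  have hpow : ∀ k m, m ≤ c → (X.y k * X.ρ) ^ m ≤ X.x k := fun k m hm =>
    (pow_le_pow_right₀ (hyρ1 k) hm).trans (hsm1 k)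
  have hyx' : ∀ k m, m ≤ c → X.y k ^ m ≤ X.x k := fun k m hm =>
    (pow_le_pow_left₀ (by linarith [X.hy k]) (hyρ k) m).trans (hpow k m hm)
  have hyx : ∀ k, X.y k ≤ X.x k := fun k => by
    have := hyx' k 1 (by omega)
    rwa [pow_one] at this
  have hx2 : ∀ k, 2 ≤ X.x k := fun k => (X.hy k).trans (hyx k)
  have hx1 : ∀ k, 1 ≤ X.x k := fun k => by linarith [hx2 k]
  obtain ⟨h, γ, hh⟩ := hhom (X.toHomData hd1 (fun k => hyx' k _ (by omega))) (fun k hk =>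
    ⟨hpow k ah (by omega), by
      have h1 : X.κ k * (X.y k * X.ρ) ^ ah ≤ X.κ k * (X.y k * X.ρ) ^ c :=
        mul_le_mul_of_nonneg_left (pow_le_pow_right₀ (hyρ1 k) (by omega)) (X.hκ k)
      exact h1.trans (hsm2 k hk)⟩)
  have hnx : ∀ k, (n : ℝ) ≤ X.x k := fun k => (X.hyn k).trans (hyx k)
  -- bounds of the corrections
  have hhn : ∀ k, nrm (h k) ≤ X.x k ^ (ah + 1) := by
    intro k
    by_cases hk : X.reg k
    · exact le_pow_of_le_pow (hx1 k) ((hh k).2.2.2.2.2 hk).1 (by omega)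
    · rw [(hh k).2.2.2.2.1 hk, nrm_pid]
      calc (n : ℝ) ≤ X.x k ^ 1 := by rw [pow_one]; exact hnx k
        _ ≤ X.x k ^ (ah + 1) := pow_le_pow_right₀ (hx1 k) (by omega)
  have hhn' : ∀ k, nrm (h (k + 1)) ≤ X.x k ^ (2 * ah + 1) := by
    intro k
    by_cases hk : X.reg (k + 1)
    · calc nrm (h (k + 1)) ≤ X.x (k + 1) ^ ah := ((hh (k + 1)).2.2.2.2.2 hk).1
        _ ≤ (X.x k ^ 2) ^ ah := pow_le_pow_left₀ (by linarith [hx2 (k + 1)]) (X.x_next k) _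
        _ = X.x k ^ (2 * ah) := by rw [← pow_mul]
        _ ≤ X.x k ^ (2 * ah + 1) := pow_le_pow_right₀ (hx1 k) (by omega)
    · rw [(hh (k + 1)).2.2.2.2.1 hk, nrm_pid]
      calc (n : ℝ) ≤ X.x k ^ 1 := by rw [pow_one]; exact hnx k
        _ ≤ X.x k ^ (2 * ah + 1) := pow_le_pow_right₀ (hx1 k) (by omega)
  have hstep : ∀ k, ∃ G Gi : PMap n, Fix0 G ∧ Fix0 Gi ∧
      JEq d (comp (X.Hmap h (k + 1)) (X.F k)) (comp G (X.Hmap h k)) ∧
      comp G Gi = pid ∧ comp Gi G = pid ∧ pdeg G ≤ max d (max Dt Ds) ∧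
      pdeg Gi ≤ max d (max Dt Ds) ∧
      nrm G + nrm Gi ≤ X.x k ^ c * Real.exp (cs * (X.Δ k / 2)) ∧
      (X.reg k → X.reg (k + 1) → ∀ P : PMap n, (∀ i, ((P i).totalDegree : ℝ) ≤ X.w k i) →
        ∀ i, ((comp G P i).totalDegree : ℝ) ≤ X.w (k + 1) i) ∧
      (X.reg k → ∀ (P : PMap n) (B : ℝ), (∀ i, ((P i).totalDegree : ℝ) ≤ X.w k i) →
        (∀ i, X.w k i ≤ B) → ∀ i, ((comp G P i).totalDegree : ℝ) ≤ B) := by
    intro k
    have hexp1 : 1 ≤ Real.exp (cs * (X.Δ k / 2)) :=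
      Real.one_le_exp (by have := X.hΔ k; positivity)
    by_cases hk : X.reg k
    · obtain ⟨-, hγn, hγs, hrel⟩ := (hh k).2.2.2.2.2 hk
      obtain ⟨G, Gi, g1, g2, g3, g4, g5, g6, g7, g8, g9, g10⟩ :=
        X.step_regular hd htri' hk h (γ k) (hyx k) hγs hγn hrel
      refine ⟨G, Gi, g1, g2, g3, g4, g5, g6.trans (le_max_left _ _),
        g7.trans ((le_max_left _ _).trans (le_max_right _ _)), ?_, fun _ => g9, fun _ => g10⟩
      rw [← heReg] at g8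
      calc nrm G + nrm Gi ≤ X.x k ^ eReg := g8
        _ ≤ X.x k ^ c := pow_le_pow_right₀ (hx1 k) (by omega)
        _ ≤ X.x k ^ c * Real.exp (cs * (X.Δ k / 2)) :=
            le_mul_of_one_le_right (by have := hx1 k; positivity) hexp1
    · obtain ⟨G, Gi, g1, g2, g3, g4, g5, g6, g7, g8⟩ :=
        X.step_bad hd hsh' hk h (hyx k) ((hh k).2.2.2.2.1 hk) (hh (k + 1)).1 (hh (k + 1)).2.1
          (hh (k + 1)).2.2.1 (hh (k + 1)).2.2.2.1 (hhn' k)
      refine ⟨G, Gi, g1, g2, g3, g4, g5, g6.trans ((le_max_right _ _).trans (le_max_right _ _)),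
        g7.trans ((le_max_right _ _).trans (le_max_right _ _)), ?_, fun h' => absurd h' hk,
        fun h' => absurd h' hk⟩
      rw [← heBad] at g8
      refine g8.trans (mul_le_mul_of_nonneg_right (pow_le_pow_right₀ (hx1 k) (by omega))
        (Real.exp_pos _).le)
  choose G Gi hG using hstep
  refine ⟨X.Hmap h, G, Gi, fun k => ?_⟩
  obtain ⟨g1, g2, g3, g4, g5, g6, g7, g8, g9, g10⟩ := hG k
  refine ⟨X.fix0_Hmap (hh k).1, g1, g2, g3, g4, g5, pdeg_ptrunc_le d _, g6, g7,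
    X.plin_Hmap hd1 (hh k).2.1, ?_, g8, ?_, g9, g10⟩
  · have := X.nrm_Hmap_le (hyx k) (hh k).2.2.1 (hhn k)
    rw [← heH] at this
    exact le_pow_of_le_pow (hx1 k) this (by omega)
  · exact X.mnorm_plin_Gi_le hd1 (hh k).1 (hh k).2.1 (hh (k + 1)).2.1 g1 g3 g5

end Claimed.Agent.R316.S9
end
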